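import Mathlib

/-!
# R135: one-dimensional Campanato lemma (block ARC)
-/

set_option autoImplicit false

open Set Filter Topology
open scoped NNReal

namespace Crest.Agent.R135.Arc

/-- Campanato-type condition on `[a,b]`: at every point and every scale `f` is affine up to
`C ρ^(1+γ)`. -/
def Camp (f : ℝ → ℝ) (a b C γ : ℝ) : Prop :=
  ∀ x ∈ Icc a b, ∀ ρ, 0 < ρ → ρ ≤ b - a → ∃ m : ℝ, ∀ h : ℝ, |h| ≤ ρ → x + h ∈ Icc a b →
    |f (x + h) - f x - m * h| ≤ C * ρ ^ (1 + γ)

theorem camp_point {f : ℝ → ℝ} {a b C γ : ℝ} (hab : a < b) (hC : 0 ≤ C) (hγ : 0 < γ)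
    (hf : Camp f a b C γ) {x : ℝ} (hx : x ∈ Icc a b) :
    ∃ m : ℝ, ∀ h : ℝ, x + h ∈ Icc a b →
      |f (x + h) - f x - m * h| ≤
        (C + 4 * C / (1 - (2:ℝ) ^ (-γ))) * 2 ^ (1 + γ) * |h| ^ (1 + γ) := by
  have hba : 0 < b - a := by linarith
  set q : ℝ := (2:ℝ) ^ (-γ) with hq
  have hq0 : 0 < q := by positivity
  have hq1 : q < 1 := by
    rw [hq]; exact Real.rpow_lt_one_of_one_lt_of_neg (by norm_num) (by linarith)
  set ρ : ℕ → ℝ := fun n => (b - a) * (1/2 : ℝ) ^ n with hρ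
  have hρ0 : ∀ n, 0 < ρ n := fun n => by positivity
  have hρle : ∀ n, ρ n ≤ b - a := fun n => by
    have : (1/2:ℝ) ^ n ≤ 1 := pow_le_one₀ (by norm_num) (by norm_num)
    simp only [hρ]; nlinarith
  have hρs : ∀ n, ρ (n+1) = ρ n / 2 := fun n => by simp only [hρ, pow_succ]; ring
  have hex : ∀ n : ℕ, ∃ m : ℝ, ∀ h : ℝ, |h| ≤ ρ n → x + h ∈ Icc a b →
      |f (x + h) - f x - m * h| ≤ C * (ρ n) ^ (1 + γ) := fun n => hf x hx (ρ n) (hρ0 n) (hρle n)
  choose m hm using hex
  -- consecutive slopes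
  have hstep : ∀ n, dist (m n) (m (n+1)) ≤ (4 * C * (b-a) ^ γ) * q ^ n := by
    intro n
    obtain ⟨h, hh1, hh2⟩ : ∃ h : ℝ, |h| = ρ (n+1) ∧ x + h ∈ Icc a b := by
      by_cases hc : x + ρ (n+1) ≤ b
      · exact ⟨ρ (n+1), abs_of_pos (hρ0 _), by have := hx.1; have := hρ0 (n+1); linarith, hc⟩
      · refine ⟨-ρ (n+1), by rw [abs_neg]; exact abs_of_pos (hρ0 _), ?_, ?_⟩
        · push Not at hc
          have h1 := hρle n
          have h2 := hρs n
          linarith
        · have := hx.2; have := hρ0 (n+1); linarith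
    have hρn1 : ρ (n+1) ≤ ρ n := by rw [hρs]; have := hρ0 n; linarith
    have e1 := hm n h (by rw [hh1]; exact hρn1) hh2
    have e2 := hm (n+1) h (by rw [hh1]) hh2
    have e3 : |(m n - m (n+1)) * h| ≤ C * (ρ n) ^ (1+γ) + C * (ρ (n+1)) ^ (1+γ) := by
      have : (m n - m (n+1)) * h = (f (x + h) - f x - m (n+1) * h) - (f (x + h) - f x - m n * h) := by
        ring
      rw [this]
      refine (abs_sub _ _).trans ?_
      linarith
    have e4 : (ρ (n+1)) ^ (1+γ) ≤ (ρ n) ^ (1+γ) :=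
      Real.rpow_le_rpow (hρ0 _).le hρn1 (by linarith)
    have e5 : (ρ n) ^ (1+γ) = (ρ n) * (ρ n) ^ γ := by
      rw [Real.rpow_add (hρ0 n), Real.rpow_one]
    have e6 : (ρ n) ^ γ = (b-a) ^ γ * q ^ n := by
      simp only [hρ]
      rw [Real.mul_rpow hba.le (by positivity)]
      congr 1
      rw [hq, ← Real.rpow_natCast, ← Real.rpow_natCast, ← Real.rpow_mul (by norm_num),
        ← Real.rpow_mul (by norm_num), one_div, Real.inv_rpow (by norm_num),
        ← Real.rpow_neg (by norm_num)]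
      congr 1; ring
    rw [abs_mul, hh1, hρs] at e3
    have e7 : |m n - m (n+1)| * (ρ n / 2) ≤ 2 * C * (ρ n * ((b-a) ^ γ * q ^ n)) := by
      have : C * (ρ (n+1)) ^ (1+γ) ≤ C * (ρ n) ^ (1+γ) := mul_le_mul_of_nonneg_left e4 hC
      rw [hρs] at this
      rw [e5, e6] at this e3
      linarith
    have e8 : |m n - m (n+1)| ≤ 4 * C * ((b-a) ^ γ * q ^ n) := by
      have h0 := hρ0 n
      by_contra hcon
      push Not at hcon
      have := mul_lt_mul_of_pos_right hcon (half_pos h0)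
      linarith
    rw [Real.dist_eq]
    linarith
  obtain ⟨L, hL⟩ := cauchySeq_tendsto_of_complete (cauchySeq_of_le_geometric q _ hq1 hstep)
  have hdist : ∀ n, dist (m n) L ≤ (4 * C * (b-a) ^ γ) * q ^ n / (1 - q) :=
    fun n => dist_le_of_le_geometric_of_tendsto q _ hq1 hstep hL n
  refine ⟨L, fun h hh => ?_⟩
  rcases eq_or_ne h 0 with rfl | hne
  · simp
    positivity
  have habs : 0 < |h| := abs_pos.mpr hne
  have hle : |h| ≤ b - a := by
    rw [abs_le]; constructor <;> [have := hh.1; have := hh.2] <;> have := hx.1 <;> have := hx.2 <;>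
      linarith
  obtain ⟨n, hn1, hn2⟩ := exists_nat_pow_near_of_lt_one (x := |h| / (b-a)) (y := (1/2:ℝ))
    (by positivity) (by rw [div_le_one hba]; exact hle) (by norm_num) (by norm_num)
  have hn3 : |h| ≤ ρ n := by
    rw [div_le_iff₀ hba] at hn2; simp only [hρ]; linarith
  have hn4 : ρ n ≤ 2 * |h| := by
    rw [lt_div_iff₀ hba, pow_succ] at hn1; simp only [hρ]; linarith
  have e1 := hm n h hn3 hh
  have e6 : (b-a) ^ γ * q ^ n = (ρ n) ^ γ := by
      simp only [hρ]
      rw [Real.mul_rpow hba.le (by positivity)]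
      congr 1
      rw [hq, ← Real.rpow_natCast, ← Real.rpow_natCast, ← Real.rpow_mul (by norm_num),
        ← Real.rpow_mul (by norm_num), one_div, Real.inv_rpow (by norm_num),
        ← Real.rpow_neg (by norm_num)]
      congr 1; ring
  have e2 : |m n - L| ≤ 4 * C / (1 - q) * (ρ n) ^ γ := by
    have := hdist n
    rw [Real.dist_eq] at this
    rw [← e6]
    refine this.trans (le_of_eq ?_)
    ring
  have e3 : |f (x + h) - f x - L * h| ≤ C * (ρ n) ^ (1+γ) + 4 * C / (1 - q) * (ρ n) ^ γ * |h| := by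
    have : f (x + h) - f x - L * h = (f (x + h) - f x - m n * h) + (m n - L) * h := by ring
    rw [this]
    refine (abs_add_le _ _).trans ?_
    rw [abs_mul]
    have := mul_le_mul_of_nonneg_right e2 habs.le
    linarith
  have h1q : 0 < 1 - q := by linarith
  have e4 : (ρ n) ^ γ * |h| ≤ (ρ n) ^ (1+γ) := by
    rw [Real.rpow_add (hρ0 n), Real.rpow_one, mul_comm]
    exact mul_le_mul_of_nonneg_right hn3 (by have := hρ0 n; positivity)
  have e5 : (ρ n) ^ (1+γ) ≤ 2 ^ (1+γ) * |h| ^ (1+γ) := by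
    rw [← Real.mul_rpow (by norm_num) habs.le]
    exact Real.rpow_le_rpow (hρ0 n).le hn4 (by linarith)
  calc |f (x + h) - f x - L * h|
      ≤ C * (ρ n) ^ (1+γ) + 4 * C / (1 - q) * (ρ n) ^ γ * |h| := e3
    _ = C * (ρ n) ^ (1+γ) + 4 * C / (1 - q) * ((ρ n) ^ γ * |h|) := by ring
    _ ≤ C * (ρ n) ^ (1+γ) + 4 * C / (1 - q) * (ρ n) ^ (1+γ) := by
        have := mul_le_mul_of_nonneg_left e4 (show 0 ≤ 4 * C / (1-q) by positivity)
        linarith
    _ = (C + 4 * C / (1 - q)) * (ρ n) ^ (1+γ) := by ring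
    _ ≤ (C + 4 * C / (1 - q)) * (2 ^ (1+γ) * |h| ^ (1+γ)) :=
        mul_le_mul_of_nonneg_left e5 (by positivity)
    _ = _ := by ring

/-- Campanato in dimension one. -/
theorem camp_c1 {f : ℝ → ℝ} {a b C γ : ℝ} (hab : a < b) (hC : 0 ≤ C) (hγ : 0 < γ)
    (hf : Camp f a b C γ) :
    ∃ (f' : ℝ → ℝ) (C' : ℝ), 0 ≤ C' ∧
      (∀ x ∈ Icc a b, ∀ y ∈ Icc a b, |f y - f x - f' x * (y - x)| ≤ C' * |y - x| ^ (1 + γ)) ∧
      (∀ x ∈ Icc a b, HasDerivWithinAt f (f' x) (Icc a b) x) ∧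
      (∀ x ∈ Icc a b, ∀ y ∈ Icc a b, |f' x - f' y| ≤ C' * |x - y| ^ γ) := by
  have hq1 : (2:ℝ) ^ (-γ) < 1 := Real.rpow_lt_one_of_one_lt_of_neg (by norm_num) (by linarith)
  set D : ℝ := (C + 4 * C / (1 - (2:ℝ) ^ (-γ))) * 2 ^ (1 + γ) with hD
  have hD0 : 0 ≤ D := by
    have : 0 < 1 - (2:ℝ) ^ (-γ) := by linarith
    positivity
  have hpt : ∀ x : ℝ, ∃ m : ℝ, x ∈ Icc a b → ∀ h : ℝ, x + h ∈ Icc a b →
      |f (x + h) - f x - m * h| ≤ D * |h| ^ (1 + γ) := by
    intro x
    by_cases hx : x ∈ Icc a b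
    · obtain ⟨m, hm⟩ := camp_point hab hC hγ hf hx
      exact ⟨m, fun _ => hm⟩
    · exact ⟨0, fun h => absurd h hx⟩
  choose f' hf' using hpt
  have key : ∀ x ∈ Icc a b, ∀ y ∈ Icc a b, |f y - f x - f' x * (y - x)| ≤ D * |y - x| ^ (1 + γ) := by
    intro x hx y hy
    have := hf' x hx (y - x) (by rw [add_sub_cancel]; exact hy)
    rwa [add_sub_cancel] at this
  refine ⟨f', 2 * D, by positivity, ?_, ?_, ?_⟩
  · intro x hx y hy
    have := key x hx y hy
    have h2 : 0 ≤ D * |y - x| ^ (1 + γ) := by positivity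
    linarith
  · intro x hx
    rw [hasDerivWithinAt_iff_isLittleO]
    rw [Asymptotics.isLittleO_iff]
    intro c hc
    -- D |y-x|^γ ≤ c near x
    have hcont : Tendsto (fun y : ℝ => D * |y - x| ^ γ) (𝓝[Icc a b] x) (𝓝 0) := by
      have h1 : Tendsto (fun y : ℝ => D * |y - x| ^ γ) (𝓝 x) (𝓝 (D * |x - x| ^ γ)) := by
        apply Tendsto.const_mul
        apply Tendsto.rpow_const
        · exact ((continuous_id.sub continuous_const).abs).tendsto x
        · right; exact hγ.le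
      rw [sub_self, abs_zero, Real.zero_rpow hγ.ne', mul_zero] at h1
      exact h1.mono_left nhdsWithin_le_nhds
    filter_upwards [hcont.eventually (gt_mem_nhds hc), self_mem_nhdsWithin] with y hy1 hy2
    rw [Real.norm_eq_abs, Real.norm_eq_abs, smul_eq_mul, mul_comm (y - x)]
    refine (key x hx y hy2).trans ?_
    rcases eq_or_ne y x with rfl | hne
    · simp [Real.zero_rpow (by linarith : (1 + γ) ≠ 0)]
    · have hpos : 0 < |y - x| := abs_pos.mpr (sub_ne_zero.mpr hne)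
      rw [Real.rpow_add hpos, Real.rpow_one]
      nlinarith
  · intro x hx y hy
    rcases eq_or_ne x y with rfl | hne
    · simp [Real.zero_rpow hγ.ne']
    · have hpos : 0 < |x - y| := abs_pos.mpr (sub_ne_zero.mpr hne)
      have e1 := key x hx y hy
      have e2 := key y hy x hx
      rw [abs_sub_comm y x] at e1
      have e3 : |(f' x - f' y) * (x - y)| ≤ 2 * D * |x - y| ^ (1+γ) := by
        have : (f' x - f' y) * (x - y) = (f y - f x - f' x * (y - x)) + (f x - f y - f' y * (x - y)) := by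
          ring
        rw [this]
        refine (abs_add_le _ _).trans ?_
        linarith
      rw [abs_mul, Real.rpow_add hpos, Real.rpow_one] at e3
      by_contra hcon
      push Not at hcon
      have := mul_lt_mul_of_pos_right hcon hpos
      linarith

end Crest.Agent.R135.Arc
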