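import Mathlib

/-!
# R135: planar flatness in coordinates, direction comparison (block ARC)
-/

set_option autoImplicit false

open Set Filter Topology
open scoped NNReal

namespace Crest.Agent.R135.Arc

/-- two-sided flatness in coordinates of the plane set `K` at `(p,q)`, scale `ρ`, unit direction
`(u,v)`, error `E`. -/
def FlatAt (K : Set (ℝ × ℝ)) (p q u v ρ E : ℝ) : Prop :=
  u ^ 2 + v ^ 2 = 1 ∧
  (∀ p' q', (p', q') ∈ K → |p' - p| ≤ ρ → |q' - q| ≤ ρ → |(q' - q) * u - (p' - p) * v| ≤ E) ∧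
  (∀ t, |t| ≤ ρ → ∃ p' q', (p', q') ∈ K ∧ |p' - (p + t * u)| ≤ E ∧ |q' - (q + t * v)| ≤ E)

theorem FlatAt.mono {K : Set (ℝ × ℝ)} {p q u v ρ E ρ' E' : ℝ} (h : FlatAt K p q u v ρ E)
    (hρ : ρ' ≤ ρ) (hE : E ≤ E') : FlatAt K p q u v ρ' E' := by
  obtain ⟨h0, h1, h2⟩ := h
  refine ⟨h0, fun p' q' hm hp hq => (h1 p' q' hm (hp.trans hρ) (hq.trans hρ)).trans hE, ?_⟩
  intro t ht
  obtain ⟨p', q', hm, h3, h4⟩ := h2 t (ht.trans hρ)
  exact ⟨p', q', hm, h3.trans hE, h4.trans hE⟩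

theorem FlatAt.neg {K : Set (ℝ × ℝ)} {p q u v ρ E : ℝ} (h : FlatAt K p q u v ρ E) :
    FlatAt K p q (-u) (-v) ρ E := by
  obtain ⟨h0, h1, h2⟩ := h
  refine ⟨by nlinarith, fun p' q' hm hp hq => ?_, ?_⟩
  · have := h1 p' q' hm hp hq
    rw [← abs_neg]
    convert this using 2
    ring
  · intro t ht
    obtain ⟨p', q', hm, h3, h4⟩ := h2 (-t) (by simpa using ht)
    refine ⟨p', q', hm, ?_, ?_⟩
    · convert h3 using 2; ring
    · convert h4 using 2; ring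

theorem abs_le_one_of_sq_add {u v : ℝ} (h : u ^ 2 + v ^ 2 = 1) : |u| ≤ 1 ∧ |v| ≤ 1 := by
  constructor
  · rw [abs_le_one_iff_mul_self_le_one]; nlinarith [sq_nonneg v]
  · rw [abs_le_one_iff_mul_self_le_one]; nlinarith [sq_nonneg u]

/-- comparison of the directions at two comparable scales -/
theorem FlatAt.cross {K : Set (ℝ × ℝ)} {p q u₁ v₁ ρ₁ E₁ u₂ v₂ ρ₂ E₂ : ℝ}
    (h₁ : FlatAt K p q u₁ v₁ ρ₁ E₁) (h₂ : FlatAt K p q u₂ v₂ ρ₂ E₂) (hρ : ρ₂ ≤ ρ₁)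
    (hρ0 : 0 < ρ₂) (hE : E₂ ≤ ρ₂ / 2) :
    |v₂ * u₁ - u₂ * v₁| ≤ 2 * (E₁ + 2 * E₂) / ρ₂ := by
  obtain ⟨p', q', hm, hp, hq⟩ := h₂.2.2 (ρ₂ / 2) (by rw [abs_of_pos (by linarith)]; linarith)
  obtain ⟨hu2, hv2⟩ := abs_le_one_of_sq_add h₂.1
  obtain ⟨hu1, hv1⟩ := abs_le_one_of_sq_add h₁.1
  have hp1 : |p' - p| ≤ ρ₁ := by
    have : p' - p = (p' - (p + ρ₂ / 2 * u₂)) + ρ₂ / 2 * u₂ := by ring
    rw [this]
    refine (abs_add_le _ _).trans ?_
    have : |ρ₂ / 2 * u₂| ≤ ρ₂ / 2 := by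
      rw [abs_mul, abs_of_pos (by linarith : 0 < ρ₂ / 2)]
      nlinarith
    linarith
  have hq1 : |q' - q| ≤ ρ₁ := by
    have : q' - q = (q' - (q + ρ₂ / 2 * v₂)) + ρ₂ / 2 * v₂ := by ring
    rw [this]
    refine (abs_add_le _ _).trans ?_
    have : |ρ₂ / 2 * v₂| ≤ ρ₂ / 2 := by
      rw [abs_mul, abs_of_pos (by linarith : 0 < ρ₂ / 2)]
      nlinarith
    linarith
  have h := h₁.2.1 p' q' hm hp1 hq1
  rw [le_div_iff₀ hρ0]
  set α := q' - (q + ρ₂ / 2 * v₂) with hα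
  set β := p' - (p + ρ₂ / 2 * u₂) with hβ
  have e1 : ρ₂ / 2 * (v₂ * u₁ - u₂ * v₁) = ((q' - q) * u₁ - (p' - p) * v₁) - α * u₁ + β * v₁ := by
    rw [hα, hβ]; ring
  have e2 : |ρ₂ / 2 * (v₂ * u₁ - u₂ * v₁)| ≤ E₁ + E₂ + E₂ := by
    rw [e1]
    refine (abs_add_le _ _).trans ?_
    refine add_le_add ((abs_sub _ _).trans (add_le_add h ?_)) ?_
    · rw [abs_mul]
      calc |α| * |u₁| ≤ |α| * 1 := by gcongr
        _ ≤ E₂ := by linarith
    · rw [abs_mul]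
      calc |β| * |v₁| ≤ |β| * 1 := by gcongr
        _ ≤ E₂ := by linarith
  rw [abs_mul, abs_of_pos (by linarith : 0 < ρ₂ / 2)] at e2
  linarith

theorem cross_triangle {u₁ v₁ u₂ v₂ : ℝ} (h₁ : u₁ ^ 2 + v₁ ^ 2 = 1) (h₂ : u₂ ^ 2 + v₂ ^ 2 = 1) :
    |v₂| ≤ |v₁| + |v₂ * u₁ - u₂ * v₁| := by
  obtain ⟨hu1, hv1⟩ := abs_le_one_of_sq_add h₁
  have hdot : |u₁ * u₂ + v₁ * v₂| ≤ 1 := by
    rw [abs_le_one_iff_mul_self_le_one]
    nlinarith [sq_nonneg (u₁ * v₂ - v₁ * u₂)]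
  have e : v₂ = (u₁ * u₂ + v₁ * v₂) * v₁ + (v₂ * u₁ - u₂ * v₁) * u₁ := by
    linear_combination (-v₂) * h₁
  calc |v₂| = |(u₁ * u₂ + v₁ * v₂) * v₁ + (v₂ * u₁ - u₂ * v₁) * u₁| := by rw [← e]
    _ ≤ |(u₁ * u₂ + v₁ * v₂) * v₁| + |(v₂ * u₁ - u₂ * v₁) * u₁| := abs_add_le _ _
    _ ≤ 1 * |v₁| + |v₂ * u₁ - u₂ * v₁| * 1 := by
        rw [abs_mul, abs_mul]
        gcongr
    _ = _ := by ring

/-- Hypotheses on a planar set near a half-line, in frame coordinates. -/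
structure RayHyp (K : Set (ℝ × ℝ)) (r0 C γ c : ℝ) : Prop where
  r0pos : 0 < r0
  Cpos : 0 < C
  γpos : 0 < γ
  cpos : 0 < c
  closed : ∀ z, z ∈ closure K → 0 < z.1 → z.1 < r0 → |z.2| ≤ z.1 / 4 → z ∈ K
  far : ∀ p q, (p, q) ∈ K → 0 < p → p < r0 → |q| ≤ p / 4 → |q| ≤ C * p ^ (1 + γ)
  near : ∀ t, 0 < t → t < r0 → ∃ p q, (p, q) ∈ K ∧ |p - t| ≤ C * t ^ (1 + γ) ∧
    |q| ≤ C * t ^ (1 + γ)
  flat : ∀ p q, (p, q) ∈ K → 0 < p → p < r0 → |q| ≤ p / 4 → ∀ ρ, 0 < ρ → ρ ≤ c * p →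
    ∃ u v, FlatAt K p q u v ρ (C * ρ * (ρ / p) ^ γ)

set_option maxHeartbeats 2000000 in
/-- The good directions. -/
theorem RayHyp.good {K : Set (ℝ × ℝ)} {r0 C γ c : ℝ} (H : RayHyp K r0 C γ c) :
    ∃ r1 c1 : ℝ, 0 < r1 ∧ r1 < r0 ∧ 0 < c1 ∧ c1 ≤ 1 / 10 ∧ (2:ℝ) ^ γ * C * c1 ^ γ ≤ 1 / 800 ∧
      C * (2 * r1) ^ γ ≤ c1 / 800 ∧
      ∀ p q, (p, q) ∈ K → 0 < p → p < r1 → |q| ≤ p / 4 → ∀ ρ, 0 < ρ → ρ ≤ c1 * p →
        ∃ u v, 0 < u ∧ |v| ≤ 1 / 25 ∧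
          FlatAt K p q u v ρ (2 * (2:ℝ) ^ γ * C * ρ * (ρ / p) ^ γ) := by
  obtain ⟨hr0, hC, hγ, hc, hcl, hfar, hnear, hflat⟩ := H
  set Q : ℝ := (2:ℝ) ^ (-γ) with hQ
  have hQ0 : 0 < Q := by positivity
  have hQ1 : Q < 1 := by
    rw [hQ]; exact Real.rpow_lt_one_of_one_lt_of_neg (by norm_num) (by linarith)
  -- choice of c1
  have hlim1 : Tendsto (fun s : ℝ => C * s ^ γ) (𝓝[>] 0) (𝓝 0) := by
    have h1 : Tendsto (fun s : ℝ => s ^ γ) (𝓝[>] 0) (𝓝 0) := by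
      have := (Real.continuousAt_rpow_const 0 γ (Or.inr hγ.le)).tendsto
      rw [Real.zero_rpow hγ.ne'] at this
      exact this.mono_left nhdsWithin_le_nhds
    simpa using h1.const_mul C
  have hev1 : ∀ᶠ s in 𝓝[>] (0:ℝ), C * s ^ γ < Q * ((1 - Q) / 800) :=
    hlim1.eventually (gt_mem_nhds
      (mul_pos hQ0 (div_pos (sub_pos.2 hQ1) (by norm_num : (0:ℝ) < 800))))
  have hev2 : ∀ᶠ s in 𝓝[>] (0:ℝ), s < min c (1 / 10) := by
    have : Iio (min c (1/10)) ∈ 𝓝 (0:ℝ) := Iio_mem_nhds (lt_min hc (by norm_num))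
    exact nhdsWithin_le_nhds this
  obtain ⟨c1, ⟨hc1a, hc1b⟩, hc1pos⟩ := ((hev1.and hev2).and self_mem_nhdsWithin).exists
  have hc1pos : 0 < c1 := hc1pos
  have hc1c : c1 ≤ c := (hc1b.trans_le (min_le_left _ _)).le
  have hc1t : c1 ≤ 1 / 10 := (hc1b.trans_le (min_le_right _ _)).le
  -- choice of r1
  have hlim2 : Tendsto (fun s : ℝ => C * (2 * s) ^ γ) (𝓝[>] 0) (𝓝 0) := by
    have h1 : Tendsto (fun s : ℝ => 2 * s) (𝓝[>] 0) (𝓝[>] 0) := by
      refine tendsto_nhdsWithin_iff.2 ⟨?_, ?_⟩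
      · have : Tendsto (fun s : ℝ => 2 * s) (𝓝 0) (𝓝 (2 * 0)) := (continuous_const.mul continuous_id).tendsto 0
        rw [mul_zero] at this
        exact this.mono_left nhdsWithin_le_nhds
      · filter_upwards [self_mem_nhdsWithin] with s hs
        have : (0:ℝ) < s := hs
        show (0:ℝ) < 2 * s
        linarith
    exact hlim1.comp h1
  have hev3 : ∀ᶠ s in 𝓝[>] (0:ℝ), C * (2 * s) ^ γ < c1 / 800 :=
    hlim2.eventually (gt_mem_nhds (by positivity))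
  have hev4 : ∀ᶠ s in 𝓝[>] (0:ℝ), s < r0 / 2 := by
    have : Iio (r0 / 2) ∈ 𝓝 (0:ℝ) := Iio_mem_nhds (by linarith)
    exact nhdsWithin_le_nhds this
  obtain ⟨r1, ⟨hr1a, hr1b⟩, hr1pos⟩ := ((hev3.and hev4).and self_mem_nhdsWithin).exists
  have hr1pos : 0 < r1 := hr1pos
  have h2Q : (2:ℝ) ^ γ * Q = 1 := by
    rw [hQ, ← Real.rpow_add (by norm_num)]; simp
  have hc1a' : C * c1 ^ γ < (1 - Q) / 800 := by
    refine hc1a.trans_le ?_
    have : 0 < (1 - Q) / 800 := by linarith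
    nlinarith
  have hc1g : C * c1 ^ γ ≤ 1 / 800 := by linarith
  have hc1g2 : (2:ℝ) ^ γ * C * c1 ^ γ ≤ 1 / 800 := by
    have h2 : (0:ℝ) < (2:ℝ) ^ γ := by positivity
    calc (2:ℝ) ^ γ * C * c1 ^ γ = (2:ℝ) ^ γ * (C * c1 ^ γ) := by ring
      _ ≤ (2:ℝ) ^ γ * (Q * ((1 - Q) / 800)) := by gcongr
      _ = ((2:ℝ) ^ γ * Q) * ((1 - Q) / 800) := by ring
      _ ≤ 1 / 800 := by rw [h2Q]; linarith
  clear hc1a
  have hc1a := hc1a'
  refine ⟨r1, c1, hr1pos, by linarith, hc1pos, hc1t, hc1g2, hr1a.le, ?_⟩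
  intro p q hpq hp hpr hq ρ hρ hρc
  -- dyadic scales
  set R : ℕ → ℝ := fun n => c1 * p * (1/2 : ℝ) ^ n with hR
  have hR0 : ∀ n, 0 < R n := fun n => by positivity
  have hRs : ∀ n, R (n+1) = R n / 2 := fun n => by simp only [hR, pow_succ]; ring
  have hRle : ∀ n, R n ≤ c1 * p := fun n => by
    have : (1/2:ℝ) ^ n ≤ 1 := pow_le_one₀ (by norm_num) (by norm_num)
    simp only [hR]; nlinarith [mul_pos hc1pos hp]
  have hRdiv : ∀ n, (R n / p) ^ γ = c1 ^ γ * Q ^ n := by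
    intro n
    have e1 : R n / p = c1 * (1/2 : ℝ) ^ n := by
      simp only [hR]; field_simp
    rw [e1, Real.mul_rpow hc1pos.le (by positivity)]
    congr 1
    rw [hQ, ← Real.rpow_natCast, ← Real.rpow_natCast, ← Real.rpow_mul (by norm_num),
      ← Real.rpow_mul (by norm_num), one_div, Real.inv_rpow (by norm_num),
      ← Real.rpow_neg (by norm_num)]
    congr 1; ring
  have hex : ∀ n : ℕ, ∃ uv : ℝ × ℝ, FlatAt K p q uv.1 uv.2 (R n) (C * R n * (c1 ^ γ * Q ^ n)) := by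
    intro n
    obtain ⟨u, v, h⟩ := hflat p q hpq hp (by linarith) hq (R n) (hR0 n) ((hRle n).trans (by gcongr))
    rw [hRdiv] at h
    exact ⟨(u, v), h⟩
  choose uv huv using hex
  have hc1γ : 0 < c1 ^ γ := by positivity
  have hQn : ∀ n : ℕ, Q ^ n ≤ 1 := fun n => pow_le_one₀ hQ0.le hQ1.le
  -- bound on the error
  have hEle : ∀ n : ℕ, C * R n * (c1 ^ γ * Q ^ n) ≤ R n / 800 := by
    intro n
    have h1 : C * (c1 ^ γ * Q ^ n) ≤ 1 / 800 := by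
      calc C * (c1 ^ γ * Q ^ n) = (C * c1 ^ γ) * Q ^ n := by ring
        _ ≤ (1/800) * 1 := by
            gcongr
            exact hQn n
        _ = 1/800 := by ring
    have := hR0 n
    nlinarith
  -- step
  have hstep : ∀ n : ℕ, |(uv (n+1)).2 * (uv n).1 - (uv (n+1)).1 * (uv n).2| ≤
      8 * (C * c1 ^ γ) * Q ^ n := by
    intro n
    have h := FlatAt.cross (huv n) (huv (n+1)) (by rw [hRs]; linarith [hR0 n]) (hR0 _)
      (by have := hEle (n+1); have := hR0 (n+1); linarith)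
    refine h.trans ?_
    rw [div_le_iff₀ (hR0 _), hRs, pow_succ]
    have a1 : 0 < C * R n * c1 ^ γ * Q ^ n := by have := hR0 n; positivity
    nlinarith
  -- base
  have hbase : |(uv 0).2| ≤ 2 / 100 := by
    obtain ⟨h0, h1, h2⟩ := huv 0
    obtain ⟨p', q', hm, hp', hq'⟩ := h2 (R 0 / 2) (by rw [abs_of_pos (by linarith [hR0 0])]; linarith [hR0 0])
    have hE := hEle 0
    have hR00 : R 0 = c1 * p := by simp [hR]
    obtain ⟨hu, hv⟩ := abs_le_one_of_sq_add h0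
    have hRp : 0 < R 0 := hR0 0
    have hRpp : R 0 ≤ p / 10 := by rw [hR00]; nlinarith
    have b1 : |R 0 / 2 * (uv 0).1| ≤ R 0 / 2 := by
      rw [abs_mul, abs_of_pos (by linarith : 0 < R 0 / 2)]; nlinarith
    have b2 : |R 0 / 2 * (uv 0).2| ≤ R 0 / 2 := by
      rw [abs_mul, abs_of_pos (by linarith : 0 < R 0 / 2)]; nlinarith
    have hp2 : |p' - p| ≤ p / 10 := by
      have : p' - p = (p' - (p + R 0 / 2 * (uv 0).1)) + R 0 / 2 * (uv 0).1 := by ring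
      rw [this]
      refine (abs_add_le _ _).trans ?_
      linarith
    have hp3 := abs_le.1 hp2
    have hqs : |q| ≤ p / 100 ∧ |q| ≤ C * p ^ (1 + γ) := by
      have h3 := hfar p q hpq hp (by linarith) hq
      have h4 : C * p ^ γ ≤ 1 / 800 := by
        have : p ^ γ ≤ (2 * r1) ^ γ := Real.rpow_le_rpow hp.le (by linarith) hγ.le
        have h5 : C * p ^ γ ≤ C * (2 * r1) ^ γ := by gcongr
        linarith
      refine ⟨?_, h3⟩
      rw [Real.rpow_add hp, Real.rpow_one] at h3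
      nlinarith
    have hq2 : |q'| ≤ p / 8 := by
      have : q' = (q' - (q + R 0 / 2 * (uv 0).2)) + R 0 / 2 * (uv 0).2 + q := by ring
      rw [this]
      refine (abs_add_three _ _ _).trans ?_
      linarith [hqs.1]
    have hq3 := hfar p' q' hm (by linarith) (by linarith) (by linarith)
    have h6 : |R 0 / 2 * (uv 0).2| ≤ C * R 0 * (c1 ^ γ * Q ^ 0) + |q'| + |q| := by
      have : R 0 / 2 * (uv 0).2 = -(q' - (q + R 0 / 2 * (uv 0).2)) + q' + -q := by ring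
      rw [this]
      refine (abs_add_three _ _ _).trans ?_
      rw [abs_neg, abs_neg]
      linarith
    rw [abs_mul, abs_of_pos (by linarith : 0 < R 0 / 2)] at h6
    -- bound q'
    have hk : ∀ s, 0 < s → s ≤ 2 * p → C * s ^ (1+γ) ≤ s * (c1 / 800) := by
      intro s hs hs2
      rw [Real.rpow_add hs, Real.rpow_one]
      have : s ^ γ ≤ (2 * r1) ^ γ := Real.rpow_le_rpow hs.le (by linarith) hγ.le
      have h5 : C * s ^ γ ≤ c1 / 800 := by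
        have : C * s ^ γ ≤ C * (2 * r1) ^ γ := by gcongr
        linarith
      calc C * (s * s ^ γ) = s * (C * s ^ γ) := by ring
        _ ≤ s * (c1 / 800) := by gcongr
    have hq4 : |q'| ≤ 2 * p * (c1 / 800) := by
      refine hq3.trans ((hk p' (by linarith) (by linarith)).trans ?_)
      gcongr
      linarith
    have hq5 : |q| ≤ 2 * p * (c1 / 800) := by
      refine hqs.2.trans ((hk p hp (by linarith)).trans ?_)
      gcongr
      linarith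
    have h7 : R 0 / 2 * |(uv 0).2| ≤ R 0 / 800 + 4 * (R 0 / 800) := by
      have : 2 * p * (c1 / 800) = 2 * (R 0 / 800) := by rw [hR00]; ring
      linarith
    by_contra hcon
    push Not at hcon
    nlinarith
  -- all directions
  have hall : ∀ n : ℕ, |(uv n).2| ≤ 2 / 100 + 8 * (C * c1 ^ γ) * ∑ i ∈ Finset.range n, Q ^ i := by
    intro n
    induction n with
    | zero => simpa using hbase
    | succ n ih =>
      rw [Finset.sum_range_succ]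
      have h3 := cross_triangle (huv n).1 (huv (n+1)).1
      have h4 := hstep n
      linarith [mul_add (8 * (C * c1 ^ γ)) (∑ i ∈ Finset.range n, Q ^ i) (Q ^ n)]
  have hall2 : ∀ n : ℕ, |(uv n).2| ≤ 1 / 25 := by
    intro n
    refine (hall n).trans ?_
    have h1 : ∑ i ∈ Finset.range n, Q ^ i ≤ 1 / (1 - Q) := by
      rw [le_div_iff₀ (by linarith), mul_comm, mul_neg_geom_sum]
      have : 0 < Q ^ n := by positivity
      linarith
    have h2 : 8 * (C * c1 ^ γ) * ∑ i ∈ Finset.range n, Q ^ i ≤ 8 * ((1 - Q) / 800) * (1 / (1 - Q)) := by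
      gcongr
    have h3 : 8 * ((1 - Q) / 800) * (1 / (1 - Q)) = 1 / 100 := by
      have : 1 - Q ≠ 0 := by linarith
      field_simp
      norm_num
    linarith
  -- general scale
  have hx1 : ρ / (c1 * p) ≤ 1 := by rw [div_le_one (by positivity)]; exact hρc
  obtain ⟨n, hn1, hn2⟩ := exists_nat_pow_near_of_lt_one (y := (1/2:ℝ)) (x := ρ / (c1 * p))
    (by positivity) hx1 (by norm_num) (by norm_num)
  have hn3 : ρ ≤ R n := by
    rw [div_le_iff₀ (by positivity)] at hn2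
    simp only [hR]; linarith
  have hn4 : R n < 2 * ρ := by
    rw [lt_div_iff₀ (by positivity), pow_succ] at hn1
    simp only [hR]; linarith
  have hmono : C * R n * (c1 ^ γ * Q ^ n) ≤ 2 * (2:ℝ) ^ γ * C * ρ * (ρ / p) ^ γ := by
    rw [← hRdiv]
    have h1 : (R n / p) ^ γ ≤ (2:ℝ) ^ γ * (ρ / p) ^ γ := by
      rw [← Real.mul_rpow (by norm_num) (by positivity)]
      refine Real.rpow_le_rpow (by have := hR0 n; positivity) ?_ hγ.le
      rw [← mul_div_assoc]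
      gcongr
    have h0 : 0 < (ρ / p) ^ γ := by positivity
    calc C * R n * (R n / p) ^ γ ≤ C * (2 * ρ) * ((2:ℝ) ^ γ * (ρ / p) ^ γ) := by
          gcongr
      _ = _ := by ring
  rcases lt_trichotomy (uv n).1 0 with hneg | hzero | hpos
  · refine ⟨-(uv n).1, -(uv n).2, by linarith, by rw [abs_neg]; exact hall2 n, ?_⟩
    exact ((huv n).mono hn3 hmono).neg
  · exfalso
    have h3 := (huv n).1
    rw [hzero] at h3
    have h4 := abs_le.1 (hall2 n)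
    nlinarith [h4.1, h4.2]
  · exact ⟨(uv n).1, (uv n).2, hpos, hall2 n, (huv n).mono hn3 hmono⟩

end Crest.Agent.R135.Arc
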