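import Crest.Agent.R135.Arc1D

/-!
# R135: from local Campanato estimates with degenerating constants to a global one (block ARC)
-/

set_option autoImplicit false

open Set Filter Topology
open scoped NNReal

namespace Crest.Agent.R135.Arc

theorem rpow_interp {ρ X γ : ℝ} (hρ : 0 < ρ) (hX : 0 < X) (hγ : 0 < γ) :
    (ρ * (ρ / X) ^ γ) ^ (1 - γ / (1 + 2 * γ)) * (X ^ (1 + γ)) ^ (γ / (1 + 2 * γ)) =
      ρ ^ (1 + γ ^ 2 / (1 + 2 * γ)) := by
  have h1 : 0 < ρ / X := by positivity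
  have h12 : (1 + 2 * γ) ≠ 0 := by positivity
  have e : ρ * (ρ / X) ^ γ = Real.exp ((1 + γ) * Real.log ρ - γ * Real.log X) := by
    rw [Real.rpow_def_of_pos h1, Real.log_div hρ.ne' hX.ne']
    nth_rewrite 1 [← Real.exp_log hρ]
    rw [← Real.exp_add]
    congr 1; ring
  rw [e, Real.rpow_def_of_pos hX, Real.rpow_def_of_pos hρ, ← Real.exp_mul, ← Real.exp_mul,
    ← Real.exp_add]
  congr 1
  field_simp
  ring

theorem camp_of_local {f : ℝ → ℝ} {a b C γ c : ℝ} (_ha : a ≤ 0) (_hb : 0 ≤ b) (hab : a < b)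
    (hC : 0 < C) (hγ : 0 < γ) (hc : 0 < c)
    (h0 : ∀ x ∈ Icc a b, |f x| ≤ C * |x| ^ (1 + γ))
    (hloc : ∀ x ∈ Icc a b, x ≠ 0 → ∀ ρ, 0 < ρ → ρ ≤ c * |x| → ∃ m, ∀ h, |h| ≤ ρ →
      x + h ∈ Icc a b → |f (x + h) - f x - m * h| ≤ C * ρ * (ρ / |x|) ^ γ) :
    ∃ C', 0 < C' ∧ Camp f a b C' (γ ^ 2 / (1 + 2 * γ)) := by
  set γ' := γ ^ 2 / (1 + 2 * γ) with hγ'
  have h12 : 0 < 1 + 2 * γ := by positivity
  have hγ'0 : 0 < γ' := by positivity
  have hγγ' : γ' ≤ γ := by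
    rw [hγ', div_le_iff₀ h12]; nlinarith
  set L := b - a with hL
  have hL0 : 0 < L := by linarith
  have h1γ : 0 < 1 + γ := by linarith
  set D₁ := 2 * C * (1 + 1 / c) ^ (1 + γ) * L ^ (γ - γ') with hD₁
  set D₂ := 2 * C * (1 + c) ^ (1 + γ) with hD₂
  have hD₁0 : 0 < D₁ := by positivity
  have hD₂0 : 0 < D₂ := by positivity
  refine ⟨D₁ + D₂, by positivity, ?_⟩
  intro x hx ρ hρ hρL
  rcases lt_or_ge (c * |x|) ρ with hcase | hcase
  · refine ⟨0, fun h hh hxh => ?_⟩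
    have hx1 : |x| ≤ ρ / c := by rw [le_div_iff₀ hc]; linarith
    have hx2 : |x| ≤ (1 + 1 / c) * ρ := by
      refine hx1.trans ?_
      rw [add_mul, one_mul, one_div, inv_mul_eq_div]; linarith
    have hx3 : |x + h| ≤ (1 + 1 / c) * ρ := by
      refine (abs_add_le _ _).trans ?_
      rw [add_mul, one_mul, one_div, inv_mul_eq_div]; linarith
    have b1 := h0 x hx
    have b2 := h0 (x + h) hxh
    have b3 : |x| ^ (1 + γ) ≤ (1 + 1 / c) ^ (1 + γ) * ρ ^ (1 + γ) := by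
      rw [← Real.mul_rpow (by positivity) hρ.le]
      exact Real.rpow_le_rpow (abs_nonneg _) hx2 h1γ.le
    have b4 : |x + h| ^ (1 + γ) ≤ (1 + 1 / c) ^ (1 + γ) * ρ ^ (1 + γ) := by
      rw [← Real.mul_rpow (by positivity) hρ.le]
      exact Real.rpow_le_rpow (abs_nonneg _) hx3 h1γ.le
    have b5 : ρ ^ (1 + γ) ≤ L ^ (γ - γ') * ρ ^ (1 + γ') := by
      have : ρ ^ (1 + γ) = ρ ^ (γ - γ') * ρ ^ (1 + γ') := by
        rw [← Real.rpow_add hρ]; congr 1; ring
      rw [this]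
      gcongr
    calc |f (x + h) - f x - 0 * h| = |f (x + h) - f x| := by rw [zero_mul, sub_zero]
      _ ≤ |f (x + h)| + |f x| := abs_sub _ _
      _ ≤ C * ((1 + 1 / c) ^ (1 + γ) * ρ ^ (1 + γ)) + C * ((1 + 1 / c) ^ (1 + γ) * ρ ^ (1 + γ)) := by
          gcongr
          · exact b2.trans (by gcongr)
          · exact b1.trans (by gcongr)
      _ = 2 * C * (1 + 1 / c) ^ (1 + γ) * ρ ^ (1 + γ) := by ring
      _ ≤ 2 * C * (1 + 1 / c) ^ (1 + γ) * (L ^ (γ - γ') * ρ ^ (1 + γ')) := by gcongr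
      _ = D₁ * ρ ^ (1 + γ') := by rw [hD₁]; ring
      _ ≤ (D₁ + D₂) * ρ ^ (1 + γ') := by gcongr; linarith
  · have hX : 0 < |x| := by
      by_contra hcon
      have : |x| = 0 := le_antisymm (not_lt.1 hcon) (abs_nonneg _)
      rw [this, mul_zero] at hcase
      linarith
    have hx0 : x ≠ 0 := abs_pos.1 hX
    set θ := γ / (1 + 2 * γ) with hθ
    have hθ0 : 0 < θ := by positivity
    have hθ1 : θ < 1 := by rw [hθ, div_lt_one h12]; linarith
    have hint := rpow_interp hρ hX hγ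
    set A := ρ * (ρ / |x|) ^ γ with hA
    set B := |x| ^ (1 + γ) with hB
    have hA0 : 0 < A := by positivity
    have hB0 : 0 < B := by positivity
    rw [← hθ, ← hγ'] at hint
    have hsplit : ∀ s : ℝ, 0 < s → s = s ^ (1 - θ) * s ^ θ := by
      intro s hs
      rw [← Real.rpow_add hs]; simp
    have hCD : C ≤ D₂ := by
      have : (1:ℝ) ≤ (1 + c) ^ (1 + γ) := Real.one_le_rpow (by linarith) h1γ.le
      rw [hD₂]; nlinarith
    rcases le_total A B with hAB | hAB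
    · obtain ⟨m, hm⟩ := hloc x hx hx0 ρ hρ hcase
      refine ⟨m, fun h hh hxh => (hm h hh hxh).trans ?_⟩
      have hA1 : A ≤ ρ ^ (1 + γ') := by
        rw [← hint]
        calc A = A ^ (1 - θ) * A ^ θ := hsplit A hA0
          _ ≤ A ^ (1 - θ) * B ^ θ := by gcongr
      calc C * ρ * (ρ / |x|) ^ γ = C * A := by rw [hA]; ring
        _ ≤ (D₁ + D₂) * ρ ^ (1 + γ') := by
            gcongr
            linarith
    · refine ⟨0, fun h hh hxh => ?_⟩
      have hB1 : B ≤ ρ ^ (1 + γ') := by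
        rw [← hint]
        calc B = B ^ (1 - θ) * B ^ θ := hsplit B hB0
          _ ≤ A ^ (1 - θ) * B ^ θ := by
              gcongr
      have b1 := h0 x hx
      have b2 := h0 (x + h) hxh
      have hx2 : |x| ≤ (1 + c) * |x| := by nlinarith
      have hx3 : |x + h| ≤ (1 + c) * |x| := by
        refine (abs_add_le _ _).trans ?_
        rw [add_mul, one_mul]; linarith
      have b3 : |x| ^ (1 + γ) ≤ (1 + c) ^ (1 + γ) * |x| ^ (1 + γ) := by
        rw [← Real.mul_rpow (by positivity) hX.le]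
        exact Real.rpow_le_rpow (abs_nonneg _) hx2 h1γ.le
      have b4 : |x + h| ^ (1 + γ) ≤ (1 + c) ^ (1 + γ) * |x| ^ (1 + γ) := by
        rw [← Real.mul_rpow (by positivity) hX.le]
        exact Real.rpow_le_rpow (abs_nonneg _) hx3 h1γ.le
      calc |f (x + h) - f x - 0 * h| = |f (x + h) - f x| := by rw [zero_mul, sub_zero]
        _ ≤ |f (x + h)| + |f x| := abs_sub _ _
        _ ≤ C * ((1 + c) ^ (1 + γ) * |x| ^ (1 + γ)) + C * ((1 + c) ^ (1 + γ) * |x| ^ (1 + γ)) := by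
            gcongr
            · exact b2.trans (by gcongr)
            · exact b1.trans (by gcongr)
        _ = D₂ * B := by rw [hD₂, hB]; ring
        _ ≤ D₂ * ρ ^ (1 + γ') := by gcongr
        _ ≤ (D₁ + D₂) * ρ ^ (1 + γ') := by gcongr; linarith

end Crest.Agent.R135.Arc
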