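import Crest.Agent.R135.ArcGraph
import Crest.Agent.R135.ArcInterp
import Crest.Prelude.Def_MumfordShah

/-!
# R135: orthonormal frames in the plane, graphs as `IsHolderArc` (block ARC)
-/

set_option autoImplicit false

open Set Filter Topology Metric
open scoped NNReal

namespace Crest.Agent.R135.Arc

abbrev E2 := EuclideanSpace ℝ (Fin 2)

/-- rotation by ninety degrees -/
def J (v : E2) : E2 := !₂[-(v 1), v 0]

@[simp] theorem J_zero' (v : E2) : (J v) 0 = -(v 1) := by simp [J]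
@[simp] theorem J_one' (v : E2) : (J v) 1 = v 0 := by simp [J]

theorem inner_eq (v w : E2) : inner ℝ v w = v 0 * w 0 + v 1 * w 1 := by
  rw [PiLp.inner_apply, Fin.sum_univ_two]
  simp [mul_comm]

theorem norm_sq_eq (v : E2) : ‖v‖ ^ 2 = v 0 ^ 2 + v 1 ^ 2 := by
  rw [EuclideanSpace.norm_sq_eq, Fin.sum_univ_two]
  simp

theorem inner_J_self (v : E2) : inner ℝ v (J v) = 0 := by
  rw [inner_eq]; simp; ring

theorem norm_J (v : E2) : ‖J v‖ = ‖v‖ := by
  have h : ‖J v‖ ^ 2 = ‖v‖ ^ 2 := by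
    rw [norm_sq_eq, norm_sq_eq]; simp; ring
  exact (sq_eq_sq₀ (norm_nonneg _) (norm_nonneg _)).1 h

theorem J_neg (v : E2) : J (-v) = - J v := by
  ext i; fin_cases i <;> simp

theorem frame_eq {e : E2} (he : ‖e‖ = 1) (z : E2) :
    z = inner ℝ z e • e + inner ℝ z (J e) • J e := by
  have h : e 0 ^ 2 + e 1 ^ 2 = 1 := by rw [← norm_sq_eq, he]; norm_num
  ext i
  fin_cases i
  · simp only [Fin.zero_eta, PiLp.add_apply, PiLp.smul_apply, smul_eq_mul, inner_eq, J_zero', J_one']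
    linear_combination (-(z 0)) * h
  · simp only [Fin.mk_one, PiLp.add_apply, PiLp.smul_apply, smul_eq_mul, inner_eq, J_zero', J_one']
    linear_combination (-(z 1)) * h

theorem norm_sq_frame {e : E2} (he : ‖e‖ = 1) (a b : ℝ) :
    ‖a • e + b • J e‖ ^ 2 = a ^ 2 + b ^ 2 := by
  have h : e 0 ^ 2 + e 1 ^ 2 = 1 := by rw [← norm_sq_eq, he]; norm_num
  rw [norm_sq_eq]
  simp only [PiLp.add_apply, PiLp.smul_apply, smul_eq_mul, J_zero', J_one']
  linear_combination (a ^ 2 + b ^ 2) * h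

theorem inner_frame_left {e : E2} (he : ‖e‖ = 1) (a b : ℝ) :
    inner ℝ (a • e + b • J e) e = a := by
  have h : e 0 ^ 2 + e 1 ^ 2 = 1 := by rw [← norm_sq_eq, he]; norm_num
  rw [inner_eq]
  simp only [PiLp.add_apply, PiLp.smul_apply, smul_eq_mul, J_zero', J_one']
  linear_combination a * h

theorem inner_frame_right {e : E2} (he : ‖e‖ = 1) (a b : ℝ) :
    inner ℝ (a • e + b • J e) (J e) = b := by
  have h : e 0 ^ 2 + e 1 ^ 2 = 1 := by rw [← norm_sq_eq, he]; norm_num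
  rw [inner_eq]
  simp only [PiLp.add_apply, PiLp.smul_apply, smul_eq_mul, J_zero', J_one']
  linear_combination b * h

/-- the point with coordinates `(p,q)` in the frame `(e, Je)` based at `x0` -/
def pt (x0 e : E2) (p q : ℝ) : E2 := x0 + (p • e + q • J e)

theorem pt_zero (x0 e : E2) : pt x0 e 0 0 = x0 := by simp [pt]

theorem pt_coords {x0 e : E2} (he : ‖e‖ = 1) (z : E2) :
    pt x0 e (inner ℝ (z - x0) e) (inner ℝ (z - x0) (J e)) = z := by
  rw [pt, ← frame_eq he]; abel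

theorem inner_pt_left {x0 e : E2} (he : ‖e‖ = 1) (p q : ℝ) : inner ℝ (pt x0 e p q - x0) e = p := by
  rw [pt, add_sub_cancel_left, inner_frame_left he]

theorem inner_pt_right {x0 e : E2} (he : ‖e‖ = 1) (p q : ℝ) :
    inner ℝ (pt x0 e p q - x0) (J e) = q := by
  rw [pt, add_sub_cancel_left, inner_frame_right he]

theorem dist_pt_sq {x0 e : E2} (he : ‖e‖ = 1) (p q p' q' : ℝ) :
    dist (pt x0 e p q) (pt x0 e p' q') ^ 2 = (p - p') ^ 2 + (q - q') ^ 2 := by
  rw [dist_eq_norm]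
  have : pt x0 e p q - pt x0 e p' q' = (p - p') • e + (q - q') • J e := by
    simp only [pt, sub_smul]; abel
  rw [this, norm_sq_frame he]

theorem abs_le_dist_pt {x0 e : E2} (he : ‖e‖ = 1) (p q p' q' : ℝ) :
    |p - p'| ≤ dist (pt x0 e p q) (pt x0 e p' q') ∧
      |q - q'| ≤ dist (pt x0 e p q) (pt x0 e p' q') := by
  have h := dist_pt_sq (x0 := x0) he p q p' q'
  constructor
  · exact abs_le_of_sq_le_sq (by nlinarith [sq_nonneg (q - q')]) dist_nonneg |> abs_le.2 ∘ abs_le.1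
  · exact abs_le_of_sq_le_sq (by nlinarith [sq_nonneg (p - p')]) dist_nonneg |> abs_le.2 ∘ abs_le.1

theorem dist_pt_le {x0 e : E2} (he : ‖e‖ = 1) {p q p' q' r : ℝ} (hr : 0 ≤ r)
    (hp : |p - p'| ≤ r / 2) (hq : |q - q'| ≤ r / 2) :
    dist (pt x0 e p q) (pt x0 e p' q') ≤ r := by
  have h := dist_pt_sq (x0 := x0) he p q p' q'
  have h1 : (p - p') ^ 2 ≤ (r / 2) ^ 2 := sq_le_sq' (by linarith [(abs_le.1 hp).1]) (abs_le.1 hp).2
  have h2 : (q - q') ^ 2 ≤ (r / 2) ^ 2 := sq_le_sq' (by linarith [(abs_le.1 hq).1]) (abs_le.1 hq).2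
  refine abs_le_of_sq_le_sq' ?_ hr |>.2
  nlinarith

theorem continuous_pt (x0 e : E2) : Continuous (fun z : ℝ × ℝ => pt x0 e z.1 z.2) := by
  unfold pt; fun_prop

/-- the set `K` in frame coordinates -/
def coord (x0 e : E2) (K : Set E2) : Set (ℝ × ℝ) := {z | pt x0 e z.1 z.2 ∈ K}

theorem mem_coord {x0 e : E2} {K : Set E2} {p q : ℝ} : (p, q) ∈ coord x0 e K ↔ pt x0 e p q ∈ K :=
  Iff.rfl

theorem closure_coord {x0 e : E2} {K : Set E2} {z : ℝ × ℝ} (hz : z ∈ closure (coord x0 e K)) :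
    pt x0 e z.1 z.2 ∈ closure K :=
  (continuous_pt x0 e).closure_preimage_subset K hz

/-- two-sided flatness of `K` at `y`, scale `ρ`, direction `e`, error `E` -/
def Flat (K : Set E2) (y e : E2) (ρ E : ℝ) : Prop :=
  ‖e‖ = 1 ∧ (∀ z ∈ K, dist z y ≤ ρ → |inner ℝ (z - y) (J e)| ≤ E) ∧
    (∀ t : ℝ, |t| ≤ ρ → ∃ z ∈ K, dist z (y + t • e) ≤ E)

theorem Flat.flatAt {K : Set E2} {x0 e₀ e : E2} {p q ρ E : ℝ} (he₀ : ‖e₀‖ = 1) (hρ : 0 ≤ ρ)
    (h : Flat K (pt x0 e₀ p q) e ρ E) :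
    FlatAt (coord x0 e₀ K) p q (inner ℝ e e₀) (inner ℝ e (J e₀)) (ρ / 2) E := by
  obtain ⟨he, h1, h2⟩ := h
  set u := inner ℝ e e₀ with hu
  set v := inner ℝ e (J e₀) with hv
  have hfe : e = u • e₀ + v • J e₀ := frame_eq he₀ e
  have huv : u ^ 2 + v ^ 2 = 1 := by
    rw [← norm_sq_frame he₀, ← hfe, he]; norm_num
  have he00 : e₀ 0 ^ 2 + e₀ 1 ^ 2 = 1 := by rw [← norm_sq_eq, he₀]; norm_num
  refine ⟨huv, ?_, ?_⟩
  · intro p' q' hm hp hq
    have h3 := h1 (pt x0 e₀ p' q') hm (dist_pt_le he₀ hρ hp hq)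
    have h4 : inner ℝ (pt x0 e₀ p' q' - pt x0 e₀ p q) (J e) = (q' - q) * u - (p' - p) * v := by
      have e1 : pt x0 e₀ p' q' - pt x0 e₀ p q = (p' - p) • e₀ + (q' - q) • J e₀ := by
        simp only [pt, sub_smul]; abel
      rw [e1, hfe, inner_eq]
      simp only [PiLp.add_apply, PiLp.smul_apply, smul_eq_mul, J_zero', J_one']
      linear_combination ((q' - q) * u - (p' - p) * v) * he00
    rwa [h4] at h3
  · intro t ht
    obtain ⟨z, hz, hd⟩ := h2 t (by
      refine ht.trans ?_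
      linarith)
    refine ⟨inner ℝ (z - x0) e₀, inner ℝ (z - x0) (J e₀), ?_, ?_⟩
    · rw [mem_coord, pt_coords he₀]; exact hz
    · have e2 : pt x0 e₀ p q + t • e = pt x0 e₀ (p + t * u) (q + t * v) := by
        rw [hfe]; simp only [pt, smul_add, add_smul, smul_smul]; abel
      have h5 := abs_le_dist_pt (x0 := x0) he₀ (inner ℝ (z - x0) e₀) (inner ℝ (z - x0) (J e₀))
        (p + t * u) (q + t * v)
      rw [pt_coords he₀, ← e2] at h5
      exact ⟨h5.1.trans hd, h5.2.trans hd⟩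

open Crest.AnalysisR.PDE.MumfordShah

/-- A `C^{1,α}` graph in a frame is a Hölder arc. -/
theorem isHolderArc_graph {x0 e : E2} (he : ‖e‖ = 1) {a b : ℝ} (hab : a < b) {f f' : ℝ → ℝ}
    {α : ℝ≥0} {C : ℝ} (hC : 0 ≤ C)
    (hf : ∀ x ∈ Icc a b, HasDerivWithinAt f (f' x) (Icc a b) x)
    (hf' : ∀ x ∈ Icc a b, ∀ y ∈ Icc a b, |f' x - f' y| ≤ C * |x - y| ^ (α : ℝ)) :
    IsHolderArc α (fun t => pt x0 e (a + (b - a) * t) (f (a + (b - a) * t)))
      (fun t => (b - a) • e + ((b - a) * f' (a + (b - a) * t)) • J e) := by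
  have hba : 0 < b - a := by linarith
  have hmap : ∀ t ∈ Icc (0:ℝ) 1, a + (b - a) * t ∈ Icc a b := by
    intro t ht
    constructor
    · nlinarith [ht.1, ht.2]
    · nlinarith [ht.1, ht.2]
  refine ⟨?_, ?_, ?_, ?_⟩
  · intro s hs t ht hst
    have h1 := congrArg (fun z => inner ℝ (z - x0) e) hst
    simp only [inner_pt_left he] at h1
    have h2 : (b - a) * s = (b - a) * t := by linarith
    exact mul_left_cancel₀ hba.ne' h2
  · intro t ht
    have hlin : HasDerivWithinAt (fun t : ℝ => a + (b - a) * t) (b - a) (Icc 0 1) t := by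
      have := ((hasDerivWithinAt_id t (Icc (0:ℝ) 1)).const_mul (b - a)).const_add a
      simpa using this
    have hcomp : HasDerivWithinAt (fun t : ℝ => f (a + (b - a) * t))
        (f' (a + (b - a) * t) * (b - a)) (Icc 0 1) t :=
      (hf _ (hmap t ht)).comp t hlin (fun s hs => hmap s hs)
    have h1 := (hlin.smul_const e).add (hcomp.smul_const (J e))
    have h2 := h1.const_add x0
    rw [mul_comm (f' _) (b - a)] at h2
    exact h2
  · intro t ht h0
    have := congrArg (fun z => inner ℝ z e) h0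
    simp only [inner_frame_left he, inner_zero_left] at this
    linarith
  · refine ⟨⟨(b - a) * (C * (b - a) ^ (α : ℝ)), by positivity⟩, ?_⟩
    intro s hs t ht
    rw [edist_dist, edist_dist]
    have hnn : (0:ℝ) ≤ (b - a) * (C * (b - a) ^ (α : ℝ)) := by positivity
    have key : dist ((b - a) • e + ((b - a) * f' (a + (b - a) * s)) • J e)
        ((b - a) • e + ((b - a) * f' (a + (b - a) * t)) • J e) ≤
        ((b - a) * (C * (b - a) ^ (α : ℝ))) * dist s t ^ (α : ℝ) := by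
      rw [dist_eq_norm]
      have e1 : (b - a) • e + ((b - a) * f' (a + (b - a) * s)) • J e -
          ((b - a) • e + ((b - a) * f' (a + (b - a) * t)) • J e) =
          ((b - a) * (f' (a + (b - a) * s) - f' (a + (b - a) * t))) • J e := by
        rw [mul_sub (b - a) (f' _) (f' _), sub_smul ((b - a) * f' _)]; abel
      rw [e1, norm_smul, norm_J, he, mul_one, Real.norm_eq_abs, abs_mul, abs_of_pos hba, mul_assoc]
      refine mul_le_mul_of_nonneg_left ?_ hba.le
      refine (hf' _ (hmap s hs) _ (hmap t ht)).trans ?_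
      have e2 : a + (b - a) * s - (a + (b - a) * t) = (b - a) * (s - t) := by ring
      rw [e2, abs_mul, abs_of_pos hba, Real.mul_rpow hba.le (abs_nonneg _), Real.dist_eq, mul_assoc]
    calc ENNReal.ofReal (dist _ _) ≤
        ENNReal.ofReal (((b - a) * (C * (b - a) ^ (α : ℝ))) * dist s t ^ (α : ℝ)) :=
          ENNReal.ofReal_le_ofReal key
      _ = _ := by
          rw [ENNReal.ofReal_mul hnn, ENNReal.ofReal_rpow_of_nonneg dist_nonneg α.coe_nonneg]
          congr 1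
          rw [ENNReal.ofReal, Real.toNNReal_of_nonneg hnn]
          rfl

end Crest.Agent.R135.Arc
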