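import Crest.Agent.R135.ArcFlat

/-!
# R135: the planar graph lemma near a half-line (block ARC)
-/

set_option autoImplicit false

open Set Filter Topology
open scoped NNReal

namespace Crest.Agent.R135.Arc

set_option maxHeartbeats 2000000 in
/-- Near the half-line, `K` is the graph of a function with small slopes, which is locally
`C^{1,γ}` in Campanato form. -/
theorem RayHyp.graph {K : Set (ℝ × ℝ)} {r0 C γ c : ℝ} (H : RayHyp K r0 C γ c) :
    ∃ r3 c1 C' : ℝ, 0 < r3 ∧ r3 < r0 ∧ 0 < c1 ∧ 0 < C' ∧ ∃ f : ℝ → ℝ, f 0 = 0 ∧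
      (∀ p q, 0 < p → p ≤ r3 → |q| ≤ p / 4 → ((p, q) ∈ K ↔ q = f p)) ∧
      (∀ p, 0 < p → p ≤ r3 → |f p| ≤ p / 10 ∧ |f p| ≤ C' * p ^ (1 + γ)) ∧
      (∀ x, 0 < x → x ≤ r3 → ∀ ρ, 0 < ρ → ρ ≤ c1 * x → ∃ m, ∀ h, |h| ≤ ρ → 0 ≤ x + h →
        x + h ≤ r3 → |f (x + h) - f x - m * h| ≤ C' * ρ * (ρ / x) ^ γ) := by
  obtain ⟨r1, c1, hr1, hr10, hc1, hc1t, hCc, hCr, hgood⟩ := H.good
  have hC := H.Cpos
  have hγ := H.γpos
  have h2γ : (0:ℝ) < (2:ℝ) ^ γ := by positivity
  -- smallness in the sector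
  have hk : ∀ s, 0 < s → s ≤ 2 * r1 → C * s ^ (1+γ) ≤ s * (c1 / 800) := by
    intro s hs hs2
    rw [Real.rpow_add hs, Real.rpow_one]
    have : s ^ γ ≤ (2 * r1) ^ γ := Real.rpow_le_rpow hs.le (by linarith) hγ.le
    have h5 : C * s ^ γ ≤ c1 / 800 := by
      have : C * s ^ γ ≤ C * (2 * r1) ^ γ := by gcongr
      linarith
    calc C * (s * s ^ γ) = s * (C * s ^ γ) := by ring
      _ ≤ s * (c1 / 800) := by gcongr
  have hsm : ∀ p q, (p, q) ∈ K → 0 < p → p < r1 → |q| ≤ p / 4 → |q| ≤ p * (c1 / 800) := by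
    intro p q hpq hp hpr hq
    exact (H.far p q hpq hp (by linarith) hq).trans (hk p hp (by linarith))
  -- error at scale ρ
  have hE : ∀ p ρ, 0 < p → 0 < ρ → ρ ≤ c1 * p →
      2 * (2:ℝ) ^ γ * C * ρ * (ρ / p) ^ γ ≤ ρ / 400 := by
    intro p ρ hp hρ hρc
    have h1 : (ρ / p) ^ γ ≤ c1 ^ γ := by
      refine Real.rpow_le_rpow (by positivity) ?_ hγ.le
      rw [div_le_iff₀ hp]; exact hρc
    calc 2 * (2:ℝ) ^ γ * C * ρ * (ρ / p) ^ γ ≤ 2 * (2:ℝ) ^ γ * C * ρ * c1 ^ γ := by gcongr
      _ = 2 * ρ * ((2:ℝ) ^ γ * C * c1 ^ γ) := by ring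
      _ ≤ 2 * ρ * (1 / 800) := by gcongr
      _ = ρ / 400 := by ring
  -- Lipschitz property
  have hlip : ∀ p q p' q', (p, q) ∈ K → (p', q') ∈ K → 0 < p → p < r1 → 0 < p' → p' < r1 →
      |q| ≤ p / 4 → |q'| ≤ p' / 4 → |q' - q| ≤ |p' - p| / 10 := by
    intro p q p' q' h h' hp hpr hp' hpr' hq hq'
    by_contra hcon
    push Not at hcon
    have hq2 := hsm p q h hp hpr hq
    have hq2' := hsm p' q' h' hp' hpr' hq'
    have hlow : |q' - q| ≤ (p' + p) * (c1 / 800) := by
      have := abs_sub q' q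
      linarith
    set δ := max |p' - p| |q' - q| with hδ
    have hδ1 : |p' - p| ≤ δ := le_max_left _ _
    have hδ2 : |q' - q| ≤ δ := le_max_right _ _
    have hqpos : 0 < |q' - q| := lt_of_le_of_lt (by positivity) hcon
    have hδpos : 0 < δ := hqpos.trans_le hδ2
    by_cases hδc : δ ≤ c1 * p
    · obtain ⟨u, v, hu, hv, hF⟩ := hgood p q h hp hpr hq δ hδpos hδc
      have h1 := hF.2.1 p' q' h' hδ1 hδ2
      have h2 := h1.trans (hE p δ hp hδpos hδc)
      have hu2 : 9/10 ≤ u := by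
        have := hF.1
        have hv' := abs_le.1 hv
        nlinarith
      have hu1 := (abs_le_one_of_sq_add hF.1).1
      have h3 : |(q' - q) * u| ≤ δ / 400 + |p' - p| * (1/25) := by
        have : (q' - q) * u = ((q' - q) * u - (p' - p) * v) + (p' - p) * v := by ring
        rw [this]
        refine (abs_add_le _ _).trans ?_
        rw [abs_mul (p' - p) v]
        gcongr
      rw [abs_mul, abs_of_pos hu] at h3
      have h4 : |q' - q| * (9/10) ≤ δ / 400 + |p' - p| * (1/25) := by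
        refine le_trans ?_ h3
        gcongr
      have h5 : δ ≤ |p' - p| + |q' - q| := by
        refine max_le ?_ ?_
        · linarith [abs_nonneg (q' - q)]
        · linarith [abs_nonneg (p' - p)]
      linarith [abs_nonneg (p' - p)]
    · push Not at hδc
      -- δ > c1 p
      rcases le_or_gt p' (2 * p) with hpp | hpp
      · have h5 : |q' - q| ≤ 3 * (δ / 800) := by
          have : (p' + p) * (c1 / 800) ≤ (3 * p) * (c1 / 800) := by
            gcongr
            linarith
          have : (3 * p) * (c1 / 800) = 3 * (c1 * p / 800) := by ring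
          have : c1 * p / 800 ≤ δ / 800 := by linarith
          linarith
        have h6 : δ = |p' - p| := by
          rcases le_total |p' - p| |q' - q| with hle | hle
          · exfalso
            have : δ = |q' - q| := by rw [hδ, max_eq_right hle]
            rw [this] at h5
            linarith
          · rw [hδ, max_eq_left hle]
        rw [h6] at h5
        linarith [abs_nonneg (p' - p)]
      · have h7 : p' / 2 ≤ |p' - p| := by
          have := le_abs_self (p' - p)
          linarith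
        have : (p' + p) * (c1 / 800) ≤ (2 * p') * (c1 / 800) := by
          gcongr
          linarith
        have h8 : (2 * p') * (c1 / 800) ≤ p' / 400 := by nlinarith
        linarith
  -- existence
  have hex : ∀ p, 0 < p → p ≤ r1 / 2 → ∃ q, (p, q) ∈ K ∧ |q| ≤ p / 4 := by
    intro P hP hPr
    obtain ⟨p₀, q₀, hm₀, hp₀, hq₀⟩ := H.near (P / 2) (by linarith) (by linarith)
    have hs := hk (P / 2) (by linarith) (by linarith)
    have hs2 : P / 2 * (c1 / 800) ≤ P / 2 / 100 := by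
      have : c1 / 800 ≤ 1 / 100 := by linarith
      nlinarith
    have hp₀' := abs_le.1 (hp₀.trans (hs.trans hs2))
    have hq₀' : |q₀| ≤ P / 2 / 100 := hq₀.trans (hs.trans hs2)
    set B : Set (ℝ × ℝ) := {z | z ∈ closure K ∧ p₀ ≤ z.1 ∧ z.1 ≤ P ∧ |z.2| ≤ z.1 / 4} with hB
    have hBc : IsCompact B := by
      have hsub : B ⊆ Icc p₀ P ×ˢ Icc (-P) P := by
        rintro ⟨a, b⟩ ⟨_, h1, h2, h3⟩
        simp only at h1 h2 h3
        have h4 := abs_le.1 h3
        refine ⟨⟨h1, h2⟩, ⟨?_, ?_⟩⟩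
        · simp only; linarith [h4.1]
        · simp only; linarith [h4.2]
      refine IsCompact.of_isClosed_subset (isCompact_Icc.prod isCompact_Icc) ?_ hsub
      have : B = closure K ∩ ({z | p₀ ≤ z.1} ∩ ({z | z.1 ≤ P} ∩ {z | |z.2| ≤ z.1 / 4})) := by
        ext z; simp only [hB, mem_ofPred_eq, mem_inter_iff]
      rw [this]
      refine isClosed_closure.inter ((isClosed_le continuous_const continuous_fst).inter
        ((isClosed_le continuous_fst continuous_const).inter
        (isClosed_le (continuous_snd.abs) (continuous_fst.div_const 4))))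
    have hBne : B.Nonempty := by
      refine ⟨(p₀, q₀), subset_closure hm₀, le_rfl, ?_, ?_⟩
      · simp only; linarith
      · simp only; linarith
    obtain ⟨z, hzB, hzmax⟩ := hBc.exists_isMaxOn hBne continuous_fst.continuousOn
    obtain ⟨hz1, hz2, hz3, hz4⟩ := hzB
    have hz0 : 0 < z.1 := by linarith
    have hzr1 : z.1 < r1 := by linarith
    have hzK : z ∈ K := H.closed z hz1 hz0 (by linarith) hz4
    rcases eq_or_lt_of_le hz3 with heq | hlt
    · refine ⟨z.2, ?_, ?_⟩
      · rw [← heq]; exact hzK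
      · rw [← heq]; exact hz4
    · exfalso
      set ρ := min (c1 * z.1) (P - z.1) with hρ
      have hρ0 : 0 < ρ := lt_min (by positivity) (by linarith)
      have hρ1 : ρ ≤ c1 * z.1 := min_le_left _ _
      have hρ2 : ρ ≤ P - z.1 := min_le_right _ _
      obtain ⟨u, v, hu, hv, hF⟩ := hgood z.1 z.2 hzK hz0 hzr1 hz4 ρ hρ0 hρ1
      have hEE := hE z.1 ρ hz0 hρ0 hρ1
      obtain ⟨p', q', hm, hp', hq'⟩ := hF.2.2 (ρ / 2) (by rw [abs_of_pos (by linarith)]; linarith)
      have hu2 : 9/10 ≤ u := by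
        have := hF.1
        have hv' := abs_le.1 hv
        nlinarith
      have hu1 := abs_le.1 (abs_le_one_of_sq_add hF.1).1
      have hv' := abs_le.1 hv
      have h1 := abs_le.1 (hp'.trans hEE)
      have h2 := abs_le.1 (hq'.trans hEE)
      have h3 : ρ / 2 * (9/10) ≤ ρ / 2 * u := by gcongr
      have h3' : ρ / 2 * u ≤ ρ / 2 := by nlinarith [hu1.2]
      have h4 : ρ / 2 * v ≤ ρ / 2 * (1/25) := by gcongr; exact hv'.2
      have h4' : ρ / 2 * (-(1/25)) ≤ ρ / 2 * v := by gcongr; exact hv'.1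
      have h5 := abs_le.1 hz4
      have hp1 : z.1 < p' := by linarith [h1.1]
      have hp2 : p' ≤ P := by linarith [h1.2]
      have hq1 : |q'| ≤ p' / 4 := by
        rw [abs_le]
        constructor
        · linarith [h1.1, h2.1, h5.1]
        · linarith [h1.1, h2.2, h5.2]
      have hmem : (p', q') ∈ B := ⟨subset_closure hm, by simp only; linarith, hp2, hq1⟩
      have := hzmax hmem
      simp only [mem_ofPred_eq] at this
      linarith
  classical
  set f : ℝ → ℝ := fun p => if h : 0 < p ∧ p ≤ r1 / 2 then (hex p h.1 h.2).choose else 0 with hf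
  have hfs : ∀ p, 0 < p → p ≤ r1 / 2 → (p, f p) ∈ K ∧ |f p| ≤ p / 4 := by
    intro p h1 h2
    have : f p = (hex p h1 h2).choose := by simp only [hf]; rw [dif_pos ⟨h1, h2⟩]
    rw [this]
    exact (hex p h1 h2).choose_spec
  have hf0 : f 0 = 0 := by simp only [hf]; rw [dif_neg (by simp)]
  refine ⟨r1 / 2, c1, max C (4 * (2:ℝ) ^ γ * C), by linarith, by linarith, hc1,
    lt_max_of_lt_left hC, f, hf0, ?_, ?_, ?_⟩
  · intro p q hp hpr hq
    obtain ⟨h1, h2⟩ := hfs p hp hpr
    constructor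
    · intro h
      have h3 := hlip p (f p) p q h1 h hp (by linarith) hp (by linarith) h2 hq
      rw [sub_self, abs_zero, zero_div] at h3
      have := abs_eq_zero.1 (le_antisymm h3 (abs_nonneg _))
      linarith
    · rintro rfl; exact h1
  · intro p hp hpr
    obtain ⟨h1, h2⟩ := hfs p hp hpr
    refine ⟨?_, ?_⟩
    · have := hsm p (f p) h1 hp (by linarith) h2
      nlinarith
    · refine (H.far p (f p) h1 hp (by linarith) h2).trans ?_
      gcongr
      exact le_max_left _ _
  · intro x hx hxr ρ hρ hρc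
    obtain ⟨h1, h2⟩ := hfs x hx hxr
    obtain ⟨u, v, hu, hv, hF⟩ := hgood x (f x) h1 hx (by linarith) h2 ρ hρ hρc
    have hu2 : 9/10 ≤ u := by
      have := hF.1
      have hv' := abs_le.1 hv
      nlinarith
    refine ⟨v / u, ?_⟩
    intro h hh hxh0 hxh
    have hh' := abs_le.1 hh
    have hxpos : 0 < x + h := by nlinarith
    obtain ⟨h3, h4⟩ := hfs (x + h) hxpos hxh
    have h5 := hlip x (f x) (x + h) (f (x + h)) h1 h3 hx (by linarith) hxpos (by linarith) h2 h4
    have e1 : x + h - x = h := by ring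
    rw [e1] at h5
    have h6 := hF.2.1 (x + h) (f (x + h)) h3 (by rw [e1]; exact hh) (by linarith [abs_nonneg h])
    rw [e1] at h6
    have h7 : f (x + h) - f x - v / u * h = ((f (x + h) - f x) * u - h * v) / u := by
      field_simp
    rw [h7, abs_div, abs_of_pos hu, div_le_iff₀ hu]
    refine h6.trans ?_
    have h8 : 0 < ρ * (ρ / x) ^ γ := by positivity
    have h9 : 4 * (2:ℝ) ^ γ * C ≤ max C (4 * (2:ℝ) ^ γ * C) := le_max_right _ _
    have h10 : 2 * (2:ℝ) ^ γ * C ≤ max C (4 * (2:ℝ) ^ γ * C) * u := by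
      calc 2 * (2:ℝ) ^ γ * C ≤ (4 * (2:ℝ) ^ γ * C) * (9/10) := by nlinarith [mul_pos h2γ hC]
        _ ≤ max C (4 * (2:ℝ) ^ γ * C) * u := by gcongr
    calc 2 * (2:ℝ) ^ γ * C * ρ * (ρ / x) ^ γ = (2 * (2:ℝ) ^ γ * C) * (ρ * (ρ / x) ^ γ) := by ring
      _ ≤ (max C (4 * (2:ℝ) ^ γ * C) * u) * (ρ * (ρ / x) ^ γ) := by gcongr
      _ = _ := by ring

end Crest.Agent.R135.Arc
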