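import Crest.Agent.R135.ArcPoint

/-!
# R135: from a star whose directions depend on the scale to a fixed star (block ARC)

Main results: `isArcInteriorPoint_of_flat`, `isArcEndPoint_of_moving`,
`isTripleJunctionPoint_of_moving`, `isArcInteriorPoint_of_moving`.
-/

set_option autoImplicit false

open Set Filter Topology Metric
open scoped NNReal

namespace Crest.Agent.R135.Arc

open Crest.AnalysisR.PDE.MumfordShah

/-- the rotation with cosine `c` and sine `s` -/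
def rt (c s : ℝ) (v : E2) : E2 := c • v + s • J v

theorem J_add (v w : E2) : J (v + w) = J v + J w := by
  ext i; fin_cases i <;> simp; ring

theorem J_smul (a : ℝ) (v : E2) : J (a • v) = a • J v := by
  ext i; fin_cases i <;> simp

theorem J_J (v : E2) : J (J v) = -v := by
  ext i; fin_cases i <;> simp

theorem norm_rt {c s : ℝ} (h : c ^ 2 + s ^ 2 = 1) (v : E2) : ‖rt c s v‖ = ‖v‖ := by
  have h1 : ‖rt c s v‖ ^ 2 = ‖v‖ ^ 2 := by
    rw [norm_sq_eq, norm_sq_eq]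
    simp only [rt, PiLp.add_apply, PiLp.smul_apply, smul_eq_mul, J_zero', J_one']
    linear_combination (v 0 ^ 2 + v 1 ^ 2) * h
  exact (sq_eq_sq₀ (norm_nonneg _) (norm_nonneg _)).1 h1

theorem rt_sub (c s : ℝ) (v w : E2) : rt c s v - rt c s w = rt c s (v - w) := by
  ext i; fin_cases i <;> simp [rt] <;> ring

theorem rt_rt (c s c' s' : ℝ) (v : E2) :
    rt c s (rt c' s' v) = rt (c * c' - s * s') (c * s' + s * c') v := by
  ext i; fin_cases i <;> simp [rt] <;> ring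

theorem rt_one (v : E2) : rt 1 0 v = v := by simp [rt]

theorem inner_rt {c s c' s' : ℝ} {e : E2} (he : ‖e‖ = 1) :
    inner ℝ (rt c s e) (rt c' s' e) = c * c' + s * s' := by
  have h : e 0 ^ 2 + e 1 ^ 2 = 1 := by rw [← norm_sq_eq, he]; norm_num
  rw [inner_eq]
  simp only [rt, PiLp.add_apply, PiLp.smul_apply, smul_eq_mul, J_zero', J_one']
  linear_combination (c * c' + s * s') * h

/-- a finite group of rotations, given by the cosines and sines -/
structure RotGroup {ι : Type*} (a b : ι → ℝ) : Prop where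
  unit : ∀ k, a k ^ 2 + b k ^ 2 = 1
  one : ∃ k, a k = 1 ∧ b k = 0
  inv : ∀ k, ∃ k', a k' = a k ∧ b k' = - b k
  mul : ∀ j k, ∃ l, a l = a j * a k - b j * b k ∧ b l = a j * b k + b j * a k
  sep : ∀ j k, j ≠ k → a j * a k + b j * b k ≤ -(1 / 2 : ℝ)

/-- in the ball `B(x0,ρ)` the set `K` is `E`-close (both ways) to the star with rays
`x0 + ℝ₊ R_k e` -/
def StarAt {ι : Type*} (a b : ι → ℝ) (K : Set E2) (x0 e : E2) (ρ E : ℝ) : Prop :=
  ‖e‖ = 1 ∧
  (∀ z ∈ K, dist z x0 ≤ ρ → ∃ k, ∃ t : ℝ, 0 ≤ t ∧ dist z (x0 + t • rt (a k) (b k) e) ≤ E) ∧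
  (∀ k, ∀ t : ℝ, 0 ≤ t → t ≤ ρ → ∃ z ∈ K, dist z (x0 + t • rt (a k) (b k) e) ≤ E)

variable {ι : Type*} {a b : ι → ℝ} {K : Set E2} {x0 : E2} {r0 C γ c : ℝ}

theorem StarAt.rot (hG : RotGroup a b) {e : E2} {ρ E : ℝ} (h : StarAt a b K x0 e ρ E) (k : ι) :
    StarAt a b K x0 (rt (a k) (b k) e) ρ E := by
  obtain ⟨h0, h1, h2⟩ := h
  refine ⟨by rw [norm_rt (hG.unit k), h0], ?_, ?_⟩
  · intro z hz hd
    obtain ⟨j, t, ht, hd'⟩ := h1 z hz hd
    obtain ⟨k', hk1, hk2⟩ := hG.inv k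
    obtain ⟨l, hl1, hl2⟩ := hG.mul j k'
    refine ⟨l, t, ht, ?_⟩
    have : rt (a l) (b l) (rt (a k) (b k) e) = rt (a j) (b j) e := by
      rw [rt_rt, hl1, hl2, hk1, hk2]
      have hu := hG.unit k
      congr 1
      · linear_combination (a j) * hu
      · linear_combination (b j) * hu
    rw [this]; exact hd'
  · intro j t ht htρ
    obtain ⟨l, hl1, hl2⟩ := hG.mul j k
    obtain ⟨z, hz, hd⟩ := h2 l t ht htρ
    refine ⟨z, hz, ?_⟩
    rw [rt_rt, ← hl1, ← hl2]; exact hd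

/-- comparison of the stars at two consecutive scales -/
theorem StarAt.step (hG : RotGroup a b) {e e' : E2} {ρ E ρ' E' : ℝ} (h : StarAt a b K x0 e ρ E)
    (h' : StarAt a b K x0 e' ρ' E') (hρ' : 0 < ρ') (hρ : ρ' + E' ≤ ρ) (_hE : 0 ≤ E) :
    ∃ e'', StarAt a b K x0 e'' ρ' E' ∧ dist e'' e ≤ 2 * (E + E') / ρ' := by
  obtain ⟨i, hi1, hi2⟩ := hG.one
  obtain ⟨z, hz, hd⟩ := h'.2.2 i ρ' hρ'.le le_rfl
  rw [hi1, hi2, rt_one] at hd
  have hzx : dist z x0 ≤ ρ := by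
    have : dist (x0 + ρ' • e') x0 = ρ' := by
      rw [dist_eq_norm, add_sub_cancel_left, norm_smul, h'.1, mul_one, Real.norm_eq_abs,
        abs_of_pos hρ']
    linarith [dist_triangle z (x0 + ρ' • e') x0]
  obtain ⟨k, s, hs, hd2⟩ := h.2.1 z hz hzx
  have hη : ‖ρ' • e' - s • rt (a k) (b k) e‖ ≤ E + E' := by
    have h3 := dist_triangle_left (x0 + ρ' • e') (x0 + s • rt (a k) (b k) e) z
    rw [dist_eq_norm] at h3
    have : x0 + ρ' • e' - (x0 + s • rt (a k) (b k) e) = ρ' • e' - s • rt (a k) (b k) e := by abel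
    rw [this] at h3
    linarith
  have hnr : ‖rt (a k) (b k) e‖ = 1 := by rw [norm_rt (hG.unit k), h.1]
  have hst : |ρ' - s| ≤ E + E' := by
    have h4 := abs_norm_sub_norm_le (ρ' • e') (s • rt (a k) (b k) e)
    rw [norm_smul, norm_smul, h'.1, hnr, mul_one, mul_one, Real.norm_eq_abs, Real.norm_eq_abs,
      abs_of_pos hρ', abs_of_nonneg hs] at h4
    linarith
  have h5 : ‖ρ' • (e' - rt (a k) (b k) e)‖ ≤ 2 * (E + E') := by
    have : ρ' • (e' - rt (a k) (b k) e) =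
        (ρ' • e' - s • rt (a k) (b k) e) - (ρ' - s) • rt (a k) (b k) e := by
      rw [smul_sub, sub_smul]; abel
    rw [this]
    refine (norm_sub_le _ _).trans ?_
    rw [norm_smul, hnr, mul_one, Real.norm_eq_abs]
    linarith
  rw [norm_smul, Real.norm_eq_abs, abs_of_pos hρ'] at h5
  obtain ⟨k', hk1, hk2⟩ := hG.inv k
  refine ⟨rt (a k') (b k') e', h'.rot hG k', ?_⟩
  rw [le_div_iff₀ hρ', mul_comm]
  have h6 : rt (a k') (b k') (rt (a k) (b k) e) = e := by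
    rw [rt_rt, hk1, hk2]
    have hu := hG.unit k
    have e1 : a k * a k - -b k * b k = 1 := by linear_combination hu
    have e2 : a k * b k + -b k * a k = 0 := by ring
    rw [e1, e2, rt_one]
  have h7 : dist (rt (a k') (b k') e') e = ‖e' - rt (a k) (b k) e‖ := by
    conv_lhs => rw [← h6]
    rw [dist_eq_norm, rt_sub, norm_rt (hG.unit k')]
  rw [h7]; exact h5

/-- dependent choice -/
theorem exists_seq_dep {X : Type*} (P : ℕ → X → Prop) (Q : ℕ → X → X → Prop) {x : X} (hx : P 0 x)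
    (h : ∀ n x, P n x → ∃ y, P (n + 1) y ∧ Q n x y) :
    ∃ s : ℕ → X, (∀ n, P n (s n)) ∧ ∀ n, Q n (s n) (s (n + 1)) := by
  choose! g hg using h
  let s : ℕ → X := fun n => Nat.rec x (fun n y => g n y) n
  have hs : ∀ n, P n (s n) := by
    intro n
    induction n with
    | zero => exact hx
    | succ n ih => exact (hg n (s n) ih).1
  exact ⟨s, hs, fun n => (hg n (s n) (hs n)).2⟩

/-- power closeness to stars with directions depending on the scale implies power closeness to a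
fixed star -/
theorem exists_fixed_star (hG : RotGroup a b) (hr0 : 0 < r0) (hC : 0 < C) (hγ : 0 < γ)
    (h : ∀ ρ, 0 < ρ → ρ < r0 → ∃ e, StarAt a b K x0 e ρ (C * ρ ^ (1 + γ))) :
    ∃ (e : E2) (r C' : ℝ), 0 < r ∧ r < r0 ∧ 0 < C' ∧ C ≤ C' ∧ ‖e‖ = 1 ∧
      (∀ z ∈ K, z ≠ x0 → dist z x0 < r → ∃ k, ∃ t : ℝ, 0 ≤ t ∧
        dist z (x0 + t • rt (a k) (b k) e) ≤ C' * (dist z x0) ^ (1 + γ)) ∧
      (∀ k, ∀ t, 0 < t → t < r → ∃ z ∈ K,
        dist z (x0 + t • rt (a k) (b k) e) ≤ C' * t ^ (1 + γ)) := by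
  obtain ⟨r, hr, hrr0, hrs⟩ := exists_small hC hγ (ε := 1/2) (by norm_num) hr0
  set q : ℝ := (2:ℝ) ^ (-γ) with hq
  have hq0 : 0 < q := by positivity
  have hq1 : q < 1 := by
    rw [hq]; exact Real.rpow_lt_one_of_one_lt_of_neg (by norm_num) (by linarith)
  set R : ℕ → ℝ := fun n => r * (1/2 : ℝ) ^ n with hR
  have hR0 : ∀ n, 0 < R n := fun n => by positivity
  have hRs : ∀ n, R (n+1) = R n / 2 := fun n => by simp only [hR, pow_succ]; ring
  have hRle : ∀ n, R n ≤ r := fun n => by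
    have : (1/2:ℝ) ^ n ≤ 1 := pow_le_one₀ (by norm_num) (by norm_num)
    simp only [hR]; nlinarith
  have hRγ : ∀ n, (R n) ^ γ = r ^ γ * q ^ n := by
    intro n
    simp only [hR]
    rw [Real.mul_rpow hr.le (by positivity)]
    congr 1
    rw [hq, ← Real.rpow_natCast, ← Real.rpow_natCast, ← Real.rpow_mul (by norm_num),
      ← Real.rpow_mul (by norm_num), one_div, Real.inv_rpow (by norm_num),
      ← Real.rpow_neg (by norm_num)]
    congr 1; ring
  have hRpow : ∀ n, (R n) ^ (1 + γ) = R n * (R n) ^ γ := fun n => by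
    rw [Real.rpow_add (hR0 n), Real.rpow_one]
  obtain ⟨e0, he0⟩ := h r hr hrr0
  have hR00 : R 0 = r := by simp [hR]
  obtain ⟨s, hs1, hs2⟩ := exists_seq_dep
    (P := fun n e => StarAt a b K x0 e (R n) (C * (R n) ^ (1 + γ)))
    (Q := fun n e e' => dist e' e ≤ (8 * C * r ^ γ) * q ^ n)
    (x := e0) (by rw [hR00]; exact he0) (by
      intro n e he
      obtain ⟨e', he'⟩ := h (R (n+1)) (hR0 _) (lt_of_le_of_lt (hRle _) hrr0)
      have hsm := hrs (R (n+1)) (hR0 _) (hRle _)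
      have hpn : 0 < (R n) ^ (1 + γ) := Real.rpow_pos_of_pos (hR0 n) _
      obtain ⟨e'', h1, h2⟩ := he.step hG he' (hR0 _) (by
        rw [hRs] at hsm ⊢; linarith [hR0 n]) (by positivity)
      refine ⟨e'', h1, h2.trans ?_⟩
      rw [div_le_iff₀ (hR0 _)]
      have hle : (R (n+1)) ^ (1 + γ) ≤ (R n) ^ (1 + γ) :=
        Real.rpow_le_rpow (hR0 _).le (by rw [hRs]; linarith [hR0 n]) (by linarith)
      have e1 : 8 * C * r ^ γ * q ^ n * R (n+1) = 4 * (C * (R n) ^ (1 + γ)) := by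
        rw [hRpow, hRγ, hRs]; ring
      rw [e1]
      have : C * (R (n+1)) ^ (1 + γ) ≤ C * (R n) ^ (1 + γ) := by gcongr
      linarith)
  -- the limit direction
  have hgeo : ∀ n, dist (s n) (s (n+1)) ≤ (8 * C * r ^ γ) * q ^ n := fun n => by
    rw [dist_comm]; exact hs2 n
  have hcau : CauchySeq s := cauchySeq_of_le_geometric q _ hq1 hgeo
  obtain ⟨e, he⟩ := cauchySeq_tendsto_of_complete hcau
  have hlim : ∀ n, dist (s n) e ≤ (8 * C * r ^ γ) * q ^ n / (1 - q) :=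
    fun n => dist_le_of_le_geometric_of_tendsto q _ hq1 hgeo he n
  have hen : ‖e‖ = 1 := by
    have h1 : Tendsto (fun n => ‖s n‖) atTop (𝓝 ‖e‖) := he.norm
    have h2 : (fun n => ‖s n‖) = fun _ => (1:ℝ) := funext fun n => (hs1 n).1
    rw [h2] at h1
    exact (tendsto_nhds_unique h1 tendsto_const_nhds)
  set A : ℝ := 8 * C / (1 - q) with hA
  have h1q : 0 < 1 - q := by linarith
  have hA0 : 0 < A := by positivity
  have hlim2 : ∀ n, dist (s n) e ≤ A * (R n) ^ γ := by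
    intro n
    refine (hlim n).trans (le_of_eq ?_)
    rw [hRγ, hA]; field_simp
  have h2γ : (1:ℝ) ≤ (2:ℝ) ^ (1 + γ) := Real.one_le_rpow (by norm_num) (by linarith)
  refine ⟨e, r, (C + 2 * A) * (2:ℝ) ^ (1 + γ), hr, hrr0, by positivity, ?_, hen, ?_, ?_⟩
  · nlinarith
  · intro z hz hzx hzr
    have hd0 : 0 < dist z x0 := dist_pos.2 hzx
    have hx1 : dist z x0 / r ≤ 1 := by rw [div_le_one hr]; exact hzr.le
    obtain ⟨n, hn1, hn2⟩ := exists_nat_pow_near_of_lt_one (y := (1/2:ℝ)) (x := dist z x0 / r)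
      (by positivity) hx1 (by norm_num) (by norm_num)
    have hn3 : dist z x0 ≤ R n := by
      rw [div_le_iff₀ hr] at hn2
      simp only [hR]; linarith
    have hn4 : R n < 2 * dist z x0 := by
      rw [lt_div_iff₀ hr, pow_succ] at hn1
      simp only [hR]; linarith
    obtain ⟨k, t, ht, hd⟩ := (hs1 n).2.1 z hz hn3
    refine ⟨k, t, ht, ?_⟩
    have hsm := hrs (R n) (hR0 _) (hRle _)
    have hu := hG.unit k
    have htle : t ≤ 2 * R n := by
      have h3 : dist (x0 + t • rt (a k) (b k) (s n)) x0 = t := by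
        rw [dist_eq_norm, add_sub_cancel_left, norm_smul, norm_rt hu, (hs1 n).1, mul_one,
          Real.norm_eq_abs, abs_of_nonneg ht]
      have h4 := dist_triangle_left (x0 + t • rt (a k) (b k) (s n)) x0 z
      have := hR0 n
      linarith
    have h5 : dist (x0 + t • rt (a k) (b k) (s n)) (x0 + t • rt (a k) (b k) e) ≤
        2 * R n * (A * (R n) ^ γ) := by
      rw [dist_eq_norm]
      have : x0 + t • rt (a k) (b k) (s n) - (x0 + t • rt (a k) (b k) e) =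
          t • rt (a k) (b k) (s n - e) := by
        rw [← rt_sub, smul_sub]; abel
      rw [this, norm_smul, norm_rt hu, Real.norm_eq_abs, abs_of_nonneg ht, ← dist_eq_norm]
      have := hR0 n
      gcongr
      exact hlim2 n
    have h6 := dist_triangle z (x0 + t • rt (a k) (b k) (s n)) (x0 + t • rt (a k) (b k) e)
    have h7 : (R n) ^ (1 + γ) ≤ (2:ℝ) ^ (1 + γ) * (dist z x0) ^ (1 + γ) := by
      rw [← Real.mul_rpow (by norm_num) hd0.le]
      exact Real.rpow_le_rpow (hR0 n).le hn4.le (by linarith)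
    calc dist z (x0 + t • rt (a k) (b k) e) ≤ C * (R n) ^ (1 + γ) + 2 * R n * (A * (R n) ^ γ) := by
          linarith
      _ = (C + 2 * A) * (R n) ^ (1 + γ) := by rw [hRpow]; ring
      _ ≤ (C + 2 * A) * ((2:ℝ) ^ (1 + γ) * (dist z x0) ^ (1 + γ)) := by gcongr
      _ = _ := by ring
  · intro k t ht htr
    have hx1 : t / r ≤ 1 := by rw [div_le_one hr]; exact htr.le
    obtain ⟨n, hn1, hn2⟩ := exists_nat_pow_near_of_lt_one (y := (1/2:ℝ)) (x := t / r)
      (by positivity) hx1 (by norm_num) (by norm_num)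
    have hn3 : t ≤ R n := by
      rw [div_le_iff₀ hr] at hn2
      simp only [hR]; linarith
    have hn4 : R n < 2 * t := by
      rw [lt_div_iff₀ hr, pow_succ] at hn1
      simp only [hR]; linarith
    obtain ⟨z, hz, hd⟩ := (hs1 n).2.2 k t ht.le hn3
    refine ⟨z, hz, ?_⟩
    have hu := hG.unit k
    have h5 : dist (x0 + t • rt (a k) (b k) (s n)) (x0 + t • rt (a k) (b k) e) ≤
        2 * R n * (A * (R n) ^ γ) := by
      rw [dist_eq_norm]
      have : x0 + t • rt (a k) (b k) (s n) - (x0 + t • rt (a k) (b k) e) =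
          t • rt (a k) (b k) (s n - e) := by
        rw [← rt_sub, smul_sub]; abel
      rw [this, norm_smul, norm_rt hu, Real.norm_eq_abs, abs_of_nonneg ht.le, ← dist_eq_norm]
      have := hR0 n
      have h8 := hlim2 n
      gcongr
      linarith
    have h6 := dist_triangle z (x0 + t • rt (a k) (b k) (s n)) (x0 + t • rt (a k) (b k) e)
    have h7 : (R n) ^ (1 + γ) ≤ (2:ℝ) ^ (1 + γ) * t ^ (1 + γ) := by
      rw [← Real.mul_rpow (by norm_num) ht.le]
      exact Real.rpow_le_rpow (hR0 n).le hn4.le (by linarith)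
    calc dist z (x0 + t • rt (a k) (b k) e) ≤ C * (R n) ^ (1 + γ) + 2 * R n * (A * (R n) ^ γ) := by
          linarith
      _ = (C + 2 * A) * (R n) ^ (1 + γ) := by rw [hRpow]; ring
      _ ≤ (C + 2 * A) * ((2:ℝ) ^ (1 + γ) * t ^ (1 + γ)) := by gcongr
      _ = _ := by ring

/-- moving star + degenerating flatness ⟹ `StarHyp` -/
theorem exists_starHyp (hG : RotGroup a b) (hr0 : 0 < r0) (hC : 0 < C) (hγ : 0 < γ) (hc : 0 < c)
    (hmem : x0 ∈ K) (hcl : closure K ∩ ball x0 r0 ⊆ K)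
    (hstar : ∀ ρ, 0 < ρ → ρ < r0 → ∃ e, StarAt a b K x0 e ρ (C * ρ ^ (1 + γ)))
    (hflat : ∀ y ∈ K, y ≠ x0 → dist y x0 < r0 → ∀ ρ, 0 < ρ → ρ ≤ c * dist y x0 →
      ∃ v, Flat K y v ρ (C * ρ * (ρ / dist y x0) ^ γ)) :
    ∃ (e : E2) (r C' : ℝ), ‖e‖ = 1 ∧ r < r0 ∧
      StarHyp K x0 (fun k => rt (a k) (b k) e) r C' γ c := by
  obtain ⟨e, r, C', hr, hrr, hC', hCC, hen, hfar, hnear⟩ := exists_fixed_star hG hr0 hC hγ hstar
  refine ⟨e, r, C', hen, hrr, ⟨hr, hC', hγ, hc, ?_, ?_, hmem, ?_, hfar, hnear, ?_⟩⟩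
  · intro k; rw [norm_rt (hG.unit k), hen]
  · intro j k hjk; rw [inner_rt hen]; exact hG.sep j k hjk
  · rintro z ⟨hz1, hz2⟩
    exact hcl ⟨hz1, ball_subset_ball hrr.le hz2⟩
  · intro y hy hyx hyr ρ hρ hρc
    obtain ⟨v, h0, h1, h2⟩ := hflat y hy hyx (hyr.trans hrr) ρ hρ hρc
    have hd0 : 0 < dist y x0 := dist_pos.2 hyx
    have hle : C * ρ * (ρ / dist y x0) ^ γ ≤ C' * ρ * (ρ / dist y x0) ^ γ := by gcongr
    refine ⟨v, h0, fun z hz hd => (h1 z hz hd).trans hle, fun t ht => ?_⟩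
    obtain ⟨z, hz, hd⟩ := h2 t ht
    exact ⟨z, hz, hd.trans hle⟩

/-- tip -/
def a1 : Fin 1 → ℝ := fun _ => 1
/-- tip -/
def b1 : Fin 1 → ℝ := fun _ => 0
/-- line -/
def a2 : Fin 2 → ℝ := ![1, -1]
/-- line -/
def b2 : Fin 2 → ℝ := ![0, 0]
/-- triple junction -/
noncomputable def a3 : Fin 3 → ℝ := ![1, -(1/2), -(1/2)]
/-- triple junction -/
noncomputable def b3 : Fin 3 → ℝ := ![0, Real.sqrt 3 / 2, -(Real.sqrt 3 / 2)]

theorem rotGroup1 : RotGroup a1 b1 := by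
  refine ⟨fun k => by simp [a1, b1], ⟨0, by simp [a1, b1]⟩, fun k => ⟨k, by simp [a1, b1]⟩,
    fun j k => ⟨0, by simp [a1, b1]⟩, fun j k hjk => absurd (Subsingleton.elim j k) hjk⟩

theorem rotGroup2 : RotGroup a2 b2 := by
  refine ⟨fun k => ?_, ⟨0, by simp [a2, b2]⟩, fun k => ⟨k, by fin_cases k <;> simp [a2, b2]⟩,
    fun j k => ?_, fun j k hjk => ?_⟩
  · fin_cases k <;> simp [a2, b2]
  · fin_cases j <;> fin_cases k
    · exact ⟨0, by simp [a2, b2]⟩
    · exact ⟨1, by simp [a2, b2]⟩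
    · exact ⟨1, by simp [a2, b2]⟩
    · exact ⟨0, by simp [a2, b2]⟩
  · fin_cases j <;> fin_cases k <;> simp_all [a2, b2] <;> norm_num

theorem rotGroup3 : RotGroup a3 b3 := by
  have h3 : Real.sqrt 3 * Real.sqrt 3 = 3 := Real.mul_self_sqrt (by norm_num)
  refine ⟨fun k => ?_, ⟨0, by simp [a3, b3]⟩, fun k => ?_, fun j k => ?_, fun j k hjk => ?_⟩
  · fin_cases k
    · simp [a3, b3]
    · simp [a3, b3]; nlinarith
    · simp [a3, b3]; nlinarith
  · fin_cases k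
    · exact ⟨0, by simp [a3, b3]⟩
    · exact ⟨2, by simp [a3, b3]⟩
    · exact ⟨1, by simp [a3, b3]⟩
  · fin_cases j <;> fin_cases k
    · exact ⟨0, by simp [a3, b3]⟩
    · exact ⟨1, by simp [a3, b3]⟩
    · exact ⟨2, by simp [a3, b3]⟩
    · exact ⟨1, by simp [a3, b3]⟩
    · refine ⟨2, ?_, ?_⟩
      · simp [a3, b3]; nlinarith
      · simp [a3, b3]; nlinarith
    · refine ⟨0, ?_, ?_⟩
      · simp [a3, b3]; nlinarith
      · simp [a3, b3]; nlinarith
    · exact ⟨2, by simp [a3, b3]⟩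
    · refine ⟨0, ?_, ?_⟩
      · simp [a3, b3]; nlinarith
      · simp [a3, b3]; nlinarith
    · refine ⟨1, ?_, ?_⟩
      · simp [a3, b3]; nlinarith
      · simp [a3, b3]; nlinarith
  · fin_cases j <;> fin_cases k
    · exact absurd rfl hjk
    · simp [a3, b3]
    · simp [a3, b3]
    · simp [a3, b3]
    · exact absurd rfl hjk
    · simp [a3, b3]; nlinarith
    · simp [a3, b3]
    · simp [a3, b3]; nlinarith
    · exact absurd rfl hjk

theorem sep3 (j k : Fin 3) (hjk : j ≠ k) : a3 j * a3 k + b3 j * b3 k = -(1 / 2 : ℝ) := by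
  have h3 : Real.sqrt 3 * Real.sqrt 3 = 3 := Real.mul_self_sqrt (by norm_num)
  fin_cases j <;> fin_cases k
  · exact absurd rfl hjk
  · simp [a3, b3]
  · simp [a3, b3]
  · simp [a3, b3]
  · exact absurd rfl hjk
  · simp [a3, b3]; nlinarith
  · simp [a3, b3]
  · simp [a3, b3]; nlinarith
  · exact absurd rfl hjk

/-- **Tip.** -/
theorem isArcEndPoint_of_moving {Ω : Set E2} (hr0 : 0 < r0) (hC : 0 < C) (hγ : 0 < γ) (hc : 0 < c)
    (hmem : x0 ∈ K) (hcl : closure K ∩ ball x0 r0 ⊆ K) (hΩ : ball x0 r0 ⊆ Ω)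
    (hstar : ∀ ρ, 0 < ρ → ρ < r0 → ∃ e, StarAt a1 b1 K x0 e ρ (C * ρ ^ (1 + γ)))
    (hflat : ∀ y ∈ K, y ≠ x0 → dist y x0 < r0 → ∀ ρ, 0 < ρ → ρ ≤ c * dist y x0 →
      ∃ v, Flat K y v ρ (C * ρ * (ρ / dist y x0) ^ γ)) : IsArcEndPoint Ω K x0 := by
  obtain ⟨e, r, C', -, hrr, H⟩ := exists_starHyp rotGroup1 hr0 hC hγ hc hmem hcl hstar hflat
  exact H.isArcEndPoint ((ball_subset_ball hrr.le).trans hΩ)

/-- **Triple junction.** -/
theorem isTripleJunctionPoint_of_moving {Ω : Set E2} (hr0 : 0 < r0) (hC : 0 < C) (hγ : 0 < γ)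
    (hc : 0 < c) (hmem : x0 ∈ K) (hcl : closure K ∩ ball x0 r0 ⊆ K) (hΩ : ball x0 r0 ⊆ Ω)
    (hstar : ∀ ρ, 0 < ρ → ρ < r0 → ∃ e, StarAt a3 b3 K x0 e ρ (C * ρ ^ (1 + γ)))
    (hflat : ∀ y ∈ K, y ≠ x0 → dist y x0 < r0 → ∀ ρ, 0 < ρ → ρ ≤ c * dist y x0 →
      ∃ v, Flat K y v ρ (C * ρ * (ρ / dist y x0) ^ γ)) : IsTripleJunctionPoint Ω K x0 := by
  obtain ⟨e, r, C', he, hrr, H⟩ := exists_starHyp rotGroup3 hr0 hC hγ hc hmem hcl hstar hflat
  refine H.isTripleJunctionPoint (fun j k hjk => ?_) ((ball_subset_ball hrr.le).trans hΩ)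
  rw [inner_rt he]; exact sep3 j k hjk

/-- **Regular point**, star version. -/
theorem isArcInteriorPoint_of_moving {Ω : Set E2} (hr0 : 0 < r0) (hC : 0 < C) (hγ : 0 < γ)
    (hc : 0 < c) (hmem : x0 ∈ K) (hcl : closure K ∩ ball x0 r0 ⊆ K) (hΩ : ball x0 r0 ⊆ Ω)
    (hstar : ∀ ρ, 0 < ρ → ρ < r0 → ∃ e, StarAt a2 b2 K x0 e ρ (C * ρ ^ (1 + γ)))
    (hflat : ∀ y ∈ K, y ≠ x0 → dist y x0 < r0 → ∀ ρ, 0 < ρ → ρ ≤ c * dist y x0 →
      ∃ v, Flat K y v ρ (C * ρ * (ρ / dist y x0) ^ γ)) : IsArcInteriorPoint Ω K x0 := by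
  obtain ⟨e, r, C', he, hrr, H⟩ := exists_starHyp rotGroup2 hr0 hC hγ hc hmem hcl hstar hflat
  refine H.isArcInteriorPoint ?_ ((ball_subset_ball hrr.le).trans hΩ)
  simp [a2, b2, rt]

theorem Flat.starAt {y e : E2} {ρ E : ℝ} (_hρ : 0 ≤ ρ) (h : Flat K y e ρ E) :
    StarAt a2 b2 K y e ρ E := by
  obtain ⟨he, h1, h2⟩ := h
  have e0 : rt (a2 0) (b2 0) e = e := by simp [a2, b2, rt]
  have e1 : rt (a2 1) (b2 1) e = -e := by simp [a2, b2, rt]
  refine ⟨he, ?_, ?_⟩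
  · intro z hz hd
    have h3 := h1 z hz hd
    set p := inner ℝ (z - y) e with hp
    set q := inner ℝ (z - y) (J e) with hq
    have hzy : z = y + (p • e + q • J e) := by
      have := frame_eq he (z - y)
      rw [← hp, ← hq] at this
      rw [← this]; abel
    have hdd : dist z (y + p • e) ≤ E := by
      rw [dist_eq_norm]
      have : z - (y + p • e) = q • J e := by rw [hzy]; abel
      rw [this, norm_smul, norm_J, he, mul_one, Real.norm_eq_abs]
      exact h3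
    rcases le_total 0 p with h | h
    · exact ⟨0, p, h, by rw [e0]; exact hdd⟩
    · refine ⟨1, -p, by linarith, ?_⟩
      rw [e1, neg_smul_neg]; exact hdd
  · intro k t ht htρ
    fin_cases k
    · obtain ⟨z, hz, hd⟩ := h2 t (by rw [abs_of_nonneg ht]; exact htρ)
      refine ⟨z, hz, ?_⟩
      show dist z (y + t • rt (a2 0) (b2 0) e) ≤ E
      rw [e0]; exact hd
    · obtain ⟨z, hz, hd⟩ := h2 (-t) (by rw [abs_neg, abs_of_nonneg ht]; exact htρ)
      refine ⟨z, hz, ?_⟩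
      show dist z (y + t • rt (a2 1) (b2 1) e) ≤ E
      rw [e1, smul_neg, ← neg_smul]; exact hd

/-- **Regular point**, power flatness at all points and scales. -/
theorem isArcInteriorPoint_of_flat {Ω : Set E2} (hr0 : 0 < r0) (hC : 0 < C) (hγ : 0 < γ)
    (hmem : x0 ∈ K) (hcl : closure K ∩ ball x0 r0 ⊆ K) (hΩ : ball x0 r0 ⊆ Ω)
    (hflat : ∀ y ∈ K, dist y x0 < r0 → ∀ ρ, 0 < ρ → ρ < r0 →
      ∃ v, Flat K y v ρ (C * ρ ^ (1 + γ))) : IsArcInteriorPoint Ω K x0 := by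
  have hM : 0 < max 1 (r0 ^ γ) := lt_max_of_lt_left one_pos
  refine isArcInteriorPoint_of_moving (c := 1/2) (C := C * max 1 (r0 ^ γ)) hr0 (by positivity) hγ
    (by norm_num) hmem hcl hΩ ?_ ?_
  · intro ρ hρ hρr
    obtain ⟨v, hv⟩ := hflat x0 hmem (by rw [dist_self]; exact hr0) ρ hρ hρr
    have hle : C * ρ ^ (1 + γ) ≤ C * max 1 (r0 ^ γ) * ρ ^ (1 + γ) := by
      have h1 : 0 < ρ ^ (1 + γ) := by positivity
      have h2 : (1:ℝ) ≤ max 1 (r0 ^ γ) := le_max_left _ _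
      nlinarith [mul_pos hC h1]
    refine ⟨v, Flat.starAt hρ.le ⟨hv.1, fun z hz hd => (hv.2.1 z hz hd).trans hle, fun t ht => ?_⟩⟩
    obtain ⟨z, hz, hd⟩ := hv.2.2 t ht
    exact ⟨z, hz, hd.trans hle⟩
  · intro y hy hyx hyr ρ hρ hρc
    have hd0 : 0 < dist y x0 := dist_pos.2 hyx
    obtain ⟨v, hv⟩ := hflat y hy hyr ρ hρ (by linarith)
    have hle : C * ρ ^ (1 + γ) ≤ C * max 1 (r0 ^ γ) * ρ * (ρ / dist y x0) ^ γ := by
      rw [Real.rpow_add hρ, Real.rpow_one]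
      have h1 : ρ ^ γ ≤ r0 ^ γ * (ρ / dist y x0) ^ γ := by
        rw [← Real.mul_rpow hr0.le (by positivity)]
        refine Real.rpow_le_rpow hρ.le ?_ hγ.le
        rw [← mul_div_assoc, le_div_iff₀ hd0]
        nlinarith
      have h2 : r0 ^ γ ≤ max 1 (r0 ^ γ) := le_max_right _ _
      have h3 : 0 < (ρ / dist y x0) ^ γ := by positivity
      calc C * (ρ * ρ ^ γ) ≤ C * (ρ * (max 1 (r0 ^ γ) * (ρ / dist y x0) ^ γ)) := by
            gcongr
            exact h1.trans (by gcongr)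
        _ = _ := by ring
    refine ⟨v, hv.1, fun z hz hd => (hv.2.1 z hz hd).trans hle, fun t ht => ?_⟩
    obtain ⟨z, hz, hd⟩ := hv.2.2 t ht
    exact ⟨z, hz, hd.trans hle⟩

end Crest.Agent.R135.Arc
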