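import Crest.Agent.R135.ArcStar

/-!
# R135: the three kinds of points from power closeness to a fixed star (block ARC)
-/

set_option autoImplicit false

open Set Filter Topology Metric
open scoped NNReal

namespace Crest.Agent.R135.Arc

open Crest.AnalysisR.PDE.MumfordShah

variable {ι : Type*} {K : Set E2} {x0 : E2} {e : ι → E2} {r0 C γ c : ℝ}

/-- the neighbourhood used in the final statements -/
def starNhd (x0 : E2) (e : ι → E2) (r : ℝ) : Set E2 :=
  ball x0 (101 / 100 * r) ∩ ⋂ k, {z | inner ℝ (z - x0) (e k) < r}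

theorem isOpen_starNhd [Finite ι] (x0 : E2) (e : ι → E2) (r : ℝ) : IsOpen (starNhd x0 e r) := by
  refine isOpen_ball.inter (isOpen_iInter_of_finite fun k => ?_)
  exact isOpen_lt (by fun_prop) continuous_const

theorem mem_starNhd {z : E2} {r : ℝ} : z ∈ starNhd x0 e r ↔
    dist z x0 < 101 / 100 * r ∧ ∀ k, inner ℝ (z - x0) (e k) < r := by
  simp [starNhd, mem_ball]

theorem self_mem_starNhd {r : ℝ} (hr : 0 < r) : x0 ∈ starNhd x0 e r := by
  rw [mem_starNhd]
  refine ⟨by rw [dist_self]; linarith, fun k => by simpa using hr⟩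

/-- derivative zero at the centre -/
theorem deriv_zero_of_power {f : ℝ → ℝ} {m C C' γ γ' a b : ℝ} (hγ : 0 < γ) (hγ' : 0 < γ')
    (hb : 0 < b) (ha : a ≤ 0) (h1 : ∀ x ∈ Icc a b, |f x - f 0 - m * (x - 0)| ≤ C * |x - 0| ^ (1 + γ))
    (h2 : ∀ x ∈ Icc a b, |f x| ≤ C' * |x| ^ (1 + γ')) : m = 0 := by
  have hf0 : f 0 = 0 := by
    have := h2 0 ⟨ha, hb.le⟩
    rw [abs_zero, Real.zero_rpow (by linarith), mul_zero] at this
    exact abs_eq_zero.1 (le_antisymm this (abs_nonneg _))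
  have hlim : ∀ γ : ℝ, 0 < γ → Tendsto (fun s : ℝ => s ^ γ) (𝓝[>] 0) (𝓝 0) := by
    intro γ hγ
    have := (Real.continuousAt_rpow_const 0 γ (Or.inr hγ.le)).tendsto
    rw [Real.zero_rpow hγ.ne'] at this
    exact this.mono_left nhdsWithin_le_nhds
  have hlim2 : Tendsto (fun s : ℝ => C * s ^ γ + C' * s ^ γ') (𝓝[>] 0) (𝓝 0) := by
    simpa using ((hlim γ hγ).const_mul C).add ((hlim γ' hγ').const_mul C')
  have hev : ∀ᶠ s in 𝓝[>] (0:ℝ), |m| ≤ C * s ^ γ + C' * s ^ γ' := by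
    have hIio : ∀ᶠ s in 𝓝[>] (0:ℝ), s < b := nhdsWithin_le_nhds (Iio_mem_nhds hb)
    filter_upwards [hIio, self_mem_nhdsWithin] with s hsb hs
    have hs : 0 < s := hs
    have hmem : s ∈ Icc a b := ⟨by linarith, hsb.le⟩
    have e1 := h1 s hmem
    have e2 := h2 s hmem
    rw [hf0, sub_zero, sub_zero, abs_of_pos hs] at e1
    rw [abs_of_pos hs] at e2
    rw [Real.rpow_add hs, Real.rpow_one] at e1 e2
    have e3 : |m * s| ≤ C * (s * s ^ γ) + C' * (s * s ^ γ') := by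
      have : m * s = -(f s - m * s) + f s := by ring
      rw [this]
      refine (abs_add_le _ _).trans ?_
      rw [abs_neg]
      linarith
    rw [abs_mul, abs_of_pos hs] at e3
    have e4 : s * |m| ≤ s * (C * s ^ γ + C' * s ^ γ') := by
      calc s * |m| = |m| * s := by ring
        _ ≤ _ := e3
        _ = _ := by ring
    exact le_of_mul_le_mul_left e4 hs
  have := ge_of_tendsto hlim2 hev
  exact abs_eq_zero.1 (le_antisymm this (abs_nonneg _))

/-- one ray: the graph function is `C^{1,γ'}` -/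
theorem ray_c1 {f : ℝ → ℝ} {r C' c' : ℝ} (hr : 0 < r) (hC' : 0 < C') (hc' : 0 < c') (hγ : 0 < γ)
    (hf0 : f 0 = 0)
    (hfb : ∀ x, 0 < x → x ≤ r → |f x| ≤ x / 10 ∧ |f x| ≤ C' * x ^ (1 + γ))
    (hfl : ∀ x, 0 < x → x ≤ r → ∀ ρ, 0 < ρ → ρ ≤ c' * x → ∃ m, ∀ h, |h| ≤ ρ → 0 ≤ x + h →
        x + h ≤ r → |f (x + h) - f x - m * h| ≤ C' * ρ * (ρ / x) ^ γ) :
    ∃ (f' : ℝ → ℝ) (C'' : ℝ), 0 ≤ C'' ∧ f' 0 = 0 ∧
      (∀ x ∈ Icc 0 r, HasDerivWithinAt f (f' x) (Icc 0 r) x) ∧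
      (∀ x ∈ Icc 0 r, ∀ y ∈ Icc 0 r, |f' x - f' y| ≤ C'' * |x - y| ^ (γ ^ 2 / (1 + 2 * γ))) := by
  have hγ' : 0 < γ ^ 2 / (1 + 2 * γ) := by positivity
  have h0 : ∀ x ∈ Icc 0 r, |f x| ≤ C' * |x| ^ (1 + γ) := by
    intro x hx
    rcases eq_or_lt_of_le hx.1 with rfl | hx0
    · rw [hf0, abs_zero, Real.zero_rpow (by linarith), mul_zero]
    · rw [abs_of_pos hx0]
      exact (hfb x hx0 hx.2).2
  obtain ⟨C₁, hC₁, hcamp⟩ := camp_of_local (f := f) le_rfl hr.le hr hC' hγ hc' h0 (by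
    intro x hx hx0 ρ hρ hρc
    have hx1 : 0 < x := lt_of_le_of_ne hx.1 (Ne.symm hx0)
    rw [abs_of_pos hx1] at hρc ⊢
    obtain ⟨m, hm⟩ := hfl x hx1 hx.2 ρ hρ hρc
    exact ⟨m, fun h hh hxh => hm h hh hxh.1 hxh.2⟩)
  obtain ⟨f', C'', hC'', h1, h2, h3⟩ := camp_c1 hr hC₁.le hγ' hcamp
  refine ⟨f', C'', hC'', ?_, h2, h3⟩
  exact deriv_zero_of_power hγ' hγ hr le_rfl (h1 0 ⟨le_rfl, hr.le⟩) h0

theorem StarHyp.isArcEndPoint {Ω : Set E2} [Unique ι] (H : StarHyp K x0 e r0 C γ c)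
    (hΩ : ball x0 r0 ⊆ Ω) : IsArcEndPoint Ω K x0 := by
  obtain ⟨r, f, C', c', hr, hr2, hC', hc', hf0, hfb, hfl, hgr⟩ := H.graph
  have hγ := H.γpos
  obtain ⟨f', C'', hC'', hf'0, hd, hH⟩ := ray_c1 hr hC' hc' hγ (hf0 default) (hfb default) (hfl default)
  have hγ' : 0 < γ ^ 2 / (1 + 2 * γ) := by positivity
  refine ⟨starNhd x0 e r, isOpen_starNhd _ _ _, ?_, self_mem_starNhd hr,
    ⟨γ ^ 2 / (1 + 2 * γ), hγ'.le⟩, hγ', _, _,
    isHolderArc_graph (x0 := x0) (H.unit default) hr hC'' hd hH, ?_, ?_⟩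
  · intro z hz
    rw [mem_starNhd] at hz
    exact hΩ (mem_ball.2 (by linarith [hz.1]))
  · ext z
    rw [mem_inter_iff, mem_starNhd, hgr r hr le_rfl z]
    constructor
    · rintro ⟨k, p, hp, hpr, rfl⟩
      refine ⟨p / r, ⟨by positivity, by rwa [div_lt_one hr]⟩, ?_⟩
      have : 0 + (r - 0) * (p / r) = p := by field_simp; ring
      simp only [this]
      rw [Unique.eq_default k]
    · rintro ⟨t, ht, rfl⟩
      refine ⟨default, r * t, by have := ht.1; positivity, by nlinarith [ht.2], ?_⟩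
      simp
  · simp only [mul_zero, add_zero]
    rw [hf0, pt_zero]

theorem StarHyp.isTripleJunctionPoint {Ω : Set E2} {e : Fin 3 → E2} (H : StarHyp K x0 e r0 C γ c)
    (h120 : ∀ j k, j ≠ k → inner ℝ (e j) (e k) = -(1 / 2 : ℝ))
    (hΩ : ball x0 r0 ⊆ Ω) : IsTripleJunctionPoint Ω K x0 := by
  obtain ⟨r, f, C', c', hr, hr2, hC', hc', hf0, hfb, hfl, hgr⟩ := H.graph
  have hγ := H.γpos
  choose f' C'' hC'' hf'0 hd hH using fun k =>
    ray_c1 hr hC' hc' hγ (hf0 k) (hfb k) (hfl k)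
  have hγ' : 0 < γ ^ 2 / (1 + 2 * γ) := by positivity
  have himg : ∀ k z, z ∈ (fun t => pt x0 (e k) (0 + (r - 0) * t) (f k (0 + (r - 0) * t))) '' Ico 0 1 ↔
      ∃ p, 0 ≤ p ∧ p < r ∧ z = pt x0 (e k) p (f k p) := by
    intro k z
    constructor
    · rintro ⟨t, ht, rfl⟩
      refine ⟨r * t, by have := ht.1; positivity, by nlinarith [ht.2], ?_⟩
      simp
    · rintro ⟨p, hp, hpr, rfl⟩
      refine ⟨p / r, ⟨by positivity, by rwa [div_lt_one hr]⟩, ?_⟩
      have : 0 + (r - 0) * (p / r) = p := by field_simp; ring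
      simp only [this]
  refine ⟨starNhd x0 e r, isOpen_starNhd _ _ _, ?_, self_mem_starNhd hr,
    ⟨γ ^ 2 / (1 + 2 * γ), hγ'.le⟩, hγ',
    fun k t => pt x0 (e k) (0 + (r - 0) * t) (f k (0 + (r - 0) * t)),
    fun k t => (r - 0) • e k + ((r - 0) * f' k (0 + (r - 0) * t)) • J (e k),
    fun k => isHolderArc_graph (x0 := x0) (H.unit k) hr (hC'' k) (hd k) (hH k), ?_, ?_, ?_, ?_⟩
  · intro z hz
    rw [mem_starNhd] at hz
    exact hΩ (mem_ball.2 (by linarith [hz.1]))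
  · intro k
    simp only [mul_zero, add_zero]
    rw [hf0, pt_zero]
  · ext z
    rw [mem_inter_iff, mem_starNhd, hgr r hr le_rfl z, mem_iUnion]
    simp only [himg]
  · intro j k hjk
    ext z
    rw [mem_inter_iff, himg, himg, mem_singleton_iff]
    constructor
    · rintro ⟨⟨p, hp, hpr, h1⟩, ⟨p', hp', hpr', h2⟩⟩
      rcases eq_or_lt_of_le hp' with hp0 | hp0
      · rw [h2, ← hp0, hf0, pt_zero]
      · exfalso
        have h3 := H.not_front hjk hp0 (q := f k p') (by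
          have := (hfb k p' hp0 hpr'.le).1
          linarith)
        rw [← h2, h1, inner_pt_left (H.unit j)] at h3
        linarith
    · rintro rfl
      exact ⟨⟨0, le_rfl, hr, by rw [hf0, pt_zero]⟩, ⟨0, le_rfl, hr, by rw [hf0, pt_zero]⟩⟩
  · intro j k hjk
    simp only [mul_zero, add_zero, hf'0, zero_smul, sub_zero]
    rw [inner_smul_left, inner_smul_right, h120 j k hjk, norm_smul, norm_smul, H.unit j, H.unit k]
    simp only [conj_trivial, Real.norm_eq_abs, abs_of_pos hr]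
    ring

theorem StarHyp.isArcInteriorPoint {Ω : Set E2} {e : Fin 2 → E2} (H : StarHyp K x0 e r0 C γ c)
    (he : e 1 = - e 0) (hΩ : ball x0 r0 ⊆ Ω) : IsArcInteriorPoint Ω K x0 := by
  obtain ⟨r, f, C', c', hr, hr2, hC', hc', hf0, hfb, hfl, hgr⟩ := H.graph
  have hγ := H.γpos
  have hγ' : 0 < γ ^ 2 / (1 + 2 * γ) := by positivity
  set g : ℝ → ℝ := fun x => if 0 ≤ x then f 0 x else -(f 1 (-x)) with hg
  have hgpos : ∀ x, 0 ≤ x → g x = f 0 x := fun x hx => by simp only [hg]; rw [if_pos hx]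
  have hgneg : ∀ x, x ≤ 0 → g x = -(f 1 (-x)) := by
    intro x hx
    rcases eq_or_lt_of_le hx with rfl | hx
    · rw [hgpos 0 le_rfl, neg_zero, hf0, hf0, neg_zero]
    · simp only [hg]; rw [if_neg (not_le.2 hx)]
  have hg0 : ∀ x ∈ Icc (-r) r, |g x| ≤ C' * |x| ^ (1 + γ) := by
    intro x hx
    rcases lt_trichotomy x 0 with hx0 | rfl | hx0
    · rw [hgneg x hx0.le, abs_neg, abs_of_neg hx0]
      exact (hfb 1 (-x) (by linarith) (by linarith [hx.1])).2
    · rw [hgpos 0 le_rfl, hf0, abs_zero, Real.zero_rpow (by linarith), mul_zero]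
    · rw [hgpos x hx0.le, abs_of_pos hx0]
      exact (hfb 0 x hx0 hx.2).2
  have hc'' : 0 < min c' (1/2) := lt_min hc' (by norm_num)
  obtain ⟨C₁, hC₁, hcamp⟩ := camp_of_local (f := g) (a := -r) (b := r) (by linarith) hr.le
    (by linarith) hC' hγ hc'' hg0 (by
    intro x hx hx0 ρ hρ hρc
    have hρc1 : ρ ≤ c' * |x| := hρc.trans (by gcongr; exact min_le_left _ _)
    have hρc2 : ρ ≤ 1/2 * |x| := hρc.trans (by gcongr; exact min_le_right _ _)
    rcases lt_or_gt_of_ne hx0 with hx1 | hx1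
    · rw [abs_of_neg hx1] at hρc1 hρc2 ⊢
      obtain ⟨m, hm⟩ := hfl 1 (-x) (by linarith) (by linarith [hx.1]) ρ hρ hρc1
      refine ⟨m, fun h hh hxh => ?_⟩
      have hh' := abs_le.1 hh
      have h1 := hm (-h) (by rwa [abs_neg]) (by linarith) (by linarith [hxh.1])
      rw [hgneg x hx1.le, hgneg (x + h) (by linarith)]
      rw [← abs_neg]
      have e1 : -x + -h = -(x + h) := by ring
      rw [e1] at h1
      convert h1 using 2
      ring
    · rw [abs_of_pos hx1] at hρc1 hρc2 ⊢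
      obtain ⟨m, hm⟩ := hfl 0 x hx1 hx.2 ρ hρ hρc1
      refine ⟨m, fun h hh hxh => ?_⟩
      have hh' := abs_le.1 hh
      have h1 := hm h hh (by linarith) hxh.2
      rw [hgpos x hx1.le, hgpos (x + h) (by linarith)]
      exact h1)
  obtain ⟨g', C'', hC'', -, h2, h3⟩ := camp_c1 (by linarith) hC₁.le hγ' hcamp
  have hptneg : ∀ p q : ℝ, pt x0 (e 1) p q = pt x0 (e 0) (-p) (-q) := by
    intro p q
    simp only [pt, he, J_neg, smul_neg, neg_smul]
  refine ⟨starNhd x0 e r, isOpen_starNhd _ _ _, ?_, self_mem_starNhd hr,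
    ⟨γ ^ 2 / (1 + 2 * γ), hγ'.le⟩, hγ', _, _,
    isHolderArc_graph (x0 := x0) (H.unit 0) (by linarith) hC'' h2 h3, ?_, ?_⟩
  · intro z hz
    rw [mem_starNhd] at hz
    exact hΩ (mem_ball.2 (by linarith [hz.1]))
  · ext z
    rw [mem_inter_iff, mem_starNhd, hgr r hr le_rfl z]
    constructor
    · rintro ⟨k, p, hp, hpr, rfl⟩
      fin_cases k
      · refine ⟨(p + r) / (2 * r), ⟨by positivity, ?_⟩, ?_⟩
        · rw [div_lt_one (by positivity)]; linarith
        · have : -r + (r - -r) * ((p + r) / (2 * r)) = p := by field_simp; ring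
          simp only [this]
          rw [hgpos p hp]; rfl
      · refine ⟨(r - p) / (2 * r), ⟨div_pos (by linarith) (by linarith), ?_⟩, ?_⟩
        · rw [div_lt_one (by positivity)]; linarith
        · have : -r + (r - -r) * ((r - p) / (2 * r)) = -p := by field_simp; ring
          simp only [this]
          rw [hgneg (-p) (by linarith), neg_neg]
          exact (hptneg p (f 1 p)).symm
    · rintro ⟨t, ht, rfl⟩
      simp only
      set x := -r + (r - -r) * t with hx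
      have hx1 : -r < x := by have := ht.1; rw [hx]; nlinarith
      have hx2 : x < r := by have := ht.2; rw [hx]; nlinarith
      rcases le_total 0 x with h | h
      · exact ⟨0, x, h, hx2, by rw [hgpos x h]⟩
      · refine ⟨1, -x, by linarith, by linarith, ?_⟩
        rw [hptneg, hgneg x h, neg_neg]
  · refine ⟨1/2, ⟨by norm_num, by norm_num⟩, ?_⟩
    have : -r + (r - -r) * (1/2) = 0 := by ring
    simp only [this]
    rw [hgpos 0 le_rfl, hf0, pt_zero]

end Crest.Agent.R135.Arc
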