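import Crest.Agent.R135.ArcFrame

/-!
# R135: power flatness near a star gives `C^{1,α}` arcs (block ARC)
-/

set_option autoImplicit false

open Set Filter Topology Metric
open scoped NNReal

namespace Crest.Agent.R135.Arc

open Crest.AnalysisR.PDE.MumfordShah

/-- `K` is, near `x0`, power-close to the star with rays `x0 + ℝ₊ e k`, and it is power-flat near the
other points `y` of `K`, at the scales `ρ ≤ c |y - x0|`, with a constant that may degenerate as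
`y → x0`. -/
structure StarHyp {ι : Type*} (K : Set E2) (x0 : E2) (e : ι → E2) (r0 C γ c : ℝ) : Prop where
  r0pos : 0 < r0
  Cpos : 0 < C
  γpos : 0 < γ
  cpos : 0 < c
  unit : ∀ k, ‖e k‖ = 1
  sep : ∀ j k, j ≠ k → inner ℝ (e j) (e k) ≤ -(1 / 2 : ℝ)
  mem : x0 ∈ K
  closed : closure K ∩ ball x0 r0 ⊆ K
  far : ∀ z ∈ K, z ≠ x0 → dist z x0 < r0 → ∃ k, ∃ t : ℝ, 0 ≤ t ∧
    dist z (x0 + t • e k) ≤ C * (dist z x0) ^ (1 + γ)
  near : ∀ k, ∀ t, 0 < t → t < r0 → ∃ z ∈ K, dist z (x0 + t • e k) ≤ C * t ^ (1 + γ)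
  flat : ∀ y ∈ K, y ≠ x0 → dist y x0 < r0 → ∀ ρ, 0 < ρ → ρ ≤ c * dist y x0 →
    ∃ v, Flat K y v ρ (C * ρ * (ρ / dist y x0) ^ γ)

theorem inner_J_le {e v : E2} (he : ‖e‖ = 1) (hv : ‖v‖ = 1) : |inner ℝ (J e) v| ≤ 1 := by
  have := abs_real_inner_le_norm (J e) v
  rwa [norm_J, he, hv, mul_one] at this

variable {ι : Type*} {K : Set E2} {x0 : E2} {e : ι → E2} {r0 C γ c : ℝ}

theorem dist_pt_x0_sq {e : E2} (he : ‖e‖ = 1) (x0 : E2) (p q : ℝ) :
    dist (pt x0 e p q) x0 ^ 2 = p ^ 2 + q ^ 2 := by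
  have := dist_pt_sq (x0 := x0) he p q 0 0
  rw [pt_zero] at this
  simpa using this

/-- smallness radius for the power terms -/
theorem exists_small (hC : 0 < C) (hγ : 0 < γ) {ε : ℝ} (hε : 0 < ε) {r0 : ℝ} (hr0 : 0 < r0) :
    ∃ r, 0 < r ∧ r < r0 ∧ ∀ s, 0 < s → s ≤ r → C * s ^ (1 + γ) ≤ ε * s := by
  have hlim1 : Tendsto (fun s : ℝ => C * s ^ γ) (𝓝[>] 0) (𝓝 0) := by
    have h1 : Tendsto (fun s : ℝ => s ^ γ) (𝓝[>] 0) (𝓝 0) := by
      have := (Real.continuousAt_rpow_const 0 γ (Or.inr hγ.le)).tendsto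
      rw [Real.zero_rpow hγ.ne'] at this
      exact this.mono_left nhdsWithin_le_nhds
    simpa using h1.const_mul C
  have hev1 : ∀ᶠ s in 𝓝[>] (0:ℝ), C * s ^ γ < ε := hlim1.eventually (gt_mem_nhds hε)
  have hev2 : ∀ᶠ s in 𝓝[>] (0:ℝ), s < r0 := nhdsWithin_le_nhds (Iio_mem_nhds hr0)
  obtain ⟨r, ⟨h1, h2⟩, h3⟩ := ((hev1.and hev2).and self_mem_nhdsWithin).exists
  have h3 : 0 < r := h3
  refine ⟨r, h3, h2, fun s hs hsr => ?_⟩
  rw [Real.rpow_add hs, Real.rpow_one]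
  have h4 : s ^ γ ≤ r ^ γ := Real.rpow_le_rpow hs.le hsr hγ.le
  calc C * (s * s ^ γ) = s * (C * s ^ γ) := by ring
    _ ≤ s * (C * r ^ γ) := by gcongr
    _ ≤ s * ε := by gcongr
    _ = ε * s := by ring

/-- a point of `K` near `x0` lies in the thin sector around one of the rays -/
theorem StarHyp.sector (H : StarHyp K x0 e r0 C γ c) {r : ℝ} (hr0 : r ≤ r0)
    (hr : ∀ s, 0 < s → s ≤ r → C * s ^ (1 + γ) ≤ 1 / 100 * s) {z : E2} (hz : z ∈ K) (hzx : z ≠ x0)
    (hzr : dist z x0 < r) :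
    ∃ k p q, z = pt x0 (e k) p q ∧ 0 < p ∧ dist z x0 ≤ 101 / 100 * p ∧ |q| ≤ p / 50 ∧
      |q| ≤ C * (dist z x0) ^ (1 + γ) := by
  obtain ⟨k, t, ht, hd⟩ := H.far z hz hzx (hzr.trans_le hr0)
  have hd0 : 0 < dist z x0 := dist_pos.2 hzx
  have he := H.unit k
  set p := inner ℝ (z - x0) (e k) with hp
  set q := inner ℝ (z - x0) (J (e k)) with hq
  have hzpt : z = pt x0 (e k) p q := (pt_coords he z).symm
  have hray : x0 + t • e k = pt x0 (e k) t 0 := by simp [pt]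
  have h1 := abs_le_dist_pt (x0 := x0) he p q t 0
  rw [← hzpt, ← hray, sub_zero] at h1
  have hsm := hr (dist z x0) hd0 hzr.le
  have h2 : |p - t| ≤ 1 / 100 * dist z x0 := h1.1.trans (hd.trans hsm)
  have h3 : |q| ≤ 1 / 100 * dist z x0 := h1.2.trans (hd.trans hsm)
  have h4 : dist z x0 ^ 2 = p ^ 2 + q ^ 2 := by
    conv_lhs => rw [hzpt]
    exact dist_pt_x0_sq he x0 p q
  have h5 := abs_le.1 h2
  have h6 := abs_le.1 h3
  have hq2 : q ^ 2 ≤ (1 / 100 * dist z x0) ^ 2 := sq_le_sq' (by linarith [h6.1]) h6.2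
  have hppos : 0 < p := by
    by_contra hcon
    push Not at hcon
    have : -(1 / 100 * dist z x0) ≤ p := by linarith [h5.1]
    nlinarith
  have hdp : dist z x0 ≤ 101 / 100 * p := by
    by_contra hcon
    push Not at hcon
    nlinarith
  exact ⟨k, p, q, hzpt, hppos, hdp, by nlinarith, h1.2.trans hd⟩

/-- a point in the thin sector of one ray is not in front of another ray -/
theorem StarHyp.not_front (H : StarHyp K x0 e r0 C γ c) {j k : ι} (hjk : j ≠ k) {p q : ℝ}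
    (hp : 0 < p) (hq : |q| ≤ p / 4) : inner ℝ (pt x0 (e k) p q - x0) (e j) < 0 := by
  have h1 := H.sep k j hjk.symm
  have h2 := abs_le.1 (inner_J_le (H.unit k) (H.unit j))
  have h3 := abs_le.1 hq
  rw [pt, add_sub_cancel_left, inner_add_left, inner_smul_left, inner_smul_left]
  simp only [conj_trivial]
  have h4 : q * inner ℝ (J (e k)) (e j) ≤ p / 4 := by
    have := abs_mul q (inner ℝ (J (e k)) (e j))
    have h5 := le_abs_self (q * inner ℝ (J (e k)) (e j))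
    have h6 : |q| * |inner ℝ (J (e k)) (e j)| ≤ p / 4 * 1 := by
      gcongr
      exact inner_J_le (H.unit k) (H.unit j)
    linarith
  nlinarith

theorem StarHyp.rayHyp (H : StarHyp K x0 e r0 C γ c) (k : ι) :
    ∃ r0' C' c', r0' ≤ r0 ∧ RayHyp (coord x0 (e k) K) r0' C' γ c' := by
  have hC := H.Cpos
  have hγ := H.γpos
  obtain ⟨r, hr0, hrr, hr⟩ := exists_small hC hγ (ε := 1/100) (by norm_num) H.r0pos
  have he := H.unit k
  have h2γ : (0:ℝ) < (2:ℝ) ^ (1 + γ) := by positivity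
  have h2γ1 : (1:ℝ) ≤ (2:ℝ) ^ (1 + γ) := Real.one_le_rpow (by norm_num) (by linarith)
  have hdist : ∀ p q : ℝ, 0 < p → |q| ≤ p / 4 → dist (pt x0 (e k) p q) x0 ≤ 2 * p ∧
      p ≤ dist (pt x0 (e k) p q) x0 := by
    intro p q hp hq
    have h1 := dist_pt_x0_sq he x0 p q
    have h2 : q ^ 2 ≤ (p / 4) ^ 2 := sq_le_sq' (by linarith [(abs_le.1 hq).1]) (abs_le.1 hq).2
    constructor
    · refine (abs_le_of_sq_le_sq' ?_ (by linarith)).2
      nlinarith
    · refine (abs_le_of_sq_le_sq' ?_ dist_nonneg).2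
      nlinarith [sq_nonneg q]
  refine ⟨r / 2, 2 * (2:ℝ) ^ (1 + γ) * C, c / 2, by linarith, by linarith, by positivity, hγ,
    by have := H.cpos; linarith, ?_, ?_, ?_, ?_⟩
  · rintro ⟨p, q⟩ hz hp hpr hq
    simp only at hp hpr hq
    refine H.closed ⟨closure_coord hz, ?_⟩
    rw [mem_ball]
    exact lt_of_le_of_lt (hdist p q hp hq).1 (by linarith)
  · intro p q hm hp hpr hq
    rw [mem_coord] at hm
    obtain ⟨hd1, hd2⟩ := hdist p q hp hq
    have hne : pt x0 (e k) p q ≠ x0 := by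
      intro h; rw [h, dist_self] at hd2; linarith
    obtain ⟨j, p', q', hz, hp', -, hq', hq'2⟩ := H.sector hrr.le hr hm hne (by linarith)
    have hjk : j = k := by
      by_contra hjk
      have h1 := H.not_front hjk hp hq
      rw [hz, inner_pt_left (H.unit j)] at h1
      linarith
    subst hjk
    have hqq : q = q' := by
      have := congrArg (fun z => inner ℝ (z - x0) (J (e j))) hz
      simpa only [inner_pt_right (H.unit j)] using this
    rw [hqq]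
    refine hq'2.trans ?_
    have h3 : dist (pt x0 (e j) p q) x0 ^ (1 + γ) ≤ (2:ℝ) ^ (1 + γ) * p ^ (1 + γ) := by
      rw [← Real.mul_rpow (by norm_num) hp.le]
      exact Real.rpow_le_rpow dist_nonneg hd1 (by linarith)
    have h0 : 0 < p ^ (1 + γ) := by positivity
    calc C * dist (pt x0 (e j) p q) x0 ^ (1 + γ) ≤ C * ((2:ℝ) ^ (1 + γ) * p ^ (1 + γ)) := by gcongr
      _ ≤ 2 * (2:ℝ) ^ (1 + γ) * C * p ^ (1 + γ) := by nlinarith [mul_pos (mul_pos hC h2γ) h0]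
  · intro t ht htr
    obtain ⟨z, hz, hd⟩ := H.near k t ht (by linarith)
    refine ⟨inner ℝ (z - x0) (e k), inner ℝ (z - x0) (J (e k)), ?_, ?_, ?_⟩
    · rw [mem_coord, pt_coords he]; exact hz
    all_goals
      have hray : x0 + t • e k = pt x0 (e k) t 0 := by simp [pt]
      have h1 := abs_le_dist_pt (x0 := x0) he (inner ℝ (z - x0) (e k))
        (inner ℝ (z - x0) (J (e k))) t 0
      rw [pt_coords he, ← hray, sub_zero] at h1
      have h0 : 0 < t ^ (1 + γ) := by positivity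
      have h4 : C * t ^ (1 + γ) ≤ 2 * (2:ℝ) ^ (1 + γ) * C * t ^ (1 + γ) := by
        gcongr
        nlinarith
    · exact h1.1.trans (hd.trans h4)
    · exact h1.2.trans (hd.trans h4)
  · intro p q hm hp hpr hq ρ hρ hρc
    rw [mem_coord] at hm
    obtain ⟨hd1, hd2⟩ := hdist p q hp hq
    have hne : pt x0 (e k) p q ≠ x0 := by
      intro h; rw [h, dist_self] at hd2; linarith
    obtain ⟨v, hv⟩ := H.flat _ hm hne (by linarith) (2 * ρ) (by linarith) (by
      have : c * p ≤ c * dist (pt x0 (e k) p q) x0 := by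
        have := H.cpos
        gcongr
      linarith)
    refine ⟨_, _, (hv.flatAt he (by linarith)).mono (by linarith) ?_⟩
    have h5 : (2 * ρ / dist (pt x0 (e k) p q) x0) ^ γ ≤ (2:ℝ) ^ γ * (ρ / p) ^ γ := by
      rw [← Real.mul_rpow (by norm_num) (by positivity)]
      refine Real.rpow_le_rpow (by positivity) ?_ hγ.le
      rw [← mul_div_assoc]
      gcongr
    have h6 : (2:ℝ) ^ (1 + γ) = 2 * (2:ℝ) ^ γ := by
      rw [Real.rpow_add (by norm_num), Real.rpow_one]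
    have h7 : 0 < (ρ / p) ^ γ := by positivity
    have h8 : 0 < (2:ℝ) ^ γ := by positivity
    calc C * (2 * ρ) * (2 * ρ / dist (pt x0 (e k) p q) x0) ^ γ ≤
        C * (2 * ρ) * ((2:ℝ) ^ γ * (ρ / p) ^ γ) := by gcongr
      _ ≤ 2 * (2:ℝ) ^ (1 + γ) * C * ρ * (ρ / p) ^ γ := by
        rw [h6]
        nlinarith [mul_pos (mul_pos (mul_pos hC hρ) h7) h8]

/-- The graph description of `K` near the centre of the star. -/
theorem StarHyp.graph [Finite ι] [Nonempty ι] (H : StarHyp K x0 e r0 C γ c) :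
    ∃ (r : ℝ) (f : ι → ℝ → ℝ) (C' c' : ℝ), 0 < r ∧ 2 * r < r0 ∧ 0 < C' ∧ 0 < c' ∧
      (∀ k, f k 0 = 0) ∧
      (∀ k x, 0 < x → x ≤ r → |f k x| ≤ x / 10 ∧ |f k x| ≤ C' * x ^ (1 + γ)) ∧
      (∀ k x, 0 < x → x ≤ r → ∀ ρ, 0 < ρ → ρ ≤ c' * x → ∃ m, ∀ h, |h| ≤ ρ → 0 ≤ x + h →
        x + h ≤ r → |f k (x + h) - f k x - m * h| ≤ C' * ρ * (ρ / x) ^ γ) ∧
      (∀ s, 0 < s → s ≤ r → ∀ z, (z ∈ K ∧ dist z x0 < 101 / 100 * s ∧
        ∀ k, inner ℝ (z - x0) (e k) < s) ↔ ∃ k p, 0 ≤ p ∧ p < s ∧ z = pt x0 (e k) p (f k p)) := by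
  have hC := H.Cpos
  have hγ := H.γpos
  have hex : ∀ k, ∃ r3 c1 C' : ℝ, 0 < r3 ∧ 0 < c1 ∧ 0 < C' ∧ ∃ f : ℝ → ℝ, f 0 = 0 ∧
      (∀ p q, 0 < p → p ≤ r3 → |q| ≤ p / 4 → ((p, q) ∈ coord x0 (e k) K ↔ q = f p)) ∧
      (∀ p, 0 < p → p ≤ r3 → |f p| ≤ p / 10 ∧ |f p| ≤ C' * p ^ (1 + γ)) ∧
      (∀ x, 0 < x → x ≤ r3 → ∀ ρ, 0 < ρ → ρ ≤ c1 * x → ∃ m, ∀ h, |h| ≤ ρ → 0 ≤ x + h →
        x + h ≤ r3 → |f (x + h) - f x - m * h| ≤ C' * ρ * (ρ / x) ^ γ) := by
    intro k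
    obtain ⟨r0', C₀, c₀, -, hR⟩ := H.rayHyp k
    obtain ⟨r3, c1, C', h1, -, h3, h4, f, h5⟩ := hR.graph
    exact ⟨r3, c1, C', h1, h3, h4, f, h5⟩
  choose r3 c1 C' hr3 hc1 hC' f hf0 hfiff hfb hfl using hex
  obtain ⟨ra, hra0, hrar, hra⟩ := exists_small hC hγ (ε := 1/100) (by norm_num) H.r0pos
  -- uniform constants
  have hmin : ∀ g : ι → ℝ, (∀ k, 0 < g k) → ∃ m, 0 < m ∧ ∀ k, m ≤ g k := by
    intro g hg
    obtain ⟨k, hk⟩ := Finite.exists_min g
    exact ⟨g k, hg k, hk⟩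
  obtain ⟨rb, hrb0, hrb⟩ := hmin r3 hr3
  obtain ⟨cm, hcm0, hcm⟩ := hmin c1 hc1
  obtain ⟨k₀, hk₀⟩ := Finite.exists_max C'
  set r := min rb (ra / 4) with hr
  have hr0 : 0 < r := lt_min hrb0 (by linarith)
  have hrrb : r ≤ rb := min_le_left _ _
  have hrra : r ≤ ra / 4 := min_le_right _ _
  refine ⟨r, f, C' k₀, cm, hr0, by linarith, hC' k₀, hcm0, hf0, ?_, ?_, ?_⟩
  · intro k x hx hxr
    obtain ⟨h1, h2⟩ := hfb k x hx (by linarith [hrb k])
    refine ⟨h1, h2.trans ?_⟩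
    gcongr
    exact hk₀ k
  · intro k x hx hxr ρ hρ hρc
    obtain ⟨m, hm⟩ := hfl k x hx (by linarith [hrb k]) ρ hρ (hρc.trans (by
      gcongr
      exact hcm k))
    refine ⟨m, fun h hh h1 h2 => (hm h hh h1 (by linarith [hrb k])).trans ?_⟩
    gcongr
    exact hk₀ k
  · intro s hs hsr z
    constructor
    · rintro ⟨hz, hzd, hzk⟩
      by_cases hzx : z = x0
      · obtain ⟨k⟩ := (inferInstance : Nonempty ι)
        exact ⟨k, 0, le_rfl, hs, by rw [hf0, pt_zero, hzx]⟩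
      · obtain ⟨k, p, q, hzpt, hp, hpd, hq, -⟩ := H.sector hrar.le hra hz hzx (by linarith)
        have hps : p < s := by
          have := hzk k
          rwa [hzpt, inner_pt_left (H.unit k)] at this
        refine ⟨k, p, hp.le, hps, ?_⟩
        have hqf : q = f k p := by
          refine (hfiff k p q hp (by linarith [hrb k]) (by linarith)).1 ?_
          rw [mem_coord, ← hzpt]; exact hz
        rw [hzpt, hqf]
    · rintro ⟨k, p, hp, hps, rfl⟩
      rcases eq_or_lt_of_le hp with rfl | hp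
      · rw [hf0, pt_zero]
        refine ⟨H.mem, by rw [dist_self]; linarith, fun j => ?_⟩
        simpa using hs
      · obtain ⟨h1, h2⟩ := hfb k p hp (by linarith [hrb k])
        refine ⟨?_, ?_, ?_⟩
        · rw [← mem_coord]
          exact (hfiff k p (f k p) hp (by linarith [hrb k]) (by linarith)).2 rfl
        · have h3 := dist_pt_x0_sq (H.unit k) x0 p (f k p)
          have h4 : f k p ^ 2 ≤ (p / 10) ^ 2 :=
            sq_le_sq' (by linarith [(abs_le.1 h1).1]) (abs_le.1 h1).2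
          refine lt_of_le_of_lt (b := 101/100 * p) ?_ (by linarith)
          refine (abs_le_of_sq_le_sq' ?_ (by linarith)).2
          nlinarith
        · intro j
          by_cases hjk : j = k
          · subst hjk
            rw [inner_pt_left (H.unit j)]; exact hps
          · have := H.not_front hjk hp (q := f k p) (by linarith)
            linarith

end Crest.Agent.R135.Arc
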