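import Crest.Agent.R135.IFDefs2

/-!
# R135: assembly of `line_flat` and `arc_or_triple` (helper370)

The statements of the blocks used are hypotheses here (definitions `...Stmt`); they are
instantiated in IF_LOC.lean.
-/

set_option autoImplicit false

open MeasureTheory Set Filter Topology Metric
open scoped ENNReal NNReal ContDiff Gradient
open Crest.AnalysisR.PDE.OnePhase Crest.AnalysisR.PDE.MumfordShah

namespace Crest.Agent.R135.Asm

/-- statement of `line_reg` -/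
def LineRegStmt : Prop := ∀ ε : ℝ, 0 < ε → ∃ ε₀ c : ℝ, 0 < ε₀ ∧ 0 < c ∧ c ≤ 1 / 4 ∧
    ∀ {U : Set E2} {lam : ℝ} {u : E2 → ℝ} {K : Set E2}, IsQM U lam u K →
      ∀ y ∈ K, ∀ r : ℝ, 0 < r → r ≤ 1 → closedBall y r ⊆ U → lam * r ≤ ε₀ →
        Dr u K y r ≤ ε₀ * r → LineLike ε₀ K y r → LineReg ε U lam u K y (c * r)

/-- statement of `decay_line` -/
def DecayLineStmt : Prop := ∃ ε C γ : ℝ, 0 < ε ∧ 0 < C ∧ 0 < γ ∧ γ ≤ 1 / 4 ∧
    ∀ {U : Set E2} {lam : ℝ} {u : E2 → ℝ} {K : Set E2} {y : E2} {r : ℝ}, IsSQM U lam u K →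
      LineReg ε U lam u K y r → ∀ z ∈ K, dist z y ≤ r / 2 → ∀ s : ℝ, 0 < s → s ≤ r / 16 →
        Dr u K z s ≤ C * s * (s / r) ^ (2 * γ)

/-- statement of `exc_line` -/
def ExcLineStmt : Prop := ∃ ε C : ℝ, 0 < ε ∧ 0 < C ∧
    ∀ {U : Set E2} {lam : ℝ} {u : E2 → ℝ} {K : Set E2} {y : E2} {r : ℝ}, IsSQM U lam u K →
      LineReg ε U lam u K y r → ∀ z ∈ K, dist z y ≤ r / 4 → ∀ s : ℝ, 0 < s → s ≤ r / 64 →
        ∃ e : E2, Arc.Flat K z e s (C * s * Real.sqrt (Dr u K z (4 * s) / s + lam * s))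

/-- statement of `line_flat` -/
def LineFlatStmt : Prop := ∃ ε c C γ : ℝ, 0 < ε ∧ 0 < c ∧ 0 < C ∧ 0 < γ ∧
    ∀ {U : Set E2} {lam : ℝ} {u : E2 → ℝ} {K : Set E2}, IsSQM U lam u K →
      ∀ y ∈ K, ∀ r : ℝ, 0 < r → r ≤ 1 → closedBall y r ⊆ U → lam * r ≤ ε →
        Dr u K y r ≤ ε * r → LineLike ε K y r →
        ∀ z ∈ K, dist z y ≤ c * r → ∀ ρ : ℝ, 0 < ρ → ρ ≤ c * r →
          ∃ e : E2, Arc.Flat K z e ρ (C * ρ * (ρ / r) ^ γ)

/-- statement of `local_shape` -/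
def LocalShapeStmt : Prop := ∀ ε : ℝ, 0 < ε → ∃ ε₀ : ℝ, 0 < ε₀ ∧
    ∀ {U : Set E2} {lam : ℝ} {u : E2 → ℝ} {K : Set E2}, IsQM U lam u K →
      ∀ x ∈ K, ∀ r : ℝ, 0 < r → r ≤ 1 → closedBall x r ⊆ U → lam * r ≤ ε₀ →
        Dr u K x r ≤ ε₀ * r →
        ∃ ρ₀ : ℝ, LineReg ε U lam u K x ρ₀ ∨ PropReg ε U lam u K x ρ₀

/-- statement of `decay_prop` -/
def DecayPropStmt : Prop := ∃ ε C γ : ℝ, 0 < ε ∧ 0 < C ∧ 0 < γ ∧ γ ≤ 1 / 4 ∧
    ∀ {U : Set E2} {lam : ℝ} {u : E2 → ℝ} {K : Set E2} {x : E2} {r : ℝ}, IsSQM U lam u K →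
      PropReg ε U lam u K x r → ∀ s : ℝ, 0 < s → s ≤ r / 16 →
        Dr u K x s ≤ C * s * (s / r) ^ (2 * γ)

/-- statement of `star_prop` -/
def StarPropStmt : Prop := ∃ ε : ℝ, 0 < ε ∧ ∀ C₀ γ : ℝ, 0 < C₀ → 0 < γ → γ ≤ 1 / 4 →
    ∃ C c : ℝ, 0 < C ∧ 0 < c ∧
    ∀ {U : Set E2} {lam : ℝ} {u : E2 → ℝ} {K : Set E2} {x : E2} {r : ℝ}, IsSQM U lam u K →
      PropReg ε U lam u K x r →
      (∀ s : ℝ, 0 < s → s ≤ r / 16 → Dr u K x s ≤ C₀ * s * (s / r) ^ (2 * γ)) →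
      ∀ s : ℝ, 0 < s → s ≤ c * r →
        ∃ e : E2, Arc.StarAt Arc.a3 Arc.b3 K x e s (C * s * (s / r) ^ γ)

/-- statement of `arc_or_triple` -/
def ArcOrTripleStmt : Prop := ∃ ε₀ : ℝ, 0 < ε₀ ∧
    ∀ {U : Set E2} {lam : ℝ} {u : E2 → ℝ} {K : Set E2}, IsSQM U lam u K →
      ∀ x ∈ K, ∀ r : ℝ, 0 < r → r ≤ 1 → closedBall x r ⊆ U → lam * r ≤ ε₀ →
        Dr u K x r ≤ ε₀ * r → IsArcInteriorPoint U K x ∨ IsTripleJunctionPoint U K x

/-! ### monotonicity in the precision -/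

theorem flat_mono {K : Set E2} {y e : E2} {ρ E ρ' E' : ℝ} (h : Arc.Flat K y e ρ E)
    (hρ : ρ' ≤ ρ) (hE : E ≤ E') : Arc.Flat K y e ρ' E' :=
  ⟨h.1, fun z hz hd => (h.2.1 z hz (hd.trans hρ)).trans hE, fun t ht => by
    obtain ⟨z, hz, hd⟩ := h.2.2 t (ht.trans hρ)
    exact ⟨z, hz, hd.trans hE⟩⟩

theorem starAt_mono {ι : Type*} {a b : ι → ℝ} {K : Set E2} {y e : E2} {ρ E ρ' E' : ℝ}
    (h : Arc.StarAt a b K y e ρ E) (hρ : ρ' ≤ ρ) (hE : E ≤ E') : Arc.StarAt a b K y e ρ' E' :=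
  ⟨h.1, fun z hz hd => by
    obtain ⟨k, t, ht, hkt⟩ := h.2.1 z hz (hd.trans hρ)
    exact ⟨k, t, ht, hkt.trans hE⟩, fun k t ht ht' => by
    obtain ⟨z, hz, hd⟩ := h.2.2 k t ht (ht'.trans hρ)
    exact ⟨z, hz, hd.trans hE⟩⟩

theorem lineLike_mono {η η' : ℝ} {K : Set E2} {y : E2} {ρ : ℝ} (h : LineLike η K y ρ)
    (hη : η ≤ η') (hρ : 0 ≤ ρ) : LineLike η' K y ρ := by
  obtain ⟨e, he⟩ := h
  exact ⟨e, flat_mono he le_rfl (mul_le_mul_of_nonneg_right hη hρ)⟩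

theorem propLike_mono {η η' : ℝ} {K : Set E2} {y : E2} {ρ : ℝ} (h : PropLike η K y ρ)
    (hη : η ≤ η') (hρ : 0 ≤ ρ) : PropLike η' K y ρ := by
  obtain ⟨e, he⟩ := h
  exact ⟨e, starAt_mono he le_rfl (mul_le_mul_of_nonneg_right hη hρ)⟩

theorem lineReg_mono {ε ε' : ℝ} {U : Set E2} {lam : ℝ} {u : E2 → ℝ} {K : Set E2} {y : E2} {r : ℝ}
    (h : LineReg ε U lam u K y r) (hε : ε ≤ ε') : LineReg ε' U lam u K y r where
  pos := h.pos
  le_one := h.le_one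
  mem := h.mem
  sub := h.sub
  lam_le := h.lam_le.trans hε
  en := fun z hz hd s hs hsr => (h.en z hz hd s hs hsr).trans (mul_le_mul_of_nonneg_right hε hs.le)
  flat := fun z hz hd s hs hsr => lineLike_mono (h.flat z hz hd s hs hsr) hε hs.le
  len_le := fun z hz hd s hs hsr => (h.len_le z hz hd s hs hsr).trans
    (mul_le_mul_of_nonneg_right (by linarith) hs.le)

theorem propReg_mono {ε ε' : ℝ} {U : Set E2} {lam : ℝ} {u : E2 → ℝ} {K : Set E2} {y : E2} {r : ℝ}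
    (h : PropReg ε U lam u K y r) (hε : ε ≤ ε') : PropReg ε' U lam u K y r where
  pos := h.pos
  le_one := h.le_one
  mem := h.mem
  sub := h.sub
  lam_le := h.lam_le.trans hε
  en := fun z hz hd s hs hsr => (h.en z hz hd s hs hsr).trans (mul_le_mul_of_nonneg_right hε hs.le)
  prop := fun s hs hsr => propLike_mono (h.prop s hs hsr) hε hs.le
  len_le := fun s hs hsr => (h.len_le s hs hsr).trans
    (mul_le_mul_of_nonneg_right (by linarith) hs.le)
  line := fun z hz h0 hd s hs hsr => ⟨lineLike_mono (h.line z hz h0 hd s hs hsr).1 hε hs.le,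
    (h.line z hz h0 hd s hs hsr).2.trans (mul_le_mul_of_nonneg_right (by linarith) hs.le)⟩

/-! ### flatness decay in the line-like regime -/

theorem flat_of_lineReg (h2 : DecayLineStmt) (h3 : ExcLineStmt) :
    ∃ ε C γ : ℝ, 0 < ε ∧ 0 < C ∧ 0 < γ ∧ γ ≤ 1 / 4 ∧
    ∀ {U : Set E2} {lam : ℝ} {u : E2 → ℝ} {K : Set E2} {y : E2} {r : ℝ}, IsSQM U lam u K →
      LineReg ε U lam u K y r → ∀ z ∈ K, dist z y ≤ r / 4 → ∀ s : ℝ, 0 < s → s ≤ r / 64 →
        ∃ e : E2, Arc.Flat K z e s (C * s * (s / r) ^ γ) := by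
  obtain ⟨εD, CD, γ, hεD, hCD, hγ, hγ4, hD⟩ := h2
  obtain ⟨εE, CE, hεE, hCE, hE⟩ := h3
  set B : ℝ := 4 * CD * 4 ^ (2 * γ) + εD with hB
  have hB0 : 0 < B := by positivity
  refine ⟨min εD εE, CE * √B, γ, lt_min hεD hεE, by positivity, hγ, hγ4, ?_⟩
  intro U lam u K y r h hreg z hz hzy s hs hsr
  have hr : 0 < r := hreg.pos
  have hregD := lineReg_mono hreg (min_le_left εD εE)
  have hregE := lineReg_mono hreg (min_le_right εD εE)
  obtain ⟨e, he⟩ := hE h hregE z hz hzy s hs hsr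
  refine ⟨e, flat_mono he le_rfl ?_⟩
  have h4 := hD h hregD z hz (by linarith) (4 * s) (by positivity) (by linarith)
  have hsr0 : 0 < s / r := by positivity
  have hsr1 : s / r ≤ 1 := by
    rw [div_le_one hr]; linarith
  have h5 : Dr u K z (4 * s) / s ≤ 4 * CD * 4 ^ (2 * γ) * (s / r) ^ (2 * γ) := by
    rw [div_le_iff₀ hs]
    refine h4.trans (le_of_eq ?_)
    rw [mul_div_assoc, Real.mul_rpow (by norm_num) hsr0.le]
    ring
  have h6 : lam * s ≤ εD * (s / r) ^ (2 * γ) := by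
    have h7 : lam * s = lam * r * (s / r) := by field_simp
    rw [h7]
    have h8 : s / r ≤ (s / r) ^ (2 * γ) := by
      conv_lhs => rw [← Real.rpow_one (s / r)]
      exact Real.rpow_le_rpow_of_exponent_ge hsr0 hsr1 (by linarith)
    exact mul_le_mul hregD.lam_le h8 hsr0.le hεD.le
  have h7 : √(Dr u K z (4 * s) / s + lam * s) ≤ √B * (s / r) ^ γ := by
    have h8 : (s / r) ^ (2 * γ) = ((s / r) ^ γ) ^ 2 := by
      rw [← Real.rpow_natCast, ← Real.rpow_mul hsr0.le]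
      congr 1
      push_cast
      ring
    have h9 : √B * (s / r) ^ γ = √(B * (s / r) ^ (2 * γ)) := by
      rw [Real.sqrt_mul hB0.le, h8, Real.sqrt_sq (by positivity)]
    rw [h9]
    apply Real.sqrt_le_sqrt
    rw [hB, add_mul]
    exact add_le_add h5 h6
  calc CE * s * √(Dr u K z (4 * s) / s + lam * s) ≤ CE * s * (√B * (s / r) ^ γ) :=
        mul_le_mul_of_nonneg_left h7 (by positivity)
    _ = CE * √B * s * (s / r) ^ γ := by ring

/-- **ε-regularity at line-like points.** -/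
theorem line_flat_of (h1 : LineRegStmt) (h2 : DecayLineStmt) (h3 : ExcLineStmt) : LineFlatStmt := by
  obtain ⟨ε1, C1, γ, hε1, hC1, hγ, hγ4, hfl⟩ := flat_of_lineReg h2 h3
  obtain ⟨ε0, c0, hε0, hc0, hc04, hreg⟩ := h1 ε1 hε1
  refine ⟨ε0, c0 / 64, C1 * (1 / c0) ^ γ, γ, hε0, by positivity, by positivity, hγ, ?_⟩
  intro U lam u K h y hy r hr hr1 hyU hlam hD hline z hz hzy ρ hρ hρr
  have hR := hreg h.toIsQM y hy r hr hr1 hyU hlam hD hline
  have hcr : 0 < c0 * r := by positivity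
  obtain ⟨e, he⟩ := hfl h hR z hz (by linarith) ρ hρ (by linarith)
  refine ⟨e, flat_mono he le_rfl (le_of_eq ?_)⟩
  have h4 : ρ / (c0 * r) = (1 / c0) * (ρ / r) := by field_simp
  rw [h4, Real.mul_rpow (by positivity) (by positivity)]
  ring

/-- **Small density: arc point or triple junction.** -/
theorem arc_or_triple_of (h1 : LineFlatStmt) (h2 : DecayLineStmt) (h3 : ExcLineStmt)
    (h4 : LocalShapeStmt) (h5 : DecayPropStmt) (h6 : StarPropStmt) : ArcOrTripleStmt := by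
  obtain ⟨ε1, c1, C1, γ1, hε1, hc1, hC1, hγ1, hlf⟩ := h1
  obtain ⟨ε2, C2, γ2, hε2, hC2, hγ2, hγ24, hfl⟩ := flat_of_lineReg h2 h3
  obtain ⟨ε3, C3, γ3, hε3, hC3, hγ3, hγ34, hdp⟩ := h5
  obtain ⟨ε4, hε4, hsp⟩ := h6
  obtain ⟨C4, c4, hC4, hc4, hstar⟩ := hsp C3 γ3 hC3 hγ3 hγ34
  set ε : ℝ := min (min ε1 ε2) (min ε3 ε4) with hε
  have hε0 : 0 < ε := lt_min (lt_min hε1 hε2) (lt_min hε3 hε4)
  have e1 : ε ≤ ε1 := (min_le_left _ _).trans (min_le_left _ _)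
  have e2 : ε ≤ ε2 := (min_le_left _ _).trans (min_le_right _ _)
  have e3 : ε ≤ ε3 := (min_le_right _ _).trans (min_le_left _ _)
  have e4 : ε ≤ ε4 := (min_le_right _ _).trans (min_le_right _ _)
  obtain ⟨ε₀, hε₀, hshape⟩ := h4 ε hε0
  refine ⟨ε₀, hε₀, ?_⟩
  intro U lam u K h x hx r hr hr1 hxU hlam hD
  obtain ⟨ρ₀, hL | hP⟩ := hshape h.toIsQM x hx r hr hr1 hxU hlam hD
  · -- line-like regime
    left
    have hρ₀ := hL.pos
    have hreg := lineReg_mono hL e2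
    have hr0 : 0 < ρ₀ / 64 := by positivity
    have hballU : ball x (ρ₀ / 64) ⊆ U :=
      (ball_subset_closedBall.trans (closedBall_subset_closedBall (by linarith))).trans hL.sub
    refine Arc.isArcInteriorPoint_of_flat (r0 := ρ₀ / 64) (C := C2 * (1 / ρ₀) ^ γ2) (γ := γ2) hr0
      (by positivity) hγ2 hx (fun y hy => h.closed ⟨hy.1, hballU hy.2⟩) hballU ?_
    intro y hy hyx ρ hρ hρr
    obtain ⟨v, hv⟩ := hfl h hreg y hy (by linarith) ρ hρ hρr.le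
    refine ⟨v, flat_mono hv le_rfl (le_of_eq ?_)⟩
    rw [div_eq_mul_one_div, Real.mul_rpow hρ.le (by positivity), Real.rpow_add hρ, Real.rpow_one]
    ring
  · -- propeller-like regime
    right
    have hρ₀ := hP.pos
    set γ : ℝ := min γ1 γ3 with hγ
    have hγ0 : 0 < γ := lt_min hγ1 hγ3
    set r0 : ℝ := min (min (ρ₀ / 2) (c4 * ρ₀)) 1 with hr0
    have hr00 : 0 < r0 := by positivity
    have hr0a : r0 ≤ ρ₀ / 2 := (min_le_left _ _).trans (min_le_left _ _)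
    have hr0b : r0 ≤ c4 * ρ₀ := (min_le_left _ _).trans (min_le_right _ _)
    have hballU : ball x r0 ⊆ U :=
      (ball_subset_closedBall.trans (closedBall_subset_closedBall (by linarith))).trans hP.sub
    set c : ℝ := min (c1 / 2) (1 / 2) with hc
    have hc0 : 0 < c := by positivity
    set C : ℝ := C4 * (1 / ρ₀) ^ γ + C1 * 2 ^ γ1 with hC
    have hC0 : 0 < C := by positivity
    refine Arc.isTripleJunctionPoint_of_moving (r0 := r0) (C := C) (γ := γ) (c := c) hr00 hC0 hγ0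
      hc0 hx (fun y hy => h.closed ⟨hy.1, hballU hy.2⟩) hballU ?_ ?_
    · intro ρ hρ hρr
      obtain ⟨e, he⟩ := hstar h (propReg_mono hP e4)
        (fun s hs hsr => hdp h (propReg_mono hP e3) s hs hsr) ρ hρ (hρr.le.trans hr0b)
      refine ⟨e, starAt_mono he le_rfl ?_⟩
      have h7 : 0 < ρ / ρ₀ := by positivity
      have h8 : ρ / ρ₀ ≤ 1 := by rw [div_le_one hρ₀]; linarith
      have h9 : (ρ / ρ₀) ^ γ3 ≤ (ρ / ρ₀) ^ γ :=
        Real.rpow_le_rpow_of_exponent_ge h7 h8 (min_le_right _ _)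
      have h10 : C4 * ρ * (ρ / ρ₀) ^ γ3 ≤ C4 * ρ * (ρ / ρ₀) ^ γ :=
        mul_le_mul_of_nonneg_left h9 (by positivity)
      refine h10.trans ?_
      rw [div_eq_mul_one_div, Real.mul_rpow hρ.le (by positivity), Real.rpow_add hρ, Real.rpow_one,
        hC]
      have h11 : 0 ≤ C1 * 2 ^ γ1 * (ρ * ρ ^ γ) := by positivity
      nlinarith
    · intro y hy hyx hyr ρ hρ hρc
      have hd : 0 < dist y x := dist_pos.2 hyx
      set d : ℝ := dist y x with hd'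
      have hdρ : d < ρ₀ := by linarith
      have hd1 : d < 1 := hyr.trans_le (min_le_right _ _)
      have hd2 : 0 < d / 2 := by positivity
      have hsubU : closedBall y (d / 2) ⊆ U := by
        refine (closedBall_subset_closedBall' ?_).trans hP.sub
        rw [← hd']
        linarith
      have hlam' : lam * (d / 2) ≤ ε1 := by
        refine le_trans (mul_le_mul_of_nonneg_left (by linarith) h.lam_nonneg) (hP.lam_le.trans e1)
      have hline := hP.line y hy hd hdρ (d / 2) hd2 le_rfl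
      obtain ⟨v, hv⟩ := hlf h y hy (d / 2) hd2 (by linarith) hsubU hlam'
        ((hP.en y hy hdρ (d / 2) hd2 (by linarith)).trans
          (mul_le_mul_of_nonneg_right e1 hd2.le))
        (lineLike_mono hline.1 e1 hd2.le) y hy (by rw [dist_self]; positivity) ρ hρ (by
          refine hρc.trans ?_
          have : c ≤ c1 / 2 := min_le_left _ _
          nlinarith)
      refine ⟨v, flat_mono hv le_rfl ?_⟩
      have h7 : 0 < ρ / d := by positivity
      have h8 : ρ / d ≤ 1 := by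
        rw [div_le_one hd]
        have : c ≤ 1 / 2 := min_le_right _ _
        nlinarith
      have h9 : (ρ / (d / 2)) ^ γ1 = 2 ^ γ1 * (ρ / d) ^ γ1 := by
        rw [← Real.mul_rpow (by norm_num) h7.le]
        congr 1
        field_simp
      have h10 : (ρ / d) ^ γ1 ≤ (ρ / d) ^ γ :=
        Real.rpow_le_rpow_of_exponent_ge h7 h8 (min_le_left _ _)
      rw [h9]
      calc C1 * ρ * (2 ^ γ1 * (ρ / d) ^ γ1) = C1 * 2 ^ γ1 * ρ * (ρ / d) ^ γ1 := by ring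
        _ ≤ C1 * 2 ^ γ1 * ρ * (ρ / d) ^ γ := mul_le_mul_of_nonneg_left h10 (by positivity)
        _ ≤ C * ρ * (ρ / d) ^ γ := by
            apply mul_le_mul_of_nonneg_right _ (by positivity)
            apply mul_le_mul_of_nonneg_right _ hρ.le
            have : 0 ≤ C4 * (1 / ρ₀) ^ γ := by positivity
            linarith

end Crest.Agent.R135.Asm
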