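import Mathlib

/-! R135 toolbox T2 + SB (helper391): connected sets and one-dimensional Hausdorff measure,
Sura–Bura clopen pieces, boundary bumping, counting unbounded components. -/

set_option autoImplicit false
open MeasureTheory Set Metric
open scoped ENNReal NNReal Topology

namespace Crest.Agent.R135

section H1conn
variable {X : Type*} [MetricSpace X] [MeasurableSpace X] [BorelSpace X]

/-- For the distance function to a point, `volume (dist · x '' S) ≤ H¹ S`. -/
lemma volume_image_dist_le (x : X) (S : Set X) :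
    volume ((fun y => dist y x) '' S) ≤ Measure.hausdorffMeasure 1 S := by
  have h : LipschitzWith 1 (fun y : X => dist y x) := LipschitzWith.dist_left x
  have := h.hausdorffMeasure_image_le (d := 1) zero_le_one S
  rw [hausdorffMeasure_real] at this
  simpa using this

/-- A connected set which has a point at distance `≤ s` and one at distance `≥ t` from `x`
has length at least `t - s` inside the open annulus. -/
theorem hausdorff_annulus_ge {C : Set X} (hC : IsPreconnected C) (x : X) {a b : X}
    (ha : a ∈ C) (hb : b ∈ C) {s t : ℝ} (has : dist a x ≤ s) (hbt : t ≤ dist b x) :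
    ENNReal.ofReal (t - s) ≤
      Measure.hausdorffMeasure 1 (C ∩ {y | s < dist y x ∧ dist y x < t}) := by
  refine le_trans ?_ (volume_image_dist_le x _)
  have himg : Ioo s t ⊆ (fun y => dist y x) '' (C ∩ {y | s < dist y x ∧ dist y x < t}) := by
    intro ρ hρ
    have hI := hC.intermediate_value ha hb (f := fun y => dist y x)
      (continuous_id.dist continuous_const).continuousOn
    obtain ⟨y, hy, hyρ⟩ := hI ⟨has.trans hρ.1.le, hρ.2.le.trans hbt⟩
    exact ⟨y, ⟨hy, by simpa [hyρ] using hρ.1, by simpa [hyρ] using hρ.2⟩, hyρ⟩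
  calc ENNReal.ofReal (t - s) = volume (Ioo s t) := by rw [Real.volume_Ioo]
    _ ≤ _ := measure_mono himg

/-- `C` connected, `x ∈ C`, `b ∈ C`, `r ≤ dist b x` : `r ≤ H¹ (C ∩ ball x r)`. -/
theorem hausdorff_ball_ge {C : Set X} (hC : IsPreconnected C) {x b : X}
    (hx : x ∈ C) (hb : b ∈ C) {r : ℝ} (hbr : r ≤ dist b x) :
    ENNReal.ofReal r ≤ Measure.hausdorffMeasure 1 (C ∩ ball x r) := by
  have := hausdorff_annulus_ge hC x hx hb (s := 0) (by simp) hbr
  rw [sub_zero] at this
  refine this.trans (measure_mono ?_)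
  rintro y ⟨hy, -, h2⟩
  exact ⟨hy, h2⟩

/-- the length of a connected set is at least the distance of two of its points. -/
theorem hausdorff_ge_dist {C : Set X} (hC : IsPreconnected C) {a b : X}
    (ha : a ∈ C) (hb : b ∈ C) :
    ENNReal.ofReal (dist a b) ≤ Measure.hausdorffMeasure 1 C := by
  rw [dist_comm]
  exact (hausdorff_ball_ge hC ha hb le_rfl).trans (measure_mono inter_subset_left)

omit [MeasurableSpace X] [BorelSpace X] in
/-- A connected set with points on both sides meets the sphere. -/
theorem exists_mem_sphere {C : Set X} (hC : IsPreconnected C) (x : X) {a b : X}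
    (ha : a ∈ C) (hb : b ∈ C) {t : ℝ} (hat : dist a x ≤ t) (hbt : t ≤ dist b x) :
    ∃ y ∈ C, dist y x = t := by
  obtain ⟨y, hy, h⟩ := hC.intermediate_value ha hb (f := fun y => dist y x)
    (continuous_id.dist continuous_const).continuousOn ⟨hat, hbt⟩
  exact ⟨y, hy, h⟩

/-- If a preconnected set `C` meets `ball x s` and is not contained in `ball x t`, `s<t`, then
`H¹ (C ∩ ball x t) ≥ t - s`. -/
theorem hausdorff_ball_ge' {C : Set X} (hC : IsPreconnected C) (x : X) {a b : X}
    (ha : a ∈ C) (hb : b ∈ C) {s t : ℝ} (has : dist a x ≤ s) (hbt : t ≤ dist b x) :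
    ENNReal.ofReal (t - s) ≤ Measure.hausdorffMeasure 1 (C ∩ ball x t) := by
  refine (hausdorff_annulus_ge hC x ha hb has hbt).trans (measure_mono ?_)
  rintro y ⟨hy, -, h2⟩
  exact ⟨hy, h2⟩

/-- Finitely many pairwise disjoint unbounded connected closed pieces: if `H¹ (K ∩ ball x R) ≤ L R`
for arbitrarily large `R`, then there are at most `L` of them. -/
theorem card_unbounded_le {ι : Type*} (T : Finset ι) (C : ι → Set X) (K : Set X)
    (hCK : ∀ i ∈ T, C i ⊆ K) (hC : ∀ i ∈ T, IsPreconnected (C i))
    (hne : ∀ i ∈ T, (C i).Nonempty) (hunb : ∀ i ∈ T, ¬ Bornology.IsBounded (C i))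
    (hmeas : ∀ i ∈ T, MeasurableSet (C i))
    (hdisj : (T : Set ι).PairwiseDisjoint C) (x : X) (L : ℝ) (hL : 0 ≤ L)
    (hlen : ∀ R0 : ℝ, ∃ R, R0 ≤ R ∧ 0 < R ∧
      Measure.hausdorffMeasure 1 (K ∩ ball x R) ≤ ENNReal.ofReal (L * R)) :
    (T.card : ℝ) ≤ L := by
  classical
  -- a common radius `s` such that all pieces meet `ball x s`
  have : Nonempty X := ⟨x⟩
  choose! a ha using hne
  obtain ⟨s, hs⟩ : ∃ s : ℝ, 0 ≤ s ∧ ∀ i ∈ T, dist (a i) x ≤ s := by
    refine ⟨∑ i ∈ T, dist (a i) x, Finset.sum_nonneg fun _ _ => dist_nonneg, fun i hi => ?_⟩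
    exact Finset.single_le_sum (f := fun i => dist (a i) x) (fun _ _ => dist_nonneg) hi
  have key : ∀ R : ℝ, 0 < R →
      Measure.hausdorffMeasure 1 (K ∩ ball x R) ≤ ENNReal.ofReal (L * R) →
      (T.card : ℝ) * (R - s) ≤ L * R := by
    intro R hR hlenR
    by_cases hRs : R ≤ s
    · have : (T.card : ℝ) * (R - s) ≤ 0 :=
        mul_nonpos_of_nonneg_of_nonpos (by positivity) (by linarith)
      exact this.trans (by positivity)
    push Not at hRs
    have h1 : ∀ i ∈ T, ENNReal.ofReal (R - s) ≤
        Measure.hausdorffMeasure 1 (C i ∩ ball x R) := by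
      intro i hi
      obtain ⟨b, hb, hbR⟩ : ∃ b ∈ C i, R ≤ dist b x := by
        by_contra hcon
        push Not at hcon
        exact hunb i hi ((isBounded_ball (x := x) (r := R)).subset fun y hy => hcon y hy)
      exact hausdorff_ball_ge' (hC i hi) x (ha i hi) hb (hs.2 i hi) hbR
    have h2 : ∑ i ∈ T, Measure.hausdorffMeasure 1 (C i ∩ ball x R) ≤
        Measure.hausdorffMeasure 1 (K ∩ ball x R) := by
      rw [← measure_biUnion_finset (μ := Measure.hausdorffMeasure 1)]
      · refine measure_mono ?_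
        intro y hy
        simp only [mem_iUnion] at hy
        obtain ⟨i, hi, hyi⟩ := hy
        exact ⟨hCK i hi hyi.1, hyi.2⟩
      · intro i hi j hj hij
        exact (hdisj hi hj hij).mono inter_subset_left inter_subset_left
      · intro i hi
        exact (hmeas i hi).inter measurableSet_ball
    have h3 : (T.card : ℝ≥0∞) * ENNReal.ofReal (R - s) ≤ ENNReal.ofReal (L * R) := by
      refine le_trans ?_ (h2.trans hlenR)
      rw [← nsmul_eq_mul, ← Finset.sum_const]
      exact Finset.sum_le_sum h1
    rw [← ENNReal.ofReal_natCast, ← ENNReal.ofReal_mul (by positivity)] at h3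
    exact (ENNReal.ofReal_le_ofReal_iff (by positivity)).1 h3
  by_contra hcon
  push Not at hcon
  -- (card - L) R ≤ card * s for large R
  obtain ⟨R, hR0, hR, hlenR⟩ := hlen ((T.card : ℝ) * s / (T.card - L) + 1)
  have h4 := key R hR hlenR
  have h5 : 0 < (T.card : ℝ) - L := by linarith
  have h6 : (T.card : ℝ) * s / (T.card - L) < R := by linarith
  rw [div_lt_iff₀ h5] at h6
  nlinarith

end H1conn

section SuraBura
variable {X : Type*} [TopologicalSpace X] [T2Space X]

/-- **Sura–Bura**, set version: in a compact set `N` the component of `x` inside an open set `V`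
can be enclosed in a relatively clopen compact piece inside `V`. -/
theorem suraBura {N : Set X} (hN : IsCompact N) {x : X} (hx : x ∈ N) {V : Set X}
    (hV : IsOpen V) (hCV : connectedComponentIn N x ⊆ V) :
    ∃ K1 : Set X, IsCompact K1 ∧ IsCompact (N \ K1) ∧ x ∈ K1 ∧
      connectedComponentIn N x ⊆ K1 ∧ K1 ⊆ N ∧ K1 ⊆ V := by
  have : CompactSpace N := isCompact_iff_compactSpace.1 hN
  set x' : N := ⟨x, hx⟩
  set V' : Set N := (↑) ⁻¹' V
  have hV' : IsOpen V' := hV.preimage continuous_subtype_val
  have hcc : connectedComponentIn N x = (↑) '' connectedComponent x' := by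
    rw [connectedComponentIn_eq_image hx]
  have hsub : (⋂ s : { s : Set N // IsClopen s ∧ x' ∈ s }, (s : Set N)) ⊆ V' := by
    rw [← connectedComponent_eq_iInter_isClopen]
    intro y hy
    exact hCV (hcc ▸ ⟨y, hy, rfl⟩)
  have H1 := hV'.isClosed_compl.isCompact.inter_iInter_nonempty
      (fun s : { s : Set N // IsClopen s ∧ x' ∈ s } => (s : Set N)) fun s => s.2.1.1
  rw [← not_disjoint_iff_nonempty_inter, imp_not_comm, not_forall] at H1
  obtain ⟨si, H2⟩ := H1 (disjoint_compl_left_iff_subset.2 hsub)
  set S : Set N := ⋂ U ∈ si, Subtype.val U with hS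
  have hSclopen : IsClopen S := isClopen_biInter_finset fun s _ => s.2.1
  have hxS : x' ∈ S := mem_iInter₂.2 fun s _ => s.2.2
  have hSV : S ⊆ V' := by
    rwa [← disjoint_compl_left_iff_subset, disjoint_iff_inter_eq_empty,
        ← not_nonempty_iff_eq_empty]
  have hcS : connectedComponent x' ⊆ S := hSclopen.connectedComponent_subset hxS
  refine ⟨(↑) '' S, hSclopen.1.isCompact.image continuous_subtype_val, ?_, ⟨x', hxS, rfl⟩, ?_, ?_,
    ?_⟩
  · have : N \ ((↑) '' S) = (↑) '' Sᶜ := by
      ext y; constructor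
      · rintro ⟨hy, hyS⟩
        exact ⟨⟨y, hy⟩, fun h => hyS ⟨_, h, rfl⟩, rfl⟩
      · rintro ⟨z, hz, rfl⟩
        refine ⟨z.2, ?_⟩
        rintro ⟨w, hw, hwz⟩
        exact hz (Subtype.val_injective hwz ▸ hw)
    rw [this]
    exact hSclopen.compl.1.isCompact.image continuous_subtype_val
  · rw [hcc]; exact image_mono hcS
  · rintro _ ⟨z, -, rfl⟩; exact z.2
  · rintro _ ⟨z, hz, rfl⟩; exact hSV hz

end SuraBura

section Comp
variable {X : Type*} [TopologicalSpace X]

theorem isClosed_connectedComponentIn' {K : Set X} (hK : IsClosed K) (x : X) :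
    IsClosed (connectedComponentIn K x) := by
  by_cases hx : x ∈ K
  · rw [connectedComponentIn_eq_image hx]
    exact hK.isClosedEmbedding_subtypeVal.isClosed_iff_image_isClosed.1 isClosed_connectedComponent
  · rw [connectedComponentIn_eq_empty hx]; exact isClosed_empty

theorem connectedComponentIn_disjoint_of_ne {K : Set X} {x y : X}
    (h : connectedComponentIn K x ≠ connectedComponentIn K y) :
    Disjoint (connectedComponentIn K x) (connectedComponentIn K y) := by
  rw [Set.disjoint_left]
  intro z hzx hzy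
  exact h ((connectedComponentIn_eq hzx).trans (connectedComponentIn_eq hzy).symm)

end Comp

section Bumping
variable {X : Type*} [MetricSpace X]

/-- **Boundary bumping / clopen piece alternative.** If `K ∩ closedBall x r` is compact and the
component of `x` in it misses the sphere, then `x` lies in a compact piece `K1` of `K` inside the
open ball, at positive distance from the rest of `K`. -/
theorem exists_clopen_piece {K : Set X} {x : X} {r : ℝ} (hK : IsCompact (K ∩ closedBall x r))
    (hx : x ∈ K) {V : Set X} (hV : IsOpen V)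
    (hCV : connectedComponentIn (K ∩ closedBall x r) x ⊆ V ∩ ball x r) (hr : 0 ≤ r) :
    ∃ K1 : Set X, IsCompact K1 ∧ x ∈ K1 ∧ K1 ⊆ K ∧ K1 ⊆ V ∧ K1 ⊆ ball x r ∧
      connectedComponentIn (K ∩ closedBall x r) x ⊆ K1 ∧
      Disjoint K1 (closure (K \ K1)) := by
  obtain ⟨K1, h1, h2, h3, h4, h5, h6⟩ := suraBura hK (x := x) ⟨hx, mem_closedBall_self hr⟩
    (hV.inter isOpen_ball) hCV
  refine ⟨K1, h1, h3, h5.trans inter_subset_left, h6.trans inter_subset_left,
    h6.trans inter_subset_right, h4, ?_⟩
  have hsub : K \ K1 ⊆ (K ∩ closedBall x r) \ K1 ∪ (ball x r)ᶜ := by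
    rintro y ⟨hy, hy1⟩
    by_cases hyr : y ∈ closedBall x r
    · exact Or.inl ⟨⟨hy, hyr⟩, hy1⟩
    · exact Or.inr fun h => hyr (ball_subset_closedBall h)
  have hcl : closure (K \ K1) ⊆ (K ∩ closedBall x r) \ K1 ∪ (ball x r)ᶜ :=
    closure_minimal hsub (h2.isClosed.union isOpen_ball.isClosed_compl)
  rw [Set.disjoint_left]
  intro y hy hy'
  rcases hcl hy' with h | h
  · exact h.2 hy
  · exact h (h6 hy).2

/-- If there is no clopen piece around `x` inside `ball x r`, then the component of `x` in
`K ∩ closedBall x r` reaches the sphere. -/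
theorem component_reaches_sphere {K : Set X} {x : X} {r : ℝ}
    (hK : IsCompact (K ∩ closedBall x r)) (hx : x ∈ K) (hr : 0 ≤ r)
    (hno : ∀ K1 : Set X, IsCompact K1 → x ∈ K1 → K1 ⊆ K → K1 ⊆ ball x r →
      ¬ Disjoint K1 (closure (K \ K1))) :
    ∃ y ∈ connectedComponentIn (K ∩ closedBall x r) x, dist y x = r := by
  by_contra hcon
  push Not at hcon
  have hsub : connectedComponentIn (K ∩ closedBall x r) x ⊆ univ ∩ ball x r := by
    intro y hy
    refine ⟨mem_univ _, ?_⟩
    have h1 := connectedComponentIn_subset _ _ hy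
    exact lt_of_le_of_ne h1.2 (hcon y hy)
  obtain ⟨K1, h1, h2, h3, -, h5, -, h7⟩ := exists_clopen_piece hK hx isOpen_univ hsub hr
  exact hno K1 h1 h2 h3 h5 h7

/-- positive distance of a clopen piece to the rest. -/
theorem clopen_piece_pos_dist {K K1 : Set X} (h1 : IsCompact K1)
    (hd : Disjoint K1 (closure (K \ K1))) :
    ∃ δ : ℝ, 0 < δ ∧ ∀ y ∈ K1, ∀ z ∈ K \ K1, δ ≤ dist y z := by
  rcases K1.eq_empty_or_nonempty with rfl | hne
  · exact ⟨1, one_pos, by simp⟩
  rcases (K \ K1).eq_empty_or_nonempty with h0 | hne2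
  · exact ⟨1, one_pos, by simp [h0]⟩
  obtain ⟨δ, hδ, hδ'⟩ : ∃ δ : ℝ, 0 < δ ∧ ∀ y ∈ K1, δ ≤ infDist y (K \ K1) := by
    obtain ⟨y0, hy0, hmin⟩ := h1.exists_isMinOn hne
      (continuous_infDist_pt (K \ K1)).continuousOn
    refine ⟨infDist y0 (K \ K1), ?_, fun y hy => hmin hy⟩
    have : y0 ∉ closure (K \ K1) := fun h => Set.disjoint_left.1 hd hy0 h
    exact (infDist_pos_iff_notMem_closure hne2).1 this
  exact ⟨δ, hδ, fun y hy z hz => (hδ' y hy).trans (infDist_le_dist_of_mem hz)⟩

/-- Two compact parts at positive distance from the relevant rest: a clopen piece of a closed set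
has closed complement. -/
theorem isClosed_diff_of_clopen_piece {K K1 : Set X} (hK : IsClosed K)
    (hd : Disjoint K1 (closure (K \ K1))) : IsClosed (K \ K1) := by
  refine isClosed_of_closure_subset fun y hy => ⟨?_, ?_⟩
  · exact closure_minimal sdiff_subset hK hy
  · exact fun h => Set.disjoint_left.1 hd h hy

/-- For a closed set in a proper space: a bounded component lies in arbitrarily small compact
clopen pieces. -/
theorem exists_clopen_piece_of_bounded [ProperSpace X] {K : Set X} (hK : IsClosed K) {x : X}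
    (hx : x ∈ K) (hb : Bornology.IsBounded (connectedComponentIn K x)) {V : Set X}
    (hV : IsOpen V) (hCV : connectedComponentIn K x ⊆ V) :
    ∃ K1 : Set X, IsCompact K1 ∧ x ∈ K1 ∧ K1 ⊆ K ∧ K1 ⊆ V ∧ connectedComponentIn K x ⊆ K1 ∧
      Disjoint K1 (closure (K \ K1)) := by
  obtain ⟨r, hr⟩ := hb.subset_ball x
  have hxr : x ∈ ball x r := hr (mem_connectedComponentIn hx)
  have hr0 : 0 < r := by simpa using hxr
  have hcomp : IsCompact (K ∩ closedBall x r) := (isCompact_closedBall x r).inter_left hK
  have hxN : x ∈ K ∩ closedBall x r := ⟨hx, mem_closedBall_self hr0.le⟩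
  have hle : connectedComponentIn K x ⊆ connectedComponentIn (K ∩ closedBall x r) x :=
    isPreconnected_connectedComponentIn.subset_connectedComponentIn
      (mem_connectedComponentIn hx)
      (subset_inter (connectedComponentIn_subset _ _) (hr.trans ball_subset_closedBall))
  have hge : connectedComponentIn (K ∩ closedBall x r) x ⊆ connectedComponentIn K x :=
    isPreconnected_connectedComponentIn.subset_connectedComponentIn
      (mem_connectedComponentIn hxN)
      ((connectedComponentIn_subset _ _).trans inter_subset_left)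
  obtain ⟨K1, h1, h2, h3, h4, -, h6, h7⟩ := exists_clopen_piece hcomp hx hV
    (subset_inter (hge.trans hCV) (hge.trans hr)) hr0.le
  exact ⟨K1, h1, h2, h3, h4, hle.trans h6, h7⟩

/-- If a closed set has no compact clopen piece, all its components are unbounded. -/
theorem component_unbounded [ProperSpace X] {K : Set X} (hK : IsClosed K)
    (hno : ∀ K1 : Set X, IsCompact K1 → K1.Nonempty → K1 ⊆ K → ¬ Disjoint K1 (closure (K \ K1)))
    {x : X} (hx : x ∈ K) : ¬ Bornology.IsBounded (connectedComponentIn K x) := by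
  intro hb
  obtain ⟨K1, h1, h2, h3, -, -, h6⟩ := exists_clopen_piece_of_bounded hK hx hb isOpen_univ
    (subset_univ _)
  exact hno K1 h1 ⟨x, h2⟩ h3 h6

end Bumping

section Count
variable {X : Type*} [MetricSpace X] [MeasurableSpace X] [BorelSpace X]

/-- A closed set all of whose components are unbounded, with `H¹(K ∩ B_R) ≤ L R` for arbitrarily
large `R`, has finitely many components, at most `L`. -/
theorem finite_components {K : Set X} (hK : IsClosed K)
    (hunb : ∀ x ∈ K, ¬ Bornology.IsBounded (connectedComponentIn K x)) (x : X) (L : ℝ)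
    (hL : 0 ≤ L) (hlen : ∀ R0 : ℝ, ∃ R, R0 ≤ R ∧ 0 < R ∧
      Measure.hausdorffMeasure 1 (K ∩ ball x R) ≤ ENNReal.ofReal (L * R)) :
    Set.Finite {C : Set X | ∃ y ∈ K, C = connectedComponentIn K y} ∧
      (Set.ncard {C : Set X | ∃ y ∈ K, C = connectedComponentIn K y} : ℝ) ≤ L := by
  classical
  set F : Set (Set X) := {C : Set X | ∃ y ∈ K, C = connectedComponentIn K y}
  have hclosed : ∀ y ∈ K, IsClosed (connectedComponentIn K y) := by
    intro y _
    exact isClosed_connectedComponentIn' hK y
  have key : ∀ T : Finset (Set X), (T : Set (Set X)) ⊆ F → (T.card : ℝ) ≤ L := by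
    intro T hT
    refine card_unbounded_le T (fun C => C) K ?_ ?_ ?_ ?_ ?_ ?_ x L hL hlen
    · intro C hC; obtain ⟨y, hy, rfl⟩ := hT hC; exact connectedComponentIn_subset _ _
    · intro C hC; obtain ⟨y, hy, rfl⟩ := hT hC; exact isPreconnected_connectedComponentIn
    · intro C hC; obtain ⟨y, hy, rfl⟩ := hT hC; exact ⟨y, mem_connectedComponentIn hy⟩
    · intro C hC; obtain ⟨y, hy, rfl⟩ := hT hC; exact hunb y hy
    · intro C hC; obtain ⟨y, hy, rfl⟩ := hT hC; exact (hclosed y hy).measurableSet
    · intro C hC D hD hCD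
      obtain ⟨y, hy, rfl⟩ := hT hC
      obtain ⟨z, hz, rfl⟩ := hT hD
      exact connectedComponentIn_disjoint_of_ne hCD
  have hfin : F.Finite := by
    by_contra hinf
    obtain ⟨T, hT, hTc⟩ := Set.Infinite.exists_subset_card_eq hinf (⌊L⌋₊ + 1)
    have := key T hT
    rw [hTc] at this
    have h2 := Nat.lt_floor_add_one L
    push_cast at this
    linarith
  refine ⟨hfin, ?_⟩
  rw [Set.ncard_eq_toFinset_card F hfin]
  exact key _ (by simp)

end Count

end Crest.Agent.R135
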