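import Mathlib
import Crest.Agent.R135.TopConn

/-!
# R135, block EPS (helper983): connectedness from the midpoint property (step (2.6))
-/

set_option autoImplicit false

open Set Filter Topology Metric

namespace Crest.Agent.R135

section Mid

variable {X : Type*} [MetricSpace X]

/-- Separation of two points of a compact set lying in different components. -/
theorem exists_separation_of_not_mem_component {N : Set X} (hN : IsCompact N) {a b : X}
    (ha : a ∈ N) (hb : b ∈ N) (hab : b ∉ connectedComponentIn N a) :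
    ∃ A B : Set X, IsCompact A ∧ IsCompact B ∧ a ∈ A ∧ b ∈ B ∧ Disjoint A B ∧ A ∪ B = N := by
  have hV : IsOpen ({b}ᶜ : Set X) := isOpen_compl_singleton
  obtain ⟨K1, h1, h2, h3, -, h5, h6⟩ := suraBura hN ha hV (by
    intro z hz hzb
    rw [mem_singleton_iff] at hzb
    exact hab (hzb ▸ hz))
  exact ⟨K1, N \ K1, h1, h2, h3, ⟨hb, fun h => h6 h rfl⟩, disjoint_sdiff_right, union_sdiff_cancel h5⟩

/-- **Connectedness from the midpoint property** (minimisation of `|a-b| / (R - |a-y|)`). -/
theorem connected_of_midpoint {K : Set X} {y : X} {R : ℝ}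
    (hK : IsCompact (K ∩ closedBall y R))
    (hmid : ∀ a ∈ K, ∀ b ∈ K, dist a y < R → dist a b ≤ (R - dist a y) / 2 →
      ∃ c ∈ K, dist a c ≤ 13 / 20 * dist a b ∧ dist c b ≤ 13 / 20 * dist a b)
    {a b : X} (ha : a ∈ K) (hb : b ∈ K) (hay : dist a y < R) (hby : dist b y ≤ R)
    (hab : dist a b ≤ (R - dist a y) / 2) :
    b ∈ connectedComponentIn (K ∩ closedBall y R) a := by
  by_contra hcon
  obtain ⟨A, B, hA, hB, haA, hbB, hAB, hU⟩ :=
    exists_separation_of_not_mem_component hK ⟨ha, mem_closedBall.2 hay.le⟩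
      ⟨hb, mem_closedBall.2 hby⟩ hcon
  have hAN : A ⊆ K ∩ closedBall y R := hU ▸ subset_union_left
  have hBN : B ⊆ K ∩ closedBall y R := hU ▸ subset_union_right
  -- minimise `2 |a'-b'| + |a'-y|`-type quotient; we use the compact set of pairs with
  -- `dist a' b' ≤ m * (R - dist a' y)` and the least such `m`.
  let S : Set (X × X) := {p | p.1 ∈ A ∧ p.2 ∈ B}
  have hS : IsCompact S := hA.prod hB
  -- the infimum of admissible ratios
  let f : X × X → ℝ := fun p => (R - dist p.1 y) / dist p.1 p.2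
  have hpos : ∀ p ∈ S, 0 < dist p.1 p.2 := by
    rintro ⟨p, q⟩ ⟨hp, hq⟩
    rw [dist_pos]
    intro hpq
    exact Set.disjoint_left.1 hAB hp (hpq ▸ hq)
  have hf : ContinuousOn f S := by
    apply ContinuousOn.div
    · exact (continuous_const.sub (continuous_fst.dist continuous_const)).continuousOn
    · exact (continuous_fst.dist continuous_snd).continuousOn
    · intro p hp; exact (hpos p hp).ne'
  obtain ⟨p, hpS, hmax⟩ := hS.exists_isMaxOn ⟨(a, b), haA, hbB⟩ hf
  obtain ⟨a', b'⟩ := p
  have ha' : a' ∈ A := hpS.1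
  have hb' : b' ∈ B := hpS.2
  set d := dist a' b' with hd
  have hd0 : 0 < d := hpos _ hpS
  -- value at (a, b) is at least 2
  have hab0 : 0 < dist a b := hpos (a, b) ⟨haA, hbB⟩
  have h2 : 2 ≤ (R - dist a' y) / d := by
    have h3 : f (a, b) ≤ f (a', b') := hmax ⟨haA, hbB⟩
    have h4 : 2 ≤ f (a, b) := by
      simp only [f]
      rw [le_div_iff₀ hab0]
      linarith
    exact h4.trans h3
  set m := (R - dist a' y) / d with hm
  have hRm : R - dist a' y = m * d := by rw [hm]; field_simp
  have hm0 : 0 < m := by linarith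
  have hRa : dist a' y < R := by nlinarith
  have hle : d ≤ (R - dist a' y) / 2 := by rw [hRm]; nlinarith
  obtain ⟨c, hcK, hc1, hc2⟩ := hmid a' (hAN ha').1 b' (hBN hb').1 hRa hle
  rw [← hd] at hc1 hc2
  have hcy : dist c y ≤ dist a' y + dist a' c := by
    have := dist_triangle c a' y
    rw [dist_comm c a'] at this
    linarith
  have hcX : c ∈ K ∩ closedBall y R := by
    refine ⟨hcK, mem_closedBall.2 ?_⟩
    nlinarith
  rw [← hU] at hcX
  rcases hcX with hcA | hcB
  · -- pair (c, b')
    have hcb0 : 0 < dist c b' := hpos (c, b') ⟨hcA, hb'⟩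
    have h5 : f (c, b') ≤ f (a', b') := hmax ⟨hcA, hb'⟩
    have h6 : (R - dist c y) / dist c b' ≤ m := h5
    rw [div_le_iff₀ hcb0] at h6
    nlinarith
  · have hac0 : 0 < dist a' c := hpos (a', c) ⟨ha', hcB⟩
    have h5 : f (a', c) ≤ f (a', b') := hmax ⟨ha', hcB⟩
    have h6 : (R - dist a' y) / dist a' c ≤ m := h5
    rw [div_le_iff₀ hac0] at h6
    nlinarith

/-- Version on concentric balls. -/
theorem connected_of_midpoint_ball {K : Set X} {y : X} {ρ : ℝ}
    (hK : IsCompact (K ∩ closedBall y (5 * ρ)))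
    (hmid : ∀ a ∈ K, ∀ b ∈ K, dist a y < 5 * ρ → dist a b ≤ (5 * ρ - dist a y) / 2 →
      ∃ c ∈ K, dist a c ≤ 13 / 20 * dist a b ∧ dist c b ≤ 13 / 20 * dist a b)
    (hρ : 0 < ρ) {a b : X} (ha : a ∈ K) (hb : b ∈ K) (hay : dist a y ≤ ρ) (hby : dist b y ≤ ρ) :
    b ∈ connectedComponentIn (K ∩ closedBall y (5 * ρ)) a := by
  apply connected_of_midpoint hK hmid ha hb (by linarith) (by linarith)
  have := dist_triangle a y b
  rw [dist_comm y b] at this
  linarith

/-- **From local connectedness to connectedness of `K ∩ closedBall x s`** when the outer part of `K`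
splits into finitely many closed pieces, each meeting the inner ball in one point. -/
theorem isPreconnected_inter_closedBall {K : Set X} {x : X} {s R : ℝ} {ι : Type*} [Finite ι]
    (hsR : s ≤ R) (hK : IsCompact (K ∩ closedBall x R))
    (hΓ : ∀ a ∈ K ∩ closedBall x s, ∀ b ∈ K ∩ closedBall x s,
      b ∈ connectedComponentIn (K ∩ closedBall x R) a)
    (P : ι → Set X) (p : ι → X) (hPc : ∀ i, IsClosed (P i))
    (hdisj : ∀ i j, i ≠ j → Disjoint (P i) (P j))
    (hcov : (K ∩ closedBall x R) \ ball x s ⊆ ⋃ i, P i)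
    (hPK : ∀ i, P i ⊆ K ∩ closedBall x R)
    (hp : ∀ i, P i ∩ closedBall x s = {p i}) :
    IsPreconnected (K ∩ closedBall x s) := by
  classical
  rw [isPreconnected_closed_iff]
  intro A B hA hB hsub hAne hBne
  by_contra hcon
  rw [Set.not_nonempty_iff_eq_empty] at hcon
  obtain ⟨a, haN, haA⟩ := hAne
  obtain ⟨b, hbN, hbB⟩ := hBne
  have hpN : ∀ i, p i ∈ K ∩ closedBall x s := by
    intro i
    have h1 : p i ∈ P i ∩ closedBall x s := by rw [hp]; exact mem_singleton _
    exact ⟨(hPK i h1.1).1, h1.2⟩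
  -- enlarge
  set N := K ∩ closedBall x s with hN
  have hNc : IsClosed (N ∩ A) := by
    have : N = (K ∩ closedBall x R) ∩ closedBall x s := by
      rw [hN, inter_assoc]
      congr 1
      rw [inter_eq_right.2 (closedBall_subset_closedBall hsR)]
    rw [this]
    exact (hK.isClosed.inter isClosed_closedBall).inter hA
  have hNcB : IsClosed (N ∩ B) := by
    have : N = (K ∩ closedBall x R) ∩ closedBall x s := by
      rw [hN, inter_assoc]
      congr 1
      rw [inter_eq_right.2 (closedBall_subset_closedBall hsR)]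
    rw [this]
    exact (hK.isClosed.inter isClosed_closedBall).inter hB
  let A' : Set X := (N ∩ A) ∪ ⋃ i : {i : ι // p i ∈ A}, P i
  let B' : Set X := (N ∩ B) ∪ ⋃ i : {i : ι // p i ∈ B}, P i
  have hA'c : IsClosed A' := hNc.union (isClosed_iUnion_of_finite fun i => hPc i)
  have hB'c : IsClosed B' := hNcB.union (isClosed_iUnion_of_finite fun i => hPc i)
  have hcov' : K ∩ closedBall x R ⊆ A' ∪ B' := by
    intro z hz
    by_cases hzs : z ∈ ball x s
    · have hzN : z ∈ N := ⟨hz.1, ball_subset_closedBall hzs⟩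
      rcases hsub hzN with h | h
      · exact Or.inl (Or.inl ⟨hzN, h⟩)
      · exact Or.inr (Or.inl ⟨hzN, h⟩)
    · obtain ⟨i, hi⟩ := mem_iUnion.1 (hcov ⟨hz, hzs⟩)
      rcases hsub (hpN i) with h | h
      · exact Or.inl (Or.inr (mem_iUnion.2 ⟨⟨i, h⟩, hi⟩))
      · exact Or.inr (Or.inr (mem_iUnion.2 ⟨⟨i, h⟩, hi⟩))
  have hinter : A' ∩ B' = ∅ := by
    rw [Set.eq_empty_iff_forall_notMem]
    rintro z ⟨hzA, hzB⟩
    have key : ∀ i, z ∈ P i → z ∈ N → z = p i := by
      intro i hi hzN
      have : z ∈ P i ∩ closedBall x s := ⟨hi, hzN.2⟩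
      rw [hp] at this
      exact this
    have hdis : ∀ w ∈ N, w ∈ A → w ∈ B → False := by
      intro w hw h1 h2
      have : w ∈ N ∩ (A ∩ B) := ⟨hw, h1, h2⟩
      rw [hcon] at this
      exact this
    rcases hzA with hzA | hzA
    · rcases hzB with hzB | hzB
      · exact hdis z hzA.1 hzA.2 hzB.2
      · obtain ⟨⟨i, hi⟩, hzi⟩ := mem_iUnion.1 hzB
        have := key i hzi hzA.1
        rw [this] at hzA
        exact hdis _ hzA.1 hzA.2 hi
    · obtain ⟨⟨i, hi⟩, hzi⟩ := mem_iUnion.1 hzA
      rcases hzB with hzB | hzB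
      · have := key i hzi hzB.1
        rw [this] at hzB
        exact hdis _ hzB.1 hi hzB.2
      · obtain ⟨⟨j, hj⟩, hzj⟩ := mem_iUnion.1 hzB
        by_cases hij : i = j
        · subst hij
          exact hdis _ (hpN i) hi hj
        · exact Set.disjoint_left.1 (hdisj i j hij) hzi hzj
  -- contradiction with hΓ
  have hconn : IsPreconnected (connectedComponentIn (K ∩ closedBall x R) a) :=
    isPreconnected_connectedComponentIn
  rw [isPreconnected_closed_iff] at hconn
  have haR : a ∈ K ∩ closedBall x R := ⟨haN.1, closedBall_subset_closedBall hsR haN.2⟩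
  obtain ⟨z, hz, hzAB⟩ := hconn A' B' hA'c hB'c
    ((connectedComponentIn_subset _ _).trans hcov')
    ⟨a, mem_connectedComponentIn haR, Or.inl ⟨haN, haA⟩⟩
    ⟨b, hΓ a haN b hbN, Or.inl ⟨hbN, hbB⟩⟩
  rw [hinter] at hzAB
  exact hzAB

end Mid

end Crest.Agent.R135
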