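import Mathlib
import Crest.Agent.R097.S0LM
import Crest.Prelude.Def_MumfordShah

/-!
R135 toolbox (helper709): locally Lipschitz functions have weak gradients; gluing of locally
Lipschitz functions along a closed cover.
-/

set_option autoImplicit false

open MeasureTheory Set Filter Topology Metric
open scoped ENNReal NNReal ContDiff Gradient
open Crest.AnalysisR.PDE.OnePhase

namespace Crest.Agent.R135

/-- Euclidean space -/
local notation "E" d => EuclideanSpace ℝ (Fin d)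

variable {d : ℕ}

theorem measurable_gradient (w : (E d) → ℝ) : Measurable (fun x => ∇ w x) := by
  unfold gradient
  exact (InnerProductSpace.toDual ℝ (E d)).symm.continuous.measurable.comp (measurable_fderiv ℝ w)

theorem norm_gradient_le_of_lipschitzOn {w : (E d) → ℝ} {K : ℝ≥0} {s : Set (E d)} {x : E d}
    (hs : s ∈ 𝓝 x) (hw : LipschitzOnWith K w s) : ‖∇ w x‖ ≤ K := by
  unfold gradient
  rw [LinearIsometryEquiv.norm_map]
  exact norm_fderiv_le_of_lipschitzOn ℝ hs hw

theorem gradient_congr_of_eventuallyEq {w w' : (E d) → ℝ} {x : E d} (h : w =ᶠ[𝓝 x] w') :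
    ∇ w x = ∇ w' x := by
  unfold gradient
  rw [h.fderiv_eq]

/-- A locally Lipschitz function on an open set has its a.e. gradient as weak gradient. -/
theorem isWeakGradOn_of_locallyLipschitzOn {V : Set (E d)} (hV : IsOpen V) {w : (E d) → ℝ}
    (hw : LocallyLipschitzOn V w) : IsWeakGradOn V w (fun x => ∇ w x) := by
  refine ⟨?_, ?_, ?_⟩
  · exact hw.continuousOn.locallyIntegrableOn hV.measurableSet
  · intro x hx
    obtain ⟨K, t, ht, hKt⟩ := hw hx
    rw [hV.nhdsWithin_eq hx] at ht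
    obtain ⟨r, hr, hrt⟩ := Metric.mem_nhds_iff.1 ht
    refine ⟨ball x r, mem_nhdsWithin_of_mem_nhds (ball_mem_nhds x hr), ?_⟩
    refine Measure.integrableOn_of_bounded (M := K) measure_ball_lt_top.ne
      (measurable_gradient w).aestronglyMeasurable ?_
    rw [ae_restrict_iff' measurableSet_ball]
    filter_upwards with y hy
    exact norm_gradient_le_of_lipschitzOn (Filter.mem_of_superset (isOpen_ball.mem_nhds hy) hrt) hKt
  · intro φ hφ hc hs i
    have hcomp : IsCompact (tsupport φ) := hc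
    obtain ⟨ε, hε, hεV⟩ := hcomp.exists_cthickening_subset_open hV hs
    have hcomp2 : IsCompact (cthickening ε (tsupport φ)) := hcomp.cthickening
    obtain ⟨K, hK⟩ := (hw.mono hεV).exists_lipschitzOnWith_of_compact hcomp2
    obtain ⟨g, hg, hgw⟩ := hK.extend_real
    have hnear : ∀ x ∈ tsupport φ, w =ᶠ[𝓝 x] g := by
      intro x hx
      have : thickening ε (tsupport φ) ∈ 𝓝 x :=
        isOpen_thickening.mem_nhds (self_subset_thickening hε _ hx)
      filter_upwards [this] with y hy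
      exact hgw (thickening_subset_cthickening _ _ hy)
    have h1 := (Crest.Agent.R097.wg_lip hg (Ω := V)).2.2 φ hφ hc hs i
    have h2 : ∫ x in V, w x * partialD φ i x = ∫ x in V, g x * partialD φ i x := by
      apply integral_congr_ae
      filter_upwards with x
      by_cases hx : x ∈ tsupport φ
      · rw [(hnear x hx).eq_of_nhds]
      · have : fderiv ℝ φ x = 0 := fderiv_of_notMem_tsupport ℝ hx
        simp [partialD, this]
    have h3 : ∫ x in V, (∇ w x) i * φ x = ∫ x in V, (∇ g x) i * φ x := by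
      apply integral_congr_ae
      filter_upwards with x
      by_cases hx : x ∈ tsupport φ
      · rw [gradient_congr_of_eventuallyEq (hnear x hx)]
      · rw [image_eq_zero_of_notMem_tsupport hx]
        simp
    rw [h2, h1, h3]

/-- Lipschitz on two closed pieces covering a convex set implies Lipschitz on the convex set. -/
theorem lipschitzOnWith_of_closed_cover {F : Type*} [NormedAddCommGroup F] [NormedSpace ℝ F]
    {Y : Type*} [PseudoMetricSpace Y] {f : F → Y} {K : ℝ≥0} {s A1 A2 : Set F} (hs : Convex ℝ s)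
    (h1 : IsClosed A1) (h2 : IsClosed A2) (hcov : s ⊆ A1 ∪ A2)
    (hf1 : LipschitzOnWith K f (s ∩ A1)) (hf2 : LipschitzOnWith K f (s ∩ A2)) :
    LipschitzOnWith K f s := by
  -- the mixed case
  have mixed : ∀ p ∈ s, ∀ q ∈ s, p ∈ A1 → q ∈ A2 → dist (f p) (f q) ≤ K * dist p q := by
    intro p hp q hq hp1 hq2
    have hseg : segment ℝ p q ⊆ s := hs.segment_subset hp hq
    have hpc : IsPreconnected (segment ℝ p q) := (convex_segment p q).isPreconnected
    have hne := isPreconnected_closed_iff.1 hpc A1 A2 h1 h2 (hseg.trans hcov)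
      ⟨p, left_mem_segment ℝ p q, hp1⟩ ⟨q, right_mem_segment ℝ p q, hq2⟩
    obtain ⟨z, hz, hz1, hz2⟩ := hne
    have hzs := hseg hz
    have e1 := hf1.dist_le_mul p ⟨hp, hp1⟩ z ⟨hzs, hz1⟩
    have e2 := hf2.dist_le_mul z ⟨hzs, hz2⟩ q ⟨hq, hq2⟩
    have e3 : dist p z + dist z q = dist p q := dist_add_dist_of_mem_segment hz
    calc dist (f p) (f q) ≤ dist (f p) (f z) + dist (f z) (f q) := dist_triangle _ _ _
      _ ≤ K * dist p z + K * dist z q := add_le_add e1 e2
      _ = K * dist p q := by rw [← mul_add, e3]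
  rw [lipschitzOnWith_iff_dist_le_mul]
  intro p hp q hq
  rcases hcov hp with hp1 | hp2 <;> rcases hcov hq with hq1 | hq2
  · exact hf1.dist_le_mul p ⟨hp, hp1⟩ q ⟨hq, hq1⟩
  · exact mixed p hp q hq hp1 hq2
  · rw [dist_comm (f p), dist_comm p]
    exact mixed q hq p hp hq1 hp2
  · exact hf2.dist_le_mul p ⟨hp, hp2⟩ q ⟨hq, hq2⟩

/-- Gluing: if `f = u` on the closed set `A1`, `f = w` on the closed set `A2`, `V ⊆ A1 ∪ A2`, and
`u`, `w` are locally Lipschitz near the points of `V ∩ A1`, `V ∩ A2`, then `f` is locally Lipschitz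
on `V`. -/
theorem locallyLipschitzOn_of_closed_cover {F : Type*} [NormedAddCommGroup F] [NormedSpace ℝ F]
    {f u w : F → ℝ} {V A1 A2 : Set F} (hV : IsOpen V) (h1 : IsClosed A1) (h2 : IsClosed A2)
    (hcov : V ⊆ A1 ∪ A2) (hfu : EqOn f u (V ∩ A1)) (hfw : EqOn f w (V ∩ A2))
    (hu : ∀ x ∈ V ∩ A1, ∃ K : ℝ≥0, ∃ t ∈ 𝓝 x, LipschitzOnWith K u (t ∩ A1))
    (hw : ∀ x ∈ V ∩ A2, ∃ K : ℝ≥0, ∃ t ∈ 𝓝 x, LipschitzOnWith K w (t ∩ A2)) :
    LocallyLipschitzOn V f := by
  intro x hx
  -- a ball for the A1 part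
  have hA1 : ∃ K : ℝ≥0, ∃ r : ℝ, 0 < r ∧ LipschitzOnWith K f (ball x r ∩ A1) := by
    by_cases hx1 : x ∈ A1
    · obtain ⟨K, t, ht, hK⟩ := hu x ⟨hx, hx1⟩
      obtain ⟨r, hr, hrt⟩ := Metric.mem_nhds_iff.1 (Filter.inter_mem ht (hV.mem_nhds hx))
      refine ⟨K, r, hr, ?_⟩
      have h3 : EqOn f u (ball x r ∩ A1) := fun y hy => hfu ⟨(hrt hy.1).2, hy.2⟩
      intro p hp q hq
      rw [h3 hp, h3 hq]
      exact hK ⟨(hrt hp.1).1, hp.2⟩ ⟨(hrt hq.1).1, hq.2⟩
    · obtain ⟨r, hr, hrt⟩ := Metric.mem_nhds_iff.1 (h1.isOpen_compl.mem_nhds hx1)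
      refine ⟨0, r, hr, ?_⟩
      intro p hp
      exact absurd hp.2 (hrt hp.1)
  have hA2 : ∃ K : ℝ≥0, ∃ r : ℝ, 0 < r ∧ LipschitzOnWith K f (ball x r ∩ A2) := by
    by_cases hx1 : x ∈ A2
    · obtain ⟨K, t, ht, hK⟩ := hw x ⟨hx, hx1⟩
      obtain ⟨r, hr, hrt⟩ := Metric.mem_nhds_iff.1 (Filter.inter_mem ht (hV.mem_nhds hx))
      refine ⟨K, r, hr, ?_⟩
      have h3 : EqOn f w (ball x r ∩ A2) := fun y hy => hfw ⟨(hrt hy.1).2, hy.2⟩
      intro p hp q hq
      rw [h3 hp, h3 hq]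
      exact hK ⟨(hrt hp.1).1, hp.2⟩ ⟨(hrt hq.1).1, hq.2⟩
    · obtain ⟨r, hr, hrt⟩ := Metric.mem_nhds_iff.1 (h2.isOpen_compl.mem_nhds hx1)
      refine ⟨0, r, hr, ?_⟩
      intro p hp
      exact absurd hp.2 (hrt hp.1)
  obtain ⟨K1, r1, hr1, hK1⟩ := hA1
  obtain ⟨K2, r2, hr2, hK2⟩ := hA2
  obtain ⟨r3, hr3, hr3V⟩ := Metric.mem_nhds_iff.1 (hV.mem_nhds hx)
  set r := min (min r1 r2) r3 with hr
  have hr0 : 0 < r := lt_min (lt_min hr1 hr2) hr3
  have hb1 : ball x r ⊆ ball x r1 := ball_subset_ball ((min_le_left _ _).trans (min_le_left _ _))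
  have hb2 : ball x r ⊆ ball x r2 := ball_subset_ball ((min_le_left _ _).trans (min_le_right _ _))
  have hb3 : ball x r ⊆ V := (ball_subset_ball (min_le_right _ _)).trans hr3V
  refine ⟨max K1 K2, ball x r, mem_nhdsWithin_of_mem_nhds (ball_mem_nhds x hr0), ?_⟩
  apply lipschitzOnWith_of_closed_cover (convex_ball x r) h1 h2 (hb3.trans hcov)
  · exact (hK1.mono (inter_subset_inter_left _ hb1)).weaken (le_max_left _ _)
  · exact (hK2.mono (inter_subset_inter_left _ hb2)).weaken (le_max_right _ _)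

end Crest.Agent.R135
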