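import Mathlib

/-!
R135: polar coordinates on the Euclidean plane about an arbitrary centre.
-/

set_option autoImplicit false

noncomputable section

open MeasureTheory Set Real
open scoped ENNReal NNReal Topology

namespace Crest.Agent.R135

/-- the plane -/
abbrev E2 : Type := EuclideanSpace ℝ (Fin 2)

/-- unit radial direction `(cos θ, sin θ)` -/
def dir (θ : ℝ) : E2 := !₂[Real.cos θ, Real.sin θ]

/-- unit tangential direction `(-sin θ, cos θ)` -/
def tau (θ : ℝ) : E2 := !₂[-Real.sin θ, Real.cos θ]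

/-- the point with polar coordinates `(t, θ)` about `x` -/
def cpt (x : E2) (t θ : ℝ) : E2 := x + t • dir θ

@[simp] lemma dir_zero (θ : ℝ) : dir θ 0 = Real.cos θ := by simp [dir]
@[simp] lemma dir_one (θ : ℝ) : dir θ 1 = Real.sin θ := by simp [dir]
@[simp] lemma tau_zero (θ : ℝ) : tau θ 0 = -Real.sin θ := by simp [tau]
@[simp] lemma tau_one (θ : ℝ) : tau θ 1 = Real.cos θ := by simp [tau]

lemma norm_E2 (v : E2) : ‖v‖ ^ 2 = v 0 ^ 2 + v 1 ^ 2 := by
  rw [EuclideanSpace.norm_sq_eq]; simp [Fin.sum_univ_two]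

lemma inner_E2 (v w : E2) : inner ℝ v w = v 0 * w 0 + v 1 * w 1 := by
  simp [PiLp.inner_apply, Fin.sum_univ_two, mul_comm]

lemma ext_E2 {v w : E2} (h0 : v 0 = w 0) (h1 : v 1 = w 1) : v = w := by
  ext i; fin_cases i
  · exact h0
  · exact h1

@[simp] lemma norm_dir (θ : ℝ) : ‖dir θ‖ = 1 := by
  have h : ‖dir θ‖ ^ 2 = 1 := by rw [norm_E2]; simp
  nlinarith [norm_nonneg (dir θ)]

@[simp] lemma norm_tau (θ : ℝ) : ‖tau θ‖ = 1 := by
  have h : ‖tau θ‖ ^ 2 = 1 := by rw [norm_E2]; simp
  nlinarith [norm_nonneg (tau θ)]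

@[simp] lemma inner_dir_tau (θ : ℝ) : inner ℝ (dir θ) (tau θ) = 0 := by
  rw [inner_E2]; simp; ring

lemma inner_dir_dir (a b : ℝ) : inner ℝ (dir a) (dir b) = Real.cos (a - b) := by
  rw [inner_E2, Real.cos_sub]; simp

/-- orthonormal decomposition in the moving frame -/
lemma norm_sq_frame (v : E2) (θ : ℝ) :
    ‖v‖ ^ 2 = (inner ℝ v (dir θ)) ^ 2 + (inner ℝ v (tau θ)) ^ 2 := by
  rw [norm_E2, inner_E2, inner_E2]; simp
  nlinarith [Real.sin_sq_add_cos_sq θ]

/-- the measurable identification of `ℝ × ℝ` with the plane -/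
def eqv : ℝ × ℝ ≃ᵐ E2 :=
  (MeasurableEquiv.finTwoArrow (α := ℝ)).symm.trans (MeasurableEquiv.toLp 2 (Fin 2 → ℝ))

lemma eqv_apply (p : ℝ × ℝ) : eqv p = !₂[p.1, p.2] := by
  apply ext_E2 <;> simp [eqv, MeasurableEquiv.finTwoArrow, MeasurableEquiv.piFinTwo]

lemma eqv_mp : MeasurePreserving eqv (volume : Measure (ℝ × ℝ)) (volume : Measure E2) := by
  unfold eqv
  exact ((volume_preserving_finTwoArrow ℝ).symm _).trans
    (PiLp.volume_preserving_toLp (Fin 2))

lemma eqv_polar (p : ℝ × ℝ) : eqv (polarCoord.symm p) = p.1 • dir p.2 := by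
  rw [eqv_apply]
  apply ext_E2 <;> simp [polarCoord]

lemma continuous_dir : Continuous dir := by
  unfold dir
  fun_prop

lemma continuous_tau : Continuous tau := by
  unfold tau
  fun_prop

lemma continuous_cpt (x : E2) : Continuous (fun p : ℝ × ℝ => cpt x p.1 p.2) := by
  unfold cpt
  have := continuous_dir
  fun_prop

lemma lintegral_polar_prod (x : E2) (f : E2 → ℝ≥0∞) :
    ∫⁻ y, f y = ∫⁻ p : ℝ × ℝ in Ioi (0:ℝ) ×ˢ Ioo (-π) π,
      ENNReal.ofReal p.1 * f (cpt x p.1 p.2) := by
  calc ∫⁻ y, f y = ∫⁻ y, f (x + y) := (lintegral_add_left_eq_self f x).symm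
    _ = ∫⁻ p : ℝ × ℝ, f (x + eqv p) := by
        rw [eqv_mp.lintegral_comp_emb eqv.measurableEmbedding (fun y => f (x + y))]
    _ = ∫⁻ p : ℝ × ℝ in polarCoord.target,
          ENNReal.ofReal p.1 • f (x + eqv (polarCoord.symm p)) :=
        (lintegral_comp_polarCoord_symm (fun p => f (x + eqv p))).symm
    _ = _ := by
        simp only [eqv_polar, smul_eq_mul, polarCoord_target]
        rfl

/-- **Polar coordinates** (lower integral, measurable functions). -/
theorem lintegral_polar (x : E2) {f : E2 → ℝ≥0∞} (hf : Measurable f) :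
    ∫⁻ y, f y = ∫⁻ t in Ioi (0:ℝ), ENNReal.ofReal t *
      ∫⁻ θ in Ioo (-π) π, f (cpt x t θ) := by
  rw [lintegral_polar_prod x f, Measure.volume_eq_prod, ← Measure.prod_restrict,
    lintegral_prod]
  · refine lintegral_congr fun t => ?_
    dsimp only
    rw [lintegral_const_mul]
    have h := (continuous_cpt x).measurable
    have h2 : Measurable (fun θ : ℝ => (t, θ)) := by fun_prop
    exact hf.comp (h.comp h2)
  · have h := (continuous_cpt x).measurable
    exact ((measurable_fst.ennreal_ofReal).mul (hf.comp h)).aemeasurable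

/-- null sets in polar coordinates -/
theorem ae_polar (x : E2) {P : E2 → Prop} (hP : ∀ᵐ y, P y) :
    ∀ᵐ t ∂(volume.restrict (Ioi (0:ℝ))), ∀ᵐ θ ∂(volume.restrict (Ioo (-π) π)),
      P (cpt x t θ) := by
  obtain ⟨N, hN, hNm, hN0⟩ := exists_measurable_superset_of_null (ae_iff.mp hP)
  have h := lintegral_polar x (f := N.indicator 1) (measurable_one.indicator hNm)
  rw [lintegral_indicator_one hNm, hN0] at h
  have h0 := h.symm
  rw [lintegral_eq_zero_iff'] at h0
  · have h1 : ∀ᵐ t ∂(volume.restrict (Ioi (0:ℝ))), 0 < t := ae_restrict_mem measurableSet_Ioi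
    filter_upwards [h0, h1] with t ht htp
    simp only [Pi.zero_apply, mul_eq_zero] at ht
    rcases ht with ht | ht
    · exfalso
      rw [ENNReal.ofReal_eq_zero] at ht
      linarith
    · rw [lintegral_eq_zero_iff'] at ht
      · filter_upwards [ht] with θ hθ
        by_contra hc
        have : cpt x t θ ∈ N := hN hc
        simp [this] at hθ
      · have h2 : Measurable (fun θ : ℝ => cpt x t θ) :=
          ((continuous_cpt x).comp (by fun_prop : Continuous (fun θ : ℝ => (t, θ)))).measurable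
        exact ((measurable_one.indicator hNm).comp h2).aemeasurable
  · have h3 : Measurable (Function.uncurry (fun (t θ : ℝ) => N.indicator (1 : E2 → ℝ≥0∞)
        (cpt x t θ))) := (measurable_one.indicator hNm).comp (continuous_cpt x).measurable
    have h4 := h3.lintegral_prod_right' (ν := volume.restrict (Ioo (-π) π))
    exact (ENNReal.measurable_ofReal.mul h4).aemeasurable

theorem lintegral_polar' (x : E2) {f : E2 → ℝ≥0∞} (hf : AEMeasurable f) :
    ∫⁻ y, f y = ∫⁻ t in Ioi (0:ℝ), ENNReal.ofReal t *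
      ∫⁻ θ in Ioo (-π) π, f (cpt x t θ) := by
  rw [lintegral_congr_ae hf.ae_eq_mk, lintegral_polar x hf.measurable_mk]
  refine lintegral_congr_ae ?_
  filter_upwards [ae_polar x hf.ae_eq_mk] with t ht
  congr 1
  refine lintegral_congr_ae ?_
  filter_upwards [ht] with θ hθ
  exact hθ.symm

@[simp] lemma dist_cpt (x : E2) (t θ : ℝ) : dist (cpt x t θ) x = |t| := by
  simp [cpt, dist_eq_norm, norm_smul]

lemma cpt_mem_ball {x : E2} {t θ r : ℝ} (ht : 0 < t) :
    cpt x t θ ∈ Metric.ball x r ↔ t < r := by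
  rw [Metric.mem_ball, dist_cpt, abs_of_pos ht]

lemma cpt_mem_closedBall {x : E2} {t θ r : ℝ} (ht : 0 < t) :
    cpt x t θ ∈ Metric.closedBall x r ↔ t ≤ r := by
  rw [Metric.mem_closedBall, dist_cpt, abs_of_pos ht]

lemma cpt_mem_sphere {x : E2} {t θ : ℝ} (ht : 0 ≤ t) :
    cpt x t θ ∈ Metric.sphere x t := by
  rw [Metric.mem_sphere, dist_cpt, abs_of_nonneg ht]

/-- the lower integral of `f` over the circle, in the angle -/
def circL (f : E2 → ℝ≥0∞) (x : E2) (t : ℝ) : ℝ≥0∞ := ∫⁻ θ in Ioo (-π) π, f (cpt x t θ)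

/-- **Polar coordinates in an annulus/ball**: lower integral of `f` over
`{y | dist y x ∈ T}`. -/
theorem lintegral_polar_radii (x : E2) {T : Set ℝ} (hT : MeasurableSet T) {f : E2 → ℝ≥0∞}
    (hf : AEMeasurable f (volume.restrict {y | dist y x ∈ T})) :
    ∫⁻ y in {y | dist y x ∈ T}, f y = ∫⁻ t in Ioi (0:ℝ) ∩ T, ENNReal.ofReal t *
      ∫⁻ θ in Ioo (-π) π, f (cpt x t θ) := by
  have hS : MeasurableSet {y : E2 | dist y x ∈ T} := by
    have : Measurable (fun y : E2 => dist y x) := by fun_prop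
    exact this hT
  rw [← lintegral_indicator hS, lintegral_polar' x ((aemeasurable_indicator_iff hS).2 hf),
    ← lintegral_indicator measurableSet_Ioi, ← lintegral_indicator (measurableSet_Ioi.inter hT)]
  refine lintegral_congr fun t => ?_
  by_cases ht : 0 < t
  · by_cases htT : t ∈ T
    · rw [indicator_of_mem (show t ∈ Ioi (0:ℝ) from ht), indicator_of_mem (show t ∈ Ioi (0:ℝ) ∩ T from ⟨ht, htT⟩)]
      congr 1
      refine lintegral_congr fun θ => ?_
      rw [indicator_of_mem]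
      simp [abs_of_pos ht, htT]
    · rw [indicator_of_mem (show t ∈ Ioi (0:ℝ) from ht), indicator_of_notMem (fun h => htT h.2)]
      have : ∫⁻ θ in Ioo (-π) π, ({y : E2 | dist y x ∈ T}.indicator (fun y => f y)) (cpt x t θ) = 0 := by
        simp [indicator, abs_of_pos ht, htT]
      rw [this, mul_zero]
  · rw [indicator_of_notMem (show t ∉ Ioi (0:ℝ) from ht),
      indicator_of_notMem (fun h => ht h.1)]

/-- **Polar coordinates in a ball** -/
theorem lintegral_ball_polar (x : E2) (r : ℝ) {f : E2 → ℝ≥0∞}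
    (hf : AEMeasurable f (volume.restrict (Metric.ball x r))) :
    ∫⁻ y in Metric.ball x r, f y = ∫⁻ t in Ioo (0:ℝ) r, ENNReal.ofReal t *
      ∫⁻ θ in Ioo (-π) π, f (cpt x t θ) := by
  have h : Metric.ball x r = {y : E2 | dist y x ∈ Iio r} := by ext y; simp
  rw [h] at hf ⊢
  rw [lintegral_polar_radii x measurableSet_Iio hf]
  rfl

/-- null sets inside a ball, in polar coordinates -/
theorem ae_polar_restrict (x : E2) {S : Set E2} (hS : MeasurableSet S) {P : E2 → Prop}
    (hP : ∀ᵐ y ∂(volume.restrict S), P y) :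
    ∀ᵐ t ∂(volume.restrict (Ioi (0:ℝ))), ∀ᵐ θ ∂(volume.restrict (Ioo (-π) π)),
      cpt x t θ ∈ S → P (cpt x t θ) := by
  rw [ae_restrict_iff' hS] at hP
  exact ae_polar x hP

end Crest.Agent.R135
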