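import Mathlib
import Crest.Prelude.Def_MumfordShah
import Crest.Agent.R135.PolarA
import Crest.Agent.R135.LocLip

/-!
# R135 core definitions (helper823)

The whole proof works with a class `IsQM U lam u K` of quasi-minimizers `(u,K)` in an open set `U`
with *locally Lipschitz* competitors off the crack, no weak gradients. The class is closed under
rescaling and under limits (the topological condition `Keeps` is what makes it closed under limits),
and every absolute minimizer is locally in the class.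
-/

set_option autoImplicit false

open MeasureTheory Set Filter Topology Metric
open scoped ENNReal NNReal ContDiff Gradient

namespace Crest.Agent.R135

/-- length of a set (one-dimensional Hausdorff measure) -/
noncomputable def len (K : Set E2) : ℝ≥0∞ := Measure.hausdorffMeasure 1 K

/-- Dirichlet energy of `w` on `B` off `L`, classical gradient -/
noncomputable def dirE (w : E2 → ℝ) (L B : Set E2) : ℝ≥0∞ := ∫⁻ x in B \ L, ‖gradient w x‖ₑ ^ 2

/-- energy (without fidelity term) of `(w,L)` on `B` -/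
noncomputable def enE (w : E2 → ℝ) (L B : Set E2) : ℝ≥0∞ := dirE w L B + len (L ∩ B)

/-- `c` is locally constant on the (open) set `W` -/
def LocConstOn (W : Set E2) (c : E2 → ℝ) : Prop := ∀ x ∈ W, ∀ᶠ y in 𝓝 x, c y = c x

/-- `L` keeps, outside `B`, the separation made by `K` in `U`: every locally constant function
off `K` agrees outside `B` with a locally constant function off `L`. -/
def Keeps (U K L B : Set E2) : Prop :=
  ∀ c : E2 → ℝ, LocConstOn (U \ K) c →
    ∃ c' : E2 → ℝ, LocConstOn (U \ L) c' ∧ ∀ y ∈ U \ (K ∪ B), c' y = c y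

/-- `(w,L)` is a competitor of `(u,K)` in `closedBall x ρ` -/
structure IsComp (U : Set E2) (u : E2 → ℝ) (K : Set E2) (x : E2) (ρ : ℝ)
    (w : E2 → ℝ) (L : Set E2) : Prop where
  sub : L ⊆ U
  closed : closure L ∩ U ⊆ L
  len_fin : len (L ∩ closedBall x ρ) < ⊤
  eqL : L \ closedBall x ρ = K \ closedBall x ρ
  lip : LocallyLipschitzOn (U \ L) w
  eqw : ∀ y ∈ U \ (K ∪ closedBall x ρ), w y = u y
  keeps : Keeps U K L (closedBall x ρ)

/-- admissible test functions for the Euler-Lagrange equation (they may jump across `K`) -/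
structure IsTest (U K : Set E2) (φ : E2 → ℝ) : Prop where
  lip : LocallyLipschitzOn (U \ K) φ
  bdd : ∃ M : ℝ, ∀ y, |φ y| ≤ M
  supp : ∃ C : Set E2, IsCompact C ∧ C ⊆ U ∧ ∀ y, y ∉ C → φ y = 0
  dir_fin : dirE φ K U < ⊤

/-- The class of quasi-minimizers. `lam` is the size of the lower-order term; `lam = 0` and
`U = univ` are the (generalized) global minimizers. -/
structure IsQM (U : Set E2) (lam : ℝ) (u : E2 → ℝ) (K : Set E2) : Prop where
  isOpen : IsOpen U
  lam_nonneg : 0 ≤ lam
  sub : K ⊆ U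
  closed : closure K ∩ U ⊆ K
  c1 : ContDiffOn ℝ 1 u (U \ K)
  len_fin : ∀ x r, closedBall x r ⊆ U → len (K ∩ closedBall x r) < ⊤
  dir_fin : ∀ x r, closedBall x r ⊆ U → dirE u K (closedBall x r) < ⊤
  red : ∀ x ∈ K, ∀ r : ℝ, 0 < r → 0 < len (K ∩ ball x r)
  min : ∀ (x : E2) (ρ : ℝ), 0 < ρ → closedBall x ρ ⊆ U → ∀ (w : E2 → ℝ) (L : Set E2),
    IsComp U u K x ρ w L →
      enE u K (closedBall x ρ) ≤ enE w L (closedBall x ρ) + ENNReal.ofReal (lam * ρ ^ 2)
  el : ∃ f : E2 → ℝ, Measurable f ∧ (∀ x, |f x| ≤ lam) ∧ ∀ φ : E2 → ℝ, IsTest U K φ →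
    ∫ x in U \ K, inner ℝ (gradient u x) (gradient φ x) = - ∫ x in U, f x * φ x

/-- Dirichlet energy in the ball, as a real number -/
noncomputable def Dr (u : E2 → ℝ) (K : Set E2) (x : E2) (r : ℝ) : ℝ :=
  (dirE u K (ball x r)).toReal

/-- length in the closed ball, as a real number -/
noncomputable def Lr (K : Set E2) (x : E2) (r : ℝ) : ℝ := (len (K ∩ closedBall x r)).toReal

/-- rescaled function `r^{-1/2} u (x₀ + r y)` -/
noncomputable def rescF (u : E2 → ℝ) (x₀ : E2) (r : ℝ) : E2 → ℝ :=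
  fun y => (Real.sqrt r)⁻¹ * u (x₀ + r • y)

/-- rescaled set `(K - x₀)/r` -/
def rescK (K : Set E2) (x₀ : E2) (r : ℝ) : Set E2 := {y | x₀ + r • y ∈ K}

/-- closed half-line from `x` in direction `e` -/
def ray (x e : E2) : Set E2 := {y | ∃ s : ℝ, 0 ≤ s ∧ y = x + s • e}

/-- `K` is a straight line -/
def IsLine (K : Set E2) : Prop := ∃ x e : E2, ‖e‖ = 1 ∧ K = ray x e ∪ ray x (-e)

/-- `K` is a propeller (three half-lines at 120 degrees) centred at `x` -/
def IsProp (K : Set E2) (x : E2) : Prop :=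
  ∃ θ : ℝ, K = ray x (dir θ) ∪ ray x (dir (θ + 2 * Real.pi / 3)) ∪ ray x (dir (θ - 2 * Real.pi / 3))

/-- `K` is a half-line issued from `x` -/
def IsRay (K : Set E2) (x : E2) : Prop := ∃ e : E2, ‖e‖ = 1 ∧ K = ray x e

/-- two-sided closeness of `K` and `K'` in the ball `ball x R` at precision `ε` -/
def HClose (ε : ℝ) (x : E2) (R : ℝ) (K K' : Set E2) : Prop :=
  (∀ y ∈ K ∩ ball x R, ∃ z ∈ K', dist y z < ε) ∧ (∀ y ∈ K' ∩ ball x R, ∃ z ∈ K, dist y z < ε)

end Crest.Agent.R135
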