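import Mathlib

/-!
R135 toolbox, pure measure theory (helper709).

* `lintegral_encard_fiber_le`: Eilenberg's inequality in dimension one: for `f` 1-Lipschitz on `K`,
  `∫ #(K ∩ f⁻¹{t}) dt ≤ H¹(K)`.
-/

set_option autoImplicit false

open MeasureTheory Set Filter Topology
open scoped ENNReal NNReal

namespace Crest.Agent.R135

section Eilenberg

variable {X : Type*} [MetricSpace X] [MeasurableSpace X] [BorelSpace X] [SecondCountableTopology X]

/-- A countable measurable partition into sets of small diameter. -/
theorem exists_small_partition (ε : ℝ) (hε : 0 < ε) :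
    ∃ E : ℕ → Set X, (∀ n, MeasurableSet (E n)) ∧ Pairwise (Function.onFun Disjoint E) ∧
      (⋃ n, E n) = univ ∧ ∀ n, ∀ x ∈ E n, ∀ y ∈ E n, dist x y < ε := by
  rcases isEmpty_or_nonempty X with hX | hX
  · refine ⟨fun _ => ∅, fun _ => MeasurableSet.empty, ?_, ?_, ?_⟩
    · intro i j _; simp [Function.onFun]
    · ext x; exact (hX.false x).elim
    · intro n x hx; exact hx.elim
  · let B : ℕ → Set X := fun n => Metric.ball (TopologicalSpace.denseSeq X n) (ε / 2)
    refine ⟨disjointed B, fun n => MeasurableSet.disjointed (fun i => Metric.isOpen_ball.measurableSet) n,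
      disjoint_disjointed B, ?_, ?_⟩
    · rw [iUnion_disjointed]
      ext x
      simp only [mem_iUnion, mem_univ, iff_true]
      obtain ⟨y, hy, hxy⟩ := Metric.dense_iff.1 (TopologicalSpace.denseRange_denseSeq X) x (ε / 2)
        (by positivity)
      obtain ⟨n, rfl⟩ := hxy
      exact ⟨n, by simpa [B, dist_comm] using hy⟩
    · intro n x hx y hy
      have hx' := disjointed_subset B n hx
      have hy' := disjointed_subset B n hy
      simp only [B, Metric.mem_ball] at hx' hy'
      calc dist x y ≤ dist x (TopologicalSpace.denseSeq X n) + dist (TopologicalSpace.denseSeq X n) y :=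
            dist_triangle _ _ _
        _ < ε / 2 + ε / 2 := by rw [dist_comm (TopologicalSpace.denseSeq X n) y]; linarith
        _ = ε := by ring

/-- Eilenberg's inequality, dimension one. -/
theorem lintegral_encard_fiber_le (f : X → ℝ) (K : Set X) (hf : LipschitzOnWith 1 f K) :
    ∫⁻ t, ((K ∩ f ⁻¹' {t}).encard : ℝ≥0∞) ≤ Measure.hausdorffMeasure 1 K := by
  classical
  have hpos : ∀ n : ℕ, (0 : ℝ) < 1 / ((n : ℝ) + 1) := fun n => by positivity
  choose E hEm hEd hEu hEs using fun n : ℕ => exists_small_partition (X := X) (1 / ((n : ℝ) + 1)) (hpos n)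
  -- the measurable upper functions
  let F : ℕ → ℝ → ℝ≥0∞ := fun n t =>
    ∑' j, (toMeasurable volume (f '' (K ∩ E n j))).indicator (fun _ => (1 : ℝ≥0∞)) t
  have hFm : ∀ n, Measurable (F n) := fun n =>
    Measurable.tsum fun j => measurable_const.indicator (measurableSet_toMeasurable _ _)
  have hFint : ∀ n, ∫⁻ t, F n t ≤ Measure.hausdorffMeasure 1 K := by
    intro n
    have h1 : ∫⁻ t, F n t = ∑' j, volume (f '' (K ∩ E n j)) := by
      simp only [F]
      rw [lintegral_tsum (fun j => (measurable_const.indicator (measurableSet_toMeasurable _ _)).aemeasurable)]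
      congr 1
      ext j
      rw [lintegral_indicator (measurableSet_toMeasurable _ _)]
      simp
    rw [h1]
    have h2 : ∀ j, volume (f '' (K ∩ E n j)) ≤ Measure.hausdorffMeasure 1 (K ∩ E n j) := by
      intro j
      have := (hf.mono (inter_subset_left (s := K) (t := E n j))).hausdorffMeasure_image_le
        (d := 1) zero_le_one
      simpa [hausdorffMeasure_real] using this
    calc ∑' j, volume (f '' (K ∩ E n j)) ≤ ∑' j, Measure.hausdorffMeasure 1 (K ∩ E n j) :=
          ENNReal.tsum_le_tsum h2
      _ = Measure.hausdorffMeasure 1 K := by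
          have h3 : ∀ j, Measure.hausdorffMeasure 1 (K ∩ E n j)
              = (Measure.hausdorffMeasure 1).restrict K (E n j) := by
            intro j
            rw [Measure.restrict_apply (hEm n j), inter_comm]
          simp_rw [h3]
          rw [← measure_iUnion (hEd n) (hEm n), hEu n, Measure.restrict_apply_univ]
  -- pointwise bound
  have hpt : ∀ t, ((K ∩ f ⁻¹' {t}).encard : ℝ≥0∞) ≤ liminf (fun n => F n t) atTop := by
    intro t
    -- any finite subset
    have key : ∀ s : Finset X, (s : Set X) ⊆ K ∩ f ⁻¹' {t} →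
        ((s.card : ℕ) : ℝ≥0∞) ≤ liminf (fun n => F n t) atTop := by
      intro s hs
      -- separation
      obtain ⟨δ, hδ, hsep⟩ : ∃ δ > 0, ∀ x ∈ s, ∀ y ∈ s, x ≠ y → δ ≤ dist x y := by
        let P := (s ×ˢ s).filter (fun p => p.1 ≠ p.2)
        rcases P.eq_empty_or_nonempty with hP | hP
        · refine ⟨1, one_pos, ?_⟩
          intro x hx y hy hxy
          exfalso
          have : (x, y) ∈ P := by simp [P, hx, hy, hxy]
          rw [hP] at this
          simp at this
        · obtain ⟨p, hp, hmin⟩ := P.exists_min_image (fun p => dist p.1 p.2) hP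
          refine ⟨dist p.1 p.2, ?_, ?_⟩
          · have : p.1 ≠ p.2 := by simpa [P] using (Finset.mem_filter.1 hp).2
            exact dist_pos.2 this
          · intro x hx y hy hxy
            exact hmin (x, y) (by simp [P, hx, hy, hxy])
      obtain ⟨N, hN⟩ := exists_nat_one_div_lt hδ
      refine le_liminf_of_le (by isBoundedDefault) ?_
      filter_upwards [eventually_ge_atTop N] with n hn
      -- each point lies in a cell
      have hcell : ∀ x : X, ∃ j, x ∈ E n j := by
        intro x
        have : x ∈ ⋃ j, E n j := by rw [hEu n]; trivial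
        simpa using this
      choose c hc using hcell
      have hinj : Set.InjOn c (s : Set X) := by
        intro x hx y hy hxy
        by_contra hne
        have h1 := hEs n (c x) x (hc x) y (by rw [hxy]; exact hc y)
        have h2 := hsep x hx y hy hne
        have h3 : (1 : ℝ) / (n + 1) ≤ 1 / (N + 1) := by
          apply one_div_le_one_div_of_le (by positivity)
          have : (N : ℝ) ≤ n := by exact_mod_cast hn
          linarith
        linarith
      calc ((s.card : ℕ) : ℝ≥0∞) = ∑ j ∈ s.image c, (1 : ℝ≥0∞) := by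
            rw [Finset.sum_const, Finset.card_image_of_injOn hinj]; simp
        _ ≤ ∑ j ∈ s.image c,
              (toMeasurable volume (f '' (K ∩ E n j))).indicator (fun _ => (1 : ℝ≥0∞)) t := by
            apply Finset.sum_le_sum
            intro j hj
            obtain ⟨x, hx, rfl⟩ := Finset.mem_image.1 hj
            have hxK := hs hx
            have : t ∈ toMeasurable volume (f '' (K ∩ E n (c x))) := by
              apply subset_toMeasurable
              exact ⟨x, ⟨hxK.1, hc x⟩, hxK.2⟩
            rw [indicator_of_mem this]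
        _ ≤ F n t := ENNReal.sum_le_tsum _
    by_cases hfin : (K ∩ f ⁻¹' {t}).Finite
    · have := key hfin.toFinset (by simp)
      rw [hfin.encard_eq_coe_toFinset_card]
      simpa using this
    · have hinf : (K ∩ f ⁻¹' {t}).Infinite := hfin
      rw [hinf.encard_eq]
      simp only [ENat.toENNReal_top, top_le_iff]
      apply ENNReal.eq_top_of_forall_nnreal_le
      intro r
      obtain ⟨n, hn⟩ := exists_nat_ge r
      obtain ⟨s, hs, hcard⟩ := hinf.exists_subset_card_eq n
      have := key s hs
      rw [hcard] at this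
      refine le_trans ?_ this
      exact_mod_cast hn
  calc ∫⁻ t, ((K ∩ f ⁻¹' {t}).encard : ℝ≥0∞) ≤ ∫⁻ t, liminf (fun n => F n t) atTop :=
        lintegral_mono hpt
    _ ≤ liminf (fun n => ∫⁻ t, F n t) atTop := lintegral_liminf_le hFm
    _ ≤ Measure.hausdorffMeasure 1 K := by
        apply liminf_le_of_le (by isBoundedDefault)
        intro b hb
        obtain ⟨n, hn⟩ := hb.exists
        exact hn.trans (hFint n)

/-- If every fibre over `A` meets `K` in at least `m` points, then `m · |A| ≤ H¹(K ∩ f⁻¹ A)`. -/
theorem mul_volume_le_hausdorffMeasure (f : X → ℝ) (K : Set X) (hf : LipschitzOnWith 1 f K)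
    (A : Set ℝ) (hA : MeasurableSet A) (m : ℕ) (hm : ∀ t ∈ A, (m : ℕ∞) ≤ (K ∩ f ⁻¹' {t}).encard) :
    (m : ℝ≥0∞) * volume A ≤ Measure.hausdorffMeasure 1 (K ∩ f ⁻¹' A) := by
  have h1 := lintegral_encard_fiber_le f (K ∩ f ⁻¹' A) (hf.mono inter_subset_left)
  refine le_trans ?_ h1
  calc (m : ℝ≥0∞) * volume A = ∫⁻ t in A, (m : ℝ≥0∞) := by simp
    _ = ∫⁻ t, A.indicator (fun _ => (m : ℝ≥0∞)) t := by rw [lintegral_indicator hA]
    _ ≤ _ := by
        apply lintegral_mono
        intro t
        by_cases ht : t ∈ A
        · rw [indicator_of_mem ht]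
          have h2 := hm t ht
          have h3 : K ∩ f ⁻¹' A ∩ f ⁻¹' {t} = K ∩ f ⁻¹' {t} := by
            ext x
            simp only [mem_inter_iff, mem_preimage, mem_singleton_iff]
            constructor
            · rintro ⟨⟨h, _⟩, h'⟩; exact ⟨h, h'⟩
            · rintro ⟨h, h'⟩; exact ⟨⟨h, by rw [h']; exact ht⟩, h'⟩
          simp only [h3]
          have h4 : ((m : ℕ∞) : ℝ≥0∞) ≤ ((K ∩ f ⁻¹' {t}).encard : ℝ≥0∞) :=
            ENat.toENNReal_le.2 h2
          simpa using h4
        · rw [indicator_of_notMem ht]
          exact zero_le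

end Eilenberg

end Crest.Agent.R135
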