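import Mathlib

/-!
# R135: sharp one dimensional Wirtinger (Neumann) inequality and the arc inequality (helper633)

Functions are given in primitive form: `F x = F a + ∫ t in a..x, F1 t` on `[a,b]`, `F1 ∈ L²(a,b)`.
-/

set_option autoImplicit false

open MeasureTheory Set Filter Topology intervalIntegral
open scoped Real Interval

noncomputable section

namespace Crest.Agent.R135

/-- `F` is on `[a,b]` a primitive of the integrable function `F1`. -/
def IsPrim (a b : ℝ) (F F1 : ℝ → ℝ) : Prop :=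
  IntervalIntegrable F1 volume a b ∧ ∀ x ∈ Icc a b, F x = F a + ∫ t in a..x, F1 t

/-- `f` is square integrable on `(a,b)`. -/
def IsL2 (a b : ℝ) (f : ℝ → ℝ) : Prop := MemLp f 2 (volume.restrict (Ioc a b))

theorem IsL2.intervalIntegrable {a b : ℝ} (hab : a ≤ b) {f : ℝ → ℝ} (hf : IsL2 a b f) :
    IntervalIntegrable f volume a b := by
  rw [intervalIntegrable_iff_integrableOn_Ioc_of_le hab]
  have : IsFiniteMeasure (volume.restrict (Ioc a b)) := ⟨by simp⟩
  exact hf.integrable (by norm_num)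

theorem IsL2.mul {a b : ℝ} (hab : a ≤ b) {f g : ℝ → ℝ} (hf : IsL2 a b f) (hg : IsL2 a b g) :
    IntervalIntegrable (fun x => f x * g x) volume a b := by
  rw [intervalIntegrable_iff_integrableOn_Ioc_of_le hab]
  exact MemLp.integrable_mul hf hg

theorem IsL2.sq {a b : ℝ} (hab : a ≤ b) {f : ℝ → ℝ} (hf : IsL2 a b f) :
    IntervalIntegrable (fun x => f x ^ 2) volume a b := by
  have := hf.mul hab hf
  simpa [pow_two] using this

theorem isL2_of_continuousOn {a b : ℝ} {f : ℝ → ℝ} (hf : ContinuousOn f (Icc a b)) :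
    IsL2 a b f := by
  have h1 : IsCompact (Icc a b) := isCompact_Icc
  obtain ⟨C, hC⟩ := h1.exists_bound_of_continuousOn hf
  have hfin : IsFiniteMeasure (volume.restrict (Ioc a b)) := ⟨by simp⟩
  refine MemLp.of_bound ?_ C ?_
  · exact (hf.mono Ioc_subset_Icc_self).aestronglyMeasurable measurableSet_Ioc
  · filter_upwards [ae_restrict_mem measurableSet_Ioc] with x hx
    exact hC x (Ioc_subset_Icc_self hx)

theorem IsL2.add {a b : ℝ} {f g : ℝ → ℝ} (hf : IsL2 a b f) (hg : IsL2 a b g) :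
    IsL2 a b (fun x => f x + g x) := MemLp.add hf hg

theorem IsL2.sub {a b : ℝ} {f g : ℝ → ℝ} (hf : IsL2 a b f) (hg : IsL2 a b g) :
    IsL2 a b (fun x => f x - g x) := MemLp.sub hf hg

theorem IsL2.const_mul {a b : ℝ} {f : ℝ → ℝ} (c : ℝ) (hf : IsL2 a b f) :
    IsL2 a b (fun x => c * f x) := MemLp.const_mul hf c

/-- restriction to a subinterval -/
theorem IsL2.mono {a b c d : ℝ} {f : ℝ → ℝ} (hf : IsL2 a b f) (hac : a ≤ c) (hdb : d ≤ b) :
    IsL2 c d f :=
  MemLp.mono_measure (Measure.restrict_mono (Ioc_subset_Ioc hac hdb) le_rfl) hf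

theorem IsPrim.continuousOn {a b : ℝ} (hab : a ≤ b) {F F1 : ℝ → ℝ} (h : IsPrim a b F F1) :
    ContinuousOn F (Icc a b) := by
  have h1 : ContinuousOn (fun x => F a + ∫ t in a..x, F1 t) (Icc a b) := by
    have := intervalIntegral.continuousOn_primitive_interval' (μ := volume) h.1
      (left_mem_uIcc)
    rw [uIcc_of_le hab] at this
    exact continuousOn_const.add this
  exact h1.congr fun x hx => h.2 x hx

theorem IsPrim.isL2 {a b : ℝ} (hab : a ≤ b) {F F1 : ℝ → ℝ} (h : IsPrim a b F F1) :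
    IsL2 a b F := isL2_of_continuousOn (h.continuousOn hab)

theorem IsPrim.mono {a b c d : ℝ} {F F1 : ℝ → ℝ} (h : IsPrim a b F F1) (hac : a ≤ c)
    (hcd : c ≤ d) (hdb : d ≤ b) : IsPrim c d F F1 := by
  have hab : a ≤ b := hac.trans (hcd.trans hdb)
  have hint : ∀ x y, x ∈ Icc a b → y ∈ Icc a b → IntervalIntegrable F1 volume x y := by
    intro x y hx hy
    refine h.1.mono_set ?_
    rw [uIcc_of_le hab]
    exact uIcc_subset_Icc hx hy
  refine ⟨hint c d ⟨hac, hcd.trans hdb⟩ ⟨hac.trans hcd, hdb⟩, fun x hx => ?_⟩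
  have hc : c ∈ Icc a b := ⟨hac, hcd.trans hdb⟩
  have hx' : x ∈ Icc a b := ⟨hac.trans hx.1, hx.2.trans hdb⟩
  rw [h.2 x hx', h.2 c hc, add_assoc,
    intervalIntegral.integral_add_adjacent_intervals (hint a c ⟨le_rfl, hab⟩ hc) (hint c x hc hx')]

/-- a function with a continuous derivative is a primitive -/
theorem isPrim_of_hasDerivAt {a b : ℝ} (hab : a ≤ b) {F F1 : ℝ → ℝ}
    (h : ∀ x ∈ Icc a b, HasDerivAt F (F1 x) x) (hc : ContinuousOn F1 (Icc a b)) :
    IsPrim a b F F1 := by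
  have h1 : IntervalIntegrable F1 volume a b := by
    apply ContinuousOn.intervalIntegrable
    rwa [uIcc_of_le hab]
  refine ⟨h1, fun x hx => ?_⟩
  rw [intervalIntegral.integral_eq_sub_of_hasDerivAt]
  · ring
  · intro y hy
    rw [uIcc_of_le hx.1] at hy
    exact h y ⟨hy.1, hy.2.trans hx.2⟩
  · apply ContinuousOn.intervalIntegrable
    rw [uIcc_of_le hx.1]
    exact hc.mono (Icc_subset_Icc le_rfl hx.2)

/-- integration by parts for primitives -/
theorem IsPrim.ibp {a b : ℝ} (hab : a ≤ b) {F F1 P P1 : ℝ → ℝ} (hF : IsPrim a b F F1)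
    (hP : IsPrim a b P P1) :
    ∫ x in a..b, P1 x * F x = P b * F b - P a * F a - ∫ x in a..b, P x * F1 x := by
  set f : ℝ → ℝ := fun x => F a + ∫ t in a..x, F1 t with hf
  set p : ℝ → ℝ := fun x => P a + ∫ t in a..x, P1 t with hp
  have hac : ∀ (c : ℝ) (G : ℝ → ℝ), IntervalIntegrable G volume a b →
      AbsolutelyContinuousOnInterval (fun x => c + ∫ t in a..x, G t) a b := by
    intro c G hG
    have h0 : AbsolutelyContinuousOnInterval (fun _ : ℝ => c) a b := by
      have : LipschitzOnWith 0 (fun _ : ℝ => c) (uIcc a b) := by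
        intro x _ y _; simp
      exact this.absolutelyContinuousOnInterval
    exact h0.add (hG.absolutelyContinuousOnInterval_intervalIntegral left_mem_uIcc)
  have hfa := hac (F a) F1 hF.1
  have hpa := hac (P a) P1 hP.1
  have hder : ∀ (c : ℝ) (G : ℝ → ℝ), IntervalIntegrable G volume a b →
      ∀ᵐ x, x ∈ uIcc a b → deriv (fun x => c + ∫ t in a..x, G t) x = G x := by
    intro c G hG
    filter_upwards [hG.ae_hasDerivAt_integral] with x hx hxm
    have h1 := hx hxm a left_mem_uIcc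
    exact (h1.const_add c).deriv
  have hfe : ∀ x ∈ Icc a b, f x = F x := fun x hx => (hF.2 x hx).symm
  have hpe : ∀ x ∈ Icc a b, p x = P x := fun x hx => (hP.2 x hx).symm
  have key := hfa.integral_mul_deriv_eq_deriv_mul hpa
  have e1 : ∫ x in a..b, f x * deriv p x = ∫ x in a..b, P1 x * F x := by
    apply intervalIntegral.integral_congr_ae
    filter_upwards [hder (P a) P1 hP.1] with x hx hxm
    rw [uIoc_of_le hab] at hxm
    have hxm' : x ∈ Icc a b := Ioc_subset_Icc_self hxm
    rw [hx (by rw [uIcc_of_le hab]; exact hxm'), hfe x hxm', mul_comm]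
  have e2 : ∫ x in a..b, deriv f x * p x = ∫ x in a..b, P x * F1 x := by
    apply intervalIntegral.integral_congr_ae
    filter_upwards [hder (F a) F1 hF.1] with x hx hxm
    rw [uIoc_of_le hab] at hxm
    have hxm' : x ∈ Icc a b := Ioc_subset_Icc_self hxm
    rw [hx (by rw [uIcc_of_le hab]; exact hxm'), hpe x hxm', mul_comm]
  have ha : a ∈ Icc a b := ⟨le_rfl, hab⟩
  have hb : b ∈ Icc a b := ⟨hab, le_rfl⟩
  rw [← e1, key, e2, ← hF.2 b hb, ← hP.2 b hb]
  simp only [intervalIntegral.integral_same, add_zero]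
  ring

/-- Dirichlet Wirtinger inequality on `[0,π]` (elementary proof through `cot`). -/
theorem wirt_dirichlet_pi {P P1 : ℝ → ℝ} (hP : ∀ x ∈ Icc (0:ℝ) π, HasDerivAt P (P1 x) x)
    (hc : ContinuousOn P1 (Icc 0 π)) (h0 : P 0 = 0) (hpi : P π = 0) :
    ∫ x in (0:ℝ)..π, P x ^ 2 ≤ ∫ x in (0:ℝ)..π, P1 x ^ 2 := by
  have hPc : ContinuousOn P (Icc 0 π) := fun x hx => (hP x hx).continuousAt.continuousWithinAt
  obtain ⟨M, hM⟩ := (isCompact_Icc (a := (0:ℝ)) (b := π)).exists_bound_of_continuousOn hc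
  have hM0 : 0 ≤ M := (norm_nonneg _).trans (hM 0 ⟨le_rfl, Real.pi_pos.le⟩)
  -- bound of P near the end points
  have hPl : ∀ x ∈ Icc (0:ℝ) π, ∀ y ∈ Icc (0:ℝ) π, |P y - P x| ≤ M * |y - x| := by
    intro x hx y hy
    have := Convex.norm_image_sub_le_of_norm_hasDerivWithin_le (f := P) (f' := P1) (s := Icc 0 π)
      (C := M) (fun z hz => (hP z hz).hasDerivWithinAt) hM (convex_Icc 0 π) hx hy
    simpa [Real.norm_eq_abs] using this
  -- integral estimate on [ε, π-ε]
  have main : ∀ ε ∈ Ioo (0:ℝ) (π/2),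
      ∫ x in ε..(π-ε), P x ^ 2 ≤ (∫ x in ε..(π-ε), P1 x ^ 2) + 2 * M ^ 2 * ε := by
    intro ε hε
    have hle : ε ≤ π - ε := by linarith [hε.2]
    have hsub : Icc ε (π - ε) ⊆ Icc 0 π := Icc_subset_Icc hε.1.le (by linarith [hε.1])
    have hsin : ∀ x ∈ Icc ε (π-ε), 0 < Real.sin x := fun x hx =>
      Real.sin_pos_of_pos_of_lt_pi (lt_of_lt_of_le hε.1 hx.1) (by linarith [hx.2, hε.1])
    have hd : ∀ x ∈ Icc ε (π-ε), HasDerivAt (fun x => P x ^ 2 * (Real.cos x / Real.sin x))
        (2 * P x * P1 x * (Real.cos x / Real.sin x) - P x ^ 2 * (1 + (Real.cos x / Real.sin x)^2)) x := by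
      intro x hx
      have h1 := (hP x (hsub hx)).pow 2
      have h2 := (Real.hasDerivAt_cos x).div (Real.hasDerivAt_sin x) (hsin x hx).ne'
      have h3 := h1.mul h2
      refine h3.congr_deriv ?_
      have hs := (hsin x hx).ne'
      simp only [Nat.cast_ofNat, Nat.add_one_sub_one, pow_one, Pi.div_apply, Pi.pow_apply]
      field_simp
      ring
    have hcot : ContinuousOn (fun x => Real.cos x / Real.sin x) (Icc ε (π-ε)) :=
      Real.continuous_cos.continuousOn.div Real.continuous_sin.continuousOn fun x hx => (hsin x hx).ne'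
    have hPc' := hPc.mono hsub
    have hc' := hc.mono hsub
    have hu : uIcc ε (π-ε) = Icc ε (π-ε) := uIcc_of_le hle
    have i1 : IntervalIntegrable (fun x => 2 * P x * P1 x * (Real.cos x / Real.sin x)
        - P x ^ 2 * (1 + (Real.cos x / Real.sin x)^2)) volume ε (π-ε) := by
      apply ContinuousOn.intervalIntegrable
      rw [hu]
      exact (((continuousOn_const.mul hPc').mul hc').mul hcot).sub
        ((hPc'.pow 2).mul (continuousOn_const.add (hcot.pow 2)))
    have e1 := intervalIntegral.integral_eq_sub_of_hasDerivAt (f := fun x => P x ^ 2 * (Real.cos x / Real.sin x))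
      (by rw [hu]; exact hd) i1
    have i2 : IntervalIntegrable (fun x => (P1 x - P x * (Real.cos x / Real.sin x))^2) volume ε (π-ε) := by
      apply ContinuousOn.intervalIntegrable
      rw [hu]
      exact (hc'.sub (hPc'.mul hcot)).pow 2
    have i3 : IntervalIntegrable (fun x => P x ^ 2) volume ε (π-ε) := by
      apply ContinuousOn.intervalIntegrable
      rw [hu]; exact hPc'.pow 2
    have i4 : IntervalIntegrable (fun x => P1 x ^ 2) volume ε (π-ε) := by
      apply ContinuousOn.intervalIntegrable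
      rw [hu]; exact hc'.pow 2
    have e2 : 0 ≤ ∫ x in ε..(π-ε), (P1 x - P x * (Real.cos x / Real.sin x))^2 :=
      intervalIntegral.integral_nonneg hle fun x _ => sq_nonneg _
    have e3 : ∫ x in ε..(π-ε), (P1 x - P x * (Real.cos x / Real.sin x))^2 =
        (∫ x in ε..(π-ε), P1 x ^ 2) - (∫ x in ε..(π-ε), P x ^ 2) -
        ∫ x in ε..(π-ε), (2 * P x * P1 x * (Real.cos x / Real.sin x)
        - P x ^ 2 * (1 + (Real.cos x / Real.sin x)^2)) := by
      rw [← intervalIntegral.integral_sub i4 i3, ← intervalIntegral.integral_sub (i4.sub i3) i1]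
      apply intervalIntegral.integral_congr
      intro x _
      simp only
      ring
    have hsε : 0 < Real.sin ε := hsin ε ⟨le_rfl, hle⟩
    have hcε : 0 < Real.cos ε := Real.cos_pos_of_mem_Ioo ⟨by linarith [hε.1, Real.pi_pos], hε.2⟩
    have hcotε : Real.cos ε / Real.sin ε ≤ 1 / ε := by
      rw [div_le_div_iff₀ hsε hε.1]
      have := Real.lt_tan hε.1 hε.2
      rw [Real.tan_eq_sin_div_cos, lt_div_iff₀ hcε] at this
      linarith
    have hcot0 : 0 ≤ Real.cos ε / Real.sin ε := (div_pos hcε hsε).le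
    have hP1 : P ε ^ 2 ≤ M^2 * ε^2 := by
      have := hPl 0 ⟨le_rfl, Real.pi_pos.le⟩ ε (hsub ⟨le_rfl, hle⟩)
      rw [h0, sub_zero, sub_zero, abs_of_pos hε.1] at this
      rw [← mul_pow]
      exact sq_le_sq' (by linarith [neg_abs_le (P ε)]) ((le_abs_self _).trans this)
    have hP2 : P (π-ε) ^ 2 ≤ M^2 * ε^2 := by
      have := hPl π ⟨Real.pi_pos.le, le_rfl⟩ (π-ε) (hsub ⟨hle, le_rfl⟩)
      rw [hpi, sub_zero, show π - ε - π = -ε by ring, abs_neg, abs_of_pos hε.1] at this
      rw [← mul_pow]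
      exact sq_le_sq' (by linarith [neg_abs_le (P (π-ε))]) ((le_abs_self _).trans this)
    have e4 : P (π-ε) ^ 2 * (Real.cos (π-ε) / Real.sin (π-ε)) - P ε ^ 2 * (Real.cos ε / Real.sin ε)
        ≥ - (2 * M^2 * ε) := by
      rw [Real.cos_pi_sub, Real.sin_pi_sub, neg_div]
      have k1 : (P (π-ε) ^ 2 + P ε ^ 2) * (Real.cos ε / Real.sin ε) ≤ (2 * M^2 * ε^2) * (1/ε) := by
        apply mul_le_mul (by linarith) hcotε hcot0 (by positivity)
      have k2 : (2 * M^2 * ε^2) * (1/ε) = 2 * M^2 * ε := by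
        field_simp [hε.1.ne']
      nlinarith
    rw [e3, e1] at e2
    linarith
  -- limit ε → 0
  have hint : ∀ (G : ℝ → ℝ), ContinuousOn G (Icc 0 π) →
      Tendsto (fun ε => ∫ x in ε..(π-ε), G x) (𝓝[>] 0) (𝓝 (∫ x in (0:ℝ)..π, G x)) := by
    intro G hG
    have hGi : IntervalIntegrable G volume 0 π := by
      apply ContinuousOn.intervalIntegrable
      rwa [uIcc_of_le Real.pi_pos.le]
    have hcont : ContinuousOn (fun x => ∫ t in (0:ℝ)..x, G t) (Icc 0 π) := by
      have := intervalIntegral.continuousOn_primitive_interval' (μ := volume) hGi (left_mem_uIcc)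
      rwa [uIcc_of_le Real.pi_pos.le] at this
    have hlim1 : Tendsto (fun ε:ℝ => ∫ t in (0:ℝ)..ε, G t) (𝓝[>] 0) (𝓝 (∫ t in (0:ℝ)..0, G t)) := by
      refine (hcont 0 ⟨le_rfl, Real.pi_pos.le⟩).tendsto.comp ?_
      refine tendsto_nhdsWithin_of_tendsto_nhds_of_eventually_within _
        (tendsto_id.mono_left nhdsWithin_le_nhds) ?_
      filter_upwards [Ioo_mem_nhdsGT Real.pi_pos] with ε hε using Ioo_subset_Icc_self hε
    have hlim2 : Tendsto (fun ε:ℝ => ∫ t in (0:ℝ)..(π-ε), G t) (𝓝[>] 0) (𝓝 (∫ t in (0:ℝ)..π, G t)) := by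
      refine (hcont π ⟨Real.pi_pos.le, le_rfl⟩).tendsto.comp ?_
      refine tendsto_nhdsWithin_of_tendsto_nhds_of_eventually_within _ ?_ ?_
      · have : Tendsto (fun ε:ℝ => π - ε) (𝓝 0) (𝓝 (π - 0)) := tendsto_const_nhds.sub tendsto_id
        rw [sub_zero] at this
        exact this.mono_left nhdsWithin_le_nhds
      · filter_upwards [Ioo_mem_nhdsGT Real.pi_pos] with ε hε
        exact ⟨by linarith [hε.2], by linarith [hε.1]⟩
    have hlim := hlim2.sub hlim1
    rw [intervalIntegral.integral_same, sub_zero] at hlim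
    refine hlim.congr' ?_
    filter_upwards [Ioo_mem_nhdsGT (show (0:ℝ) < π/2 by positivity)] with ε hε
    have hs : ∀ x ∈ Icc (0:ℝ) π, ∀ y ∈ Icc (0:ℝ) π, IntervalIntegrable G volume x y := by
      intro x hx y hy
      refine hGi.mono_set ?_
      rw [uIcc_of_le Real.pi_pos.le]
      exact uIcc_subset_Icc hx hy
    have h0m : (0:ℝ) ∈ Icc (0:ℝ) π := ⟨le_rfl, Real.pi_pos.le⟩
    exact intervalIntegral.integral_interval_sub_left
      (hs 0 h0m (π-ε) ⟨by linarith [hε.2, Real.pi_pos], by linarith [hε.1]⟩)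
      (hs 0 h0m ε ⟨hε.1.le, by linarith [hε.2, Real.pi_pos]⟩)
  have l1 := hint _ (hPc.pow 2)
  have l2 := (hint _ (hc.pow 2)).add
    (((tendsto_const_nhds (x := 2*M^2)).mul (tendsto_id.mono_left
      (nhdsWithin_le_nhds (a := (0:ℝ)) (s := Ioi 0)))))
  simp only [mul_zero, add_zero, Pi.pow_apply] at l1 l2
  refine le_of_tendsto_of_tendsto l1 l2 ?_
  filter_upwards [Ioo_mem_nhdsGT (show (0:ℝ) < π/2 by positivity)] with ε hε
  exact main ε hε

/-- Dirichlet Wirtinger inequality on `[a,b]`. -/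
theorem wirt_dirichlet {a b : ℝ} (hab : a < b) {P P1 : ℝ → ℝ}
    (hP : ∀ x ∈ Icc a b, HasDerivAt P (P1 x) x)
    (hc : ContinuousOn P1 (Icc a b)) (ha : P a = 0) (hb : P b = 0) :
    ∫ x in a..b, P x ^ 2 ≤ ((b-a)/π)^2 * ∫ x in a..b, P1 x ^ 2 := by
  set c : ℝ := (b-a)/π with hcdef
  have hcpos : 0 < c := div_pos (by linarith) Real.pi_pos
  have hmap : ∀ x ∈ Icc (0:ℝ) π, c * x + a ∈ Icc a b := by
    intro x hx
    have h1 : c * x ≤ c * π := mul_le_mul_of_nonneg_left hx.2 hcpos.le
    have h2 : c * π = b - a := by rw [hcdef]; field_simp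
    exact ⟨by nlinarith [mul_nonneg hcpos.le hx.1], by linarith⟩
  have hcπ : c * π + a = b := by rw [hcdef]; field_simp; ring
  have key := wirt_dirichlet_pi (P := fun x => P (c * x + a)) (P1 := fun x => c * P1 (c * x + a))
    (fun x hx => by
      have h1 := hP _ (hmap x hx)
      have h2 : HasDerivAt (fun x => c * x + a) c x := by
        simpa using ((hasDerivAt_id x).const_mul c).add_const a
      have h3 := HasDerivAt.comp x h1 h2
      rw [mul_comm] at h3
      exact h3)
    (continuousOn_const.mul (hc.comp (by fun_prop) hmap))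
    (by simp [ha]) (by simp only [hcπ, hb])
  have e1 : ∫ x in (0:ℝ)..π, P (c * x + a) ^ 2 = c⁻¹ * ∫ x in a..b, P x ^ 2 := by
    have := intervalIntegral.integral_comp_mul_add (a := 0) (b := π) (fun x => P x ^ 2) hcpos.ne' a
    rw [this]
    simp [hcπ]
  have e2 : ∫ x in (0:ℝ)..π, (c * P1 (c * x + a)) ^ 2 = c^2 * (c⁻¹ * ∫ x in a..b, P1 x ^ 2) := by
    have := intervalIntegral.integral_comp_mul_add (a := 0) (b := π) (fun x => P1 x ^ 2) hcpos.ne' a
    simp_rw [mul_pow]
    rw [intervalIntegral.integral_const_mul, this]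
    simp [hcπ]
  rw [e1, e2] at key
  have h := mul_le_mul_of_nonneg_left key hcpos.le
  have h1 : c * (c⁻¹ * ∫ x in a..b, P x ^ 2) = ∫ x in a..b, P x ^ 2 := by
    rw [← mul_assoc, mul_inv_cancel₀ hcpos.ne', one_mul]
  have h2 : c * (c^2 * (c⁻¹ * ∫ x in a..b, P1 x ^ 2)) = c^2 * ∫ x in a..b, P1 x ^ 2 := by
    field_simp
  rw [h1, h2] at h
  exact h

/-- Cauchy-Schwarz, squared form. -/
theorem cs_sq {a b : ℝ} (hab : a ≤ b) {f g : ℝ → ℝ} (hf : IsL2 a b f) (hg : IsL2 a b g) :
    (∫ x in a..b, f x * g x)^2 ≤ (∫ x in a..b, f x ^ 2) * ∫ x in a..b, g x ^ 2 := by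
  set A := ∫ x in a..b, f x ^ 2
  set B := ∫ x in a..b, f x * g x
  set C := ∫ x in a..b, g x ^ 2
  have h : ∀ t : ℝ, 0 ≤ C * (t * t) + (-2 * B) * t + A := by
    intro t
    have h1 : 0 ≤ ∫ x in a..b, (f x - t * g x)^2 :=
      intervalIntegral.integral_nonneg hab fun x _ => sq_nonneg _
    have h2 : ∫ x in a..b, (f x - t * g x)^2 = C * (t * t) + (-2 * B) * t + A := by
      have e : ∀ x, (f x - t * g x)^2 = f x ^ 2 - (2*t) * (f x * g x) + t^2 * g x ^ 2 := by
        intro x; ring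
      simp_rw [e]
      rw [intervalIntegral.integral_add, intervalIntegral.integral_sub,
        intervalIntegral.integral_const_mul, intervalIntegral.integral_const_mul]
      · ring
      · exact hf.sq hab
      · exact (hf.mul hab hg).const_mul _
      · exact (hf.sq hab).sub ((hf.mul hab hg).const_mul _)
      · exact (hg.sq hab).const_mul _
    rw [← h2]; exact h1
  have := discrim_le_zero h
  rw [discrim] at this
  nlinarith

/-- **Sharp Neumann Wirtinger inequality** on `[a,b]`: for `F` with mean value zero. -/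
theorem wirt_neumann_zero {a b : ℝ} (hab : a < b) {F F1 : ℝ → ℝ} (hF : IsPrim a b F F1)
    (hF1 : IsL2 a b F1) (hm : ∫ x in a..b, F x = 0) :
    ∫ x in a..b, F x ^ 2 ≤ ((b-a)/π)^2 * ∫ x in a..b, F1 x ^ 2 := by
  have hFc := hF.continuousOn hab.le
  -- continuous extension of F
  set Fe : ℝ → ℝ := IccExtend hab.le (fun x : Icc a b => F x) with hFe
  have hFec : Continuous Fe := by
    apply Continuous.Icc_extend'
    exact hFc.domRestrict
  have hFeq : ∀ x ∈ Icc a b, Fe x = F x := fun x hx => IccExtend_of_mem hab.le _ hx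
  set P : ℝ → ℝ := fun x => ∫ t in a..x, Fe t with hPdef
  have hPd : ∀ x, HasDerivAt P (Fe x) x := fun x =>
    intervalIntegral.integral_hasDerivAt_right (hFec.intervalIntegrable _ _)
      (hFec.stronglyMeasurableAtFilter _ _) hFec.continuousAt
  have hPa : P a = 0 := intervalIntegral.integral_same
  have hPb : P b = 0 := by
    rw [← hm]
    apply intervalIntegral.integral_congr
    intro x hx
    rw [uIcc_of_le hab.le] at hx
    exact hFeq x hx
  have hPp : IsPrim a b P Fe := isPrim_of_hasDerivAt hab.le (fun x _ => hPd x) hFec.continuousOn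
  have w := wirt_dirichlet hab (fun x _ => hPd x) hFec.continuousOn hPa hPb
  have ib := hF.ibp hab.le hPp
  rw [hPa, hPb, zero_mul, zero_mul, sub_zero, zero_sub] at ib
  have e1 : ∫ x in a..b, Fe x * F x = ∫ x in a..b, F x ^ 2 := by
    apply intervalIntegral.integral_congr
    intro x hx
    rw [uIcc_of_le hab.le] at hx
    simp only [hFeq x hx]; ring
  have e2 : ∫ x in a..b, Fe x ^ 2 = ∫ x in a..b, F x ^ 2 := by
    apply intervalIntegral.integral_congr
    intro x hx
    rw [uIcc_of_le hab.le] at hx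
    simp only [hFeq x hx]
  rw [e1] at ib
  rw [e2] at w
  have cs := cs_sq hab.le (hPp.isL2 hab.le) hF1
  set A := ∫ x in a..b, F x ^ 2 with hA
  set B := ∫ x in a..b, F1 x ^ 2 with hB
  set D := ∫ x in a..b, P x ^ 2 with hD
  set κ := ((b-a)/π)^2 with hκ
  have hA0 : 0 ≤ A := intervalIntegral.integral_nonneg hab.le fun x _ => sq_nonneg _
  have hB0 : 0 ≤ B := intervalIntegral.integral_nonneg hab.le fun x _ => sq_nonneg _
  have h1 : A^2 ≤ D * B := by
    rw [ib, neg_sq]; exact cs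
  have h2 : A^2 ≤ κ * A * B := h1.trans (mul_le_mul_of_nonneg_right w hB0)
  rcases hA0.eq_or_lt with h | h
  · rw [← h]; positivity
  · have : A * A ≤ (κ * B) * A := by nlinarith
    exact le_of_mul_le_mul_right this h

/-- **Sharp Neumann Wirtinger inequality**. -/
theorem wirt_neumann {a b : ℝ} (hab : a < b) {F F1 : ℝ → ℝ} (hF : IsPrim a b F F1)
    (hF1 : IsL2 a b F1) :
    ∫ x in a..b, (F x - (b-a)⁻¹ * ∫ t in a..b, F t) ^ 2 ≤ ((b-a)/π)^2 * ∫ x in a..b, F1 x ^ 2 := by
  have hba : (b - a) ≠ 0 := (sub_pos.mpr hab).ne'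
  apply wirt_neumann_zero hab (F := fun x => F x - (b-a)⁻¹ * ∫ t in a..b, F t) (F1 := F1) _ hF1
  · rw [intervalIntegral.integral_sub, intervalIntegral.integral_const]
    · simp only [smul_eq_mul]
      field_simp
      ring
    · apply ContinuousOn.intervalIntegrable
      rw [uIcc_of_le hab.le]; exact hF.continuousOn hab.le
    · exact intervalIntegrable_const
  · refine ⟨hF.1, fun x hx => ?_⟩
    simp only
    rw [hF.2 x hx]
    ring

/-- **Arc inequality** (Bonnet): if `∫ H = 0` then `∫ F H ≤ ½ ((b-a)/π) (∫ F'² + ∫ H²)`. -/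
theorem arc_ineq {a b : ℝ} (hab : a < b) {F F1 H : ℝ → ℝ} (hF : IsPrim a b F F1)
    (hF1 : IsL2 a b F1) (hH : IsL2 a b H) (hH0 : ∫ x in a..b, H x = 0) :
    |∫ x in a..b, F x * H x| ≤ (1/2) * ((b-a)/π) * ((∫ x in a..b, F1 x ^ 2) + ∫ x in a..b, H x ^ 2) := by
  set m := (b-a)⁻¹ * ∫ t in a..b, F t with hm
  have w := wirt_neumann hab hF hF1
  rw [← hm] at w
  have hFm : IsL2 a b (fun x => F x - m) :=
    (hF.isL2 hab.le).sub (isL2_of_continuousOn continuousOn_const)
  have e1 : ∫ x in a..b, F x * H x = ∫ x in a..b, (F x - m) * H x := by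
    have : ∀ x, (F x - m) * H x = F x * H x - m * H x := fun x => by ring
    simp_rw [this]
    rw [intervalIntegral.integral_sub ((hF.isL2 hab.le).mul hab.le hH)
      ((hH.intervalIntegrable hab.le).const_mul m), intervalIntegral.integral_const_mul, hH0]
    ring
  have cs := cs_sq hab.le hFm hH
  rw [← e1] at cs
  set A := ∫ x in a..b, (F x - m) ^ 2
  set B := ∫ x in a..b, F1 x ^ 2 with hB
  set C := ∫ x in a..b, H x ^ 2 with hC
  set X := ∫ x in a..b, F x * H x
  set k := (b-a)/π with hk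
  have hkpos : 0 < k := div_pos (sub_pos.mpr hab) Real.pi_pos
  have hB0 : 0 ≤ B := intervalIntegral.integral_nonneg hab.le fun x _ => sq_nonneg _
  have hC0 : 0 ≤ C := intervalIntegral.integral_nonneg hab.le fun x _ => sq_nonneg _
  have h1 : X^2 ≤ k^2 * B * C := cs.trans (mul_le_mul_of_nonneg_right w hC0)
  apply abs_le_of_sq_le_sq
  · nlinarith [mul_nonneg (sq_nonneg k) (sq_nonneg (B - C))]
  · positivity

end Crest.Agent.R135
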