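import Mathlib
import Crest.Agent.R135.PolarC
import Crest.Agent.R135.GMT2

/-!
# Parametrisation of circles by angles, good radii
-/

set_option autoImplicit false

open MeasureTheory Set Real Topology Filter
open scoped ENNReal

namespace Crest.Agent.R135

noncomputable section

lemma exists_dir_eq (v : E2) (hv : ‖v‖ = 1) (a : ℝ) : ∃ θ ∈ Ico a (a + 2 * π), dir θ = v := by
  set z : ℂ := ⟨v 0, v 1⟩ with hz
  have hn : ‖z‖ = 1 := by
    have h1 : ‖z‖ ^ 2 = 1 := by
      rw [← Complex.normSq_eq_norm_sq, Complex.normSq_apply]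
      have := norm_E2 v
      rw [hv] at this
      simp only [hz]
      nlinarith
    have h0 := norm_nonneg z
    nlinarith
  have hz0 : z ≠ 0 := by rw [← norm_pos_iff, hn]; norm_num
  have hc : Real.cos z.arg = v 0 := by
    rw [Complex.cos_arg hz0, hn]; simp [hz]
  have hs : Real.sin z.arg = v 1 := by
    rw [Complex.sin_arg, hn]; simp [hz]
  refine ⟨toIcoMod Real.two_pi_pos a z.arg, toIcoMod_mem_Ico _ _ _, ?_⟩
  have h1 : toIcoMod Real.two_pi_pos a z.arg
      = z.arg - toIcoDiv Real.two_pi_pos a z.arg • (2 * π) := rfl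
  rw [h1, dir_periodic.sub_zsmul_eq]
  apply ext_E2 <;> simp [dir, hc, hs]

lemma dir_eq_dir_iff {a b : ℝ} : dir a = dir b ↔ ∃ n : ℤ, a - b = 2 * π * n := by
  constructor
  · intro h
    have h0 : Real.cos a = Real.cos b := by
      have := congrArg (fun v : E2 => v 0) h; simpa [dir] using this
    have h1 : Real.sin a = Real.sin b := by
      have := congrArg (fun v : E2 => v 1) h; simpa [dir] using this
    exact Real.Angle.angle_eq_iff_two_pi_dvd_sub.1 (Real.Angle.cos_sin_inj h0 h1)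
  · rintro ⟨n, hn⟩
    have : b = a - n • (2 * π) := by
      rw [zsmul_eq_mul]; linarith
    rw [this, dir_periodic.sub_zsmul_eq]

lemma dir_injOn (a : ℝ) : InjOn dir (Ico a (a + 2 * π)) := by
  intro p hp q hq h
  obtain ⟨n, hn⟩ := dir_eq_dir_iff.1 h
  have hpi := Real.two_pi_pos
  have h1 : p - q < 2 * π := by linarith [hp.2, hq.1]
  have h2 : -(2 * π) < p - q := by linarith [hp.1, hq.2]
  rw [hn] at h1 h2
  have h3 : (n : ℝ) < 1 := by
    by_contra hcon
    push Not at hcon
    nlinarith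
  have h4 : (-1 : ℝ) < n := by
    by_contra hcon
    push Not at hcon
    nlinarith
  have h5 : n < 1 := by exact_mod_cast h3
  have h6 : -1 < n := by exact_mod_cast h4
  have : n = 0 := by omega
  rw [this] at hn
  simp at hn
  linarith

lemma exists_cpt_eq {x y : E2} {t : ℝ} (ht : 0 < t) (hy : y ∈ Metric.sphere x t) (a : ℝ) :
    ∃ θ ∈ Ico a (a + 2 * π), cpt x t θ = y := by
  have h1 : ‖(t⁻¹ • (y - x) : E2)‖ = 1 := by
    rw [norm_smul, norm_inv, Real.norm_of_nonneg ht.le, ← dist_eq_norm, Metric.mem_sphere.1 hy,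
      inv_mul_cancel₀ ht.ne']
  obtain ⟨θ, hθ, h⟩ := exists_dir_eq _ h1 a
  refine ⟨θ, hθ, ?_⟩
  rw [cpt, h, smul_smul, mul_inv_cancel₀ ht.ne', one_smul]
  abel

lemma cpt_injOn {x : E2} {t : ℝ} (ht : t ≠ 0) (a : ℝ) : InjOn (cpt x t) (Ico a (a + 2 * π)) := by
  intro p hp q hq h
  apply dir_injOn a hp hq
  have h1 : t • dir p = t • dir q := by simpa [cpt] using h
  exact smul_right_injective E2 ht h1

lemma cpt_image_Ico {x : E2} {t : ℝ} (ht : 0 < t) (a : ℝ) :
    cpt x t '' Ico a (a + 2 * π) = Metric.sphere x t := by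
  ext y
  constructor
  · rintro ⟨θ, _, rfl⟩
    exact cpt_mem_sphere ht.le
  · intro hy
    obtain ⟨θ, hθ, h⟩ := exists_cpt_eq ht hy a
    exact ⟨θ, hθ, h⟩

/-- The set of angles (in a given window) of the points of `K` on the circle. -/
def angles (K : Set E2) (x : E2) (t a : ℝ) : Set ℝ := {θ ∈ Ico a (a + 2 * π) | cpt x t θ ∈ K}

lemma cpt_image_angles (K : Set E2) {x : E2} {t : ℝ} (ht : 0 < t) (a : ℝ) :
    cpt x t '' angles K x t a = K ∩ Metric.sphere x t := by
  ext y
  constructor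
  · rintro ⟨θ, hθ, rfl⟩
    exact ⟨hθ.2, cpt_mem_sphere ht.le⟩
  · rintro ⟨hK, hy⟩
    obtain ⟨θ, hθ, h⟩ := exists_cpt_eq ht hy a
    exact ⟨θ, ⟨hθ, by rw [h]; exact hK⟩, h⟩

lemma encard_angles (K : Set E2) {x : E2} {t : ℝ} (ht : 0 < t) (a : ℝ) :
    (angles K x t a).encard = (K ∩ Metric.sphere x t).encard := by
  rw [← cpt_image_angles K ht a]
  rw [((cpt_injOn ht.ne' a).mono (fun θ hθ => hθ.1)).encard_image]

lemma finite_angles {K : Set E2} {x : E2} {t : ℝ} (ht : 0 < t) (a : ℝ)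
    (h : (K ∩ Metric.sphere x t).Finite) : (angles K x t a).Finite := by
  rw [← encard_lt_top_iff, encard_angles K ht a]
  exact h.encard_lt_top

/-- All angles of points of `K` in a bounded interval form a finite set. -/
lemma finite_angles_Icc {K : Set E2} {x : E2} {t : ℝ} (ht : 0 < t) (a : ℝ)
    (h : (K ∩ Metric.sphere x t).Finite) :
    {θ ∈ Icc a (a + 2 * π) | cpt x t θ ∈ K}.Finite := by
  refine ((finite_angles ht a h).union (finite_singleton (a + 2 * π))).subset ?_
  rintro θ ⟨hθ, hK⟩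
  rcases hθ.2.lt_or_eq with h1 | h1
  · exact Or.inl ⟨⟨hθ.1, h1⟩, hK⟩
  · exact Or.inr h1

lemma norm_dir_sub_dir_le (a b : ℝ) : ‖dir a - dir b‖ ≤ |a - b| := by
  have h := Convex.norm_image_sub_le_of_norm_hasDerivWithin_le (f := dir) (f' := tau) (C := 1)
    (s := univ) (x := b) (y := a) (fun θ _ => (hasDerivAt_dir θ).hasDerivWithinAt)
    (fun θ _ => by rw [norm_tau]) convex_univ trivial trivial
  simpa using h

lemma lipschitz_cpt (x : E2) {t : ℝ} (ht : 0 ≤ t) : LipschitzWith (Real.toNNReal t) (cpt x t) := by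
  apply LipschitzWith.of_dist_le_mul
  intro a b
  rw [dist_eq_norm, cpt, cpt, add_sub_add_left_eq_sub, ← smul_sub, norm_smul,
    Real.norm_of_nonneg ht, Real.coe_toNNReal t ht, Real.dist_eq]
  exact mul_le_mul_of_nonneg_left (norm_dir_sub_dir_le a b) ht

/-- Length of the image of a set of angles. -/
theorem hausdorff_cpt_image_le (x : E2) {t : ℝ} (ht : 0 ≤ t) (s : Set ℝ) :
    Measure.hausdorffMeasure 1 (cpt x t '' s) ≤ ENNReal.ofReal t * volume s := by
  have h := (lipschitz_cpt x ht).hausdorffMeasure_image_le zero_le_one s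
  simp [hausdorffMeasure_real] at h
  exact h

/-- Length of an arc of circle. -/
theorem hausdorff_arc_le (x : E2) {t : ℝ} (ht : 0 ≤ t) (a b : ℝ) :
    Measure.hausdorffMeasure 1 (cpt x t '' Icc a b) ≤ ENNReal.ofReal (t * (b - a)) := by
  refine (hausdorff_cpt_image_le x ht _).trans ?_
  rw [Real.volume_Icc, ← ENNReal.ofReal_mul ht]

/-- Length of a circle. -/
theorem hausdorff_sphere_le (x : E2) {t : ℝ} (ht : 0 < t) :
    Measure.hausdorffMeasure 1 (Metric.sphere x t) ≤ ENNReal.ofReal (2 * π * t) := by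
  rw [← cpt_image_Ico ht 0]
  refine (hausdorff_cpt_image_le x ht.le _).trans ?_
  rw [Real.volume_Ico, ← ENNReal.ofReal_mul ht.le]
  apply ENNReal.ofReal_le_ofReal
  linarith

end

end Crest.Agent.R135
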