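import Mathlib
import Crest.Agent.R135.Janis

/-!
# R135: analytic Janiszewski in a disc, explicit competitor sets (helper804)
-/

set_option autoImplicit false

open MeasureTheory Set Filter Topology Metric
open scoped ENNReal NNReal ContDiff Gradient Manifold

namespace Crest.Agent.R135

/-! ### removal of a piece touching the boundary circle in at most one point (J-c) -/

lemma exists_const_near {x : E2} {R : ℝ} {A : Set E2} (hA : IsClosed A) {f : E2 → ℝ}
    (hf : LocConstOn (ball x R \ A) f) {q : E2} (hq : q ∉ A) :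
    ∃ ε > 0, ∃ k : ℝ, ∀ y ∈ ball q ε, y ∈ ball x R → f y = k := by
  obtain ⟨ε, hε, hb⟩ := Metric.isOpen_iff.1 hA.isOpen_compl q hq
  have hS : IsPreconnected (ball q ε ∩ ball x R) :=
    ((convex_ball q ε).inter (convex_ball x R)).isPreconnected
  have hSW : ball q ε ∩ ball x R ⊆ ball x R \ A := fun y hy => ⟨hy.2, hb hy.1⟩
  rcases (ball q ε ∩ ball x R).eq_empty_or_nonempty with h | ⟨y0, hy0⟩
  · refine ⟨ε, hε, 0, fun y h1 h2 => ?_⟩
    have : y ∈ ball q ε ∩ ball x R := ⟨h1, h2⟩
    rw [h] at this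
    exact this.elim
  · exact ⟨ε, hε, f y0, fun y h1 h2 => hf.eq_of_preconnected hS hSW ⟨h1, h2⟩ hy0⟩

/-- a function locally constant in `ball x R \ A`, with `A` closed meeting the boundary circle
in at most one point, has a single constant value near the circle off `A` -/
lemma exists_const_near_circle {x : E2} {R : ℝ} (hR : 0 < R) {A : Set E2} (hA : IsClosed A)
    (hone : (A ∩ sphere x R).Subsingleton) {f : E2 → ℝ} (hf : LocConstOn (ball x R \ A) f) :
    ∃ k : ℝ, ∀ q ∈ sphere x R, q ∉ A → ∀ᶠ y in 𝓝 q, y ∈ ball x R → f y = k := by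
  have hpi := Real.pi_pos
  obtain ⟨α, hα⟩ : ∃ α : ℝ, ∀ y ∈ A ∩ sphere x R, y = cpt x R α := by
    rcases (A ∩ sphere x R).eq_empty_or_nonempty with h | ⟨p, hp⟩
    · exact ⟨0, fun y hy => by rw [h] at hy; exact hy.elim⟩
    · obtain ⟨α, -, h⟩ := exists_cpt_eq hR hp.2 0
      exact ⟨α, fun y hy => by rw [h]; exact hone hy hp⟩
  have hinj := cpt_injOn (x := x) hR.ne' α
  set θ₀ : ℝ := α + Real.pi with hθ₀
  have hαI : α ∈ Ico α (α + 2 * Real.pi) := ⟨le_rfl, by linarith⟩
  have hθ₀I : θ₀ ∈ Ico α (α + 2 * Real.pi) := ⟨by linarith, by linarith⟩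
  have hS : ∀ θ, cpt x R θ ∈ sphere x R := fun θ => cpt_mem_sphere hR.le
  have hq0 : cpt x R θ₀ ∉ A := by
    intro h
    have := hinj hθ₀I hαI (hα _ ⟨h, hS _⟩)
    linarith
  obtain ⟨ε₀, hε₀, k, hk⟩ := exists_const_near hA hf hq0
  refine ⟨k, fun q hq hqA => ?_⟩
  obtain ⟨θ, hθ, rfl⟩ := exists_cpt_eq hR hq α
  obtain ⟨ε, hε, k', hk'⟩ := exists_const_near hA hf hqA
  -- the arc between the two angles misses `A`
  have harc : ∀ θ' ∈ uIcc θ₀ θ, cpt x R θ' ∉ A := by
    intro θ' hθ' h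
    have h1 : θ' ∈ Ico α (α + 2 * Real.pi) :=
      (ordConnected_Ico.uIcc_subset hθ₀I hθ) hθ'
    have h2 : θ' = α := hinj h1 hαI (hα _ ⟨h, hS _⟩)
    have h3 : θ = α := by
      rw [h2, mem_uIcc] at hθ'
      rcases hθ' with h4 | h4
      · linarith [h4.1]
      · exact le_antisymm h4.1 hθ.1
    exact hqA (by rw [h3, ← h2]; exact h)
  have hcc : Continuous (cpt x R) := by
    have := (continuous_cpt x).comp (Continuous.prodMk_right R)
    exact this
  have hCc : IsCompact (cpt x R '' uIcc θ₀ θ) := isCompact_uIcc.image hcc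
  have hCA : cpt x R '' uIcc θ₀ θ ⊆ Aᶜ := by
    rintro _ ⟨θ', h, rfl⟩
    exact harc θ' h
  obtain ⟨δ, hδ, hthick⟩ := hCc.exists_thickening_subset_open hA.isOpen_compl hCA
  -- the connected strip
  have hmin : 0 < min δ (min ε₀ ε) := lt_min hδ (lt_min hε₀ hε)
  set m : ℝ := max (R - min δ (min ε₀ ε)) 0 with hm
  have hmR : m < R := by
    rw [hm, max_lt_iff]
    exact ⟨by linarith, hR⟩
  set t : ℝ := (m + R) / 2 with ht
  have hmt : m < t := by rw [ht]; linarith
  have htR : t < R := by rw [ht]; linarith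
  have hm0 : 0 ≤ m := le_max_right _ _
  have ht0 : 0 < t := by linarith
  have hdist : ∀ s, m < s → s < R → ∀ θ', dist (cpt x s θ') (cpt x R θ') < min δ (min ε₀ ε) := by
    intro s h1 h2 θ'
    have h3 : cpt x s θ' - cpt x R θ' = (s - R) • dir θ' := by
      simp only [cpt, sub_smul]; abel
    rw [dist_eq_norm, h3, norm_smul, norm_dir, mul_one, Real.norm_eq_abs, abs_sub_comm,
      abs_of_pos (by linarith)]
    have : R - min δ (min ε₀ ε) ≤ m := le_max_left _ _
    linarith
  have hStrip : IsPreconnected ((fun p : ℝ × ℝ => cpt x p.1 p.2) '' (Ioo m R ×ˢ uIcc θ₀ θ)) :=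
    isPreconnected_cpt_image x isPreconnected_Ioo isPreconnected_uIcc
  have hStripW : ((fun p : ℝ × ℝ => cpt x p.1 p.2) '' (Ioo m R ×ˢ uIcc θ₀ θ)) ⊆ ball x R \ A := by
    rintro _ ⟨⟨s, θ'⟩, ⟨hs, hθ'⟩, rfl⟩
    have hs' : m < s ∧ s < R := hs
    refine ⟨(cpt_mem_ball (hm0.trans_lt hs'.1)).2 hs'.2, ?_⟩
    apply hthick
    rw [mem_thickening_iff]
    exact ⟨_, ⟨θ', hθ', rfl⟩, (hdist s hs'.1 hs'.2 θ').trans_le (min_le_left _ _)⟩
  have hkk : k' = k := by
    have e1 : f (cpt x t θ) = k' := hk' _ (by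
      rw [mem_ball]
      exact (hdist t hmt htR θ).trans_le ((min_le_right _ _).trans (min_le_right _ _)))
      ((cpt_mem_ball ht0).2 htR)
    have e2 : f (cpt x t θ₀) = k := hk _ (by
      rw [mem_ball]
      exact (hdist t hmt htR θ₀).trans_le ((min_le_right _ _).trans (min_le_left _ _)))
      ((cpt_mem_ball ht0).2 htR)
    rw [← e1, ← e2]
    exact hf.eq_of_preconnected hStrip hStripW
      ⟨(t, θ), ⟨⟨hmt, htR⟩, right_mem_uIcc⟩, rfl⟩ ⟨(t, θ₀), ⟨⟨hmt, htR⟩, left_mem_uIcc⟩, rfl⟩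
  filter_upwards [ball_mem_nhds _ hε] with y hy hyR
  rw [hk' y hy hyR, hkk]

/-- **Analytic Janiszewski in a disc.** If the crack in the closed disc is the union of two
disjoint closed pieces `A` and `B'` and `A` meets the boundary circle in at most one point, then
removing `A` from the open disc separates nothing outside. -/
theorem keeps_remove_inside {U K A B' : Set E2} {x : E2} {R : ℝ} (hR : 0 < R)
    (hBU : closedBall x R ⊆ U) (hA : IsClosed A) (hB' : IsClosed B') (hd : Disjoint A B')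
    (hK : K ∩ closedBall x R = A ∪ B') (hone : (A ∩ sphere x R).Subsingleton) :
    Keeps U K (K \ (A ∩ ball x R)) (closedBall x R) := by
  intro c hc
  obtain ⟨η, hη0, hη1, -⟩ := exists_contMDiffMap_zero_one_nhds_of_isClosed (n := (⊤ : ℕ∞))
    𝓘(ℝ, E2) hB' hA hd.symm
  have hηs : ContDiff ℝ ∞ (η : E2 → ℝ) := η.contMDiff.contDiff
  have hη1' : ∀ y ∈ A, ∀ᶠ z in 𝓝 y, η z = 1 := fun y hy =>
    (eventually_nhdsSet_iff_forall.1 hη1) y hy
  have hη0' : ∀ y ∈ B', ∀ᶠ z in 𝓝 y, η z = 0 := fun y hy =>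
    (eventually_nhdsSet_iff_forall.1 hη0) y hy
  have hAK : A ⊆ K := (subset_union_left.trans hK.symm.subset).trans inter_subset_left
  have hBK : B' ⊆ K := (subset_union_right.trans hK.symm.subset).trans inter_subset_left
  have hcK : ∀ y ∈ closedBall x R, y ∉ A → y ∉ B' → ∀ᶠ z in 𝓝 y, c z = c y := by
    intro y hy h1 h2
    refine hc y ⟨hBU hy, fun h => ?_⟩
    have : y ∈ A ∪ B' := hK.subset ⟨h, hy⟩
    exact this.elim h1 h2
  have hex : ∀ y ∈ ball x R, (∀ᶠ z in 𝓝 y, η z = η y) ∨ (∀ᶠ z in 𝓝 y, c z = c y) := by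
    intro y hy
    by_cases h1 : y ∈ A
    · left
      filter_upwards [hη1' y h1] with z hz
      rw [hz, (hη1' y h1).self_of_nhds]
    by_cases h2 : y ∈ B'
    · left
      filter_upwards [hη0' y h2] with z hz
      rw [hz, (hη0' y h2).self_of_nhds]
    · right; exact hcK y (ball_subset_closedBall hy) h1 h2
  obtain ⟨g, -, hg1, hg2⟩ := split_aux isOpen_ball (convex_ball x R) hηs hex
  have hc1 : LocConstOn (ball x R \ A) (fun y => η y * c y - g y) := by
    refine hg1 _ sdiff_subset (isOpen_ball.sdiff hA) fun y hy => ?_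
    by_cases h2 : y ∈ B'
    · left; exact hη0' y h2
    · right; exact hcK y (ball_subset_closedBall hy.1) hy.2 h2
  have hc2 : LocConstOn (ball x R \ B') (fun y => (1 - η y) * c y + g y) := by
    refine hg2 _ sdiff_subset (isOpen_ball.sdiff hB') fun y hy => ?_
    by_cases h2 : y ∈ A
    · left; exact hη1' y h2
    · right; exact hcK y (ball_subset_closedBall hy.1) h2 hy.2
  obtain ⟨k, hk⟩ := exists_const_near_circle hR hA hone hc1
  classical
  refine ⟨fun y => if y ∈ ball x R then (1 - η y) * c y + g y + k else c y, ?_, ?_⟩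
  · rintro y ⟨hyU, hyL⟩
    rcases lt_trichotomy (dist y x) R with h | h | h
    · -- inside
      have hyb : y ∈ ball x R := h
      have hyB : y ∉ B' := fun h' => hyL ⟨hBK h', fun h'' => disjoint_left.1 hd h''.1 h'⟩
      filter_upwards [hc2 y ⟨hyb, hyB⟩, isOpen_ball.mem_nhds hyb] with z h1 h2
      rw [if_pos h2, if_pos hyb, h1]
    · -- on the circle
      have hyK : y ∉ K := fun h' => hyL ⟨h', fun h'' => by
        have := mem_ball.1 h''.2
        linarith⟩
      have hyb : y ∉ ball x R := fun h' => by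
        have := mem_ball.1 h'
        linarith
      filter_upwards [hc y ⟨hyU, hyK⟩, hk y h (fun h' => hyK (hAK h'))] with z h1 h2
      rw [if_neg hyb]
      split_ifs with h3
      · have h4 := h2 h3
        have h5 : (1 - η z) * c z + g z + k = c z := by rw [← h4]; ring
        rw [h5, h1]
      · exact h1
    · -- outside
      have hyb : y ∉ ball x R := fun h' => by
        have := mem_ball.1 h'
        linarith
      have hyK : y ∉ K := fun h' => hyL ⟨h', fun h'' => hyb h''.2⟩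
      have ho : {z : E2 | R < dist z x} ∈ 𝓝 y :=
        (isOpen_lt continuous_const (continuous_id.dist continuous_const)).mem_nhds h
      filter_upwards [hc y ⟨hyU, hyK⟩, ho] with z h1 h2
      have h3 : z ∉ ball x R := fun h' => by
        have := mem_ball.1 h'
        have h4 : R < dist z x := h2
        linarith
      rw [if_neg hyb, if_neg h3, h1]
  · intro y hy
    exact if_neg fun h => hy.2 (Or.inr (ball_subset_closedBall h))

/-! ### explicit competitors -/

/-- General criterion: `idx` indexes the regions of `closedBall x R \ L`, it is locally constant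
(relative to the closed ball), and boundary points off `K` with the same index always carry the
same value of the locally constant function. -/
theorem keeps_of_index {U K L : Set E2} {x : E2} {R : ℝ} {J : Type*} (idx : E2 → J)
    (hout : K \ closedBall x R ⊆ L) (hsph : K ∩ sphere x R ⊆ L)
    (hidx : ∀ y ∈ closedBall x R, y ∉ L → ∀ᶠ z in 𝓝[closedBall x R] y, idx z = idx y)
    (hconst : ∀ c : E2 → ℝ, LocConstOn (U \ K) c → ∀ y ∈ sphere x R \ K, ∀ z ∈ sphere x R \ K,
      idx y = idx z → c y = c z) :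
    Keeps U K L (closedBall x R) := by
  classical
  intro c hc
  set F : J → ℝ := fun j => if h : ∃ q ∈ sphere x R \ K, idx q = j then c h.choose else 0 with hF
  have hFval : ∀ y ∈ sphere x R \ K, F (idx y) = c y := by
    intro y hy
    have h : ∃ q ∈ sphere x R \ K, idx q = idx y := ⟨y, hy, rfl⟩
    rw [hF]
    simp only [dif_pos h]
    exact hconst c hc _ h.choose_spec.1 _ hy h.choose_spec.2
  refine ⟨fun y => if y ∈ closedBall x R then F (idx y) else c y, ?_, ?_⟩
  · rintro y ⟨hyU, hyL⟩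
    by_cases hyb : y ∈ closedBall x R
    · have h1 : ∀ᶠ z in 𝓝 y, z ∈ closedBall x R → idx z = idx y :=
        eventually_nhdsWithin_iff.1 (hidx y hyb hyL)
      rcases (mem_closedBall.1 hyb).lt_or_eq with h | h
      · filter_upwards [h1, isOpen_ball.mem_nhds (mem_ball.2 h)] with z h2 h3
        have h4 := ball_subset_closedBall h3
        rw [if_pos h4, if_pos hyb, h2 h4]
      · have hyK : y ∉ K := fun h' => hyL (hsph ⟨h', h⟩)
        have h5 := hFval y ⟨h, hyK⟩
        filter_upwards [h1, hc y ⟨hyU, hyK⟩] with z h2 h3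
        rw [if_pos hyb]
        split_ifs with h4
        · rw [h2 h4]
        · rw [h3, h5]
    · have hyK : y ∉ K := fun h' => hyL (hout ⟨h', hyb⟩)
      filter_upwards [hc y ⟨hyU, hyK⟩, isClosed_closedBall.isOpen_compl.mem_nhds hyb] with z h2 h3
      rw [if_neg hyb, if_neg h3, h2]
  · intro y hy
    exact if_neg fun h => hy.2 (Or.inr h)

/-- Retraction criterion. -/
theorem keeps_of_retraction {U K L : Set E2} {x : E2} {R : ℝ}
    (hout : K \ closedBall x R ⊆ L) (hsph : K ∩ sphere x R ⊆ L) {ρ : E2 → E2}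
    (hρ : ∀ y ∈ closedBall x R, y ∉ L → ContinuousWithinAt ρ (closedBall x R) y)
    (hm : ∀ y ∈ closedBall x R, y ∉ L → ρ y ∈ U \ K)
    (hs : ∀ y ∈ sphere x R, y ∉ L → ρ y = y) :
    Keeps U K L (closedBall x R) := by
  classical
  intro c hc
  refine ⟨fun y => if y ∈ closedBall x R then c (ρ y) else c y, ?_, ?_⟩
  · rintro y ⟨hyU, hyL⟩
    by_cases hyb : y ∈ closedBall x R
    · have h1 : ∀ᶠ z in 𝓝 y, z ∈ closedBall x R → c (ρ z) = c (ρ y) :=
        eventually_nhdsWithin_iff.1
          ((hρ y hyb hyL).eventually (hc _ (hm y hyb hyL)))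
      rcases (mem_closedBall.1 hyb).lt_or_eq with h | h
      · filter_upwards [h1, isOpen_ball.mem_nhds (mem_ball.2 h)] with z h2 h3
        have h4 := ball_subset_closedBall h3
        rw [if_pos h4, if_pos hyb, h2 h4]
      · have hyK : y ∉ K := fun h' => hyL (hsph ⟨h', h⟩)
        have h5 := hs y h hyL
        filter_upwards [h1, hc y ⟨hyU, hyK⟩] with z h2 h3
        rw [if_pos hyb]
        split_ifs with h4
        · rw [h2 h4]
        · rw [h3, h5]
    · have hyK : y ∉ K := fun h' => hyL (hout ⟨h', hyb⟩)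
      filter_upwards [hc y ⟨hyU, hyK⟩, isClosed_closedBall.isOpen_compl.mem_nhds hyb] with z h2 h3
      rw [if_neg hyb, if_neg h3, h2]
  · intro y hy
    exact if_neg fun h => hy.2 (Or.inr h)

/-- If every locally constant function is constant on the circle off the crack, everything inside
may be erased. -/
theorem keeps_of_const_sphere {U K : Set E2} {x : E2} {R : ℝ}
    (h : ∀ c : E2 → ℝ, LocConstOn (U \ K) c → ∃ k : ℝ, ∀ y ∈ sphere x R \ K, c y = k) :
    Keeps U K (K \ ball x R) (closedBall x R) := by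
  refine keeps_of_index (J := Unit) (fun _ => ()) ?_ ?_ (fun _ _ _ => Eventually.of_forall
    fun _ => rfl) ?_
  · exact fun y hy => ⟨hy.1, fun h' => hy.2 (ball_subset_closedBall h')⟩
  · exact fun y hy => ⟨hy.1, fun h' => by
      have h1 := mem_ball.1 h'
      have h2 := mem_sphere.1 hy.2
      linarith⟩
  · intro c hc y hy z hz _
    obtain ⟨k, hk⟩ := h c hc
    rw [hk y hy, hk z hz]

/-- the parameter at which the ray from `z` through `y` hits the circle -/
noncomputable def hitS (x z : E2) (R : ℝ) (y : E2) : ℝ :=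
  (-(inner ℝ (y - z) (z - x)) +
    Real.sqrt ((inner ℝ (y - z) (z - x)) ^ 2 + ‖y - z‖ ^ 2 * (R ^ 2 - ‖z - x‖ ^ 2))) / ‖y - z‖ ^ 2

/-- the point at which the ray from `z` through `y` hits the circle -/
noncomputable def hitP (x z : E2) (R : ℝ) (y : E2) : E2 := z + hitS x z R y • (y - z)

lemma hitP_mem_sphere {x z : E2} {R : ℝ} (hz : z ∈ ball x R) {y : E2} (hy : y ≠ z) :
    hitP x z R y ∈ sphere x R := by
  have hR : 0 < R := (dist_nonneg).trans_lt (mem_ball.1 hz)
  have hzn : ‖z - x‖ < R := by rwa [← dist_eq_norm]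
  have ha : 0 < ‖y - z‖ ^ 2 := by
    have : 0 < ‖y - z‖ := norm_pos_iff.2 (sub_ne_zero.2 hy)
    positivity
  have hc : 0 < R ^ 2 - ‖z - x‖ ^ 2 := by nlinarith [norm_nonneg (z - x)]
  set a := ‖y - z‖ ^ 2 with hadef
  set b := inner ℝ (y - z) (z - x) with hb
  set c := R ^ 2 - ‖z - x‖ ^ 2 with hcdef
  have hD : 0 ≤ b ^ 2 + a * c := by positivity
  have hs : hitS x z R y * a = -b + Real.sqrt (b ^ 2 + a * c) := by
    rw [hitS, ← hadef, ← hb, ← hcdef, div_mul_cancel₀ _ ha.ne']
  set s := hitS x z R y with hsdef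
  have key : a * s ^ 2 + 2 * b * s = c := by
    have h1 : (s * a + b) ^ 2 = b ^ 2 + a * c := by
      have h0 : s * a + b = Real.sqrt (b ^ 2 + a * c) := by rw [hs]; ring
      rw [h0, Real.sq_sqrt hD]
    have h2 : a * (a * s ^ 2 + 2 * b * s) = a * c := by nlinarith
    exact mul_left_cancel₀ ha.ne' h2
  have h3 : hitP x z R y - x = (z - x) + s • (y - z) := by
    rw [hitP, ← hsdef]; abel
  have h4 : ‖hitP x z R y - x‖ ^ 2 = R ^ 2 := by
    rw [h3, norm_add_sq_real, norm_smul, inner_smul_right, mul_pow, Real.norm_eq_abs, sq_abs,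
      real_inner_comm, ← hadef, ← hb]
    nlinarith
  rw [mem_sphere, dist_eq_norm]
  exact (sq_eq_sq₀ (norm_nonneg _) hR.le).1 h4

lemma one_le_hitS {x z : E2} {R : ℝ} (hz : z ∈ ball x R) {y : E2} (hy : y ≠ z)
    (hyR : y ∈ closedBall x R) : 1 ≤ hitS x z R y := by
  have hzn : ‖z - x‖ < R := by rwa [← dist_eq_norm]
  have hyn : ‖y - x‖ ≤ R := by rw [← dist_eq_norm]; exact hyR
  have ha : 0 < ‖y - z‖ ^ 2 := by
    have : 0 < ‖y - z‖ := norm_pos_iff.2 (sub_ne_zero.2 hy)
    positivity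
  have h0 : ‖y - x‖ ^ 2 = ‖y - z‖ ^ 2 + 2 * inner ℝ (y - z) (z - x) + ‖z - x‖ ^ 2 := by
    rw [← norm_add_sq_real]; congr 2; abel
  rw [hitS, le_div_iff₀ ha, one_mul]
  set a := ‖y - z‖ ^ 2 with hadef
  set b := inner ℝ (y - z) (z - x) with hb
  have h1 : a + b ≤ Real.sqrt (b ^ 2 + a * (R ^ 2 - ‖z - x‖ ^ 2)) := by
    apply Real.le_sqrt_of_sq_le
    have h2 : a + 2 * b ≤ R ^ 2 - ‖z - x‖ ^ 2 := by
      nlinarith [norm_nonneg (y - x), norm_nonneg (z - x)]
    nlinarith
  linarith

lemma hitP_eq_self {x z : E2} {R : ℝ} (hz : z ∈ ball x R) {y : E2} (hyR : y ∈ sphere x R) :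
    hitP x z R y = y := by
  have hy : y ≠ z := by
    rintro rfl
    have h1 := mem_ball.1 hz
    have h2 := mem_sphere.1 hyR
    linarith
  have hzn : ‖z - x‖ < R := by rwa [← dist_eq_norm]
  have hyn : ‖y - x‖ = R := by rw [← dist_eq_norm]; exact hyR
  have ha : 0 < ‖y - z‖ ^ 2 := by
    have : 0 < ‖y - z‖ := norm_pos_iff.2 (sub_ne_zero.2 hy)
    positivity
  have h0 : ‖y - x‖ ^ 2 = ‖y - z‖ ^ 2 + 2 * inner ℝ (y - z) (z - x) + ‖z - x‖ ^ 2 := by
    rw [← norm_add_sq_real]; congr 2; abel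
  have hs : hitS x z R y = 1 := by
    rw [hitS, div_eq_one_iff_eq ha.ne']
    set a := ‖y - z‖ ^ 2 with hadef
    set b := inner ℝ (y - z) (z - x) with hb
    have hc : 0 < R ^ 2 - ‖z - x‖ ^ 2 := by nlinarith [norm_nonneg (z - x)]
    have h2 : a + 2 * b = R ^ 2 - ‖z - x‖ ^ 2 := by rw [hyn] at h0; linarith
    have h3 : b ^ 2 + a * (R ^ 2 - ‖z - x‖ ^ 2) = (a + b) ^ 2 := by rw [← h2]; ring
    rw [h3, Real.sqrt_sq (by linarith)]
    ring
  rw [hitP, hs, one_smul]; abel

lemma mem_segment_hitP {x z : E2} {R : ℝ} (hz : z ∈ ball x R) {y : E2} (hy : y ≠ z)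
    (hyR : y ∈ closedBall x R) : y ∈ segment ℝ z (hitP x z R y) := by
  have h1 := one_le_hitS hz hy hyR
  have h0 : 0 < hitS x z R y := by linarith
  rw [segment_eq_image']
  refine ⟨(hitS x z R y)⁻¹, ⟨by positivity, inv_le_one_of_one_le₀ h1⟩, ?_⟩
  simp only [hitP]
  rw [add_sub_cancel_left, smul_smul, inv_mul_cancel₀ h0.ne', one_smul]
  abel

lemma continuousAt_hitP {x z : E2} {R : ℝ} {y : E2} (hy : y ≠ z) :
    ContinuousAt (hitP x z R) y := by
  have ha : ‖y - z‖ ^ 2 ≠ 0 := by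
    have : 0 < ‖y - z‖ := norm_pos_iff.2 (sub_ne_zero.2 hy)
    positivity
  have h1 : Continuous fun y : E2 => -(inner ℝ (y - z) (z - x)) +
      Real.sqrt ((inner ℝ (y - z) (z - x)) ^ 2 + ‖y - z‖ ^ 2 * (R ^ 2 - ‖z - x‖ ^ 2)) := by
    fun_prop
  have h2 : Continuous fun y : E2 => ‖y - z‖ ^ 2 := by fun_prop
  have h3 : ContinuousAt (hitS x z R) y := h1.continuousAt.div h2.continuousAt ha
  have h4 : ContinuousAt (fun y : E2 => y - z) y := by fun_prop
  exact continuousAt_const.add (h3.smul h4)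

/-- the spider with centre `z` over the crack points of the circle keeps the separation -/
theorem keeps_spider {U K L : Set E2} {x z : E2} {R : ℝ} (hBU : closedBall x R ⊆ U)
    (hz : z ∈ ball x R) (hL : K \ ball x R ⊆ L) (hzL : z ∈ L)
    (hseg : ∀ p ∈ K ∩ sphere x R, segment ℝ z p ⊆ L) :
    Keeps U K L (closedBall x R) := by
  refine keeps_of_retraction (ρ := hitP x z R) ?_ ?_ ?_ ?_ ?_
  · exact fun y hy => hL ⟨hy.1, fun h => hy.2 (ball_subset_closedBall h)⟩
  · exact fun y hy => hL ⟨hy.1, fun h => by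
      have h1 := mem_ball.1 h
      have h2 := mem_sphere.1 hy.2
      linarith⟩
  · intro y _ hyL
    have hyz : y ≠ z := fun h => hyL (h ▸ hzL)
    exact (continuousAt_hitP hyz).continuousWithinAt
  · intro y hy hyL
    have hyz : y ≠ z := fun h => hyL (h ▸ hzL)
    have h1 := hitP_mem_sphere hz hyz
    refine ⟨hBU (sphere_subset_closedBall h1), fun h => hyL ?_⟩
    exact hseg _ ⟨h, h1⟩ (mem_segment_hitP hz hyz hy)
  · intro y hy _
    exact hitP_eq_self hz hy

/-- replacing the crack in a disc met by the crack in (at most) two points of the circle by the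
chord -/
theorem keeps_chord {U K L : Set E2} {x p q : E2} {R : ℝ} (hBU : closedBall x R ⊆ U)
    (hpq : p ≠ q) (hp : p ∈ sphere x R) (hq : q ∈ sphere x R) (hL : K \ ball x R ⊆ L)
    (hK : K ∩ sphere x R ⊆ {p, q}) (hseg : segment ℝ p q ⊆ L) :
    Keeps U K L (closedBall x R) := by
  set z : E2 := (1 / 2 : ℝ) • p + (1 / 2 : ℝ) • q with hz
  have hzb : z ∈ ball x R := by
    have hR : 0 ≤ R := by rw [← mem_sphere.1 hp]; exact dist_nonneg
    have h1 : ‖p - x‖ = R := by rw [← dist_eq_norm]; exact hp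
    have h2 : ‖q - x‖ = R := by rw [← dist_eq_norm]; exact hq
    have h3 : ‖(p - x) + (q - x)‖ ^ 2 + ‖(p - x) - (q - x)‖ ^ 2
        = 2 * (‖p - x‖ ^ 2 + ‖q - x‖ ^ 2) := by
      have := parallelogram_law_with_norm ℝ (p - x) (q - x)
      nlinarith
    have h4 : z - x = (1 / 2 : ℝ) • ((p - x) + (q - x)) := by
      rw [hz]; module
    have h5 : 0 < ‖(p - x) - (q - x)‖ := by
      rw [norm_pos_iff, sub_sub_sub_cancel_right, sub_ne_zero]; exact hpq
    rw [mem_ball, dist_eq_norm, h4, norm_smul]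
    have h6 : ‖(p - x) + (q - x)‖ < 2 * R := by
      rw [h1, h2] at h3
      have h7 : ‖(p - x) + (q - x)‖ ^ 2 < (2 * R) ^ 2 := by nlinarith
      exact lt_of_pow_lt_pow_left₀ 2 (by linarith) h7
    norm_num
    linarith
  have hzs : z ∈ segment ℝ p q := ⟨1 / 2, 1 / 2, by norm_num, by norm_num, by norm_num, rfl⟩
  refine keeps_spider hBU hzb hL (hseg hzs) fun y hy => ?_
  have hy' := hK hy
  have hy2 : y = p ∨ y = q := by simpa using hy'
  refine Subset.trans ?_ hseg
  rcases hy2 with rfl | rfl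
  · exact (convex_segment _ _).segment_subset hzs (left_mem_segment ℝ _ _)
  · exact (convex_segment _ _).segment_subset hzs (right_mem_segment ℝ _ _)

end Crest.Agent.R135
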