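import Mathlib
import Crest.Agent.R135.PolarD
import Crest.Agent.R135.GMT1

/-!
# Good radii

A set of finite length is Lebesgue null; almost every circle meets it in finitely many points;
the radii for which the circle meets it at least `m` times have measure at most `H¹/m`;
square integrability of a vector field on almost every circle.
-/

set_option autoImplicit false

open MeasureTheory Set Real Topology Filter
open scoped ENNReal

namespace Crest.Agent.R135

noncomputable section

/-- A planar set of finite length has zero area. -/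
theorem volume_eq_zero_of_hausdorff_lt_top {K : Set E2}
    (hK : Measure.hausdorffMeasure 1 K < ⊤) : volume K = 0 := by
  have h2 : Measure.hausdorffMeasure 2 K = 0 := by
    rcases Measure.hausdorffMeasure_zero_or_top (X := E2) (d₁ := 1) (d₂ := 2) (by norm_num) K with h | h
    · exact h
    · exact absurd h hK.ne
  have hlip : LipschitzWith 1 (eqv.symm : E2 → ℝ × ℝ) := by
    apply LipschitzWith.of_dist_le_mul
    intro a b
    have key : ∀ i : Fin 2, dist (a i) (b i) ≤ dist a b := by
      intro i
      rw [EuclideanSpace.dist_eq]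
      refine Real.le_sqrt_of_sq_le ?_
      exact Finset.single_le_sum (f := fun i => dist (a i) (b i) ^ 2)
        (fun j _ => sq_nonneg _) (Finset.mem_univ i)
    have e : ∀ c : E2, (eqv.symm c : ℝ × ℝ) = (c 0, c 1) := by
      intro c
      apply eqv.injective
      rw [MeasurableEquiv.apply_symm_apply, eqv_apply]
      apply ext_E2 <;> simp
    rw [e a, e b, Prod.dist_eq]
    simp only [NNReal.coe_one, one_mul]
    exact max_le (key 0) (key 1)
  have h3 := hlip.hausdorffMeasure_image_le (d := 2) (by norm_num) K
  rw [h2] at h3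
  have h4 : volume ((eqv.symm : E2 → ℝ × ℝ) '' K) = 0 := by
    rw [← hausdorffMeasure_prod_real]
    simpa using h3
  have h5 : (eqv.symm : E2 → ℝ × ℝ) '' K = eqv ⁻¹' K := by
    exact (eqv.symm.toEquiv.image_eq_preimage_symm K)
  rw [h5, eqv_mp.measure_preimage_equiv] at h4
  exact h4

section Majorant

variable {X : Type*} [MetricSpace X] [MeasurableSpace X] [BorelSpace X]
  [TopologicalSpace.SeparableSpace X]

/-- A measurable majorant of the number of points of `K` in the fibres. -/
theorem exists_fiber_majorant (f : X → ℝ) (K : Set X) (hf : LipschitzOnWith 1 f K) :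
    ∃ h : ℝ → ℝ≥0∞, Measurable h ∧ (∀ t, ((K ∩ f ⁻¹' {t}).encard : ℝ≥0∞) ≤ h t) ∧
      ∫⁻ t, h t ≤ Measure.hausdorffMeasure 1 K := by
  classical
  have hpos : ∀ n : ℕ, (0 : ℝ) < 1 / ((n : ℝ) + 1) := fun n => by positivity
  choose E hEm hEd hEu hEs using fun n : ℕ => exists_small_partition (X := X) (1 / ((n : ℝ) + 1)) (hpos n)
  -- the measurable upper functions
  let F : ℕ → ℝ → ℝ≥0∞ := fun n t =>
    ∑' j, (toMeasurable volume (f '' (K ∩ E n j))).indicator (fun _ => (1 : ℝ≥0∞)) t
  have hFm : ∀ n, Measurable (F n) := fun n =>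
    Measurable.tsum fun j => measurable_const.indicator (measurableSet_toMeasurable _ _)
  have hFint : ∀ n, ∫⁻ t, F n t ≤ Measure.hausdorffMeasure 1 K := by
    intro n
    have h1 : ∫⁻ t, F n t = ∑' j, volume (f '' (K ∩ E n j)) := by
      simp only [F]
      rw [lintegral_tsum (fun j => (measurable_const.indicator (measurableSet_toMeasurable _ _)).aemeasurable)]
      congr 1
      ext j
      rw [lintegral_indicator (measurableSet_toMeasurable _ _)]
      simp
    rw [h1]
    have h2 : ∀ j, volume (f '' (K ∩ E n j)) ≤ Measure.hausdorffMeasure 1 (K ∩ E n j) := by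
      intro j
      have := (hf.mono (inter_subset_left (s := K) (t := E n j))).hausdorffMeasure_image_le
        (d := 1) zero_le_one
      simpa [hausdorffMeasure_real] using this
    calc ∑' j, volume (f '' (K ∩ E n j)) ≤ ∑' j, Measure.hausdorffMeasure 1 (K ∩ E n j) :=
          ENNReal.tsum_le_tsum h2
      _ = Measure.hausdorffMeasure 1 K := by
          have h3 : ∀ j, Measure.hausdorffMeasure 1 (K ∩ E n j)
              = (Measure.hausdorffMeasure 1).restrict K (E n j) := by
            intro j
            rw [Measure.restrict_apply (hEm n j), inter_comm]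
          simp_rw [h3]
          rw [← measure_iUnion (hEd n) (hEm n), hEu n, Measure.restrict_apply_univ]
  -- pointwise bound
  have hpt : ∀ t, ((K ∩ f ⁻¹' {t}).encard : ℝ≥0∞) ≤ liminf (fun n => F n t) atTop := by
    intro t
    -- any finite subset
    have key : ∀ s : Finset X, (s : Set X) ⊆ K ∩ f ⁻¹' {t} →
        ((s.card : ℕ) : ℝ≥0∞) ≤ liminf (fun n => F n t) atTop := by
      intro s hs
      -- separation
      obtain ⟨δ, hδ, hsep⟩ : ∃ δ > 0, ∀ x ∈ s, ∀ y ∈ s, x ≠ y → δ ≤ dist x y := by
        let P := (s ×ˢ s).filter (fun p => p.1 ≠ p.2)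
        rcases P.eq_empty_or_nonempty with hP | hP
        · refine ⟨1, one_pos, ?_⟩
          intro x hx y hy hxy
          exfalso
          have : (x, y) ∈ P := by simp [P, hx, hy, hxy]
          rw [hP] at this
          simp at this
        · obtain ⟨p, hp, hmin⟩ := P.exists_min_image (fun p => dist p.1 p.2) hP
          refine ⟨dist p.1 p.2, ?_, ?_⟩
          · have : p.1 ≠ p.2 := by simpa [P] using (Finset.mem_filter.1 hp).2
            exact dist_pos.2 this
          · intro x hx y hy hxy
            exact hmin (x, y) (by simp [P, hx, hy, hxy])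
      obtain ⟨N, hN⟩ := exists_nat_one_div_lt hδ
      refine le_liminf_of_le (by isBoundedDefault) ?_
      filter_upwards [eventually_ge_atTop N] with n hn
      -- each point lies in a cell
      have hcell : ∀ x : X, ∃ j, x ∈ E n j := by
        intro x
        have : x ∈ ⋃ j, E n j := by rw [hEu n]; trivial
        simpa using this
      choose c hc using hcell
      have hinj : Set.InjOn c (s : Set X) := by
        intro x hx y hy hxy
        by_contra hne
        have h1 := hEs n (c x) x (hc x) y (by rw [hxy]; exact hc y)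
        have h2 := hsep x hx y hy hne
        have h3 : (1 : ℝ) / (n + 1) ≤ 1 / (N + 1) := by
          apply one_div_le_one_div_of_le (by positivity)
          have : (N : ℝ) ≤ n := by exact_mod_cast hn
          linarith
        linarith
      calc ((s.card : ℕ) : ℝ≥0∞) = ∑ j ∈ s.image c, (1 : ℝ≥0∞) := by
            rw [Finset.sum_const, Finset.card_image_of_injOn hinj]; simp
        _ ≤ ∑ j ∈ s.image c,
              (toMeasurable volume (f '' (K ∩ E n j))).indicator (fun _ => (1 : ℝ≥0∞)) t := by
            apply Finset.sum_le_sum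
            intro j hj
            obtain ⟨x, hx, rfl⟩ := Finset.mem_image.1 hj
            have hxK := hs hx
            have : t ∈ toMeasurable volume (f '' (K ∩ E n (c x))) := by
              apply subset_toMeasurable
              exact ⟨x, ⟨hxK.1, hc x⟩, hxK.2⟩
            rw [indicator_of_mem this]
        _ ≤ F n t := ENNReal.sum_le_tsum _
    by_cases hfin : (K ∩ f ⁻¹' {t}).Finite
    · have := key hfin.toFinset (by simp)
      rw [hfin.encard_eq_coe_toFinset_card]
      simpa using this
    · have hinf : (K ∩ f ⁻¹' {t}).Infinite := hfin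
      rw [hinf.encard_eq]
      simp only [ENat.toENNReal_top, top_le_iff]
      apply ENNReal.eq_top_of_forall_nnreal_le
      intro r
      obtain ⟨n, hn⟩ := exists_nat_ge r
      obtain ⟨s, hs, hcard⟩ := hinf.exists_subset_card_eq n
      have := key s hs
      rw [hcard] at this
      refine le_trans ?_ this
      exact_mod_cast hn
  refine ⟨fun t => liminf (fun n => F n t) atTop, Measurable.liminf hFm, hpt, ?_⟩
  calc ∫⁻ t, liminf (fun n => F n t) atTop
      ≤ liminf (fun n => ∫⁻ t, F n t) atTop := lintegral_liminf_le hFm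
    _ ≤ Measure.hausdorffMeasure 1 K := by
        apply liminf_le_of_le (by isBoundedDefault)
        intro b hb
        obtain ⟨n, hn⟩ := hb.exists
        exact hn.trans (hFint n)

end Majorant

lemma lipschitzWith_dist_left (x : E2) : LipschitzWith 1 (fun y : E2 => dist y x) :=
  LipschitzWith.dist_left x

/-- Radii for which the circle meets `K` at least `m` times (outer measure). -/
theorem mul_volume_radii_le (K : Set E2) (x : E2) (T : Set ℝ) (m : ℕ)
    (hm : ∀ t ∈ T, (m : ℕ∞) ≤ (K ∩ Metric.sphere x t).encard) :
    (m : ℝ≥0∞) * volume T ≤ Measure.hausdorffMeasure 1 K := by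
  obtain ⟨h, hmeas, hle, hint⟩ := exists_fiber_majorant (fun y : E2 => dist y x) K
    ((lipschitzWith_dist_left x).lipschitzOnWith)
  have hsub : T ⊆ {t | (m : ℝ≥0∞) ≤ h t} := by
    intro t ht
    have h1 := hm t ht
    have h2 : ((m : ℕ∞) : ℝ≥0∞) ≤ ((K ∩ Metric.sphere x t).encard : ℝ≥0∞) := ENat.toENNReal_le.2 h1
    have h3 : K ∩ (fun y : E2 => dist y x) ⁻¹' {t} = K ∩ Metric.sphere x t := rfl
    have h4 := hle t
    rw [h3] at h4
    simpa using h2.trans h4
  calc (m : ℝ≥0∞) * volume T ≤ m * volume {t | (m : ℝ≥0∞) ≤ h t} := by gcongr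
    _ ≤ ∫⁻ t, h t := mul_meas_ge_le_lintegral hmeas _
    _ ≤ _ := hint

/-- Almost every circle meets a set of finite length in finitely many points. -/
theorem ae_finite_sphere {K : Set E2} (hK : Measure.hausdorffMeasure 1 K < ⊤) (x : E2) :
    ∀ᵐ t : ℝ, (K ∩ Metric.sphere x t).Finite := by
  obtain ⟨h, hmeas, hle, hint⟩ := exists_fiber_majorant (fun y : E2 => dist y x) K
    ((lipschitzWith_dist_left x).lipschitzOnWith)
  filter_upwards [ae_lt_top hmeas (hint.trans_lt hK).ne] with t ht
  have h3 : K ∩ (fun y : E2 => dist y x) ⁻¹' {t} = K ∩ Metric.sphere x t := rfl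
  have h4 := hle t
  rw [h3] at h4
  have h5 := h4.trans_lt ht
  rw [← Set.encard_lt_top_iff]
  by_contra hcon
  rw [not_lt, top_le_iff] at hcon
  rw [hcon] at h5
  simp at h5

/-- Local version: it is enough that `K` has finite length inside the ball. -/
theorem ae_finite_sphere_ball {K : Set E2} {x : E2} {R : ℝ}
    (hK : Measure.hausdorffMeasure 1 (K ∩ Metric.ball x R) < ⊤) :
    ∀ᵐ t : ℝ, t < R → (K ∩ Metric.sphere x t).Finite := by
  filter_upwards [ae_finite_sphere hK x] with t ht htR
  refine ht.subset ?_
  rintro y ⟨hy, hy'⟩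
  refine ⟨⟨hy, ?_⟩, hy'⟩
  rw [Metric.mem_ball, Metric.mem_sphere.1 hy']
  exact htR

/-- The set of radii in `T` whose circle meets `K` has measure at most the length of `K`. -/
theorem volume_radii_meet_le (K : Set E2) (x : E2) (r : ℝ) :
    volume {t ∈ Iio r | (K ∩ Metric.sphere x t).Nonempty}
      ≤ Measure.hausdorffMeasure 1 (K ∩ Metric.ball x r) := by
  have := mul_volume_radii_le (K ∩ Metric.ball x r) x
    {t ∈ Iio r | (K ∩ Metric.sphere x t).Nonempty} 1 ?_
  · simpa using this
  · rintro t ⟨ht, y, hy, hy'⟩
    rw [Nat.cast_one, Set.one_le_encard_iff_nonempty]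
    refine ⟨y, ⟨hy, ?_⟩, hy'⟩
    rw [Metric.mem_ball, Metric.mem_sphere.1 hy']
    exact ht

end

end Crest.Agent.R135
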