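import Mathlib
import Crest.Agent.R135.PolarE

/-!
# Good circles

`GoodCirc K G x t`: the circle `∂B_t(x)` meets `K` in finitely many points and the field `G` is
square integrable on it.  Almost every circle is good.  On a good circle a function with continuous
gradient `G` off `K` is an absolutely continuous function on each arc.
-/

set_option autoImplicit false

open MeasureTheory Set Real Topology Filter
open scoped ENNReal

namespace Crest.Agent.R135

noncomputable section

/-- Good circle. -/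
structure GoodCirc (K : Set E2) (G : E2 → E2) (x : E2) (t : ℝ) : Prop where
  pos : 0 < t
  fin : (K ∩ Metric.sphere x t).Finite
  meas : AEStronglyMeasurable (fun θ => G (cpt x t θ)) (volume.restrict (Ioo (-π) π))
  int : IntegrableOn (fun θ => ‖G (cpt x t θ)‖ ^ 2) (Ioo (-π) π)

/-- On almost every circle, the restriction of an a.e. strongly measurable function is a.e.
strongly measurable. -/
theorem ae_aestronglyMeasurable_circle {F : Type*} [NormedAddCommGroup F] (x : E2) {R : ℝ}
    {G : E2 → F} (hG : AEStronglyMeasurable G (volume.restrict (Metric.ball x R))) :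
    ∀ᵐ t : ℝ, 0 < t → t < R →
      AEStronglyMeasurable (fun θ => G (cpt x t θ)) (volume.restrict (Ioo (-π) π)) := by
  have h1 : ∀ᵐ y ∂(volume.restrict (Metric.ball x R)), G y = hG.mk G y := hG.ae_eq_mk
  rw [ae_restrict_iff' measurableSet_ball] at h1
  have h2 := ae_polar x h1
  rw [ae_restrict_iff' measurableSet_Ioi] at h2
  filter_upwards [h2] with t ht ht0 htR
  have h3 : ∀ᵐ θ ∂(volume.restrict (Ioo (-π) π)), G (cpt x t θ) = hG.mk G (cpt x t θ) := by
    filter_upwards [ht ht0] with θ hθ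
    apply hθ
    rw [cpt_mem_ball ht0]
    exact htR
  refine AEStronglyMeasurable.congr ?_ (EventuallyEq.symm h3)
  have hc : Continuous (cpt x t) := by
    have := continuous_cpt x
    exact this.comp (Continuous.prodMk continuous_const continuous_id)
  exact (hG.stronglyMeasurable_mk.comp_measurable hc.measurable).aestronglyMeasurable

/-- **Almost every circle is good.** -/
theorem ae_goodCirc {K : Set E2} {G : E2 → E2} {x : E2} {R : ℝ}
    (hK : Measure.hausdorffMeasure 1 (K ∩ Metric.ball x R) < ⊤)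
    (hG : AEStronglyMeasurable G (volume.restrict (Metric.ball x R)))
    (hG2 : ∫⁻ y in Metric.ball x R, ‖G y‖ₑ ^ 2 < ⊤) :
    ∀ᵐ t : ℝ, t ∈ Ioo 0 R → GoodCirc K G x t := by
  have hmeas := ae_aestronglyMeasurable_circle x hG
  have hint : Integrable (fun y => ‖G y‖ ^ 2) (volume.restrict (Metric.ball x R)) := by
    refine ⟨hG.norm.pow 2, ?_⟩
    rw [hasFiniteIntegral_iff_enorm]
    refine lt_of_le_of_lt (lintegral_mono fun y => ?_) hG2
    rw [enorm_pow, enorm_norm]
  have hc := ae_integrableOn_circle_ball x (r := R) (f := fun y => ‖G y‖ ^ 2) hint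
  rw [ae_restrict_iff' measurableSet_Ioo] at hc
  filter_upwards [hmeas, hc, ae_finite_sphere_ball hK] with t h1 h2 h3 ht
  refine ⟨ht.1, h3 ht.2, h1 ht.1 ht.2, ?_⟩
  exact (intervalIntegrable_iff_integrableOn_Ioo_of_le (by linarith [Real.pi_pos])).1 (h2 ht)

/-- Almost every circle is good; version with the integrals outside `K`. -/
theorem ae_goodCirc' {K : Set E2} {G : E2 → E2} {x : E2} {R : ℝ}
    (hK : Measure.hausdorffMeasure 1 (K ∩ Metric.ball x R) < ⊤)
    (hG : AEStronglyMeasurable G (volume.restrict (Metric.ball x R \ K)))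
    (hG2 : ∫⁻ y in Metric.ball x R \ K, ‖G y‖ₑ ^ 2 < ⊤) :
    ∀ᵐ t : ℝ, t ∈ Ioo 0 R → GoodCirc K G x t := by
  have h0 := volume_eq_zero_of_hausdorff_lt_top hK
  have he : volume.restrict (Metric.ball x R \ K) = volume.restrict (Metric.ball x R) := by
    apply Measure.restrict_congr_set
    have : Metric.ball x R \ K = Metric.ball x R \ (K ∩ Metric.ball x R) := by
      ext y; simp only [Set.mem_sdiff, mem_inter_iff]; tauto
    rw [this]
    exact sdiff_null_ae_eq_self h0
  rw [he] at hG hG2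
  exact ae_goodCirc hK hG hG2

namespace GoodCirc

variable {K : Set E2} {G : E2 → E2} {x : E2} {t : ℝ}

lemma mono_set {K' : Set E2} (h : GoodCirc K G x t) (hK : K' ⊆ K) : GoodCirc K' G x t :=
  ⟨h.pos, h.fin.subset (inter_subset_inter_left _ hK), h.meas, h.int⟩

lemma memLp0 (h : GoodCirc K G x t) :
    MemLp (fun θ => G (cpt x t θ)) 2 (volume.restrict (Ioo (-π) π)) :=
  (memLp_two_iff_integrable_sq_norm h.meas).2 h.int

lemma intervalIntegrable_sq (h : GoodCirc K G x t) (a b : ℝ) :
    IntervalIntegrable (fun θ => ‖G (cpt x t θ)‖ ^ 2) volume a b := by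
  have hper : Function.Periodic (fun θ => ‖G (cpt x t θ)‖ ^ 2) (2 * π) := by
    intro θ; simp only [cpt_periodic x t θ]
  refine hper.intervalIntegrable Real.two_pi_pos.ne' (t := -π) ?_ a b
  rw [intervalIntegrable_iff_integrableOn_Ioo_of_le (by linarith [Real.pi_pos])]
  have : -π + 2 * π = π := by ring
  rw [this]
  exact h.int

lemma intervalIntegrable (h : GoodCirc K G x t) (a b : ℝ) :
    IntervalIntegrable (fun θ => G (cpt x t θ)) volume a b := by
  have hper : Function.Periodic (fun θ => G (cpt x t θ)) (2 * π) := by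
    intro θ; simp only [cpt_periodic x t θ]
  refine hper.intervalIntegrable Real.two_pi_pos.ne' (t := -π) ?_ a b
  rw [intervalIntegrable_iff_integrableOn_Ioo_of_le (by linarith [Real.pi_pos])]
  have : -π + 2 * π = π := by ring
  rw [this]
  have hfin : IsFiniteMeasure (volume.restrict (Ioo (-π) π)) := ⟨by simp⟩
  exact h.memLp0.integrable (by norm_num)

lemma memLp (h : GoodCirc K G x t) (a b : ℝ) :
    MemLp (fun θ => G (cpt x t θ)) 2 (volume.restrict (Ioc a b)) := by
  rcases le_total a b with hab | hab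
  · have h1 := h.intervalIntegrable a b
    have h2 := h.intervalIntegrable_sq a b
    rw [intervalIntegrable_iff_integrableOn_Ioc_of_le hab] at h1 h2
    exact (memLp_two_iff_integrable_sq_norm h1.aestronglyMeasurable).2 h2
  · rw [Ioc_eq_empty (not_lt.2 hab)]; simp

lemma isL2_tau (h : GoodCirc K G x t) (a b : ℝ) :
    IsL2 a b (fun θ => inner ℝ (G (cpt x t θ)) (tau θ)) := by
  have h1 := h.memLp a b
  refine MemLp.mono h1 (h1.aestronglyMeasurable.inner continuous_tau.aestronglyMeasurable) ?_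
  exact Eventually.of_forall fun θ => abs_inner_tau_le _ _

lemma isL2_dir (h : GoodCirc K G x t) (a b : ℝ) :
    IsL2 a b (fun θ => inner ℝ (G (cpt x t θ)) (dir θ)) := by
  have h1 := h.memLp a b
  refine MemLp.mono h1 (h1.aestronglyMeasurable.inner continuous_dir.aestronglyMeasurable) ?_
  exact Eventually.of_forall fun θ => abs_inner_dir_le _ _

lemma isL2_norm (h : GoodCirc K G x t) (a b : ℝ) :
    IsL2 a b (fun θ => ‖G (cpt x t θ)‖) := (h.memLp a b).norm

lemma intervalIntegrable_tau (h : GoodCirc K G x t) (a b : ℝ) :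
    IntervalIntegrable (fun θ => inner ℝ (G (cpt x t θ)) (tau θ)) volume a b := by
  rcases le_total a b with hab | hab
  · exact (h.isL2_tau a b).intervalIntegrable hab
  · exact ((h.isL2_tau b a).intervalIntegrable hab).symm

lemma intervalIntegrable_dir (h : GoodCirc K G x t) (a b : ℝ) :
    IntervalIntegrable (fun θ => inner ℝ (G (cpt x t θ)) (dir θ)) volume a b := by
  rcases le_total a b with hab | hab
  · exact (h.isL2_dir a b).intervalIntegrable hab
  · exact ((h.isL2_dir b a).intervalIntegrable hab).symm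

/-- `‖G‖² = G_r² + G_τ²`, integrated along an arc. -/
lemma integral_sq_split (h : GoodCirc K G x t) {a b : ℝ} (hab : a ≤ b) :
    ∫ θ in a..b, ‖G (cpt x t θ)‖ ^ 2
      = (∫ θ in a..b, (inner ℝ (G (cpt x t θ)) (dir θ)) ^ 2)
        + ∫ θ in a..b, (inner ℝ (G (cpt x t θ)) (tau θ)) ^ 2 := by
  rw [← intervalIntegral.integral_add ((h.isL2_dir a b).sq hab) ((h.isL2_tau a b).sq hab)]
  refine intervalIntegral.integral_congr fun θ _ => ?_
  exact norm_sq_frame _ _

/-- The function `u` on an open arc without crack points is a primitive of `t ⟪G, tau⟫`. -/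
theorem exists_isPrim (h : GoodCirc K G x t) {u : E2 → ℝ} {a b : ℝ} (hab : a < b)
    (hu : ∀ θ ∈ Ioo a b, HasGradientAt u (G (cpt x t θ)) (cpt x t θ)) :
    ∃ F : ℝ → ℝ, IsPrim a b F (fun θ => t * inner ℝ (G (cpt x t θ)) (tau θ)) ∧
      EqOn F (fun θ => u (cpt x t θ)) (Ioo a b) :=
  exists_isPrim_of_Ioo hab (f := fun θ => u (cpt x t θ))
    (fun θ hθ => hasDerivAt_circle (hu θ hθ)) ((h.intervalIntegrable_tau a b).const_mul t)

/-- Oscillation of `u` along an arc without crack points. -/
theorem osc_le (h : GoodCirc K G x t) {u : E2 → ℝ} {α β : ℝ} (hαβ : α ≤ β)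
    (hu : ∀ θ ∈ Icc α β, HasGradientAt u (G (cpt x t θ)) (cpt x t θ)) :
    |u (cpt x t β) - u (cpt x t α)| ≤ t * ∫ θ in α..β, ‖G (cpt x t θ)‖ := by
  rw [arc_ftc hαβ hu (h.intervalIntegrable_tau α β), abs_mul, abs_of_pos h.pos]
  refine mul_le_mul_of_nonneg_left ?_ h.pos.le
  refine (intervalIntegral.abs_integral_le_integral_abs hαβ).trans ?_
  refine intervalIntegral.integral_mono_on hαβ ?_ ?_ ?_
  · exact (h.intervalIntegrable_tau α β).abs
  · exact (h.isL2_norm α β).intervalIntegrable hαβ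
  · intro θ _; exact abs_inner_tau_le _ _

theorem osc_sq_le (h : GoodCirc K G x t) {u : E2 → ℝ} {α β : ℝ} (hαβ : α ≤ β)
    (hu : ∀ θ ∈ Icc α β, HasGradientAt u (G (cpt x t θ)) (cpt x t θ)) :
    (u (cpt x t β) - u (cpt x t α)) ^ 2
      ≤ t ^ 2 * (β - α) * ∫ θ in α..β, ‖G (cpt x t θ)‖ ^ 2 := by
  have h1 := h.osc_le hαβ hu
  have h2 := cs_sq hαβ (h.isL2_norm α β)
    (isL2_of_continuousOn (f := fun _ : ℝ => (1:ℝ)) continuousOn_const)
  simp only [mul_one, one_pow, intervalIntegral.integral_const, smul_eq_mul] at h2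
  have h3 : (u (cpt x t β) - u (cpt x t α)) ^ 2 ≤ (t * ∫ θ in α..β, ‖G (cpt x t θ)‖) ^ 2 := by
    rw [← sq_abs]
    exact pow_le_pow_left₀ (abs_nonneg _) h1 2
  calc _ ≤ _ := h3
    _ = t ^ 2 * (∫ θ in α..β, ‖G (cpt x t θ)‖) ^ 2 := by ring
    _ ≤ t ^ 2 * ((∫ θ in α..β, ‖G (cpt x t θ)‖ ^ 2) * (β - α)) :=
        mul_le_mul_of_nonneg_left h2 (sq_nonneg t)
    _ = _ := by ring

/-- A function with gradient `G` off `K` is bounded on a good circle off `K`. -/
theorem exists_bound (h : GoodCirc K G x t) {u : E2 → ℝ}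
    (hu : ∀ y ∈ Metric.sphere x t \ K, HasGradientAt u (G y) y) :
    ∃ M : ℝ, ∀ y ∈ Metric.sphere x t \ K, |u y| ≤ M := by
  set Z := {θ ∈ Icc (-π) (-π + 2 * π) | cpt x t θ ∈ K} with hZ
  have hZf : Z.Finite := finite_angles_Icc h.pos (-π) h.fin
  have h1 : ∀ θ ∈ Icc (-π) (-π + 2 * π), θ ∉ Z →
      HasDerivAt (fun θ => u (cpt x t θ)) (t * inner ℝ (G (cpt x t θ)) (tau θ)) θ := by
    intro θ hθ hz
    apply hasDerivAt_circle
    apply hu
    exact ⟨cpt_mem_sphere h.pos.le, fun hK => hz ⟨hθ, hK⟩⟩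
  have h2 : IntegrableOn (fun θ => t * inner ℝ (G (cpt x t θ)) (tau θ))
      (Icc (-π) (-π + 2 * π)) := by
    have := (h.intervalIntegrable_tau (-π) (-π + 2 * π)).const_mul t
    rwa [intervalIntegrable_iff_integrableOn_Icc_of_le (by linarith [Real.pi_pos])] at this
  obtain ⟨M, hM⟩ := exists_bound_off_finite hZf h1 h2
  refine ⟨M, fun y hy => ?_⟩
  obtain ⟨θ, hθ, rfl⟩ := exists_cpt_eq h.pos hy.1 (-π)
  exact hM θ ⟨hθ.1, hθ.2.le⟩ (fun hz => hy.2 hz.2)

end GoodCirc

end

end Crest.Agent.R135
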