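import Mathlib
import Crest.Agent.R135.PolarF

/-!
# Decomposition of a circle into arcs by finitely many points
-/

set_option autoImplicit false

open MeasureTheory Set Real Topology Filter
open scoped ENNReal

namespace Crest.Agent.R135

noncomputable section

/-- The circle is cut into `n` arcs by the `n ≥ 1` points of `K` on it. -/
theorem exists_arcs {K : Set E2} {x : E2} {t : ℝ} (ht : 0 < t)
    (hfin : (K ∩ Metric.sphere x t).Finite) (hne : (K ∩ Metric.sphere x t).Nonempty) :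
    ∃ (n : ℕ) (θ : ℕ → ℝ), 0 < n ∧ n = (K ∩ Metric.sphere x t).ncard ∧
      (∀ i < n, θ i < θ (i + 1)) ∧ θ n = θ 0 + 2 * π ∧ (∀ i < n, θ i ∈ Ico 0 (2 * π)) ∧
      (∀ i ≤ n, cpt x t (θ i) ∈ K) ∧
      (∀ i < n, ∀ φ ∈ Ioo (θ i) (θ (i + 1)), cpt x t φ ∉ K) ∧
      (∀ y ∈ K ∩ Metric.sphere x t, ∃ i < n, cpt x t (θ i) = y) := by
  classical
  have hfa : (angles K x t 0).Finite := finite_angles ht 0 hfin
  set A : Finset ℝ := hfa.toFinset with hA
  have hmemA : ∀ φ, φ ∈ A ↔ φ ∈ Ico 0 (2 * π) ∧ cpt x t φ ∈ K := by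
    intro φ
    rw [hA, Finite.mem_toFinset]
    simp [angles]
  have hAne : A.Nonempty := by
    obtain ⟨y, hy⟩ := hne
    obtain ⟨θ, hθ, h⟩ := exists_cpt_eq ht hy.2 0
    refine ⟨θ, (hmemA θ).2 ⟨by simpa using hθ, ?_⟩⟩
    rw [h]; exact hy.1
  set n := A.card with hn
  have hn0 : 0 < n := Finset.card_pos.2 hAne
  set e := A.orderEmbOfFin hn.symm with he
  set θ : ℕ → ℝ := fun i => if h : i < n then e ⟨i, h⟩ else e ⟨0, hn0⟩ + 2 * π with hθ
  have hθlt : ∀ i (h : i < n), θ i = e ⟨i, h⟩ := fun i h => by simp only [hθ, dif_pos h]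
  have hθn : θ n = e ⟨0, hn0⟩ + 2 * π := by simp [hθ]
  have heA : ∀ i, e i ∈ A := fun i => A.orderEmbOfFin_mem hn.symm i
  have hrange : ∀ φ ∈ A, ∃ i, e i = φ := by
    intro φ hφ
    have := A.range_orderEmbOfFin hn.symm
    have h2 : φ ∈ Set.range (A.orderEmbOfFin hn.symm) := by rw [this]; exact hφ
    exact h2
  have hcard : n = (K ∩ Metric.sphere x t).ncard := by
    have h3 : (A : Set ℝ).encard = (K ∩ Metric.sphere x t).encard := by
      rw [hA, Finite.coe_toFinset, encard_angles K ht 0]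
    rw [Set.ncard, ← h3, Set.encard_coe_eq_coe_finsetCard]
    rfl
  have hper : ∀ φ, cpt x t (φ + 2 * π) = cpt x t φ := fun φ => cpt_periodic x t φ
  refine ⟨n, θ, hn0, hcard, ?_, ?_, ?_, ?_, ?_, ?_⟩
  · intro i hi
    rw [hθlt i hi]
    by_cases h1 : i + 1 < n
    · rw [hθlt _ h1]
      exact e.strictMono (by simp [Fin.lt_def])
    · have : i + 1 = n := by omega
      rw [this, hθn]
      have h2 := ((hmemA _).1 (heA ⟨i, hi⟩)).1.2
      have h3 := ((hmemA _).1 (heA ⟨0, hn0⟩)).1.1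
      linarith
  · rw [hθn, hθlt 0 hn0]
  · intro i hi
    rw [hθlt i hi]
    exact ((hmemA _).1 (heA ⟨i, hi⟩)).1
  · intro i hi
    rcases hi.lt_or_eq with h | h
    · rw [hθlt i h]; exact ((hmemA _).1 (heA ⟨i, h⟩)).2
    · rw [h, hθn, hper]; exact ((hmemA _).1 (heA ⟨0, hn0⟩)).2
  · intro i hi φ hφ hK
    rw [hθlt i hi] at hφ
    by_cases h1 : i + 1 < n
    · rw [hθlt _ h1] at hφ
      have hφA : φ ∈ A := by
        rw [hmemA]
        exact ⟨⟨((hmemA _).1 (heA ⟨i, hi⟩)).1.1.trans hφ.1.le,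
          hφ.2.trans ((hmemA _).1 (heA ⟨i + 1, h1⟩)).1.2⟩, hK⟩
      obtain ⟨j, hj⟩ := hrange φ hφA
      rw [← hj] at hφ
      have h2 := e.lt_iff_lt.1 hφ.1
      have h3 := e.lt_iff_lt.1 hφ.2
      rw [Fin.lt_def] at h2 h3
      simp only at h2 h3
      omega
    · have h1' : i + 1 = n := by omega
      rw [h1', hθn] at hφ
      have hlast : ∀ j, e j ≤ e ⟨i, hi⟩ := by
        intro j
        apply e.monotone
        rw [Fin.le_def]; simp only; have := j.2; omega
      have hfirst : ∀ j, e ⟨0, hn0⟩ ≤ e j := by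
        intro j
        apply e.monotone
        rw [Fin.le_def]; simp
      rcases lt_or_ge φ (2 * π) with h2 | h2
      · have hφA : φ ∈ A := by
          rw [hmemA]
          exact ⟨⟨((hmemA _).1 (heA ⟨i, hi⟩)).1.1.trans hφ.1.le, h2⟩, hK⟩
        obtain ⟨j, hj⟩ := hrange φ hφA
        have := hlast j
        rw [hj] at this
        exact absurd hφ.1 (not_lt.2 this)
      · have hφA : φ - 2 * π ∈ A := by
          rw [hmemA]
          refine ⟨⟨by linarith, ?_⟩, ?_⟩
          · have h3 := ((hmemA _).1 (heA ⟨0, hn0⟩)).1.2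
            linarith [hφ.2]
          · rw [← hper (φ - 2 * π)]
            simpa using hK
        obtain ⟨j, hj⟩ := hrange _ hφA
        have := hfirst j
        rw [hj] at this
        linarith [hφ.2]
  · intro y hy
    obtain ⟨φ, hφ, h⟩ := exists_cpt_eq ht hy.2 0
    have hφA : φ ∈ A := by
      rw [hmemA]
      exact ⟨by simpa using hφ, by rw [h]; exact hy.1⟩
    obtain ⟨j, hj⟩ := hrange φ hφA
    refine ⟨j, j.2, ?_⟩
    rw [hθlt j j.2]
    rw [show (⟨(j : ℕ), j.2⟩ : Fin n) = j from rfl, hj, h]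

/-- Sum over the arcs of a decomposition of the circle. -/
theorem sum_arcs {F : Type*} [NormedAddCommGroup F] [NormedSpace ℝ F] {f : ℝ → F}
    (hper : Function.Periodic f (2 * π)) (hint : ∀ a b : ℝ, IntervalIntegrable f volume a b)
    {n : ℕ} {θ : ℕ → ℝ} (hθ : θ n = θ 0 + 2 * π) :
    ∑ i ∈ Finset.range n, ∫ φ in θ i..θ (i + 1), f φ = ∫ φ in (-π)..π, f φ := by
  rw [intervalIntegral.sum_integral_adjacent_intervals (fun k _ => hint _ _), hθ,
    hper.intervalIntegral_add_eq (θ 0) (-π)]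
  congr 1
  ring

/-- Sum over arcs of an integral over the circle. -/
theorem sum_arcs_circI {F : Type*} [NormedAddCommGroup F] [NormedSpace ℝ F] {f : E2 → F}
    {x : E2} {t : ℝ} (hint : ∀ a b : ℝ, IntervalIntegrable (fun θ => f (cpt x t θ)) volume a b)
    {n : ℕ} {θ : ℕ → ℝ} (hθ : θ n = θ 0 + 2 * π) :
    ∑ i ∈ Finset.range n, ∫ φ in θ i..θ (i + 1), f (cpt x t φ) = circI f x t :=
  sum_arcs (fun φ => by simp only [cpt_periodic x t φ]) hint hθ

end

end Crest.Agent.R135
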