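import Crest.Agent.R135.Net1
import Crest.Agent.R135.JanisB
import Crest.Agent.R135.EpsConn
import Crest.Agent.R135.PolarG

/-!
# R135 (C): separation forces connectedness inside a disc (helper370)

If a function `χ`, locally constant off `K`, takes different values on all arcs of a circle cut
out by the two or three points of `K` on it, then all these points lie in one component of
`K ∩ closedBall`.
-/

set_option autoImplicit false

open MeasureTheory Set Filter Topology Metric
open scoped ENNReal NNReal ContDiff Gradient Real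

namespace Crest.Agent.R135.Asm

/-- a piece of a disc near a boundary point, without the point, is convex -/
theorem convex_piece (x p : E2) {R ε : ℝ} (hp : dist p x = R) :
    Convex ℝ ((closedBall x R ∩ ball p ε) \ {p}) := by
  have hpe : p ∈ (closedBall x R).extremePoints ℝ := by
    have h1 := (strictConvex_closedBall ℝ x R)
    rw [mem_extremePoints]
    refine ⟨by rw [mem_closedBall]; exact hp.le, ?_⟩
    intro a ha b hb hpab
    by_contra hcon
    have hab : a ≠ b := by
      rintro rfl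
      rw [openSegment_same] at hpab
      exact hcon (by simp [mem_singleton_iff.1 hpab])
    have h2 := h1.openSegment_subset ha hb hab hpab
    rw [interior_closedBall'] at h2
    · rw [mem_ball] at h2
      linarith
  have hc : Convex ℝ (closedBall x R ∩ ball p ε) := (convex_closedBall x R).inter (convex_ball p ε)
  have hpe' : p ∈ (closedBall x R ∩ ball p ε).extremePoints ℝ ∨ p ∉ closedBall x R ∩ ball p ε := by
    by_cases h : p ∈ closedBall x R ∩ ball p ε
    · exact Or.inl (inter_extremePoints_subset_extremePoints_of_subset inter_subset_left ⟨h, hpe⟩)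
    · exact Or.inr h
  rcases hpe' with h | h
  · exact (hc.mem_extremePoints_iff_convex_sdiff.1 h).2
  · rwa [sdiff_singleton_eq_self h]

/-- **No splitting with a single jump point.** If `K ∩ closedBall x R = A ∪ B'` (disjoint, closed)
and `A` meets the circle only at `p`, then every locally constant function off `K` is constant on
the circle near `p`. -/
theorem const_near_of_split {U K A B' : Set E2} {x : E2} {R : ℝ} (hU : IsOpen U)
    (hUK : IsOpen (U \ K)) (hR : 0 < R) (hBU : closedBall x R ⊆ U) (hA : IsClosed A) (hB' : IsClosed B') (hd : Disjoint A B')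
    (hK : K ∩ closedBall x R = A ∪ B') {p : E2} (hone : A ∩ sphere x R = {p})
    {c : E2 → ℝ} (hc : LocConstOn (U \ K) c) :
    ∃ ε > 0, ∃ v : ℝ, ∀ z ∈ sphere x R ∩ ball p ε, z ≠ p → z ∉ K ∧ c z = v := by
  obtain ⟨c', hc', hcc⟩ := keeps_remove_inside hR hBU hA hB' hd hK
    (by rw [hone]; exact subsingleton_singleton) c hc
  have hpA : p ∈ A := (hone.symm.subset (mem_singleton p)).1
  have hpS : p ∈ sphere x R := (hone.symm.subset (mem_singleton p)).2
  have hpB : p ∉ B' := fun h => hd.le_bot ⟨hpA, h⟩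
  obtain ⟨ε, hε, hεB⟩ : ∃ ε > 0, ball p ε ⊆ B'ᶜ ∩ U :=
    Metric.isOpen_iff.mp (hB'.isOpen_compl.inter hU) p
      ⟨hpB, hBU (sphere_subset_closedBall hpS)⟩
  set S : Set E2 := (closedBall x R ∩ ball p ε) \ {p} with hS
  have hSc : IsPreconnected S := (convex_piece x p (mem_sphere.1 hpS)).isPreconnected
  have hSU : S ⊆ U \ (K \ (A ∩ ball x R)) := by
    rintro z ⟨⟨hz1, hz2⟩, hz3⟩
    refine ⟨(hεB hz2).2, ?_⟩
    rintro ⟨hzK, hzA⟩
    have hz4 : z ∈ A ∪ B' := hK.subset ⟨hzK, hz1⟩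
    rcases hz4 with h | h
    · have h5 : z ∉ ball x R := fun h' => hzA ⟨h, h'⟩
      have h6 : z ∈ sphere x R := by
        rw [mem_sphere]
        rw [mem_closedBall] at hz1
        rw [mem_ball, not_lt] at h5
        exact le_antisymm hz1 h5
      exact hz3 (hone.subset ⟨h, h6⟩)
    · exact (hεB hz2).1 h
  have hconst : ∀ a ∈ S, ∀ b ∈ S, c' a = c' b := by
    intro a ha b hb
    refine hSc.induction₂ (fun s t => c' s = c' t) ?_ ?_ ?_ ha hb
    · intro s hs
      exact (hc' s (hSU hs)).mono (fun t ht => ht.symm) |>.filter_mono nhdsWithin_le_nhds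
    · intro s t r _ _ _ h h'
      exact h.trans h'
    · intro s t _ _ h
      exact h.symm
  have hzc : ∀ z ∈ sphere x R ∩ ball p ε, z ≠ p → z ∉ K ∧ c z = c' z := by
    rintro z ⟨hz1, hz2⟩ hzp
    have hzK : z ∉ K := by
      intro hzK
      have hz4 : z ∈ A ∪ B' := hK.subset ⟨hzK, sphere_subset_closedBall hz1⟩
      rcases hz4 with h | h
      · exact hzp (hone.subset ⟨h, hz1⟩)
      · exact (hεB hz2).1 h
    refine ⟨hzK, ?_⟩
    have hzU : z ∈ U := (hεB hz2).2
    have hzS : z ∈ S := ⟨⟨sphere_subset_closedBall hz1, hz2⟩, hzp⟩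
    have h1 : ∀ᶠ y in 𝓝 z, c y = c z := hc z ⟨hzU, hzK⟩
    have h2 : ∀ᶠ y in 𝓝 z, c' y = c' z := hc' z (hSU hzS)
    have h3 : ∀ᶠ y in 𝓝 z, y ∈ U \ K := hUK.mem_nhds ⟨hzU, hzK⟩
    -- points outside the closed ball, close to `z`
    have h4 : Tendsto (fun t : ℝ => x + t • (z - x)) (𝓝[>] 1) (𝓝 z) := by
      have hcont : Continuous fun t : ℝ => x + t • (z - x) := by fun_prop
      have h5 := hcont.tendsto 1
      simp only [one_smul, add_sub_cancel] at h5
      exact h5.mono_left nhdsWithin_le_nhds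
    have hzx : ‖z - x‖ = R := by rw [← dist_eq_norm]; exact mem_sphere.1 hz1
    obtain ⟨t, ⟨ht1, ht2, ht3⟩, ht⟩ :=
      (((h4.eventually h1).and ((h4.eventually h2).and (h4.eventually h3))).and
        self_mem_nhdsWithin).exists
    have ht' : (1 : ℝ) < t := ht
    have hout : x + t • (z - x) ∉ closedBall x R := by
      rw [mem_closedBall, dist_eq_norm, add_sub_cancel_left, norm_smul, hzx, Real.norm_eq_abs,
        abs_of_pos (by linarith), not_le]
      nlinarith
    have h7 := hcc (x + t • (z - x)) ⟨ht3.1, fun h => h.elim ht3.2 hout⟩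
    rw [← ht1, ← ht2, h7]
  by_cases hne : ∃ z0 ∈ sphere x R ∩ ball p ε, z0 ≠ p
  · obtain ⟨z0, hz0, hz0p⟩ := hne
    refine ⟨ε, hε, c' z0, fun z hz hzp => ⟨(hzc z hz hzp).1, ?_⟩⟩
    rw [(hzc z hz hzp).2]
    exact hconst z ⟨⟨sphere_subset_closedBall hz.1, hz.2⟩, hzp⟩ z0
      ⟨⟨sphere_subset_closedBall hz0.1, hz0.2⟩, hz0p⟩
  · push Not at hne
    exact ⟨ε, hε, 0, fun z hz hzp => absurd (hne z hz) hzp⟩

/-- `c` is a genuinely jumping function at the point `p` of the circle -/
def JumpAt (c : E2 → ℝ) (x : E2) (R : ℝ) (p : E2) : Prop :=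
  ∀ ε > 0, ∀ v : ℝ, ∃ z ∈ sphere x R ∩ ball p ε, z ≠ p ∧ c z ≠ v

/-- **Separation forces connectedness.** -/
theorem connected_of_jump {U K : Set E2} {x : E2} {R : ℝ} (hU : IsOpen U)
    (hUK : IsOpen (U \ K)) (hR : 0 < R) (hBU : closedBall x R ⊆ U)
    (hKc : IsCompact (K ∩ closedBall x R)) {c : E2 → ℝ} (hc : LocConstOn (U \ K) c)
    (hfin : (K ∩ sphere x R).Finite) (hcard : (K ∩ sphere x R).ncard ≤ 3)
    (hjump : ∀ p ∈ K ∩ sphere x R, JumpAt c x R p) :
    ∀ p ∈ K ∩ sphere x R, ∀ q ∈ K ∩ sphere x R, q ∈ connectedComponentIn (K ∩ closedBall x R) p := by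
  intro p hp q hq
  by_contra hcon
  obtain ⟨A, B, hA, hB, hpA, hqB, hd, hAB⟩ := exists_separation_of_not_mem_component hKc
    ⟨hp.1, sphere_subset_closedBall hp.2⟩ ⟨hq.1, sphere_subset_closedBall hq.2⟩ hcon
  -- one of the two pieces meets the circle in one point
  have key : ∀ A B : Set E2, IsCompact A → IsCompact B → Disjoint A B →
      A ∪ B = K ∩ closedBall x R → ∀ p, A ∩ sphere x R = {p} → False := by
    intro A B hA hB hd hAB p hone
    obtain ⟨ε, hε, v, hv⟩ := const_near_of_split hU hUK hR hBU hA.isClosed hB.isClosed hd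
      hAB.symm hone hc
    have hpA : p ∈ A ∩ sphere x R := hone.symm.subset (mem_singleton p)
    obtain ⟨z, hz, hzp, hzv⟩ := hjump p ⟨(hAB.subset (Or.inl hpA.1)).1, hpA.2⟩ ε hε v
    exact hzv (hv z hz hzp).2
  have hsub : K ∩ sphere x R = (A ∩ sphere x R) ∪ (B ∩ sphere x R) := by
    rw [← union_inter_distrib_right, hAB, inter_assoc,
      inter_eq_self_of_subset_right sphere_subset_closedBall]
  have hAf : (A ∩ sphere x R).Finite := hfin.subset (hsub.symm.subset.trans' subset_union_left)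
  have hBf : (B ∩ sphere x R).Finite := hfin.subset (hsub.symm.subset.trans' subset_union_right)
  have hdd : Disjoint (A ∩ sphere x R) (B ∩ sphere x R) := hd.mono inter_subset_left inter_subset_left
  have hc1 : (A ∩ sphere x R).ncard + (B ∩ sphere x R).ncard ≤ 3 := by
    rw [← ncard_union_eq hdd hAf hBf, ← hsub]
    exact hcard
  have hA1 : 1 ≤ (A ∩ sphere x R).ncard :=
    Nat.one_le_iff_ne_zero.2 (ncard_ne_zero_of_mem (a := p) ⟨hpA, hp.2⟩ hAf)
  have hB1 : 1 ≤ (B ∩ sphere x R).ncard :=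
    Nat.one_le_iff_ne_zero.2 (ncard_ne_zero_of_mem (a := q) ⟨hqB, hq.2⟩ hBf)
  rcases (show (A ∩ sphere x R).ncard = 1 ∨ (B ∩ sphere x R).ncard = 1 by omega) with h | h
  · obtain ⟨a, ha⟩ := ncard_eq_one.1 h
    exact key A B hA hB hd hAB a ha
  · obtain ⟨a, ha⟩ := ncard_eq_one.1 h
    exact key B A hB hA hd.symm (by rw [union_comm]; exact hAB) a ha

theorem exists_index {θ : ℕ → ℝ} {φ : ℝ} (n : ℕ) (h0 : θ 0 ≤ φ) (hn : φ < θ n) :
    ∃ i < n, θ i ≤ φ ∧ φ < θ (i + 1) := by
  induction n with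
  | zero => exact absurd h0 (not_le.2 hn)
  | succ n ih =>
    by_cases h : φ < θ n
    · obtain ⟨i, hi, h1⟩ := ih h
      exact ⟨i, by omega, h1⟩
    · exact ⟨n, by omega, not_lt.1 h, hn⟩

/-- if `c` takes as many values on the circle off `K` as there are points of `K` on it (at least
two), then it jumps at each of these points -/
theorem jumpAt_of_values {U K : Set E2} {x : E2} {R : ℝ} (hUK : IsOpen (U \ K)) (hR : 0 < R)
    (hSU : sphere x R ⊆ U) {c : E2 → ℝ} (hc : LocConstOn (U \ K) c)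
    (hfin : (K ∩ sphere x R).Finite) {m : ℕ} (hm : (K ∩ sphere x R).ncard = m) (hm2 : 2 ≤ m)
    (z : Fin m → E2) (hz : ∀ i, z i ∈ sphere x R) (hzK : ∀ i, z i ∉ K)
    (hinj : Function.Injective fun i => c (z i)) :
    ∀ p ∈ K ∩ sphere x R, JumpAt c x R p := by
  classical
  intro p hp ε hε v
  by_contra hcon
  push Not at hcon
  set K' : Set E2 := K \ {p} with hK'
  have hKS : K' ∩ sphere x R = (K ∩ sphere x R) \ {p} := by
    ext y
    exact ⟨fun h => ⟨⟨h.1.1, h.2⟩, h.1.2⟩, fun h => ⟨⟨h.1.1, h.2⟩, h.1.2⟩⟩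
  have hfin' : (K' ∩ sphere x R).Finite := by
    rw [hKS]; exact hfin.subset sdiff_subset
  have hcard' : (K' ∩ sphere x R).ncard = m - 1 := by
    rw [hKS, ncard_sdiff_singleton_of_mem hp, hm]
  have hne' : (K' ∩ sphere x R).Nonempty := by
    rw [← ncard_pos hfin', hcard']
    omega
  obtain ⟨n, θ, hn0, hn, hθ, hθn, -, hθK, harc, -⟩ := exists_arcs hR hfin' hne'
  rw [hcard'] at hn
  set c1 : E2 → ℝ := fun y => if y = p then v else c y with hc1
  have hcpt : Continuous (cpt x R) := by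
    unfold cpt
    exact continuous_const.add (continuous_dir.const_smul R)
  have hloc : ∀ i < n, ∀ φ ∈ Ioo (θ i) (θ (i + 1)),
      ∀ᶠ ψ in 𝓝 φ, c1 (cpt x R ψ) = c1 (cpt x R φ) := by
    intro i hi φ hφ
    have hφK := harc i hi φ hφ
    have hφS : cpt x R φ ∈ sphere x R := cpt_mem_sphere hR.le
    by_cases hφp : cpt x R φ = p
    · have h1 : ∀ᶠ ψ in 𝓝 φ, cpt x R ψ ∈ ball p ε := by
        refine hcpt.continuousAt.eventually ?_
        rw [hφp]
        exact ball_mem_nhds p hε
      filter_upwards [h1] with ψ hψ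
      simp only [hc1, hφp, if_true]
      split_ifs with h
      · rfl
      · exact hcon _ ⟨cpt_mem_sphere hR.le, hψ⟩ h
    · have hφK2 : cpt x R φ ∉ K := fun h => hφK ⟨h, hφp⟩
      have h1 := hc _ ⟨hSU hφS, hφK2⟩
      have h2 : ∀ᶠ y in 𝓝 (cpt x R φ), y ≠ p := by
        exact isOpen_ne.mem_nhds hφp
      filter_upwards [hcpt.continuousAt.eventually (h1.and h2)] with ψ hψ
      simp only [hc1, hφp, if_false, hψ.2, hψ.1]
  have hconst : ∀ i < n, ∀ φ ∈ Ioo (θ i) (θ (i + 1)), ∀ ψ ∈ Ioo (θ i) (θ (i + 1)),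
      c1 (cpt x R φ) = c1 (cpt x R ψ) := by
    intro i hi φ hφ ψ hψ
    refine (isPreconnected_Ioo (a := θ i) (b := θ (i + 1))).induction₂
      (fun s t => c1 (cpt x R s) = c1 (cpt x R t)) ?_ ?_ ?_ hφ hψ
    · intro s hs
      exact ((hloc i hi s hs).mono fun t ht => ht.symm).filter_mono nhdsWithin_le_nhds
    · intro s t r _ _ _ h h'
      exact h.trans h'
    · intro s t _ _ h
      exact h.symm
  -- the arc containing `z j`
  have hidx : ∀ j : Fin m, ∃ i : Fin n, ∃ φ ∈ Ioo (θ i) (θ (i + 1)), cpt x R φ = z j := by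
    intro j
    obtain ⟨φ, hφ, hφz⟩ := exists_cpt_eq hR (hz j) (θ 0)
    rw [← hθn] at hφ
    obtain ⟨i, hi, h1, h2⟩ := exists_index n hφ.1 hφ.2
    refine ⟨⟨i, hi⟩, φ, ⟨lt_of_le_of_ne h1 ?_, h2⟩, hφz⟩
    intro h
    apply hzK j
    rw [← hφz, ← h]
    exact (hθK i hi.le).1
  choose idx φ hφ hφz using hidx
  obtain ⟨j, j', hjj, hidx⟩ := Fintype.exists_ne_map_eq_of_card_lt idx (by simp; omega)
  have hcz : ∀ j, c1 (z j) = c (z j) := by
    intro j
    simp only [hc1]
    rw [if_neg]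
    intro h
    exact hzK j (h ▸ hp.1)
  have h1 : c1 (z j) = c1 (z j') := by
    rw [← hφz j, ← hφz j']
    refine hconst (idx j) (idx j).2 _ (hφ j) _ ?_
    rw [hidx]
    exact hφ j'
  rw [hcz, hcz] at h1
  exact hjj (hinj h1)

end Crest.Agent.R135.Asm
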