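import Crest.Agent.R135.CrackAlg

/-!
# R135: equality case of Bonnet's inequality on an arc of length `2π` (helper898)
-/

set_option autoImplicit false

open MeasureTheory Set Filter Topology intervalIntegral
open scoped Real Interval

noncomputable section

namespace Crest.Agent.R135

/-- a primitive with vanishing `L²` norm of the derivative is constant -/
theorem IsPrim.eq_of_sq_zero {a b : ℝ} (hab : a ≤ b) {F F1 : ℝ → ℝ} (hF : IsPrim a b F F1)
    (hF1 : IsL2 a b F1) (h0 : ∫ x in a..b, F1 x ^ 2 = 0) :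
    (∀ᵐ x ∂(volume.restrict (Ioc a b)), F1 x = 0) ∧ ∀ x ∈ Icc a b, F x = F a := by
  have h1 : ∀ᵐ x ∂(volume.restrict (Ioc a b)), F1 x = 0 := by
    rw [intervalIntegral.integral_of_le hab] at h0
    have hi := hF1.sq hab
    rw [intervalIntegrable_iff_integrableOn_Ioc_of_le hab] at hi
    have := (setIntegral_eq_zero_iff_of_nonneg_ae (Eventually.of_forall fun x => sq_nonneg (F1 x))
      hi).1 h0
    filter_upwards [this] with x hx
    simpa using hx
  refine ⟨h1, fun x hx => ?_⟩
  rw [hF.2 x hx]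
  have : ∫ t in a..x, F1 t = 0 := by
    rw [intervalIntegral.integral_of_le hx.1]
    apply integral_eq_zero_of_ae
    exact ae_mono (Measure.restrict_mono (Ioc_subset_Ioc_right hx.2) le_rfl) h1
  rw [this, add_zero]

/-- **Equality case of Bonnet's inequality** on an arc of length `2π`. -/
theorem arc_eq {F F1 H : ℝ → ℝ} (hF : IsPrim 0 (2*π) F F1) (hF1 : IsL2 0 (2*π) F1)
    (hH : IsL2 0 (2*π) H) (hH0 : ∫ x in (0:ℝ)..(2*π), H x = 0)
    (heq : (∫ x in (0:ℝ)..(2*π), F1 x ^ 2) + ∫ x in (0:ℝ)..(2*π), H x ^ 2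
      ≤ ∫ x in (0:ℝ)..(2*π), F x * H x) :
    ∃ m a : ℝ, (∀ x ∈ Icc (0:ℝ) (2*π), F x = m + a * Real.cos (x/2)) ∧
      (∀ᵐ x ∂(volume.restrict (Ioc 0 (2*π))), F1 x = -(a/2) * Real.sin (x/2)) ∧
      (∀ᵐ x ∂(volume.restrict (Ioc 0 (2*π))), H x = (a/2) * Real.cos (x/2)) := by
  have hpi := Real.pi_pos
  have h2pi : (0:ℝ) ≤ 2*π := by positivity
  obtain ⟨m, hm⟩ : ∃ m : ℝ, m = (2*π)⁻¹ * ∫ x in (0:ℝ)..(2*π), F x := ⟨_, rfl⟩
  have hFL := hF.isL2 h2pi
  have hFi := hFL.intervalIntegrable h2pi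
  have hcc : Continuous fun x : ℝ => Real.cos (x/2) := by fun_prop
  have hsc : Continuous fun x : ℝ => Real.sin (x/2) := by fun_prop
  have hcL : IsL2 0 (2*π) (fun x : ℝ => Real.cos (x/2)) := isL2_of_continuousOn hcc.continuousOn
  have hsL : IsL2 0 (2*π) (fun x : ℝ => Real.sin (x/2)) := isL2_of_continuousOn hsc.continuousOn
  have hconst : ∀ c : ℝ, IsL2 0 (2*π) (fun _ : ℝ => c) := fun c =>
    isL2_of_continuousOn continuousOn_const
  have ic : ∫ x in (0:ℝ)..(2*π), Real.cos (x/2) = 0 := by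
    rw [CrackAlg.int_cos_half]
    have : (2*π)/2 = π := by ring
    rw [this]; simp
  have ic2 : ∫ x in (0:ℝ)..(2*π), Real.cos (x/2) ^ 2 = π := by
    rw [CrackAlg.int_cos_half_sq]; simp
  have is2 : ∫ x in (0:ℝ)..(2*π), Real.sin (x/2) ^ 2 = π := by
    rw [CrackAlg.int_sin_half_sq]; simp
  obtain ⟨a, ha⟩ : ∃ a : ℝ, a = π⁻¹ * ∫ x in (0:ℝ)..(2*π), Real.cos (x/2) * F x := ⟨_, rfl⟩
  have hcF : ∫ x in (0:ℝ)..(2*π), Real.cos (x/2) * F x = π * a := by
    rw [ha]; field_simp
  have hFm : ∫ x in (0:ℝ)..(2*π), F x = 2 * π * m := by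
    rw [hm]; field_simp
  -- G
  set G : ℝ → ℝ := fun x => F x - m - a * Real.cos (x/2) with hG
  set G1 : ℝ → ℝ := fun x => F1 x + (a/2) * Real.sin (x/2) with hG1
  have hcosprim : IsPrim 0 (2*π) (fun x => Real.cos (x/2)) (fun x => -(1/2) * Real.sin (x/2)) := by
    apply isPrim_of_hasDerivAt h2pi
    · intro x _
      have h := ((hasDerivAt_id x).div_const 2).cos
      refine h.congr_deriv ?_
      simp only [id_eq]; ring
    · fun_prop
  have hsinprim : IsPrim 0 (2*π) (fun x => Real.sin (x/2)) (fun x => (1/2) * Real.cos (x/2)) := by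
    apply isPrim_of_hasDerivAt h2pi
    · intro x _
      have h := ((hasDerivAt_id x).div_const 2).sin
      refine h.congr_deriv ?_
      simp only [id_eq]; ring
    · fun_prop
  have hGp : IsPrim 0 (2*π) G G1 := by
    refine ⟨hF.1.add ((hsc.intervalIntegrable _ _).const_mul _), fun x hx => ?_⟩
    simp only [hG, hG1]
    have hxi : IntervalIntegrable F1 volume 0 x := hF.1.mono_set (by
      rw [uIcc_of_le hx.1, uIcc_of_le h2pi]; exact Icc_subset_Icc le_rfl hx.2)
    rw [intervalIntegral.integral_add hxi ((hsc.intervalIntegrable _ _).const_mul _)]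
    have e1 := hF.2 x hx
    have e2 := hcosprim.2 x hx
    simp only [intervalIntegral.integral_const_mul] at e2 ⊢
    rw [e1, e2]; ring
  have hG1L : IsL2 0 (2*π) G1 := hF1.add (hsL.const_mul _)
  have hGL : IsL2 0 (2*π) G := (hFL.sub (hconst m)).sub (hcL.const_mul a)
  have hG0 : ∫ x in (0:ℝ)..(2*π), G x = 0 := by
    simp only [hG]
    rw [intervalIntegral.integral_sub (hFi.sub intervalIntegrable_const)
      ((hcc.intervalIntegrable _ _).const_mul _),
      intervalIntegral.integral_sub hFi intervalIntegrable_const,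
      intervalIntegral.integral_const_mul, ic, hFm]
    simp
  have hGc : ∫ x in (0:ℝ)..(2*π), Real.cos (x/2) * G x = 0 := by
    have e : ∀ x, Real.cos (x/2) * G x = Real.cos (x/2) * F x - m * Real.cos (x/2)
        - a * Real.cos (x/2)^2 := by intro x; simp only [hG]; ring
    simp_rw [e]
    rw [intervalIntegral.integral_sub, intervalIntegral.integral_sub,
      intervalIntegral.integral_const_mul, intervalIntegral.integral_const_mul, ic, ic2, hcF]
    · ring
    · exact hcL.mul h2pi hFL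
    · exact (hcc.intervalIntegrable _ _).const_mul _
    · exact (hcL.mul h2pi hFL).sub ((hcc.intervalIntegrable _ _).const_mul _)
    · exact (hcL.sq h2pi).const_mul _
  have w := CrackAlg.wirt_second hGp hG1L hG0 hGc
  -- ∫ sin (x/2) G1 = 0
  have hsG : ∫ x in (0:ℝ)..(2*π), Real.sin (x/2) * G1 x = 0 := by
    have ib := hsinprim.ibp h2pi hGp
    -- ∫ G1 * sin = G(2π) sin π - G 0 sin 0 - ∫ G * (1/2 cos)
    have e1 : ∫ x in (0:ℝ)..(2*π), G1 x * Real.sin (x/2) = ∫ x in (0:ℝ)..(2*π), Real.sin (x/2) * G1 x := by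
      congr 1; ext x; ring
    have e2 : ∫ x in (0:ℝ)..(2*π), G x * (1/2 * Real.cos (x/2))
        = (1/2) * ∫ x in (0:ℝ)..(2*π), Real.cos (x/2) * G x := by
      rw [← intervalIntegral.integral_const_mul]; congr 1; ext x; ring
    rw [e1, e2, hGc] at ib
    have e3 : (2*π)/2 = π := by ring
    rw [ib, e3]; simp
  -- energy of F1
  have eF1 : ∫ x in (0:ℝ)..(2*π), F1 x ^ 2 = (∫ x in (0:ℝ)..(2*π), G1 x ^ 2) + (a^2/4) * π := by
    have e : ∀ x, F1 x ^ 2 = G1 x ^ 2 - a * (Real.sin (x/2) * G1 x) + (a^2/4) * Real.sin (x/2)^2 := by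
      intro x; simp only [hG1]; ring
    simp_rw [e]
    rw [intervalIntegral.integral_add, intervalIntegral.integral_sub,
      intervalIntegral.integral_const_mul, intervalIntegral.integral_const_mul, is2, hsG]
    · ring
    · exact hG1L.sq h2pi
    · exact (hsL.mul h2pi hG1L).const_mul _
    · exact (hG1L.sq h2pi).sub ((hsL.mul h2pi hG1L).const_mul _)
    · exact (hsL.sq h2pi).const_mul _
  set Q : ℝ → ℝ := fun x => (G x + a * Real.cos (x/2)) / 2 - H x with hQ
  have hQL : IsL2 0 (2*π) Q := by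
    have : IsL2 0 (2*π) (fun x => (1/2) * (G x + a * Real.cos (x/2)) - H x) :=
      ((hGL.add (hcL.const_mul a)).const_mul (1/2)).sub hH
    convert this using 1
    ext x; simp only [hQ]; ring
  -- ∫ F H
  have eFH : ∫ x in (0:ℝ)..(2*π), F x * H x
      = (1/4) * (∫ x in (0:ℝ)..(2*π), G x ^ 2) + (a^2/4) * π + (∫ x in (0:ℝ)..(2*π), H x ^ 2)
        - ∫ x in (0:ℝ)..(2*π), Q x ^ 2 := by
    have e : ∀ x, F x * H x = (1/4) * G x ^ 2 + (a/2) * (Real.cos (x/2) * G x)
        + (a^2/4) * Real.cos (x/2)^2 + H x ^ 2 - Q x ^ 2 + m * H x := by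
      intro x; simp only [hQ, hG]; ring
    simp_rw [e]
    have i1 := (hGL.sq h2pi).const_mul (1/4)
    have i2 := (hcL.mul h2pi hGL).const_mul (a/2)
    have i3 := (hcL.sq h2pi).const_mul (a^2/4)
    have i4 := hH.sq h2pi
    have i5 := hQL.sq h2pi
    have i6 := (hH.intervalIntegrable h2pi).const_mul m
    rw [intervalIntegral.integral_add ((((i1.add i2).add i3).add i4).sub i5) i6,
      intervalIntegral.integral_sub (((i1.add i2).add i3).add i4) i5,
      intervalIntegral.integral_add ((i1.add i2).add i3) i4,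
      intervalIntegral.integral_add (i1.add i2) i3,
      intervalIntegral.integral_add i1 i2]
    simp only [intervalIntegral.integral_const_mul]
    rw [hGc, ic2, hH0]
    ring
  rw [eF1, eFH] at heq
  have p1 : 0 ≤ ∫ x in (0:ℝ)..(2*π), G1 x ^ 2 :=
    intervalIntegral.integral_nonneg h2pi fun x _ => sq_nonneg _
  have p2 : 0 ≤ ∫ x in (0:ℝ)..(2*π), Q x ^ 2 :=
    intervalIntegral.integral_nonneg h2pi fun x _ => sq_nonneg _
  have z1 : ∫ x in (0:ℝ)..(2*π), G1 x ^ 2 = 0 := by nlinarith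
  have z2 : ∫ x in (0:ℝ)..(2*π), Q x ^ 2 = 0 := by nlinarith
  obtain ⟨g1, g2⟩ := hGp.eq_of_sq_zero h2pi hG1L z1
  have hGz : ∀ x ∈ Icc (0:ℝ) (2*π), G x = 0 := by
    have e : ∫ x in (0:ℝ)..(2*π), G x = ∫ x in (0:ℝ)..(2*π), G 0 :=
      intervalIntegral.integral_congr fun x hx => g2 x (by rwa [uIcc_of_le h2pi] at hx)
    rw [hG0, intervalIntegral.integral_const, smul_eq_mul] at e
    have : G 0 = 0 := by
      have h1 : (2*π - 0) ≠ 0 := by rw [sub_zero]; positivity
      rcases mul_eq_zero.1 e.symm with h | h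
      · exact absurd h h1
      · exact h
    intro x hx
    rw [g2 x hx, this]
  refine ⟨m, a, fun x hx => ?_, ?_, ?_⟩
  · have := hGz x hx
    simp only [hG] at this
    linarith
  · filter_upwards [g1] with x hx
    simp only [hG1] at hx
    linarith
  · have hQz : ∀ᵐ x ∂(volume.restrict (Ioc (0:ℝ) (2*π))), Q x = 0 := by
      rw [intervalIntegral.integral_of_le h2pi] at z2
      have hi := hQL.sq h2pi
      rw [intervalIntegrable_iff_integrableOn_Ioc_of_le h2pi] at hi
      have := (setIntegral_eq_zero_iff_of_nonneg_ae (Eventually.of_forall fun x => sq_nonneg (Q x))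
        hi).1 z2
      filter_upwards [this] with x hx
      simpa using hx
    filter_upwards [hQz, ae_restrict_mem measurableSet_Ioc] with x hx hxm
    have := hGz x (Ioc_subset_Icc_self hxm)
    simp only [hQ, this] at hx
    linarith

end Crest.Agent.R135
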