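import Crest.Agent.R135.Core
import Crest.Agent.R135.PolarB

/-!
# R135: definitions used in the interface statements (helper823)
-/

set_option autoImplicit false

open MeasureTheory Set Filter Topology Metric
open scoped ENNReal NNReal ContDiff Gradient

namespace Crest.Agent.R135

/-- convergence of (rescaled) quasi-minimizers -/
structure Conv (uk : ℕ → E2 → ℝ) (Kk : ℕ → Set E2) (u : E2 → ℝ) (K : Set E2) : Prop where
  near : ∀ x ∈ K, ∀ ε : ℝ, 0 < ε → ∀ᶠ k in atTop, ∃ y ∈ Kk k, dist y x < ε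
  away : ∀ C : Set E2, IsCompact C → Disjoint C K → ∀ᶠ k in atTop, Disjoint C (Kk k)
  grad : ∀ C : Set E2, IsCompact C → Disjoint C K → ∀ ε : ℝ, 0 < ε →
    ∀ᶠ k in atTop, ∀ y ∈ C, ‖gradient (uk k) y - gradient u y‖ < ε
  l2 : ∀ R : ℝ, Tendsto (fun k => ∫⁻ y in ball (0 : E2) R, ‖gradient (uk k) y - gradient u y‖ₑ ^ 2)
    atTop (𝓝 0)
  len : ∀ (x : E2) (R : ℝ), Crest.Agent.R135.len (K ∩ sphere x R) = 0 →
    Tendsto (fun k => Crest.Agent.R135.len (Kk k ∩ closedBall x R)) atTop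
      (𝓝 (Crest.Agent.R135.len (K ∩ closedBall x R)))

/-- `(a,b)` are the angles of an arc of the circle `sphere x r` off `K` with end points in `K` -/
def IsArc (K : Set E2) (x : E2) (r a b : ℝ) : Prop :=
  a < b ∧ b ≤ a + 2 * Real.pi ∧ cpt x r a ∈ K ∧ cpt x r b ∈ K ∧ ∀ θ ∈ Ioo a b, cpt x r θ ∉ K

/-- flux of `∇u` through an arc of circle -/
noncomputable def flux (u : E2 → ℝ) (x : E2) (r a b : ℝ) : ℝ :=
  r * ∫ θ in a..b, inner ℝ (gradient u (cpt x r θ)) (dir θ)

/-- `∫_{∂B_r} |∇u|²` (arc length measure) -/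
noncomputable def cirE (u : E2 → ℝ) (x : E2) (r : ℝ) : ℝ :=
  r * circI (fun y => ‖gradient u y‖ ^ 2) x r

/-- zero flux through the arcs of almost every circle centred at `x` -/
def ZeroFlux (u : E2 → ℝ) (K : Set E2) (x : E2) : Prop :=
  ∀ᵐ r ∂(volume.restrict (Ioi (0 : ℝ))), ∀ a b, IsArc K x r a b → flux u x r a b = 0

/-- closed set of locally finite length, reduced, minimizing length among closed sets which keep the
separation outside the ball -/
structure IsLenMin (K : Set E2) : Prop where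
  closed : IsClosed K
  fin : ∀ x r, len (K ∩ closedBall x r) < ⊤
  red : ∀ x ∈ K, ∀ r : ℝ, 0 < r → 0 < len (K ∩ ball x r)
  min : ∀ (x : E2) (ρ : ℝ), 0 < ρ → ∀ L : Set E2, IsClosed L →
    L \ closedBall x ρ = K \ closedBall x ρ → Keeps univ K L (closedBall x ρ) →
      len (K ∩ closedBall x ρ) ≤ len (L ∩ closedBall x ρ)

/-- any two points of `K ∩ closedBall y s` lie in one compact connected subset of
`K ∩ closedBall y (Λ s)` -/
def LocConn (K : Set E2) (y : E2) (s Λ : ℝ) : Prop :=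
  ∃ C : Set E2, IsCompact C ∧ IsPreconnected C ∧ K ∩ closedBall y s ⊆ C ∧
    C ⊆ K ∩ closedBall y (Λ * s)

end Crest.Agent.R135
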