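import Crest.Agent.R135.Glue3

/-!
# R135 (T6): gluing of weak gradients across a circle
-/

set_option autoImplicit false
open MeasureTheory Set Metric Filter Topology
open Crest.AnalysisR.PDE.OnePhase
open scoped Real ContDiff

namespace Crest.Agent.R135.Gl

/-- product of a locally integrable function with a compactly supported continuous one -/
theorem int_mul_test {Ω : Set P} {f φ : P → ℝ} (hf : LocallyIntegrableOn f Ω)
    (hφ : Continuous φ) (hc : HasCompactSupport φ) (hs : tsupport φ ⊆ Ω) :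
    Integrable (fun x => f x * φ x) := by
  have h1 : IntegrableOn (fun x => f x * φ x) (tsupport φ) :=
    (hf.integrableOn_compact_subset hs hc.isCompact).mul_continuousOn hφ.continuousOn hc.isCompact
  rw [← integrableOn_univ]
  refine h1.of_forall_sdiff_eq_zero MeasurableSet.univ ?_
  intro x hx
  rw [image_eq_zero_of_notMem_tsupport hx.2, mul_zero]

theorem setInt_test {Ω : Set P} {f φ : P → ℝ} (hs : tsupport φ ⊆ Ω) :
    ∫ x in Ω, f x * φ x = ∫ x, f x * φ x :=
  setIntegral_eq_integral_of_forall_compl_eq_zero fun x hx => by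
    rw [image_eq_zero_of_notMem_tsupport (fun h => hx (hs h)), mul_zero]

theorem locInt_coord {G : P → P} {Ω : Set P} (hG : LocallyIntegrableOn G Ω) (i : Fin 2) :
    LocallyIntegrableOn (fun x => G x i) Ω := by
  intro x hx
  obtain ⟨s, hs, hi⟩ := hG x hx
  exact ⟨s, hs, (EuclideanSpace.proj (𝕜 := ℝ) i).integrable_comp hi⟩

theorem partialD_smooth {φ : P → ℝ} (hφ : ContDiff ℝ ∞ φ) (i : Fin 2) :
    ContDiff ℝ ∞ (partialD φ i) := by
  unfold partialD
  exact (hφ.fderiv_right (by simp)).clm_apply contDiff_const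

theorem partialD_tsupport (φ : P → ℝ) (i : Fin 2) : tsupport (partialD φ i) ⊆ tsupport φ :=
  tsupport_fderiv_apply_subset ℝ _

theorem partialD_hcs {φ : P → ℝ} (hc : HasCompactSupport φ) (i : Fin 2) :
    HasCompactSupport (partialD φ i) :=
  hc.of_isClosed_subset (isClosed_tsupport _) (partialD_tsupport φ i)

theorem partialD_mul {f g : P → ℝ} {y : P} (hf : DifferentiableAt ℝ f y)
    (hg : DifferentiableAt ℝ g y) (i : Fin 2) :
    partialD (fun y => f y * g y) i y = f y * partialD g i y + g y * partialD f i y := by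
  unfold partialD
  rw [fderiv_fun_mul hf hg]
  simp

theorem weakGrad_int {W : Set P} {w : P → ℝ} {H : P → P} (h : IsWeakGradOn W w H)
    {φ : P → ℝ} (hφ : ContDiff ℝ ∞ φ) (hc : HasCompactSupport φ) (hs : tsupport φ ⊆ W)
    (i : Fin 2) : ∫ x, w x * partialD φ i x = - ∫ x, H x i * φ x := by
  have := h.2.2 φ hφ hc hs i
  rwa [setInt_test ((partialD_tsupport φ i).trans hs), setInt_test hs] at this

theorem weakGrad_of_int {W : Set P} {w : P → ℝ} {H : P → P} (hw : LocallyIntegrableOn w W)
    (hH : LocallyIntegrableOn H W)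
    (h : ∀ φ : P → ℝ, ContDiff ℝ ∞ φ → HasCompactSupport φ → tsupport φ ⊆ W → ∀ i : Fin 2,
      ∫ x, w x * partialD φ i x = - ∫ x, H x i * φ x) : IsWeakGradOn W w H := by
  refine ⟨hw, hH, fun φ hφ hc hs i => ?_⟩
  rw [setInt_test ((partialD_tsupport φ i).trans hs), setInt_test hs]
  exact h φ hφ hc hs i

/-- the test function cut off near the circle (inner or outer part) -/
theorem cut_test {x₀ : P} {ρ δ : ℝ}
    {w : P → ℝ} {H : P → P} {φ : P → ℝ} (hφ : ContDiff ℝ ∞ φ) (hcs : HasCompactSupport φ)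
    {κ : ℝ → ℝ} (hκ : ContDiff ℝ ∞ κ) {V : Set P} (hV : IsWeakGradOn V w H)
    (hsub : tsupport (fun y => κ (sd x₀ ρ δ y) * φ y) ⊆ V) (i : Fin 2)
    (hwφ : Integrable (fun y => w y * partialD φ i y))
    (hψ : LocallyIntegrable (fun y => w y * φ y))
    (hκb : ∀ t, ‖κ t‖ ≤ 1)
    (hdκ : HasCompactSupport (fun y => deriv κ (sd x₀ ρ δ y))) :
    (∫ y, w y * partialD φ i y * κ (sd x₀ ρ δ y))
      + ∫ y, w y * φ y * (deriv κ (sd x₀ ρ δ y) * (2 * (y i - x₀ i) / δ))
      = - ∫ y, H y i * φ y * κ (sd x₀ ρ δ y) := by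
  have hsm : ContDiff ℝ ∞ (fun y => κ (sd x₀ ρ δ y) * φ y) :=
    (hκ.comp (sd_smooth x₀ ρ δ)).mul hφ
  have h1 := weakGrad_int hV hsm hcs.mul_left hsub i
  have hκc : Continuous (fun y => κ (sd x₀ ρ δ y)) := hκ.continuous.comp (sd_smooth x₀ ρ δ).continuous
  have e1 : ∀ y, w y * partialD (fun y => κ (sd x₀ ρ δ y) * φ y) i y
      = w y * partialD φ i y * κ (sd x₀ ρ δ y)
        + w y * φ y * (deriv κ (sd x₀ ρ δ y) * (2 * (y i - x₀ i) / δ)) := by
    intro y
    have hd : DifferentiableAt ℝ (fun y => κ (sd x₀ ρ δ y)) y :=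
      (hκ.comp (sd_smooth x₀ ρ δ)).differentiable (by simp) y
    rw [partialD_mul hd (hφ.differentiable (by simp) y) i, partialD_comp_sd hκ]
    ring
  have hi1 : Integrable (fun y => w y * partialD φ i y * κ (sd x₀ ρ δ y)) := by
    refine hwφ.mul_bdd (c := 1) hκc.aestronglyMeasurable (Eventually.of_forall fun y => hκb _)
  have hi2 : Integrable
      (fun y => w y * φ y * (deriv κ (sd x₀ ρ δ y) * (2 * (y i - x₀ i) / δ))) := by
    have hcw : Continuous (fun y : P => deriv κ (sd x₀ ρ δ y) * (2 * (y i - x₀ i) / δ)) := by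
      refine ((hκ.continuous_deriv (by simp)).comp (sd_smooth x₀ ρ δ).continuous).mul ?_
      fun_prop
    have := hψ.integrable_smul_right_of_hasCompactSupport hcw hdκ.mul_right
    simpa [smul_eq_mul] using this
  simp only [e1] at h1
  rw [integral_add hi1 hi2] at h1
  rw [h1]
  congr 2
  ext y
  ring

theorem weakGrad_glue {W : Set P} {x₀ : P} {ρ : ℝ} (hρ : 0 < ρ)
    {w : P → ℝ} {H : P → P}
    (hw : LocallyIntegrableOn w W) (hH : LocallyIntegrableOn H W)
    (h1 : IsWeakGradOn (W ∩ ball x₀ ρ) w H) (h2 : IsWeakGradOn (W \ closedBall x₀ ρ) w H)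
    (hc : ∀ s ∈ W ∩ sphere x₀ ρ, ContinuousAt w s) : IsWeakGradOn W w H := by
  refine weakGrad_of_int hw hH ?_
  intro φ hφ hcs hs i
  have hwφ : Integrable (fun y => w y * partialD φ i y) :=
    int_mul_test hw (partialD_smooth hφ i).continuous (partialD_hcs hcs i)
      ((partialD_tsupport φ i).trans hs)
  have hψ : Integrable (fun y => w y * φ y) := int_mul_test hw hφ.continuous hcs hs
  have hHφ : Integrable (fun y => H y i * φ y) :=
    int_mul_test (locInt_coord hH i) hφ.continuous hcs hs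
  have hψc : ∀ s ∈ sphere x₀ ρ, ContinuousAt (fun y => w y * φ y) s := by
    intro s hsρ
    by_cases hsW : s ∈ W
    · exact (hc s ⟨hsW, hsρ⟩).mul hφ.continuous.continuousAt
    · have h3 : s ∉ tsupport φ := fun h => hsW (hs h)
      have h4 : (fun y => w y * φ y) =ᶠ[𝓝 s] fun _ => (0 : ℝ) := by
        have := (isClosed_tsupport φ).isOpen_compl.mem_nhds h3
        filter_upwards [this] with y hy
        rw [image_eq_zero_of_notMem_tsupport hy, mul_zero]
      exact continuousAt_const.congr h4.symm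
  -- the identity for each `δ`
  have key : ∀ δ : ℝ, 0 < δ → (∫ y, w y * partialD φ i y * kap (sd x₀ ρ δ y))
      + ∫ y, w y * φ y * bw x₀ ρ δ i y = - ∫ y, H y i * φ y * kap (sd x₀ ρ δ y) := by
    intro δ hδ
    have hcs' : ∀ κ : ℝ → ℝ, (∀ t, 2 < |t| → deriv κ t = 0) →
        HasCompactSupport (fun y => deriv κ (sd x₀ ρ δ y)) := by
      intro κ hκ
      refine HasCompactSupport.of_support_subset_isCompact
        (isCompact_closedBall x₀ (ρ ^ 2 + 2 * δ + 1)) ?_
      intro y hy
      by_contra hcon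
      apply hy
      apply hκ
      rw [mem_closedBall, dist_eq_norm, not_le] at hcon
      unfold sd
      rw [abs_div, abs_of_pos hδ, lt_div_iff₀ hδ]
      refine lt_of_lt_of_le ?_ (le_abs_self _)
      nlinarith [sq_nonneg ρ, norm_nonneg (y - x₀)]
    have hdin : ∀ t, 2 < |t| → deriv kin t = 0 := by
      intro t ht
      rcases lt_abs.1 ht with h | h
      · have : kin =ᶠ[𝓝 t] fun _ => (0 : ℝ) := by
          filter_upwards [lt_mem_nhds h] with s hs
          exact kin_zero (by linarith)
        rw [this.deriv_eq, deriv_const]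
      · have : kin =ᶠ[𝓝 t] fun _ => (1 : ℝ) := by
          have h' : t < -2 := by linarith
          filter_upwards [gt_mem_nhds h'] with s hs
          exact kin_one (by linarith)
        rw [this.deriv_eq, deriv_const]
    have hdout : ∀ t, 2 < |t| → deriv kout t = 0 := by
      intro t ht
      rcases lt_abs.1 ht with h | h
      · have : kout =ᶠ[𝓝 t] fun _ => (1 : ℝ) := by
          filter_upwards [lt_mem_nhds h] with s hs
          exact kout_one (by linarith)
        rw [this.deriv_eq, deriv_const]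
      · have : kout =ᶠ[𝓝 t] fun _ => (0 : ℝ) := by
          have h' : t < -2 := by linarith
          filter_upwards [gt_mem_nhds h'] with s hs
          exact kout_zero (by linarith)
        rw [this.deriv_eq, deriv_const]
    have hin_sub : tsupport (fun y => kin (sd x₀ ρ δ y) * φ y) ⊆ W ∩ ball x₀ ρ := by
      have h3 : tsupport (fun y => kin (sd x₀ ρ δ y) * φ y) ⊆
          tsupport φ ∩ {y | sd x₀ ρ δ y ≤ -1} := by
        refine closure_minimal ?_ ((isClosed_tsupport φ).inter
          (isClosed_le (sd_smooth x₀ ρ δ).continuous continuous_const))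
        intro y hy
        rw [Function.mem_support] at hy
        refine ⟨subset_tsupport φ (right_ne_zero_of_mul hy), ?_⟩
        by_contra hcon
        rw [mem_ofPred_eq, not_le] at hcon
        exact left_ne_zero_of_mul hy (kin_zero hcon.le)
      refine h3.trans ?_
      rintro y ⟨hy1, hy2⟩
      refine ⟨hs hy1, ?_⟩
      rw [mem_ofPred_eq, sd, div_le_iff₀ hδ] at hy2
      rw [mem_ball, dist_eq_norm]
      by_contra hcon
      rw [not_lt] at hcon
      nlinarith
    have hout_sub : tsupport (fun y => kout (sd x₀ ρ δ y) * φ y) ⊆ W \ closedBall x₀ ρ := by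
      have h3 : tsupport (fun y => kout (sd x₀ ρ δ y) * φ y) ⊆
          tsupport φ ∩ {y | 1 ≤ sd x₀ ρ δ y} := by
        refine closure_minimal ?_ ((isClosed_tsupport φ).inter
          (isClosed_le continuous_const (sd_smooth x₀ ρ δ).continuous))
        intro y hy
        rw [Function.mem_support] at hy
        refine ⟨subset_tsupport φ (right_ne_zero_of_mul hy), ?_⟩
        by_contra hcon
        rw [mem_ofPred_eq, not_le] at hcon
        exact left_ne_zero_of_mul hy (kout_zero hcon.le)
      refine h3.trans ?_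
      rintro y ⟨hy1, hy2⟩
      refine ⟨hs hy1, ?_⟩
      rw [mem_ofPred_eq, sd, le_div_iff₀ hδ] at hy2
      rw [mem_closedBall, dist_eq_norm]
      intro hcon
      nlinarith [norm_nonneg (y - x₀)]
    have b1 : ∀ t, ‖kin t‖ ≤ 1 := fun t => by
      rw [Real.norm_of_nonneg (kin_nonneg t)]; exact kin_le t
    have b2 : ∀ t, ‖kout t‖ ≤ 1 := fun t => by
      rw [Real.norm_of_nonneg (kout_nonneg t)]; exact kout_le t
    have k1 := cut_test (x₀ := x₀) (ρ := ρ) (δ := δ) hφ hcs kin_smooth h1 hin_sub i hwφ hψ.locallyIntegrable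
      b1 (hcs' _ hdin)
    have k2 := cut_test (x₀ := x₀) (ρ := ρ) (δ := δ) hφ hcs kout_smooth h2 hout_sub i hwφ hψ.locallyIntegrable
      b2 (hcs' _ hdout)
    have hc1 : Continuous (fun y => kin (sd x₀ ρ δ y)) :=
      kin_smooth.continuous.comp (sd_smooth x₀ ρ δ).continuous
    have hc2 : Continuous (fun y => kout (sd x₀ ρ δ y)) :=
      kout_smooth.continuous.comp (sd_smooth x₀ ρ δ).continuous
    have hdk : ∀ t, deriv kap t = deriv kin t + deriv kout t := by
      intro t
      unfold kap
      exact deriv_fun_add (kin_smooth.differentiable (by simp) t)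
        (kout_smooth.differentiable (by simp) t)
    have i1 : Integrable (fun y => w y * partialD φ i y * kin (sd x₀ ρ δ y)) :=
      hwφ.mul_bdd (c := 1) hc1.aestronglyMeasurable (Eventually.of_forall fun y => b1 _)
    have i2 : Integrable (fun y => w y * partialD φ i y * kout (sd x₀ ρ δ y)) :=
      hwφ.mul_bdd (c := 1) hc2.aestronglyMeasurable (Eventually.of_forall fun y => b2 _)
    have j1 : Integrable (fun y => H y i * φ y * kin (sd x₀ ρ δ y)) :=
      hHφ.mul_bdd (c := 1) hc1.aestronglyMeasurable (Eventually.of_forall fun y => b1 _)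
    have j2 : Integrable (fun y => H y i * φ y * kout (sd x₀ ρ δ y)) :=
      hHφ.mul_bdd (c := 1) hc2.aestronglyMeasurable (Eventually.of_forall fun y => b2 _)
    have l : ∀ κ : ℝ → ℝ, ContDiff ℝ ∞ κ → (∀ t, 2 < |t| → deriv κ t = 0) → Integrable
        (fun y => w y * φ y * (deriv κ (sd x₀ ρ δ y) * (2 * (y i - x₀ i) / δ))) := by
      intro κ hκ hκ2
      have hcw : Continuous (fun y : P => deriv κ (sd x₀ ρ δ y) * (2 * (y i - x₀ i) / δ)) := by
        refine ((hκ.continuous_deriv (by simp)).comp (sd_smooth x₀ ρ δ).continuous).mul ?_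
        fun_prop
      have := hψ.locallyIntegrable.integrable_smul_right_of_hasCompactSupport hcw
        (hcs' κ hκ2).mul_right
      simpa [smul_eq_mul] using this
    have l1 := l kin kin_smooth hdin
    have l2 := l kout kout_smooth hdout
    have s1 : ∫ y, w y * partialD φ i y * kap (sd x₀ ρ δ y)
        = (∫ y, w y * partialD φ i y * kin (sd x₀ ρ δ y))
          + ∫ y, w y * partialD φ i y * kout (sd x₀ ρ δ y) := by
      rw [← integral_add i1 i2]; congr 1; ext y; unfold kap; ring
    have s2 : ∫ y, H y i * φ y * kap (sd x₀ ρ δ y)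
        = (∫ y, H y i * φ y * kin (sd x₀ ρ δ y)) + ∫ y, H y i * φ y * kout (sd x₀ ρ δ y) := by
      rw [← integral_add j1 j2]; congr 1; ext y; unfold kap; ring
    have s3 : ∫ y, w y * φ y * bw x₀ ρ δ i y
        = (∫ y, w y * φ y * (deriv kin (sd x₀ ρ δ y) * (2 * (y i - x₀ i) / δ)))
          + ∫ y, w y * φ y * (deriv kout (sd x₀ ρ δ y) * (2 * (y i - x₀ i) / δ)) := by
      rw [← integral_add l1 l2]; congr 1; ext y; unfold bw; rw [hdk]; ring
    rw [s1, s2, s3]
    linarith
  -- pass to the limit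
  set δs : ℕ → ℝ := fun n => 1 / ((n : ℝ) + 1) with hδs
  have hδpos : ∀ n, 0 < δs n := fun n => Nat.one_div_pos_of_nat
  have hδ0 : Tendsto δs atTop (𝓝 0) := tendsto_one_div_add_atTop_nhds_zero_nat
  have hsph : ∀ᵐ y : P, y ∉ sphere x₀ ρ := by
    have : volume (sphere x₀ ρ) = 0 := Measure.addHaar_sphere_of_ne_zero _ _ hρ.ne'
    exact measure_eq_zero_iff_ae_notMem.1 this
  have hlimk : ∀ y, y ∉ sphere x₀ ρ → Tendsto (fun n => kap (sd x₀ ρ (δs n) y)) atTop (𝓝 1) := by
    intro y hy
    have hne : 0 < |‖y - x₀‖ ^ 2 - ρ ^ 2| := by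
      rw [abs_pos, sub_ne_zero]
      intro h
      apply hy
      rw [mem_sphere, dist_eq_norm]
      exact (sq_eq_sq₀ (norm_nonneg _) hρ.le).1 h
    refine tendsto_const_nhds.congr' ?_
    have : ∀ᶠ n in atTop, δs n < |‖y - x₀‖ ^ 2 - ρ ^ 2| / 2 :=
      hδ0.eventually (gt_mem_nhds (by positivity))
    filter_upwards [this] with n hn
    symm
    apply kap_one
    unfold sd
    rw [abs_div, abs_of_pos (hδpos n), le_div_iff₀ (hδpos n)]
    linarith
  have hkc : ∀ n, Continuous (fun y => kap (sd x₀ ρ (δs n) y)) := fun n =>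
    kap_smooth.continuous.comp (sd_smooth x₀ ρ (δs n)).continuous
  have hkb : ∀ t, ‖kap t‖ ≤ 2 := by
    intro t
    unfold kap
    rw [Real.norm_of_nonneg (add_nonneg (kin_nonneg t) (kout_nonneg t))]
    linarith [kin_le t, kout_le t]
  have hlim : ∀ f : P → ℝ, Integrable f →
      Tendsto (fun n => ∫ y, f y * kap (sd x₀ ρ (δs n) y)) atTop (𝓝 (∫ y, f y)) := by
    intro f hf
    refine tendsto_integral_of_dominated_convergence (fun y => ‖f y‖ * 2) ?_ (hf.norm.mul_const 2)
      ?_ ?_
    · intro n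
      exact hf.aestronglyMeasurable.mul (hkc n).aestronglyMeasurable
    · intro n
      refine Eventually.of_forall fun y => ?_
      rw [norm_mul]
      exact mul_le_mul_of_nonneg_left (hkb _) (norm_nonneg _)
    · filter_upwards [hsph] with y hy
      have := (hlimk y hy).const_mul (f y)
      rwa [mul_one] at this
  have hb : Tendsto (fun n => ∫ y, w y * φ y * bw x₀ ρ (δs n) i y) atTop (𝓝 0) := by
    rw [Metric.tendsto_atTop]
    intro ε hε
    obtain ⟨δ₀, hδ₀, hb⟩ := boundary_small hρ hψ.locallyIntegrable hψc i (half_pos hε)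
    obtain ⟨N, hN⟩ := eventually_atTop.1 (hδ0.eventually (ge_mem_nhds hδ₀))
    refine ⟨N, fun n hn => ?_⟩
    rw [Real.dist_eq, sub_zero]
    exact lt_of_le_of_lt (hb (δs n) (hδpos n) (hN n hn)) (by linarith)
  have hL := (hlim _ hwφ).add hb
  have hR := (hlim _ hHφ).neg
  rw [add_zero] at hL
  refine tendsto_nhds_unique hL (hR.congr fun n => ?_)
  exact (key (δs n) (hδpos n)).symm

end Crest.Agent.R135.Gl
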