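import Crest.Prelude.Def_MumfordShah
import Crest.Agent.R135.Glue4

/-!
# R135 (FV): abstract first variation
-/

set_option autoImplicit false
open MeasureTheory Set Metric Filter Topology
open Crest.AnalysisR.PDE.OnePhase Crest.AnalysisR.PDE.MumfordShah
open scoped Real ContDiff ENNReal RealInnerProductSpace

namespace Crest.Agent.R135.Gl

theorem integrable_normsq {α F : Type*} [MeasurableSpace α] {μ : Measure α} [NormedAddCommGroup F]
    {f : α → F} (hf : MemLp f 2 μ) : Integrable (fun x => ‖f x‖ ^ 2) μ :=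
  (memLp_two_iff_integrable_sq_norm hf.1).1 hf

theorem integrable_inner2 {α F : Type*} [MeasurableSpace α] {μ : Measure α} [NormedAddCommGroup F]
    [InnerProductSpace ℝ F] {f g : α → F} (hf : MemLp f 2 μ) (hg : MemLp g 2 μ) :
    Integrable (fun x => ⟪f x, g x⟫) μ := by
  refine ((integrable_normsq hf).add (integrable_normsq hg)).mono' (hf.1.inner hg.1) ?_
  refine Eventually.of_forall fun x => ?_
  have h1 := norm_inner_le_norm (𝕜 := ℝ) (f x) (g x)
  refine h1.trans ?_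
  simp only [Pi.add_apply]
  nlinarith [sq_nonneg (‖f x‖ - ‖g x‖), sq_nonneg ‖f x‖, sq_nonneg ‖g x‖]

theorem lintegral_sq_eq {α F : Type*} [MeasurableSpace α] {μ : Measure α} [NormedAddCommGroup F]
    {f : α → F} (hf : MemLp f 2 μ) :
    ∫⁻ x, ‖f x‖ₑ ^ 2 ∂μ = ENNReal.ofReal (∫ x, ‖f x‖ ^ 2 ∂μ) := by
  rw [ofReal_integral_eq_lintegral_ofReal (integrable_normsq hf)
    (Eventually.of_forall fun x => by positivity)]
  refine lintegral_congr fun x => ?_
  rw [ENNReal.ofReal_pow (norm_nonneg _), ofReal_norm]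

theorem memLp_two_of_lintegral {α F : Type*} [MeasurableSpace α] {μ : Measure α}
    [NormedAddCommGroup F] {f : α → F} (hf : AEStronglyMeasurable f μ)
    (h : ∫⁻ x, ‖f x‖ₑ ^ 2 ∂μ < ⊤) : MemLp f 2 μ := by
  refine ⟨hf, ?_⟩
  rw [eLpNorm_lt_top_iff_lintegral_rpow_enorm_lt_top (by norm_num) (by norm_num)]
  simpa using h

theorem quad_zero {A B : ℝ} (h : ∀ t : ℝ, 0 ≤ 2 * t * A + t ^ 2 * B) : A = 0 := by
  by_contra hA
  have hB : 0 ≤ B := by
    have h1 := h 1; have h2 := h (-1); linarith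
  have h1 := h (-A / (B + 1))
  have h2 : 2 * (-A / (B + 1)) * A + (-A / (B + 1)) ^ 2 * B
      = -(A ^ 2 * (B + 2)) / (B + 1) ^ 2 := by
    field_simp; ring
  rw [h2] at h1
  have h3 : 0 < A ^ 2 * (B + 2) := by positivity
  have h4 : -(A ^ 2 * (B + 2)) / (B + 1) ^ 2 < 0 := div_neg_of_neg_of_pos (by linarith) (by positivity)
  linarith

/-- abstract first variation: `∫‖G‖² + β ∫ f²` minimal along `t ↦ (G + tΨ, f + tψ)` -/
theorem first_var {α β' F : Type*} [MeasurableSpace α] [MeasurableSpace β']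
    {μ : Measure α} {ν : Measure β'} [NormedAddCommGroup F] [InnerProductSpace ℝ F]
    {G Ψ : α → F} {f ψ : β' → ℝ}
    (hG : MemLp G 2 μ) (hΨ : MemLp Ψ 2 μ) (hf : MemLp f 2 ν) (hψ : MemLp ψ 2 ν)
    (h : ∀ t : ℝ, (∫⁻ x, ‖G x‖ₑ ^ 2 ∂μ) + ∫⁻ x, ‖f x‖ₑ ^ 2 ∂ν ≤
      (∫⁻ x, ‖G x + t • Ψ x‖ₑ ^ 2 ∂μ) + ∫⁻ x, ‖f x + t * ψ x‖ₑ ^ 2 ∂ν) :
    (∫ x, ⟪G x, Ψ x⟫ ∂μ) + ∫ x, f x * ψ x ∂ν = 0 := by
  have iGΨ : Integrable (fun x => ⟪G x, Ψ x⟫) μ := integrable_inner2 hG hΨ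
  have ifψ : Integrable (fun x => f x * ψ x) ν := by
    have := hf.integrable_mul hψ
    exact this
  have key : ∀ t : ℝ, 0 ≤ 2 * t * ((∫ x, ⟪G x, Ψ x⟫ ∂μ) + ∫ x, f x * ψ x ∂ν)
      + t ^ 2 * ((∫ x, ‖Ψ x‖ ^ 2 ∂μ) + ∫ x, ‖ψ x‖ ^ 2 ∂ν) := by
    intro t
    have hGt : MemLp (fun x => G x + t • Ψ x) 2 μ := hG.add (hΨ.const_smul t)
    have hft : MemLp (fun x => f x + t * ψ x) 2 ν := hf.add (hψ.const_mul t)
    have h1 := h t
    rw [lintegral_sq_eq hG, lintegral_sq_eq hf, lintegral_sq_eq hGt, lintegral_sq_eq hft,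
      ← ENNReal.ofReal_add (integral_nonneg fun x => by positivity)
        (integral_nonneg fun x => by positivity),
      ← ENNReal.ofReal_add (integral_nonneg fun x => by positivity)
        (integral_nonneg fun x => by positivity)] at h1
    rw [ENNReal.ofReal_le_ofReal_iff (add_nonneg (integral_nonneg fun x => by positivity)
        (integral_nonneg fun x => by positivity))] at h1
    have e1 : ∫ x, ‖G x + t • Ψ x‖ ^ 2 ∂μ = (∫ x, ‖G x‖ ^ 2 ∂μ) + 2 * t * (∫ x, ⟪G x, Ψ x⟫ ∂μ)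
        + t ^ 2 * ∫ x, ‖Ψ x‖ ^ 2 ∂μ := by
      have i12 : Integrable (fun x => ‖G x‖ ^ 2 + 2 * t * ⟪G x, Ψ x⟫) μ :=
        (integrable_normsq hG).add (iGΨ.const_mul _)
      rw [← integral_const_mul, ← integral_const_mul, ← integral_add (integrable_normsq hG)
        (iGΨ.const_mul _), ← integral_add i12 ((integrable_normsq hΨ).const_mul _)]
      congr 1
      ext x
      rw [norm_add_sq_real, inner_smul_right, norm_smul, mul_pow, Real.norm_eq_abs, sq_abs]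
      ring
    have e2 : ∫ x, ‖f x + t * ψ x‖ ^ 2 ∂ν = (∫ x, ‖f x‖ ^ 2 ∂ν) + 2 * t * (∫ x, f x * ψ x ∂ν)
        + t ^ 2 * ∫ x, ‖ψ x‖ ^ 2 ∂ν := by
      have i12 : Integrable (fun x => ‖f x‖ ^ 2 + 2 * t * (f x * ψ x)) ν :=
        (integrable_normsq hf).add (ifψ.const_mul _)
      rw [← integral_const_mul, ← integral_const_mul, ← integral_add (integrable_normsq hf)
        (ifψ.const_mul _), ← integral_add i12 ((integrable_normsq hψ).const_mul _)]
      congr 1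
      ext x
      simp only [Real.norm_eq_abs, sq_abs]
      ring
    rw [e1, e2] at h1
    nlinarith [h1]
  exact quad_zero key

end Crest.Agent.R135.Gl
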