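import Mathlib
import Crest.Agent.R135.Core
import Crest.Agent.R135.PolarG
import Crest.Agent.R135.FV0

/-!
R135 block B4, part 1 (helper980): basic facts about the class `IsQM`, products of locally
Lipschitz functions, radial ramps.
-/

set_option autoImplicit false

open MeasureTheory Set Filter Topology Metric
open scoped ENNReal NNReal ContDiff Gradient RealInnerProductSpace

namespace Crest.Agent.R135.QMC

variable {U : Set E2} {lam : ℝ} {u : E2 → ℝ} {K : Set E2} {x : E2} {R : ℝ}

/-! ### basic facts -/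

theorem isOpen_off (h : IsQM U lam u K) : IsOpen (U \ K) := by
  have : U \ K = U \ closure K := by
    ext y; constructor
    · rintro ⟨h1, h2⟩; exact ⟨h1, fun h3 => h2 (h.closed ⟨h3, h1⟩)⟩
    · rintro ⟨h1, h2⟩; exact ⟨h1, fun h3 => h2 (subset_closure h3)⟩
  rw [this]; exact h.isOpen.sdiff isClosed_closure

theorem measurableSet_K (h : IsQM U lam u K) : MeasurableSet K := by
  have : K = closure K ∩ U := Subset.antisymm (fun y hy => ⟨subset_closure hy, h.sub hy⟩) h.closed
  rw [this]
  exact isClosed_closure.measurableSet.inter h.isOpen.measurableSet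

theorem volume_K (h : IsQM U lam u K) (hx : closedBall x R ⊆ U) :
    volume (K ∩ closedBall x R) = 0 :=
  volume_eq_zero_of_hausdorff_lt_top (h.len_fin x R hx)

theorem volume_K_ball (h : IsQM U lam u K) (hx : closedBall x R ⊆ U) :
    volume (K ∩ ball x R) = 0 :=
  measure_mono_null (inter_subset_inter_right _ ball_subset_closedBall) (volume_K h hx)

/-- the crack does not matter for Lebesgue integrals -/
theorem restrict_off (h : IsQM U lam u K) (hx : closedBall x R ⊆ U) {S : Set E2}
    (hS : S ⊆ closedBall x R) :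
    (volume.restrict (S \ K) : Measure E2) = volume.restrict S := by
  apply Measure.restrict_congr_set
  have h0 : volume (S ∩ K) = 0 := by
    have hsub : S ∩ K ⊆ K ∩ closedBall x R := fun y hy => ⟨hy.2, hS hy.1⟩
    exact measure_mono_null hsub (volume_K h hx)
  have : S \ K = S \ (S ∩ K) := by
    ext y; simp
  rw [this]
  exact sdiff_null_ae_eq_self h0

theorem hasGradientAt (h : IsQM U lam u K) {y : E2} (hy : y ∈ U \ K) :
    HasGradientAt u (gradient u y) y := by
  have h1 : ContDiffAt ℝ 1 u y := h.c1.contDiffAt ((isOpen_off h).mem_nhds hy)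
  exact (h1.differentiableAt (by simp)).hasGradientAt

theorem locLip_of_contDiffOn {V : Set E2} (hV : IsOpen V) {u : E2 → ℝ}
    (hu : ContDiffOn ℝ 1 u V) : LocallyLipschitzOn V u := by
  intro y hy
  have h1 : ContDiffAt ℝ 1 u y := hu.contDiffAt (hV.mem_nhds hy)
  obtain ⟨K, t, ht, hK⟩ := h1.exists_lipschitzOnWith
  exact ⟨K, t, mem_nhdsWithin_of_mem_nhds ht, hK⟩

theorem locLip (h : IsQM U lam u K) : LocallyLipschitzOn (U \ K) u :=
  locLip_of_contDiffOn (isOpen_off h) h.c1

theorem memLp_of_dirE {w : E2 → ℝ} (h : IsQM U lam u K) (hx : closedBall x R ⊆ U)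
    (hw : dirE w K (closedBall x R) < ⊤) :
    MemLp (fun y => gradient w y) 2 (volume.restrict (closedBall x R)) := by
  rw [← restrict_off h hx (subset_refl _)]
  exact Gl.memLp_two_of_lintegral (measurable_gradient w).aestronglyMeasurable hw

theorem memLp_gradient (h : IsQM U lam u K) (hx : closedBall x R ⊆ U) :
    MemLp (fun y => gradient u y) 2 (volume.restrict (closedBall x R)) :=
  memLp_of_dirE h hx (h.dir_fin x R hx)

/-! ### locally Lipschitz functions -/

theorem locLip_mul {V : Set E2} {a b : E2 → ℝ} (ha : LocallyLipschitzOn V a)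
    (hb : LocallyLipschitzOn V b) : LocallyLipschitzOn V (fun y => a y * b y) := by
  intro y hy
  obtain ⟨Ka, ta, hta, hKa⟩ := ha hy
  obtain ⟨Kb, tb, htb, hKb⟩ := hb hy
  have hya := mem_of_mem_nhdsWithin hy hta
  have hyb := mem_of_mem_nhdsWithin hy htb
  refine ⟨Real.toNNReal ((|a y| + Ka) * Kb + (|b y| + Kb) * Ka), (ta ∩ tb) ∩ ball y 1,
    Filter.inter_mem (Filter.inter_mem hta htb) (mem_nhdsWithin_of_mem_nhds
      (ball_mem_nhds y one_pos)), ?_⟩
  apply LipschitzOnWith.of_dist_le_mul
  rintro z ⟨⟨hza, hzb⟩, hz1⟩ w ⟨⟨hwa, hwb⟩, hw1⟩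
  rw [Real.coe_toNNReal _ (by positivity)]
  rw [Real.dist_eq]
  have h1 : |a z| ≤ |a y| + Ka := by
    have h2 := hKa.dist_le_mul z hza y hya
    rw [Real.dist_eq] at h2
    have h3 : dist z y ≤ 1 := (mem_ball.1 hz1).le
    have h4 : |a z| ≤ |a y| + |a z - a y| := by
      have := abs_add_le (a y) (a z - a y)
      simpa using this
    have h5 : (Ka : ℝ) * dist z y ≤ Ka * 1 := mul_le_mul_of_nonneg_left h3 Ka.2
    linarith
  have h1' : |b w| ≤ |b y| + Kb := by
    have h2 := hKb.dist_le_mul w hwb y hyb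
    rw [Real.dist_eq] at h2
    have h3 : dist w y ≤ 1 := (mem_ball.1 hw1).le
    have h4 : |b w| ≤ |b y| + |b w - b y| := by
      have := abs_add_le (b y) (b w - b y)
      simpa using this
    have h5 : (Kb : ℝ) * dist w y ≤ Kb * 1 := mul_le_mul_of_nonneg_left h3 Kb.2
    linarith
  have e1 := hKa.dist_le_mul z hza w hwa
  have e2 := hKb.dist_le_mul z hzb w hwb
  rw [Real.dist_eq] at e1 e2
  have h6 : |a z * b z - a w * b w| ≤ |a z| * |b z - b w| + |b w| * |a z - a w| := by
    have : a z * b z - a w * b w = a z * (b z - b w) + b w * (a z - a w) := by ring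
    rw [this]
    refine (abs_add_le _ _).trans ?_
    rw [abs_mul, abs_mul]
  have h7 : |a z| * |b z - b w| ≤ (|a y| + Ka) * (Kb * dist z w) :=
    mul_le_mul h1 e2 (abs_nonneg _) (by positivity)
  have h8 : |b w| * |a z - a w| ≤ (|b y| + Kb) * (Ka * dist z w) :=
    mul_le_mul h1' e1 (abs_nonneg _) (by positivity)
  calc |a z * b z - a w * b w| ≤ _ := h6
    _ ≤ (|a y| + Ka) * (Kb * dist z w) + (|b y| + Kb) * (Ka * dist z w) := add_le_add h7 h8
    _ = _ := by ring

theorem locLip_comp {V : Set E2} {a : E2 → ℝ} (ha : LocallyLipschitzOn V a) {g : ℝ → ℝ}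
    {C : ℝ≥0} (hg : LipschitzWith C g) : LocallyLipschitzOn V (fun y => g (a y)) := by
  intro y hy
  obtain ⟨Ka, ta, hta, hKa⟩ := ha hy
  exact ⟨C * Ka, ta, hta, hg.comp_lipschitzOnWith hKa⟩

theorem locLip_congr {V : Set E2} {a b : E2 → ℝ} (ha : LocallyLipschitzOn V a)
    (hab : ∀ y ∈ V, b y = a y) : LocallyLipschitzOn V b := by
  intro y hy
  obtain ⟨Ka, ta, hta, hKa⟩ := ha hy
  refine ⟨Ka, ta ∩ V, Filter.inter_mem hta self_mem_nhdsWithin, ?_⟩
  intro z hz w hw
  rw [hab z hz.2, hab w hw.2]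
  exact hKa hz.1 hw.1

theorem locLip_of_locConst {V : Set E2} {c : E2 → ℝ} (hc : LocConstOn V c) :
    LocallyLipschitzOn V c := by
  intro y hy
  refine ⟨0, {z | c z = c y}, mem_nhdsWithin_of_mem_nhds (hc y hy), ?_⟩
  intro z hz w hw
  rw [show c z = c y from hz, show c w = c y from hw]
  simp

/-- Rademacher for locally Lipschitz functions on an open set. -/
theorem ae_differentiableAt {V : Set E2} (hV : IsOpen V) {a : E2 → ℝ}
    (ha : LocallyLipschitzOn V a) : ∀ᵐ y ∂(volume.restrict V), DifferentiableAt ℝ a y := by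
  rw [ae_restrict_iff' hV.measurableSet, ae_iff]
  apply measure_null_of_locally_null
  intro y hy
  simp only [mem_ofPred_eq, Classical.not_imp] at hy
  obtain ⟨Ka, ta, hta, hKa⟩ := ha hy.1
  rw [hV.nhdsWithin_eq hy.1] at hta
  obtain ⟨r, hr, hrt⟩ := Metric.mem_nhds_iff.1 hta
  refine ⟨{z | ¬(z ∈ V → DifferentiableAt ℝ a z)} ∩ ball y r,
    Filter.inter_mem self_mem_nhdsWithin (mem_nhdsWithin_of_mem_nhds (ball_mem_nhds y hr)), ?_⟩
  have h1 := (hKa.mono hrt).ae_differentiableWithinAt_of_mem (μ := (volume : Measure E2))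
  rw [ae_iff] at h1
  refine measure_mono_null ?_ h1
  rintro z ⟨hz, hzb⟩
  simp only [mem_ofPred_eq, Classical.not_imp] at hz ⊢
  refine ⟨hzb, fun hd => hz.2 (hd.differentiableAt (isOpen_ball.mem_nhds hzb))⟩

theorem gradient_mul {a b : E2 → ℝ} {y : E2} (ha : DifferentiableAt ℝ a y)
    (hb : DifferentiableAt ℝ b y) :
    gradient (fun z => a z * b z) y = a y • gradient b y + b y • gradient a y := by
  unfold gradient
  rw [fderiv_fun_mul ha hb, map_add, map_smul, map_smul]

theorem gradient_congr {a b : E2 → ℝ} {y : E2} (h : a =ᶠ[𝓝 y] b) : gradient a y = gradient b y := by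
  unfold gradient
  rw [h.fderiv_eq]

/-! ### the radial unit field and the radial ramp -/

/-- radial unit field about `x` -/
noncomputable def nu (x y : E2) : E2 := (dist y x)⁻¹ • (y - x)

theorem nu_cpt {x : E2} {t θ : ℝ} (ht : 0 < t) : nu x (cpt x t θ) = dir θ := by
  unfold nu
  have h1 : dist (cpt x t θ) x = t := by
    have := cpt_mem_sphere (x := x) (θ := θ) ht.le
    exact Metric.mem_sphere.1 this
  rw [h1, cpt, add_sub_cancel_left, smul_smul, inv_mul_cancel₀ ht.ne', one_smul]

theorem norm_nu_le (x y : E2) : ‖nu x y‖ ≤ 1 := by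
  unfold nu
  rw [norm_smul, norm_inv, Real.norm_of_nonneg dist_nonneg, dist_eq_norm]
  rcases eq_or_ne (‖y - x‖) 0 with h | h
  · rw [h]; simp
  · rw [inv_mul_cancel₀ h]

theorem measurable_nu (x : E2) : Measurable (nu x) := by
  unfold nu
  have h1 : Measurable (fun y : E2 => dist y x) := by fun_prop
  have h2 : Measurable (fun y : E2 => y - x) := by fun_prop
  exact h1.inv.smul h2

theorem hasGradientAt_dist {x y : E2} (hy : y ≠ x) :
    HasGradientAt (fun z : E2 => dist z x) (nu x y) y := by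
  have h1 : HasFDerivAt (fun z : E2 => ‖z - x‖ ^ 2) (2 • (innerSL ℝ (y - x))) y := by
    have := (hasStrictFDerivAt_norm_sq (y - x)).hasFDerivAt.comp y
      ((hasFDerivAt_id y).sub_const x)
    exact this
  have hpos : 0 < ‖y - x‖ := by
    rw [norm_pos_iff]; exact sub_ne_zero.2 hy
  have h2 := h1.sqrt (by positivity)
  have h3 : (fun z : E2 => dist z x) = fun z => Real.sqrt (‖z - x‖ ^ 2) := by
    funext z; rw [Real.sqrt_sq (norm_nonneg _), dist_eq_norm]
  rw [h3, hasGradientAt_iff_hasFDerivAt]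
  refine h2.congr_fderiv ?_
  ext v
  simp only [InnerProductSpace.toDual_apply_apply, Real.sqrt_sq (norm_nonneg (y - x)), nu,
    inner_smul_left, dist_eq_norm, smul_apply, innerSL_apply_apply,
    smul_eq_mul, nsmul_eq_mul]
  simp only [map_inv₀, conj_trivial]
  push_cast
  field_simp

/-- radial ramp: `1` on `closedBall x s`, `0` outside `ball x t`, affine in between -/
noncomputable def ramp (x : E2) (s t : ℝ) (y : E2) : ℝ := max 0 (min 1 ((t - dist y x) / (t - s)))

theorem ramp_nonneg (x : E2) (s t : ℝ) (y : E2) : 0 ≤ ramp x s t y := le_max_left _ _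

theorem ramp_le_one (x : E2) (s t : ℝ) (y : E2) : ramp x s t y ≤ 1 :=
  max_le zero_le_one (min_le_left _ _)

theorem ramp_eq_one {x : E2} {s t : ℝ} (hst : s < t) {y : E2} (hy : dist y x ≤ s) :
    ramp x s t y = 1 := by
  unfold ramp
  have : 1 ≤ (t - dist y x) / (t - s) := by
    rw [le_div_iff₀ (by linarith)]; linarith
  rw [min_eq_left this, max_eq_right zero_le_one]

theorem ramp_eq_zero {x : E2} {s t : ℝ} (hst : s < t) {y : E2} (hy : t ≤ dist y x) :
    ramp x s t y = 0 := by
  unfold ramp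
  have : (t - dist y x) / (t - s) ≤ 0 := div_nonpos_of_nonpos_of_nonneg (by linarith) (by linarith)
  rw [max_eq_left ((min_le_right _ _).trans this)]

theorem ramp_eq_mid {x : E2} {s t : ℝ} (hst : s < t) {y : E2} (hy : s ≤ dist y x)
    (hy' : dist y x ≤ t) : ramp x s t y = (t - dist y x) / (t - s) := by
  unfold ramp
  have h1 : (t - dist y x) / (t - s) ≤ 1 := by
    rw [div_le_iff₀ (by linarith)]; linarith
  have h2 : 0 ≤ (t - dist y x) / (t - s) := div_nonneg (by linarith) (by linarith)
  rw [min_eq_right h1, max_eq_right h2]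

theorem lipschitz_ramp (x : E2) {s t : ℝ} (hst : s < t) :
    LipschitzWith (Real.toNNReal (t - s)⁻¹) (ramp x s t) := by
  have h0 : 0 < (t - s)⁻¹ := inv_pos.2 (by linarith)
  have h1 : LipschitzWith (Real.toNNReal (t - s)⁻¹) (fun y : E2 => (t - dist y x) / (t - s)) := by
    apply LipschitzWith.of_dist_le_mul
    intro y z
    rw [Real.coe_toNNReal _ h0.le, Real.dist_eq]
    have : (t - dist y x) / (t - s) - (t - dist z x) / (t - s) = (t - s)⁻¹ * (dist z x - dist y x) := by
      rw [div_eq_inv_mul, div_eq_inv_mul]; ring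
    rw [this, abs_mul, abs_of_pos h0]
    apply mul_le_mul_of_nonneg_left _ h0.le
    have := abs_dist_sub_le z y x
    rwa [dist_comm z y] at this
  have h2 := (h1.const_min 1).const_max 0
  exact h2

theorem gradient_ramp_in {x y : E2} {s t : ℝ} (hst : s < t) (hy : dist y x < s) :
    gradient (ramp x s t) y = 0 := by
  have : ramp x s t =ᶠ[𝓝 y] fun _ => (1:ℝ) := by
    filter_upwards [isOpen_ball.mem_nhds (mem_ball.2 hy)] with z hz
    exact ramp_eq_one hst (mem_ball.1 hz).le
  rw [gradient_congr this]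
  simp

theorem gradient_ramp_out {x y : E2} {s t : ℝ} (hst : s < t) (hy : t < dist y x) :
    gradient (ramp x s t) y = 0 := by
  have : ramp x s t =ᶠ[𝓝 y] fun _ => (0:ℝ) := by
    have hop : IsOpen {z : E2 | t < dist z x} := isOpen_lt continuous_const (by fun_prop)
    filter_upwards [hop.mem_nhds hy] with z hz
    exact ramp_eq_zero hst (le_of_lt hz)
  rw [gradient_congr this]
  simp

theorem hasGradientAt_ramp_mid {x y : E2} {s t : ℝ} (hs : 0 ≤ s) (hst : s < t)
    (hy : s < dist y x) (hy' : dist y x < t) :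
    HasGradientAt (ramp x s t) (-((t - s)⁻¹ • nu x y)) y := by
  have h1 : ramp x s t =ᶠ[𝓝 y] fun z => (t - dist z x) / (t - s) := by
    have hop : IsOpen {z : E2 | s < dist z x ∧ dist z x < t} := by
      have hc : Continuous (fun z : E2 => dist z x) := by fun_prop
      exact (isOpen_lt continuous_const hc).inter (isOpen_lt hc continuous_const)
    filter_upwards [hop.mem_nhds ⟨hy, hy'⟩] with z hz
    exact ramp_eq_mid hst hz.1.le hz.2.le
  have hne : y ≠ x := by
    rintro rfl
    rw [dist_self] at hy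
    linarith
  have h2 := hasGradientAt_dist hne
  rw [hasGradientAt_iff_hasFDerivAt] at h2 ⊢
  have h3 := (h2.const_sub t).mul_const (t - s)⁻¹
  refine (h3.congr_of_eventuallyEq ?_).congr_fderiv ?_
  · filter_upwards [h1] with z hz
    rw [hz, div_eq_mul_inv]
  · ext v
    simp

theorem gradient_ramp_mid {x y : E2} {s t : ℝ} (hs : 0 ≤ s) (hst : s < t)
    (hy : s < dist y x) (hy' : dist y x < t) :
    gradient (ramp x s t) y = -((t - s)⁻¹ • nu x y) :=
  (hasGradientAt_ramp_mid hs hst hy hy').gradient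

theorem volume_sphere (x : E2) (t : ℝ) : volume (sphere x t) = 0 := by
  rcases le_or_gt t 0 with h | h
  · rcases h.lt_or_eq with h | h
    · rw [sphere_eq_empty_of_neg h]; simp
    · rw [h, sphere_zero]; simp
  · exact Measure.addHaar_sphere_of_ne_zero volume x h.ne'

/-- the gradient of the ramp, almost everywhere -/
theorem ae_gradient_ramp (x : E2) {s t : ℝ} (hs : 0 ≤ s) (hst : s < t) :
    ∀ᵐ y : E2, DifferentiableAt ℝ (ramp x s t) y ∧
      gradient (ramp x s t) y
        = - ((t - s)⁻¹ • (ball x t \ ball x s).indicator (fun y => nu x y) y) := by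
  have h1 : ∀ᵐ y : E2, y ∉ sphere x s := measure_eq_zero_iff_ae_notMem.1 (volume_sphere x s)
  have h2 : ∀ᵐ y : E2, y ∉ sphere x t := measure_eq_zero_iff_ae_notMem.1 (volume_sphere x t)
  have h3 := (lipschitz_ramp x hst).ae_differentiableAt (μ := (volume : Measure E2))
  filter_upwards [h1, h2, h3] with y hy1 hy2 hy3
  refine ⟨hy3, ?_⟩
  rw [mem_sphere] at hy1 hy2
  rcases lt_or_gt_of_ne hy1 with ha | ha
  · rw [gradient_ramp_in hst ha, indicator_of_notMem]
    · simp
    · simp [ha]
  · rcases lt_or_gt_of_ne hy2 with hb | hb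
    · rw [gradient_ramp_mid hs hst ha hb, indicator_of_mem]
      simp [ha.le, hb]
    · rw [gradient_ramp_out hst hb, indicator_of_notMem]
      · simp
      · simp [hb.le]

end Crest.Agent.R135.QMC
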