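import Mathlib
import Crest.Agent.R135.QMCirc1

/-!
R135 block B4, part 2 (helper980): the circle identity for quasi-minimizers with test functions
which may jump across the crack.
-/

set_option autoImplicit false

open MeasureTheory Set Filter Topology Metric
open scoped ENNReal NNReal ContDiff Gradient RealInnerProductSpace

namespace Crest.Agent.R135.QMC

variable {U : Set E2} {lam : ℝ} {u : E2 → ℝ} {K : Set E2} {x : E2} {R : ℝ} {f φ : E2 → ℝ}

/-- `f` is the right-hand side of the Euler-Lagrange equation -/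
structure IsEL (U : Set E2) (lam : ℝ) (u : E2 → ℝ) (K : Set E2) (f : E2 → ℝ) : Prop where
  meas : Measurable f
  bdd : ∀ x, |f x| ≤ lam
  eq : ∀ φ : E2 → ℝ, IsTest U K φ →
    ∫ x in U \ K, inner ℝ (gradient u x) (gradient φ x) = - ∫ x in U, f x * φ x

theorem exists_EL (h : IsQM U lam u K) : ∃ f, IsEL U lam u K f := by
  obtain ⟨f, h1, h2, h3⟩ := h.el
  exact ⟨f, h1, h2, h3⟩

/-- jumping test function on `closedBall x R`: locally Lipschitz off `K`, bounded, finite energy
(no support condition) -/
structure IsJump (U K : Set E2) (x : E2) (R : ℝ) (φ : E2 → ℝ) : Prop where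
  lip : LocallyLipschitzOn (U \ K) φ
  bdd : ∃ M : ℝ, ∀ y ∈ closedBall x R \ K, |φ y| ≤ M
  dir_fin : dirE φ K (closedBall x R) < ⊤

theorem IsJump.aesm (h : IsQM U lam u K) (hx : closedBall x R ⊆ U) (hφ : IsJump U K x R φ) :
    AEStronglyMeasurable φ (volume.restrict (closedBall x R)) := by
  rw [← restrict_off h hx (subset_refl _)]
  have h1 : AEStronglyMeasurable φ (volume.restrict (U \ K)) :=
    hφ.lip.continuousOn.aestronglyMeasurable (isOpen_off h).measurableSet
  exact h1.mono_measure (Measure.restrict_mono (sdiff_subset_sdiff_left hx) le_rfl)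

theorem IsJump.ae_bdd (h : IsQM U lam u K) (hx : closedBall x R ⊆ U) {M : ℝ}
    (hM : ∀ y ∈ closedBall x R \ K, |φ y| ≤ M) :
    ∀ᵐ y ∂(volume.restrict (closedBall x R)), |φ y| ≤ M := by
  rw [← restrict_off h hx (subset_refl _)]
  exact (ae_restrict_iff' (measurableSet_closedBall.diff (measurableSet_K h))).2
    (Eventually.of_forall fun y hy => hM y hy)

theorem integrableOn_inner (h : IsQM U lam u K) (hx : closedBall x R ⊆ U)
    (hφ : IsJump U K x R φ) :
    IntegrableOn (fun y => ⟪gradient u y, gradient φ y⟫) (closedBall x R) :=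
  Gl.integrable_inner2 (memLp_gradient h hx) (memLp_of_dirE h hx hφ.dir_fin)

theorem integrableOn_gradient (h : IsQM U lam u K) (hx : closedBall x R ⊆ U) :
    IntegrableOn (fun y => gradient u y) (closedBall x R) := by
  have hfin : IsFiniteMeasure (volume.restrict (closedBall x R)) :=
    ⟨by rw [Measure.restrict_apply_univ]; exact measure_closedBall_lt_top⟩
  exact (memLp_gradient h hx).integrable (by norm_num)

theorem integrableOn_flux (h : IsQM U lam u K) (hx : closedBall x R ⊆ U)
    (hφ : IsJump U K x R φ) :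
    IntegrableOn (fun y => φ y * ⟪gradient u y, nu x y⟫) (closedBall x R) := by
  obtain ⟨M, hM⟩ := hφ.bdd
  have h1 := integrableOn_gradient h hx
  have h2 : IntegrableOn (fun y => ⟪gradient u y, nu x y⟫) (closedBall x R) := by
    refine Integrable.mono' h1.norm (h1.1.inner (measurable_nu x).aestronglyMeasurable) ?_
    refine Eventually.of_forall fun y => ?_
    refine (norm_inner_le_norm _ _).trans ?_
    have := norm_nu_le x y
    nlinarith [norm_nonneg (gradient u y)]
  refine h2.bdd_mul (hφ.aesm h hx) (c := M) ?_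
  filter_upwards [IsJump.ae_bdd h hx hM] with y hy
  rwa [Real.norm_eq_abs]

theorem integrableOn_rhs (h : IsQM U lam u K) (hf : IsEL U lam u K f) (hx : closedBall x R ⊆ U)
    (hφ : IsJump U K x R φ) :
    IntegrableOn (fun y => f y * φ y) (closedBall x R) := by
  obtain ⟨M, hM⟩ := hφ.bdd
  refine ⟨hf.meas.aestronglyMeasurable.mul (hφ.aesm h hx),
    HasFiniteIntegral.restrict_of_bounded (C := lam * M) measure_closedBall_lt_top ?_⟩
  filter_upwards [IsJump.ae_bdd h hx hM] with y hy
  rw [Real.norm_eq_abs, abs_mul]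
  exact mul_le_mul (hf.bdd y) hy (abs_nonneg _) h.lam_nonneg

/-- the cut-off test function -/
noncomputable def psi (K : Set E2) (x : E2) (s t : ℝ) (φ : E2 → ℝ) : E2 → ℝ :=
  Kᶜ.indicator fun y => ramp x s t y * φ y

/-- its gradient a.e. -/
noncomputable def Psi (x : E2) (s t : ℝ) (φ : E2 → ℝ) (y : E2) : E2 :=
  ramp x s t y • gradient φ y
    - ((t - s)⁻¹ * φ y) • (ball x t \ ball x s).indicator (fun y => nu x y) y

theorem psi_eq {s t : ℝ} {y : E2} (hy : y ∉ K) : psi K x s t φ y = ramp x s t y * φ y :=
  indicator_of_mem (show y ∈ Kᶜ from hy) _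

theorem psi_eq_zero {s t : ℝ} (hst : s < t) {y : E2} (hy : y ∉ ball x t) :
    psi K x s t φ y = 0 := by
  unfold psi
  rw [mem_ball, not_lt] at hy
  by_cases hK : y ∈ K
  · exact indicator_of_notMem (not_not.2 hK) _
  · rw [indicator_of_mem (show y ∈ Kᶜ from hK), ramp_eq_zero hst hy, zero_mul]

theorem Psi_eq_zero {s t : ℝ} (hst : s < t) {y : E2} (hy : y ∉ ball x t) :
    Psi x s t φ y = 0 := by
  unfold Psi
  rw [indicator_of_notMem (fun h => hy h.1)]
  rw [mem_ball, not_lt] at hy
  rw [ramp_eq_zero hst hy]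
  simp

theorem ae_gradient_psi (h : IsQM U lam u K) (hφ : LocallyLipschitzOn (U \ K) φ) {s t : ℝ}
    (hs : 0 ≤ s) (hst : s < t) :
    ∀ᵐ y ∂(volume.restrict (U \ K)), gradient (psi K x s t φ) y = Psi x s t φ y := by
  have h1 := ae_differentiableAt (isOpen_off h) hφ
  have h2 := ae_restrict_of_ae (s := U \ K) (ae_gradient_ramp x hs hst)
  filter_upwards [h1, h2, ae_restrict_mem (isOpen_off h).measurableSet] with y hy1 hy2 hy
  have h3 : psi K x s t φ =ᶠ[𝓝 y] fun z => ramp x s t z * φ z := by
    filter_upwards [(isOpen_off h).mem_nhds hy] with z hz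
    exact psi_eq hz.2
  rw [gradient_congr h3, gradient_mul hy2.1 hy1, hy2.2, Psi]
  rw [smul_neg, smul_smul, ← sub_eq_add_neg, mul_comm (φ y)]

theorem memLp_Psi (h : IsQM U lam u K) (hx : closedBall x R ⊆ U) (hφ : IsJump U K x R φ)
    {s t : ℝ} (hst : s < t) :
    MemLp (Psi x s t φ) 2 (volume.restrict (closedBall x R)) := by
  obtain ⟨M, hM⟩ := hφ.bdd
  have hfin : IsFiniteMeasure (volume.restrict (closedBall x R)) :=
    ⟨by rw [Measure.restrict_apply_univ]; exact measure_closedBall_lt_top⟩
  have hr : AEStronglyMeasurable (ramp x s t) (volume.restrict (closedBall x R)) :=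
    (lipschitz_ramp x hst).continuous.aestronglyMeasurable
  have hg := memLp_of_dirE h hx hφ.dir_fin
  unfold Psi
  apply MemLp.sub
  · refine MemLp.mono hg (hr.smul hg.1) (Eventually.of_forall fun y => ?_)
    rw [norm_smul, Real.norm_of_nonneg (ramp_nonneg x s t y)]
    exact mul_le_of_le_one_left (norm_nonneg _) (ramp_le_one x s t y)
  · refine MemLp.of_bound ?_ ((t - s)⁻¹ * M) ?_
    · exact ((hφ.aesm h hx).const_mul _).smul ((measurable_nu x).indicator
        (measurableSet_ball.diff measurableSet_ball)).aestronglyMeasurable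
    · filter_upwards [IsJump.ae_bdd h hx hM] with y hy
      have h0 : 0 < (t - s)⁻¹ := inv_pos.2 (by linarith)
      have hM0 : 0 ≤ M := (abs_nonneg _).trans hy
      rw [norm_smul, norm_mul, Real.norm_of_nonneg h0.le, Real.norm_eq_abs]
      have h3 : ‖(ball x t \ ball x s).indicator (fun y => nu x y) y‖ ≤ 1 := by
        refine (norm_indicator_le_norm_self _ _).trans (norm_nu_le x y)
      calc (t - s)⁻¹ * |φ y| * ‖(ball x t \ ball x s).indicator (fun y => nu x y) y‖
          ≤ (t - s)⁻¹ * |φ y| * 1 := mul_le_mul_of_nonneg_left h3 (by positivity)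
        _ ≤ (t - s)⁻¹ * M := by
          rw [mul_one]; exact mul_le_mul_of_nonneg_left hy h0.le

theorem isTest_psi (h : IsQM U lam u K) (hx : closedBall x R ⊆ U) (hφ : IsJump U K x R φ)
    {s t : ℝ} (hs : 0 ≤ s) (hst : s < t) (htR : t ≤ R) : IsTest U K (psi K x s t φ) := by
  obtain ⟨M, hM⟩ := hφ.bdd
  constructor
  · refine locLip_congr (locLip_mul (a := ramp x s t) ?_ hφ.lip) (fun y hy => psi_eq hy.2)
    exact fun y _ => (lipschitz_ramp x hst).locallyLipschitz.locallyLipschitzOn (by assumption)
  · refine ⟨|M|, fun y => ?_⟩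
    by_cases hy : y ∈ ball x t
    · by_cases hK : y ∈ K
      · unfold psi
        rw [indicator_of_notMem (not_not.2 hK)]
        simp
      · rw [psi_eq hK, abs_mul, abs_of_nonneg (ramp_nonneg x s t y)]
        have hyR : y ∈ closedBall x R \ K :=
          ⟨ball_subset_closedBall (ball_subset_ball htR hy), hK⟩
        have h1 := hM y hyR
        calc ramp x s t y * |φ y| ≤ 1 * |φ y| :=
              mul_le_mul_of_nonneg_right (ramp_le_one x s t y) (abs_nonneg _)
          _ ≤ |M| := by rw [one_mul]; exact h1.trans (le_abs_self M)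
    · rw [psi_eq_zero hst hy]; simp
  · refine ⟨closedBall x t, isCompact_closedBall x t, (closedBall_subset_closedBall htR).trans hx,
      fun y hy => psi_eq_zero hst (fun h => hy (ball_subset_closedBall h))⟩
  · have hm := memLp_Psi h hx hφ hst
    have e1 : dirE (psi K x s t φ) K U = ∫⁻ y in U \ K, ‖Psi x s t φ y‖ₑ ^ 2 := by
      unfold dirE
      refine lintegral_congr_ae ?_
      filter_upwards [ae_gradient_psi h hφ.lip hs hst] with y hy
      rw [hy]
    rw [e1]
    have e2 : ∫⁻ y in U \ K, ‖Psi x s t φ y‖ₑ ^ 2 ≤ ∫⁻ y in closedBall x R, ‖Psi x s t φ y‖ₑ ^ 2 := by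
      have e3 : (fun y => ‖Psi x s t φ y‖ₑ ^ 2)
          = (closedBall x R).indicator (fun y => ‖Psi x s t φ y‖ₑ ^ 2) := by
        funext y
        by_cases hy : y ∈ closedBall x R
        · rw [indicator_of_mem hy]
        · rw [indicator_of_notMem hy, Psi_eq_zero hst]
          · simp
          · exact fun h => hy (ball_subset_closedBall (ball_subset_ball htR h))
      calc ∫⁻ y in U \ K, ‖Psi x s t φ y‖ₑ ^ 2
          = ∫⁻ y in U \ K, (closedBall x R).indicator (fun y => ‖Psi x s t φ y‖ₑ ^ 2) y := by
            rw [← e3]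
        _ = ∫⁻ y in closedBall x R ∩ (U \ K), ‖Psi x s t φ y‖ₑ ^ 2 := by
            rw [lintegral_indicator measurableSet_closedBall,
              Measure.restrict_restrict measurableSet_closedBall]
        _ ≤ _ := lintegral_mono_set inter_subset_left
    refine e2.trans_lt ?_
    rw [Gl.lintegral_sq_eq hm]
    exact ENNReal.ofReal_lt_top

/-- **Euler-Lagrange with a radial ramp.** -/
theorem el_ramp (h : IsQM U lam u K) (hf : IsEL U lam u K f) (hx : closedBall x R ⊆ U)
    (hφ : IsJump U K x R φ) {s t : ℝ} (hs : 0 ≤ s) (hst : s < t) (htR : t ≤ R) :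
    (∫ y in ball x R, ramp x s t y * ⟪gradient u y, gradient φ y⟫)
      - (t - s)⁻¹ * ((∫ y in ball x t, φ y * ⟪gradient u y, nu x y⟫)
        - ∫ y in ball x s, φ y * ⟪gradient u y, nu x y⟫)
      = - ∫ y in ball x R, ramp x s t y * (f y * φ y) := by
  have h1 := hf.eq _ (isTest_psi h hx hφ hs hst htR)
  have hVo := isOpen_off h
  have hKm := measurableSet_K h
  have hbR : ball x R ⊆ closedBall x R := ball_subset_closedBall
  -- left-hand side
  have l1 : ∫ y in U \ K, ⟪gradient u y, gradient (psi K x s t φ) y⟫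
      = ∫ y in U \ K, ⟪gradient u y, Psi x s t φ y⟫ := by
    refine integral_congr_ae ?_
    filter_upwards [ae_gradient_psi h hφ.lip hs hst] with y hy
    rw [hy]
  have l2 : ∫ y in U \ K, ⟪gradient u y, Psi x s t φ y⟫
      = ∫ y in ball x R, ⟪gradient u y, Psi x s t φ y⟫ := by
    rw [← restrict_off h hx hbR]
    refine setIntegral_eq_of_subset_of_forall_sdiff_eq_zero hVo.measurableSet
      (sdiff_subset_sdiff_left (hbR.trans hx)) ?_
    rintro y ⟨hy, hy'⟩
    rw [Psi_eq_zero hst, inner_zero_right]
    exact fun h2 => hy' ⟨ball_subset_ball htR h2, hy.2⟩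
  have ir : AEStronglyMeasurable (ramp x s t) (volume.restrict (ball x R)) :=
    (lipschitz_ramp x hst).continuous.aestronglyMeasurable
  have i1 : IntegrableOn (fun y => ramp x s t y * ⟪gradient u y, gradient φ y⟫) (ball x R) := by
    refine ((integrableOn_inner h hx hφ).mono_set hbR).bdd_mul ir (c := 1) ?_
    refine Eventually.of_forall fun y => ?_
    rw [Real.norm_of_nonneg (ramp_nonneg x s t y)]
    exact ramp_le_one x s t y
  have i2 : IntegrableOn (fun y => φ y * ⟪gradient u y, nu x y⟫) (ball x R) :=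
    (integrableOn_flux h hx hφ).mono_set hbR
  have hmA : MeasurableSet (ball x t \ ball x s) := measurableSet_ball.diff measurableSet_ball
  have l3 : ∫ y in ball x R, ⟪gradient u y, Psi x s t φ y⟫
      = (∫ y in ball x R, ramp x s t y * ⟪gradient u y, gradient φ y⟫)
        - (t - s)⁻¹ * ∫ y in ball x R,
          (ball x t \ ball x s).indicator (fun y => φ y * ⟪gradient u y, nu x y⟫) y := by
    rw [← integral_const_mul, ← integral_sub i1 ((i2.indicator hmA).const_mul _)]
    refine integral_congr_ae (Eventually.of_forall fun y => ?_)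
    simp only [Psi, inner_sub_right, inner_smul_right]
    by_cases hy : y ∈ ball x t \ ball x s
    · rw [indicator_of_mem hy, indicator_of_mem hy]; ring
    · rw [indicator_of_notMem hy, indicator_of_notMem hy]; simp
  have l4 : ∫ y in ball x R,
        (ball x t \ ball x s).indicator (fun y => φ y * ⟪gradient u y, nu x y⟫) y
      = (∫ y in ball x t, φ y * ⟪gradient u y, nu x y⟫)
        - ∫ y in ball x s, φ y * ⟪gradient u y, nu x y⟫ := by
    rw [integral_indicator hmA, Measure.restrict_restrict hmA]
    have : (ball x t \ ball x s) ∩ ball x R = ball x t \ ball x s := by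
      apply inter_eq_left.2
      exact sdiff_subset.trans (ball_subset_ball htR)
    rw [this]
    exact setIntegral_sdiff measurableSet_ball (i2.mono_set (ball_subset_ball htR))
      (ball_subset_ball hst.le)
  -- right-hand side
  have r1 : ∫ y in U, f y * psi K x s t φ y = ∫ y in ball x R, f y * psi K x s t φ y := by
    refine setIntegral_eq_of_subset_of_forall_sdiff_eq_zero h.isOpen.measurableSet
      (hbR.trans hx) ?_
    rintro y ⟨hy, hy'⟩
    rw [psi_eq_zero hst, mul_zero]
    exact fun h2 => hy' (ball_subset_ball htR h2)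
  have r2 : ∫ y in ball x R, f y * psi K x s t φ y
      = ∫ y in ball x R, ramp x s t y * (f y * φ y) := by
    rw [← restrict_off h hx hbR]
    refine setIntegral_congr_fun (measurableSet_ball.diff hKm) ?_
    rintro y ⟨hy, hy'⟩
    simp only [psi_eq hy']
    ring
  rw [l1, l2, l3, l4, r1, r2] at h1
  exact h1

end Crest.Agent.R135.QMC
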