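import Mathlib
import Crest.Agent.R135.QMCirc2

/-!
R135 block B4, part 3 (helper980): the circle identity on almost every circle, the energy identity.
-/

set_option autoImplicit false

open MeasureTheory Set Filter Topology Metric
open scoped ENNReal NNReal ContDiff Gradient RealInnerProductSpace

namespace Crest.Agent.R135.QMC

variable {U : Set E2} {lam : ℝ} {u : E2 → ℝ} {K : Set E2} {x : E2} {R : ℝ} {f φ : E2 → ℝ}

theorem ball_ae_eq_closedBall (x : E2) (t : ℝ) :
    (volume.restrict (closedBall x t) : Measure E2) = volume.restrict (ball x t) := by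
  apply Measure.restrict_congr_set
  have : (closedBall x t : Set E2) = ball x t ∪ sphere x t := (ball_union_sphere).symm
  rw [this]
  exact union_ae_eq_left_of_ae_eq_empty (ae_eq_empty.2 (volume_sphere x t))

theorem tendsto_ramp_integral {g : E2 → ℝ} (hg : IntegrableOn g (ball x R)) {t : ℝ}
    (htR : t < R) {T : ℕ → ℝ} (hT : ∀ n, t < T n) (hTlim : Tendsto T atTop (𝓝 t)) :
    Tendsto (fun n => ∫ y in ball x R, ramp x t (T n) y * g y) atTop
      (𝓝 (∫ y in ball x t, g y)) := by
  have e1 : ∫ y in ball x t, g y = ∫ y in ball x R, (closedBall x t).indicator g y := by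
    rw [integral_indicator measurableSet_closedBall, Measure.restrict_restrict
      measurableSet_closedBall, inter_eq_left.2 (closedBall_subset_ball htR),
      ball_ae_eq_closedBall]
  rw [e1]
  refine tendsto_integral_of_dominated_convergence (fun y => ‖g y‖) ?_ hg.norm ?_ ?_
  · intro n
    exact (lipschitz_ramp x (hT n)).continuous.aestronglyMeasurable.mul hg.1
  · intro n
    refine Eventually.of_forall fun y => ?_
    rw [norm_mul, Real.norm_of_nonneg (ramp_nonneg x t (T n) y)]
    exact mul_le_of_le_one_left (norm_nonneg _) (ramp_le_one x t (T n) y)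
  · refine Eventually.of_forall fun y => ?_
    by_cases hy : dist y x ≤ t
    · rw [indicator_of_mem (mem_closedBall.2 hy)]
      refine tendsto_const_nhds.congr fun n => ?_
      rw [ramp_eq_one (hT n) hy, one_mul]
    · rw [indicator_of_notMem (fun h => hy (mem_closedBall.1 h))]
      push Not at hy
      refine tendsto_const_nhds.congr' ?_
      filter_upwards [hTlim.eventually_le_const hy] with n hn
      rw [ramp_eq_zero (hT n) hn, zero_mul]

/-- **Circle identity with jumping test functions.** For almost every `t < R`. -/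
theorem circle_identity (h : IsQM U lam u K) (hf : IsEL U lam u K f) (hR : 0 ≤ R)
    (hx : closedBall x R ⊆ U) (hφ : IsJump U K x R φ) :
    ∀ᵐ t : ℝ, t ∈ Ioo 0 R →
      ∫ y in ball x t, ⟪gradient u y, gradient φ y⟫
        = t * (∫ θ in (-Real.pi)..Real.pi, φ (cpt x t θ) * ⟪gradient u (cpt x t θ), dir θ⟫)
          - ∫ y in ball x t, f y * φ y := by
  have hbR : ball x R ⊆ closedBall x R := ball_subset_closedBall
  have i1 := (integrableOn_inner h hx hφ).mono_set hbR
  have i2 := (integrableOn_flux h hx hφ).mono_set hbR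
  have i3 := (integrableOn_rhs h hf hx hφ).mono_set hbR
  have hd := ae_hasDerivAt_ball x hR i2
  rw [ae_restrict_iff' measurableSet_Ioo] at hd
  filter_upwards [hd] with t ht htm
  have hd' := ht htm
  set Φ : ℝ → ℝ := fun s => ∫ y in ball x s, φ y * ⟪gradient u y, nu x y⟫ with hΦ
  have hpos : 0 < R - t := by linarith [htm.2]
  set T : ℕ → ℝ := fun n => t + (R - t) * (1 / ((n : ℝ) + 1)) with hTdef
  have hT : ∀ n, t < T n := by
    intro n
    have : 0 < (R - t) * (1 / ((n : ℝ) + 1)) := by positivity
    simp only [hTdef]; linarith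
  have hTR : ∀ n, T n ≤ R := by
    intro n
    have h1 : 1 / ((n : ℝ) + 1) ≤ 1 := by
      rw [div_le_one (by positivity)]; linarith [(Nat.cast_nonneg n : (0:ℝ) ≤ n)]
    have : (R - t) * (1 / ((n : ℝ) + 1)) ≤ (R - t) * 1 := mul_le_mul_of_nonneg_left h1 hpos.le
    simp only [hTdef]; linarith
  have hTlim : Tendsto T atTop (𝓝 t) := by
    have h1 : Tendsto (fun n : ℕ => (R - t) * (1 / ((n : ℝ) + 1))) atTop (𝓝 ((R - t) * 0)) :=
      tendsto_one_div_add_atTop_nhds_zero_nat.const_mul _
    have h2 := h1.const_add t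
    simpa [hTdef] using h2
  have L1 := tendsto_ramp_integral i1 htm.2 hT hTlim
  have L3 := tendsto_ramp_integral i3 htm.2 hT hTlim
  have L2 : Tendsto (fun n => (T n - t)⁻¹ * (Φ (T n) - Φ t)) atTop
      (𝓝 (t • circI (fun y => φ y * ⟪gradient u y, nu x y⟫) x t)) := by
    have h1 := hd'.tendsto_slope
    have h2 : Tendsto T atTop (𝓝[≠] t) :=
      tendsto_nhdsWithin_iff.2 ⟨hTlim, Eventually.of_forall fun n => (hT n).ne'⟩
    have h3 := h1.comp h2
    refine h3.congr fun n => ?_
    simp only [Function.comp, slope, vsub_eq_sub, smul_eq_mul]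
  have hid : ∀ n, (∫ y in ball x R, ramp x t (T n) y * ⟪gradient u y, gradient φ y⟫)
      = (T n - t)⁻¹ * (Φ (T n) - Φ t) - ∫ y in ball x R, ramp x t (T n) y * (f y * φ y) := by
    intro n
    have := el_ramp h hf hx hφ htm.1.le (hT n) (hTR n)
    simp only [hΦ]
    linarith
  have L4 := L2.sub L3
  have L5 := tendsto_nhds_unique L1 (L4.congr fun n => (hid n).symm)
  rw [L5]
  congr 1
  rw [smul_eq_mul, circI]
  congr 1
  refine intervalIntegral.integral_congr fun θ _ => ?_
  simp only [nu_cpt htm.1]

end Crest.Agent.R135.QMC
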