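import Mathlib
import Crest.Agent.R135.QMCirc3
import Crest.Agent.R135.IFDefs

/-!
R135 block B4, part 4 (helper980): good circles in the class `IsQM`, derivative of `Dr`,
energy identity.
-/

set_option autoImplicit false

open MeasureTheory Set Filter Topology Metric
open scoped ENNReal NNReal ContDiff Gradient RealInnerProductSpace

namespace Crest.Agent.R135.QMC

variable {U : Set E2} {lam : ℝ} {u : E2 → ℝ} {K : Set E2} {x : E2} {R : ℝ} {f φ c : E2 → ℝ}

/-! ### good circles and `Dr` -/

theorem ae_goodCirc_qm (h : IsQM U lam u K) (hx : closedBall x R ⊆ U) :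
    ∀ᵐ t : ℝ, t ∈ Ioo 0 R → GoodCirc K (fun y => gradient u y) x t := by
  have hK : Measure.hausdorffMeasure 1 (K ∩ ball x R) < ⊤ :=
    (measure_mono (inter_subset_inter_right _ ball_subset_closedBall)).trans_lt (h.len_fin x R hx)
  refine ae_goodCirc hK (measurable_gradient u).aestronglyMeasurable ?_
  have h1 := memLp_gradient h hx
  have h2 : ∫⁻ y in ball x R, ‖gradient u y‖ₑ ^ 2 ≤ ∫⁻ y in closedBall x R, ‖gradient u y‖ₑ ^ 2 :=
    lintegral_mono_set ball_subset_closedBall
  refine h2.trans_lt ?_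
  rw [Gl.lintegral_sq_eq h1]
  exact ENNReal.ofReal_lt_top

theorem integrableOn_normsq (h : IsQM U lam u K) (hx : closedBall x R ⊆ U) :
    IntegrableOn (fun y => ‖gradient u y‖ ^ 2) (closedBall x R) :=
  Gl.integrable_normsq (memLp_gradient h hx)

theorem Dr_eq (h : IsQM U lam u K) (hx : closedBall x R ⊆ U) {t : ℝ} (ht : t ≤ R) :
    Dr u K x t = ∫ y in ball x t, ‖gradient u y‖ ^ 2 := by
  unfold Dr dirE
  have hsub : ball x t ⊆ closedBall x R := (ball_subset_ball ht).trans ball_subset_closedBall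
  rw [restrict_off h hx hsub]
  have h1 : MemLp (fun y => gradient u y) 2 (volume.restrict (ball x t)) :=
    (memLp_gradient h hx).mono_measure (Measure.restrict_mono hsub le_rfl)
  rw [Gl.lintegral_sq_eq h1, ENNReal.toReal_ofReal]
  exact integral_nonneg fun y => by positivity

theorem Dr_nonneg (u : E2 → ℝ) (K : Set E2) (x : E2) (t : ℝ) : 0 ≤ Dr u K x t :=
  ENNReal.toReal_nonneg

theorem Dr_of_nonpos (u : E2 → ℝ) (K : Set E2) (x : E2) {t : ℝ} (ht : t ≤ 0) :
    Dr u K x t = 0 := by
  unfold Dr dirE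
  rw [ball_eq_empty.2 ht]
  simp

theorem Dr_mono (h : IsQM U lam u K) {s t : ℝ} (hx : closedBall x t ⊆ U) (hst : s ≤ t) :
    Dr u K x s ≤ Dr u K x t := by
  unfold Dr
  apply ENNReal.toReal_mono
  · refine (lt_of_le_of_lt ?_ (h.dir_fin x t hx)).ne
    exact lintegral_mono_set (sdiff_subset_sdiff_left ball_subset_closedBall)
  · exact lintegral_mono_set (sdiff_subset_sdiff_left (ball_subset_ball hst))

theorem circI_normsq_nonneg (u : E2 → ℝ) (x : E2) (t : ℝ) :
    0 ≤ circI (fun y => ‖gradient u y‖ ^ 2) x t := by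
  rw [circI_eq_set]
  exact integral_nonneg fun θ => by positivity

theorem cirE_nonneg (u : E2 → ℝ) (x : E2) {t : ℝ} (ht : 0 ≤ t) : 0 ≤ cirE u x t :=
  mul_nonneg ht (circI_normsq_nonneg u x t)

/-- `Dr` is a primitive of `cirE` -/
theorem Dr_sub (h : IsQM U lam u K) (hx : closedBall x R ⊆ U) {s t : ℝ} (hs : 0 ≤ s) (hst : s ≤ t)
    (ht : t ≤ R) : Dr u K x t - Dr u K x s = ∫ r in s..t, cirE u x r := by
  rw [Dr_eq h hx ht, Dr_eq h hx (hst.trans ht)]
  exact ball_integral_sub x hs hst ht
    ((integrableOn_normsq h hx).mono_set ball_subset_closedBall)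

theorem intervalIntegrable_cirE (h : IsQM U lam u K) (hx : closedBall x R ⊆ U) (hR : 0 ≤ R) :
    IntervalIntegrable (cirE u x) volume 0 R :=
  intervalIntegrable_radial x hR ((integrableOn_normsq h hx).mono_set ball_subset_closedBall)

theorem isPrim_Dr (h : IsQM U lam u K) (hx : closedBall x R ⊆ U) {s t : ℝ} (hs : 0 ≤ s)
    (hst : s ≤ t) (ht : t ≤ R) : IsPrim s t (fun r => Dr u K x r) (cirE u x) := by
  have hR : 0 ≤ R := hs.trans (hst.trans ht)
  refine ⟨(intervalIntegrable_cirE h hx hR).mono_set ?_, fun r hr => ?_⟩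
  · rw [uIcc_of_le hst, uIcc_of_le hR]
    exact Icc_subset_Icc hs ht
  · have := Dr_sub h hx hs hr.1 (hr.2.trans ht)
    linarith

theorem ae_hasDerivAt_Dr (h : IsQM U lam u K) (hx : closedBall x R ⊆ U) (hR : 0 ≤ R) :
    ∀ᵐ t : ℝ, t ∈ Ioo 0 R → HasDerivAt (fun s => Dr u K x s) (cirE u x t) t := by
  have h1 := ae_hasDerivAt_ball x hR
    ((integrableOn_normsq h hx).mono_set ball_subset_closedBall)
  rw [ae_restrict_iff' measurableSet_Ioo] at h1
  filter_upwards [h1] with t ht htm
  refine (ht htm).congr_of_eventuallyEq ?_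
  filter_upwards [Iio_mem_nhds htm.2] with s hs
  exact Dr_eq h hx (le_of_lt hs)

theorem continuousOn_Dr (h : IsQM U lam u K) (hx : closedBall x R ⊆ U) (hR : 0 ≤ R) :
    ContinuousOn (fun s => Dr u K x s) (Icc 0 R) :=
  (isPrim_Dr h hx le_rfl hR le_rfl).continuousOn hR

/-! ### truncation -/

/-- truncation at level `M` -/
noncomputable def trunc (M v : ℝ) : ℝ := max (-M) (min M v)

theorem lipschitz_trunc (M : ℝ) : LipschitzWith 1 (trunc M) := by
  have h1 : LipschitzWith 1 (fun v : ℝ => v) := LipschitzWith.id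
  exact (h1.const_min M).const_max (-M)

theorem abs_trunc_le {M : ℝ} (hM : 0 ≤ M) (v : ℝ) : |trunc M v| ≤ M := by
  unfold trunc
  rw [abs_le]
  refine ⟨le_max_left _ _, max_le (by linarith) (min_le_left _ _)⟩

theorem trunc_of_abs_le {M v : ℝ} (hv : |v| ≤ M) : trunc M v = v := by
  unfold trunc
  rw [abs_le] at hv
  rw [min_eq_right hv.2, max_eq_right hv.1]

theorem trunc_of_ge {M v : ℝ} (hM : 0 ≤ M) (hv : M ≤ v) : trunc M v = M := by
  unfold trunc
  rw [min_eq_left hv, max_eq_right (by linarith)]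

theorem trunc_of_le {M v : ℝ} (hM : 0 ≤ M) (hv : v ≤ -M) : trunc M v = -M := by
  unfold trunc
  rw [min_eq_right (by linarith), max_eq_left hv]

/-- truncated test function `T_M (u - c)` -/
noncomputable def tru (M : ℝ) (u c : E2 → ℝ) (y : E2) : ℝ := trunc M (u y - c y)

theorem gradient_sub_locConst (h : IsQM U lam u K) (hc : LocConstOn (U \ K) c) {y : E2}
    (hy : y ∈ U \ K) : HasGradientAt (fun z => u z - c z) (gradient u y) y := by
  have h1 := hasGradientAt h hy
  have h2 : (fun z => u z - c z) =ᶠ[𝓝 y] fun z => u z - c y := by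
    filter_upwards [hc y hy] with z hz
    rw [hz]
  rw [hasGradientAt_iff_hasFDerivAt] at h1 ⊢
  exact (h1.sub_const (c y)).congr_of_eventuallyEq h2

theorem gradient_tru (h : IsQM U lam u K) (hc : LocConstOn (U \ K) c) {M : ℝ} (hM : 0 ≤ M)
    {y : E2} (hy : y ∈ U \ K) :
    gradient (tru M u c) y = {z | |u z - c z| < M}.indicator (fun z => gradient u z) y := by
  have h1 := gradient_sub_locConst h hc hy
  have hcont : ContinuousAt (fun z => u z - c z) y := h1.hasFDerivAt.continuousAt
  by_cases hlt : |u y - c y| < M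
  · rw [indicator_of_mem (show y ∈ {z | |u z - c z| < M} from hlt)]
    have h2 : tru M u c =ᶠ[𝓝 y] fun z => u z - c z := by
      have h3 := hcont.abs.eventually (Iio_mem_nhds hlt)
      filter_upwards [h3] with z hz
      exact trunc_of_abs_le (le_of_lt hz)
    rw [gradient_congr h2]
    exact h1.gradient
  · rw [indicator_of_notMem (show y ∉ {z | |u z - c z| < M} from hlt)]
    push Not at hlt
    have h4 : fderiv ℝ (tru M u c) y = 0 := by
      rcases le_abs.1 hlt with h5 | h5
      · apply IsLocalMax.fderiv_eq_zero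
        refine Eventually.of_forall fun z => ?_
        have : tru M u c y = M := trunc_of_ge hM h5
        rw [this]
        exact (abs_le.1 (abs_trunc_le hM _)).2
      · apply IsLocalMin.fderiv_eq_zero
        refine Eventually.of_forall fun z => ?_
        have : tru M u c y = -M := trunc_of_le hM (by linarith)
        rw [this]
        exact (abs_le.1 (abs_trunc_le hM _)).1
    unfold gradient
    rw [h4, map_zero]

theorem isJump_tru (h : IsQM U lam u K) (hx : closedBall x R ⊆ U) (hc : LocConstOn (U \ K) c)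
    {M : ℝ} (hM : 0 ≤ M) : IsJump U K x R (tru M u c) := by
  refine ⟨?_, ⟨M, fun y _ => abs_trunc_le hM _⟩, ?_⟩
  · exact locLip_comp ((locLip h).sub (locLip_of_locConst hc)) (lipschitz_trunc M)
  · refine lt_of_le_of_lt ?_ (h.dir_fin x R hx)
    unfold dirE
    refine setLIntegral_mono' (measurableSet_closedBall.diff (measurableSet_K h)) fun y hy => ?_
    rw [gradient_tru h hc hM ⟨hx hy.1, hy.2⟩]
    gcongr
    rw [enorm_indicator_eq_indicator_enorm]
    exact indicator_le_self _ _ _

theorem isJump_one : IsJump U K x R (fun _ => 1) := by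
  refine ⟨fun y _ => ⟨0, univ, univ_mem, ?_⟩, ⟨1, fun y _ => by simp⟩, ?_⟩
  · intro a _ b _; simp
  · unfold dirE
    simp

/-- total flux through almost every circle -/
theorem total_flux (h : IsQM U lam u K) (hf : IsEL U lam u K f) (hR : 0 ≤ R)
    (hx : closedBall x R ⊆ U) :
    ∀ᵐ t : ℝ, t ∈ Ioo 0 R →
      t * (∫ θ in (-Real.pi)..Real.pi, ⟪gradient u (cpt x t θ), dir θ⟫) = ∫ y in ball x t, f y := by
  filter_upwards [circle_identity h hf hR hx isJump_one] with t ht htm
  have := ht htm
  simp only [one_mul, mul_one] at this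
  have h0 : ∀ y : E2, gradient (fun _ : E2 => (1:ℝ)) y = 0 := fun y => by simp
  simp only [h0, inner_zero_right, integral_zero] at this
  linarith

/-- `u - c` is bounded on a good circle off the crack -/
theorem exists_bound_circle (h : IsQM U lam u K) (hx : closedBall x R ⊆ U)
    (hc : LocConstOn (U \ K) c) {t : ℝ} (ht : t ≤ R)
    (hg : GoodCirc K (fun y => gradient u y) x t) :
    ∃ M : ℝ, 0 ≤ M ∧ ∀ y ∈ sphere x t \ K, |u y - c y| ≤ M := by
  obtain ⟨M, hM⟩ := hg.exists_bound (u := fun y => u y - c y) (fun y hy =>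
    gradient_sub_locConst h hc ⟨hx ((mem_sphere.1 hy.1).le.trans ht), hy.2⟩)
  exact ⟨|M|, abs_nonneg _, fun y hy => (hM y hy).trans (le_abs_self M)⟩

theorem ae_notMem_K {t : ℝ} (hg : GoodCirc K (fun y => gradient u y) x t) :
    ∀ᵐ θ ∂(volume.restrict (uIoc (-Real.pi) Real.pi)), cpt x t θ ∉ K := by
  have h1 := finite_angles_Icc (K := K) (x := x) hg.pos (-Real.pi) hg.fin
  have h2 : ∀ᵐ θ : ℝ, θ ∉ {θ ∈ Icc (-Real.pi) (-Real.pi + 2 * Real.pi) | cpt x t θ ∈ K} :=
    measure_eq_zero_iff_ae_notMem.1 (h1.measure_zero volume)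
  rw [uIoc_of_le (by linarith [Real.pi_pos]), ae_restrict_iff' measurableSet_Ioc]
  filter_upwards [h2] with θ hθ hm hK
  exact hθ ⟨⟨hm.1.le, by linarith [hm.2]⟩, hK⟩

/-- **Energy identity** at level `lam` (general form: truncations). -/
theorem energy_trunc (h : IsQM U lam u K) (hf : IsEL U lam u K f) (hR : 0 ≤ R)
    (hx : closedBall x R ⊆ U) (hc : LocConstOn (U \ K) c) :
    ∀ᵐ t : ℝ, t ∈ Ioo 0 R →
      Tendsto (fun n : ℕ => ∫ y in ball x t, f y * tru n u c y) atTop
        (𝓝 (t * (∫ θ in (-Real.pi)..Real.pi,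
          (u (cpt x t θ) - c (cpt x t θ)) * ⟪gradient u (cpt x t θ), dir θ⟫)
          - Dr u K x t)) := by
  have h1 : ∀ n : ℕ, ∀ᵐ t : ℝ, t ∈ Ioo 0 R →
      ∫ y in ball x t, ⟪gradient u y, gradient (tru n u c) y⟫
        = t * (∫ θ in (-Real.pi)..Real.pi,
            tru n u c (cpt x t θ) * ⟪gradient u (cpt x t θ), dir θ⟫)
          - ∫ y in ball x t, f y * tru n u c y := fun n =>
    circle_identity h hf hR hx (isJump_tru h hx hc (Nat.cast_nonneg n))
  filter_upwards [ae_all_iff.2 h1, ae_goodCirc_qm h hx] with t ht hg htm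
  have hsub : ball x t ⊆ closedBall x R :=
    (ball_subset_ball htm.2.le).trans ball_subset_closedBall
  obtain ⟨M, hM0, hM⟩ := exists_bound_circle h hx hc htm.2.le (hg htm)
  -- circle terms are eventually constant
  have e1 : ∀ᶠ n : ℕ in atTop,
      t * (∫ θ in (-Real.pi)..Real.pi,
          (u (cpt x t θ) - c (cpt x t θ)) * ⟪gradient u (cpt x t θ), dir θ⟫)
        = t * (∫ θ in (-Real.pi)..Real.pi,
            tru n u c (cpt x t θ) * ⟪gradient u (cpt x t θ), dir θ⟫) := by
    obtain ⟨N, hN⟩ := exists_nat_ge M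
    filter_upwards [eventually_ge_atTop N] with n hn
    congr 1
    refine intervalIntegral.integral_congr_ae_restrict ?_
    filter_upwards [ae_notMem_K (hg htm)] with θ hθ
    have h2 : |u (cpt x t θ) - c (cpt x t θ)| ≤ (n:ℝ) := by
      refine (hM _ ⟨cpt_mem_sphere htm.1.le, hθ⟩).trans (hN.trans ?_)
      exact_mod_cast hn
    rw [tru, trunc_of_abs_le h2]
  -- interior terms converge
  have e2 : Tendsto (fun n : ℕ => ∫ y in ball x t, ⟪gradient u y, gradient (tru n u c) y⟫) atTop
      (𝓝 (Dr u K x t)) := by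
    rw [Dr_eq h hx htm.2.le, ← restrict_off h hx hsub]
    refine tendsto_integral_of_dominated_convergence (fun y => ‖gradient u y‖ ^ 2) ?_ ?_ ?_ ?_
    · intro n
      exact ((measurable_gradient u).inner (measurable_gradient (tru n u c))).aestronglyMeasurable
    · rw [restrict_off h hx hsub]
      exact (integrableOn_normsq h hx).mono_set hsub
    · intro n
      rw [ae_restrict_iff' (measurableSet_ball.diff (measurableSet_K h))]
      refine Eventually.of_forall fun y hy => ?_
      rw [gradient_tru h hc (Nat.cast_nonneg n) ⟨hx (hsub hy.1), hy.2⟩]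
      refine (norm_inner_le_norm _ _).trans ?_
      have := norm_indicator_le_norm_self (s := {z | |u z - c z| < (n:ℝ)})
        (f := fun z => gradient u z) (a := y)
      nlinarith [norm_nonneg (gradient u y)]
    · rw [ae_restrict_iff' (measurableSet_ball.diff (measurableSet_K h))]
      refine Eventually.of_forall fun y hy => ?_
      obtain ⟨N, hN⟩ := exists_nat_gt (|u y - c y|)
      refine tendsto_const_nhds.congr' ?_
      filter_upwards [eventually_ge_atTop N] with n hn
      rw [gradient_tru h hc (Nat.cast_nonneg n) ⟨hx (hsub hy.1), hy.2⟩,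
        indicator_of_mem (show y ∈ {z | |u z - c z| < (n:ℝ)} from
          lt_of_lt_of_le hN (by exact_mod_cast hn)), real_inner_self_eq_norm_sq]
  have e3 := (tendsto_const_nhds (x := t * (∫ θ in (-Real.pi)..Real.pi,
          (u (cpt x t θ) - c (cpt x t θ)) * ⟪gradient u (cpt x t θ), dir θ⟫))
          (f := (atTop : Filter ℕ))).sub e2
  refine e3.congr' ?_
  filter_upwards [e1] with n hn
  rw [hn, ht n htm]
  ring

/-- **Energy identity** for `u - c` bounded in the ball. -/
theorem energy_identity_bdd (h : IsQM U lam u K) (hf : IsEL U lam u K f) (hR : 0 ≤ R)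
    (hx : closedBall x R ⊆ U) (hc : LocConstOn (U \ K) c) :
    ∀ᵐ t : ℝ, t ∈ Ioo 0 R → ∀ M : ℝ, (∀ y ∈ ball x t \ K, |u y - c y| ≤ M) →
      Dr u K x t = t * (∫ θ in (-Real.pi)..Real.pi,
          (u (cpt x t θ) - c (cpt x t θ)) * ⟪gradient u (cpt x t θ), dir θ⟫)
        - ∫ y in ball x t, f y * (u y - c y) := by
  filter_upwards [energy_trunc h hf hR hx hc] with t ht htm M hM
  have hsub : ball x t ⊆ closedBall x R :=
    (ball_subset_ball htm.2.le).trans ball_subset_closedBall
  obtain ⟨N, hN⟩ := exists_nat_ge M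
  have h1 : Tendsto (fun n : ℕ => ∫ y in ball x t, f y * tru n u c y) atTop
      (𝓝 (∫ y in ball x t, f y * (u y - c y))) := by
    refine tendsto_const_nhds.congr' ?_
    filter_upwards [eventually_ge_atTop N] with n hn
    rw [← restrict_off h hx hsub]
    refine setIntegral_congr_fun (measurableSet_ball.diff (measurableSet_K h)) ?_
    intro y hy
    have h2 : |u y - c y| ≤ (n:ℝ) := (hM y hy).trans (hN.trans (by exact_mod_cast hn))
    simp only [tru, trunc_of_abs_le h2]
  have := tendsto_nhds_unique h1 (ht htm)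
  linarith

/-- **Energy identity**, `lam = 0`. -/
theorem energy_identity_zero (h : IsQM U 0 u K) (hR : 0 ≤ R)
    (hx : closedBall x R ⊆ U) (hc : LocConstOn (U \ K) c) :
    ∀ᵐ t : ℝ, t ∈ Ioo 0 R →
      Dr u K x t = t * (∫ θ in (-Real.pi)..Real.pi,
          (u (cpt x t θ) - c (cpt x t θ)) * ⟪gradient u (cpt x t θ), dir θ⟫) := by
  obtain ⟨f, hf⟩ := exists_EL h
  filter_upwards [energy_trunc h hf hR hx hc] with t ht htm
  have h0 : ∀ y, f y = 0 := fun y => abs_nonpos_iff.1 (hf.bdd y)
  have h1 := ht htm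
  simp only [h0, zero_mul, integral_zero] at h1
  have := tendsto_nhds_unique tendsto_const_nhds h1
  linarith

/-- the error term of the energy identity -/
theorem abs_rhs_le (h : IsQM U lam u K) (hf : IsEL U lam u K f) (hx : closedBall x R ⊆ U)
    {t M : ℝ} (ht0 : 0 ≤ t) (ht : t ≤ R) {v : E2 → ℝ} (hM : ∀ y ∈ ball x t \ K, |v y| ≤ M) :
    |∫ y in ball x t, f y * v y| ≤ lam * M * Real.pi * t ^ 2 := by
  have hsub : ball x t ⊆ closedBall x R := (ball_subset_ball ht).trans ball_subset_closedBall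
  have hvol : volume (ball x t) = ENNReal.ofReal (Real.pi * t ^ 2) := by
    rw [EuclideanSpace.volume_ball_fin_two]
    rw [← ENNReal.ofReal_pow ht0, ← ENNReal.ofReal_mul (by positivity), mul_comm]
  have h1 : ∀ᵐ y ∂(volume.restrict (ball x t)), ‖f y * v y‖ ≤ lam * M := by
    rw [← restrict_off h hx hsub, ae_restrict_iff' (measurableSet_ball.diff (measurableSet_K h))]
    refine Eventually.of_forall fun y hy => ?_
    rw [Real.norm_eq_abs, abs_mul]
    exact mul_le_mul (hf.bdd y) (hM y hy) (abs_nonneg _) h.lam_nonneg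
  have h2 := norm_setIntegral_le_of_norm_le_const_ae (s := ball x t) (f := fun y => f y * v y)
    (C := lam * M) measure_ball_lt_top h1
  rw [Real.norm_eq_abs] at h2
  refine h2.trans ?_
  rw [measureReal_def, hvol, ENNReal.toReal_ofReal (by positivity)]
  apply le_of_eq; ring

end Crest.Agent.R135.QMC
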