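import Crest.Agent.R135.IFDefs
import Crest.Agent.R135.QMCirc5

/-! INTERFACE B4: circles. Energy identity and Bonnet inequality. (Proofs: helper980, QMCirc*.lean.) -/

set_option autoImplicit false

open MeasureTheory Set Filter Topology Metric
open scoped ENNReal NNReal ContDiff Gradient
open Crest.AnalysisR.PDE.OnePhase Crest.AnalysisR.PDE.MumfordShah

namespace Crest.Agent.R135

/-- almost every circle is good -/
theorem IsQM.ae_circle {U : Set E2} {lam : ℝ} {u : E2 → ℝ} {K : Set E2} (h : IsQM U lam u K)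
    {x : E2} {R : ℝ} (hR : closedBall x R ⊆ U) :
    ∀ᵐ r ∂(volume.restrict (Ioo 0 R)), (K ∩ sphere x r).Finite ∧
      IntegrableOn (fun θ => ‖gradient u (cpt x r θ)‖ ^ 2) (Ioo (-Real.pi) Real.pi) ∧
      HasDerivAt (fun s => Dr u K x s) (cirE u x r) r := by
  rw [ae_restrict_iff' measurableSet_Ioo]
  rcases le_or_gt 0 R with hR0 | hR0
  · filter_upwards [QMC.ae_goodCirc_qm h hR, QMC.ae_hasDerivAt_Dr h hR hR0] with t h1 h2 htm
    exact ⟨(h1 htm).fin, (h1 htm).int, h2 htm⟩
  · refine Eventually.of_forall fun t ht => ?_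
    exact absurd (ht.1.trans ht.2) (by linarith)

/-- a property of almost every radius in every bounded window -/
theorem QMC.ae_Ioi {P : ℝ → Prop} (h : ∀ n : ℕ, ∀ᵐ t : ℝ, t ∈ Ioo 0 (n : ℝ) → P t) :
    ∀ᵐ t ∂(volume.restrict (Ioi (0 : ℝ))), P t := by
  rw [ae_restrict_iff' measurableSet_Ioi]
  filter_upwards [ae_all_iff.2 h] with t ht ht0
  obtain ⟨n, hn⟩ := exists_nat_gt t
  exact ht n ⟨ht0, hn⟩

/-- energy identity, global minimizers -/
theorem energy_identity {u : E2 → ℝ} {K : Set E2} (h : IsQM univ 0 u K) (x : E2) :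
    ∀ᵐ r ∂(volume.restrict (Ioi (0 : ℝ))),
      Dr u K x r = r * ∫ θ in (-Real.pi)..Real.pi,
        u (cpt x r θ) * inner ℝ (gradient u (cpt x r θ)) (dir θ) := by
  refine QMC.ae_Ioi fun n => ?_
  have hc : LocConstOn (univ \ K) (fun _ : E2 => (0:ℝ)) := fun y _ => Eventually.of_forall fun _ => rfl
  filter_upwards [QMC.energy_identity_zero h (Nat.cast_nonneg n) (x := x) (subset_univ _) hc]
    with t ht htm
  simpa using ht htm

/-- Bonnet inequality, global minimizers, circle meeting `K`, arcs with zero flux -/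
theorem bonnet_arc {u : E2 → ℝ} {K : Set E2} (h : IsQM univ 0 u K) (x : E2) :
    ∀ᵐ r ∂(volume.restrict (Ioi (0 : ℝ))), (K ∩ sphere x r).Nonempty →
      (∀ a b, IsArc K x r a b → flux u x r a b = 0) →
      ∀ A : ℝ, (∀ a b, IsArc K x r a b → b - a ≤ A) →
        Dr u K x r ≤ A / (2 * Real.pi) * (r * cirE u x r) := by
  refine QMC.ae_Ioi fun n => ?_
  have hc : LocConstOn (univ \ K) (fun _ : E2 => (0:ℝ)) := fun y _ => Eventually.of_forall fun _ => rfl
  have hu : closedBall x (n:ℝ) ⊆ (univ : Set E2) := subset_univ _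
  filter_upwards [QMC.energy_identity_zero h (Nat.cast_nonneg n) hu hc,
    QMC.ae_goodCirc_qm h hu] with t ht hg htm hne hfl A hA
  obtain ⟨M, hM0, hM⟩ := QMC.exists_bound_circle h hu hc htm.2.le (hg htm)
  simp only [sub_zero] at ht hM
  rw [ht htm]
  have := QMC.circle_bound (hg htm) hne (v := u)
    (fun y hy => QMC.hasGradientAt h ⟨trivial, hy.2⟩) (M := M) (δ := 0) hM
    (fun a b hab => by
      have := hfl a b hab
      rw [flux] at this
      rw [this, abs_zero]) hA
  refine this.trans (le_of_eq ?_)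
  rw [cirE]
  ring

/-- Bonnet inequality, circle which does not meet `K` -/
theorem bonnet_empty {u : E2 → ℝ} {K : Set E2} (h : IsQM univ 0 u K) (x : E2) :
    ∀ᵐ r ∂(volume.restrict (Ioi (0 : ℝ))), K ∩ sphere x r = ∅ →
        Dr u K x r ≤ 1 / 2 * (r * cirE u x r) := by
  refine QMC.ae_Ioi fun n => ?_
  have hc : LocConstOn (univ \ K) (fun _ : E2 => (0:ℝ)) := fun y _ => Eventually.of_forall fun _ => rfl
  have hu : closedBall x (n:ℝ) ⊆ (univ : Set E2) := subset_univ _
  obtain ⟨f, hf⟩ := QMC.exists_EL h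
  filter_upwards [QMC.energy_identity_zero h (Nat.cast_nonneg n) hu hc,
    QMC.total_flux h hf (Nat.cast_nonneg n) hu] with t ht hfl htm he
  simp only [sub_zero] at ht
  rw [ht htm]
  have h0 : ∀ y, f y = 0 := fun y => abs_nonpos_iff.1 (hf.bdd y)
  have hfl' := hfl htm
  simp only [h0, integral_zero] at hfl'
  refine (QMC.circle_bound_empty h hu htm.1 htm.2.le he hfl').trans (le_of_eq ?_)
  rw [cirE]
  ring

/-- Bonnet inequality with errors, bounded `u` -/
theorem bonnet_err {U : Set E2} {lam M : ℝ} {u : E2 → ℝ} {K : Set E2} (h : IsQM U lam u K)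
    (hM : ∀ y ∈ U \ K, |u y| ≤ M) {x : E2} {R : ℝ} (hR : closedBall x R ⊆ U) :
    ∀ᵐ r ∂(volume.restrict (Ioo 0 R)), (K ∩ sphere x r).Nonempty →
      ∀ δ : ℝ, (∀ a b, IsArc K x r a b → |flux u x r a b| ≤ δ) →
      ∀ A : ℝ, (∀ a b, IsArc K x r a b → b - a ≤ A) →
        Dr u K x r ≤ A / (2 * Real.pi) * (r * cirE u x r)
          + M * δ * (K ∩ sphere x r).ncard + lam * M * Real.pi * r ^ 2 := by
  rw [ae_restrict_iff' measurableSet_Ioo]
  rcases le_or_gt 0 R with hR0 | hR0
  · have hc : LocConstOn (U \ K) (fun _ : E2 => (0:ℝ)) := fun y _ => Eventually.of_forall fun _ => rfl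
    obtain ⟨f, hf⟩ := QMC.exists_EL h
    filter_upwards [QMC.energy_identity_bdd h hf hR0 hR hc, QMC.ae_goodCirc_qm h hR]
      with t ht hg htm hne δ hδ A hA
    have hsub : closedBall x t ⊆ U := (closedBall_subset_closedBall htm.2.le).trans hR
    have hMb : ∀ y ∈ ball x t \ K, |u y| ≤ M :=
      fun y hy => hM y ⟨hsub (ball_subset_closedBall hy.1), hy.2⟩
    have hMs : ∀ y ∈ sphere x t \ K, |u y| ≤ M :=
      fun y hy => hM y ⟨hsub (sphere_subset_closedBall hy.1), hy.2⟩
    simp only [sub_zero] at ht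
    rw [ht htm M hMb]
    have h1 := QMC.circle_bound (hg htm) hne (v := u)
      (fun y hy => QMC.hasGradientAt h ⟨hsub (sphere_subset_closedBall hy.1), hy.2⟩)
      (M := M) (δ := δ) hMs (fun a b hab => hδ a b hab) hA
    have h2 := QMC.abs_rhs_le h hf hR htm.1.le htm.2.le hMb
    have h3 : t ^ 2 * circI (fun y => ‖gradient u y‖ ^ 2) x t = t * cirE u x t := by
      rw [cirE]; ring
    rw [h3] at h1
    have h4 := (abs_le.1 h2).1
    linarith
  · refine Eventually.of_forall fun t ht => ?_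
    exact absurd (ht.1.trans ht.2) (by linarith)

end Crest.Agent.R135
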