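import Crest.Agent.R135.Wirt
import Crest.Agent.R135.IF_B4

/-!
# R135: monotonicity of `D(r)/r` (helper898)
-/

set_option autoImplicit false

open MeasureTheory Set Filter Topology Metric
open scoped Real ENNReal NNReal ContDiff Gradient

noncomputable section

namespace Crest.Agent.R135

/-- One dimensional lemma: `D = ∫ E`, `D ≤ t E` a.e. implies that `D(t)/t` is nondecreasing. -/
theorem mono_div_of_ineq {D E : ℝ → ℝ} (hi : ∀ r, 0 ≤ r → IntervalIntegrable E volume 0 r)
    (hD : ∀ r, 0 ≤ r → D r = ∫ t in (0:ℝ)..r, E t)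
    (hae : ∀ᵐ t ∂(volume.restrict (Ioi (0:ℝ))), D t ≤ t * E t) :
    MonotoneOn (fun r => D r / r) (Ioi 0) := by
  intro r1 h1 r2 h2 h12
  have h1' : (0:ℝ) < r1 := h1
  have h2' : (0:ℝ) < r2 := h2
  have hii : ∀ a b, 0 ≤ a → 0 ≤ b → IntervalIntegrable E volume a b := fun a b ha hb =>
    (hi a ha).symm.trans (hi b hb)
  have hP : IsPrim r1 r2 D E := by
    refine ⟨hii r1 r2 h1'.le h2'.le, fun t ht => ?_⟩
    have ht0 : 0 ≤ t := h1'.le.trans ht.1
    rw [hD t ht0, hD r1 h1'.le,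
      intervalIntegral.integral_add_adjacent_intervals (hi r1 h1'.le) (hii r1 t h1'.le ht0)]
  have hQ : IsPrim r1 r2 (fun t => t⁻¹) (fun t => -(t^2)⁻¹) := by
    apply isPrim_of_hasDerivAt h12
    · intro t ht
      have ht0 : t ≠ 0 := (lt_of_lt_of_le h1' ht.1).ne'
      exact hasDerivAt_inv ht0
    · intro t ht
      have ht0 : t ≠ 0 := (lt_of_lt_of_le h1' ht.1).ne'
      exact (ContinuousAt.neg (ContinuousAt.inv₀ (by fun_prop) (by positivity))).continuousWithinAt
  have ib := hP.ibp h12 hQ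
  have hDc := hP.continuousOn h12
  have hcQ1 : ContinuousOn (fun t : ℝ => -(t^2)⁻¹) (Icc r1 r2) := by
    intro t ht
    have ht0 : t ≠ 0 := (lt_of_lt_of_le h1' ht.1).ne'
    exact (ContinuousAt.neg (ContinuousAt.inv₀ (by fun_prop) (by positivity))).continuousWithinAt
  have hcQ : ContinuousOn (fun t : ℝ => t⁻¹) (uIcc r1 r2) := by
    rw [uIcc_of_le h12]
    intro t ht
    have ht0 : t ≠ 0 := (lt_of_lt_of_le h1' ht.1).ne'
    exact (ContinuousAt.inv₀ (by fun_prop) ht0).continuousWithinAt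
  have i1 : IntervalIntegrable (fun t => -(t^2)⁻¹ * D t) volume r1 r2 := by
    apply ContinuousOn.intervalIntegrable
    rw [uIcc_of_le h12]
    exact hcQ1.mul hDc
  have i2 : IntervalIntegrable (fun t => t⁻¹ * E t) volume r1 r2 :=
    (hii r1 r2 h1'.le h2'.le).continuousOn_mul hcQ
  have key : D r2 / r2 - D r1 / r1 = ∫ t in r1..r2, (-(t^2)⁻¹ * D t + t⁻¹ * E t) := by
    rw [intervalIntegral.integral_add i1 i2]
    have : D r2 / r2 - D r1 / r1 = r2⁻¹ * D r2 - r1⁻¹ * D r1 := by ring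
    rw [this]
    linarith
  have hnn : 0 ≤ ∫ t in r1..r2, (-(t^2)⁻¹ * D t + t⁻¹ * E t) := by
    apply intervalIntegral.integral_nonneg_of_ae_restrict h12
    have hsub : Icc r1 r2 ⊆ Ioi 0 := fun t ht => lt_of_lt_of_le h1' ht.1
    have := ae_restrict_of_ae_restrict_of_subset hsub hae
    filter_upwards [this, ae_restrict_mem measurableSet_Icc] with t ht htm
    have ht0 : 0 < t := hsub htm
    have e : -(t^2)⁻¹ * D t + t⁻¹ * E t = (t^2)⁻¹ * (t * E t - D t) := by
      field_simp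
      ring
    rw [Pi.zero_apply, e]
    exact mul_nonneg (by positivity) (by linarith)
  show D r1 / r1 ≤ D r2 / r2
  linarith

end Crest.Agent.R135
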