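import Crest.Agent.R135.PolarG
import Crest.Agent.R135.BonEq1
import Crest.Agent.R135.BonMono

/-!
# R135: cone theorem, step 1: profile on almost every circle (helper898)
-/

set_option autoImplicit false

open MeasureTheory Set Filter Topology Metric
open scoped Real ENNReal NNReal ContDiff Gradient

noncomputable section

namespace Crest.Agent.R135

namespace Bon

/-- profile of `u` on the circle `∂B_r(x)` with crack angle `θ₀`. -/
structure Prof (e : ℝ) (u : E2 → ℝ) (K : Set E2) (x : E2) (r θ₀ m a : ℝ) : Prop where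
  crack : K ∩ sphere x r = {cpt x r θ₀}
  amp : a ^ 2 = 2 * e * r / π
  val : ∀ θ ∈ Ioo θ₀ (θ₀ + 2 * π), u (cpt x r θ) = m + a * Real.cos ((θ - θ₀) / 2)
  tan : ∀ θ ∈ Ioo θ₀ (θ₀ + 2 * π), r * inner ℝ (gradient u (cpt x r θ)) (tau θ)
    = -(a/2) * Real.sin ((θ - θ₀) / 2)
  rad : ∀ θ ∈ Ioo θ₀ (θ₀ + 2 * π), r * inner ℝ (gradient u (cpt x r θ)) (dir θ)
    = (a/2) * Real.cos ((θ - θ₀) / 2)

lemma dir_shift (θ : ℝ) (n : ℤ) : dir (θ + 2 * π * n) = dir θ :=
  dir_eq_dir_iff.2 ⟨n, by ring⟩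

lemma cpt_shift (x : E2) (r θ : ℝ) (n : ℤ) : cpt x r (θ + 2 * π * n) = cpt x r θ := by
  simp only [cpt, dir_shift]

lemma tau_shift (θ : ℝ) (n : ℤ) : tau (θ + 2 * π * n) = tau θ := by
  have h1 : Real.sin (θ + 2 * π * n) = Real.sin θ := by
    have := Real.sin_add_int_mul_two_pi θ n
    rw [← this]; congr 1; ring
  have h2 : Real.cos (θ + 2 * π * n) = Real.cos θ := by
    have := Real.cos_add_int_mul_two_pi θ n
    rw [← this]; congr 1; ring
  simp only [tau, h1, h2]

theorem Prof.shift {e : ℝ} {u : E2 → ℝ} {K : Set E2} {x : E2} {r θ₀ m a : ℝ}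
    (h : Prof e u K x r θ₀ m a) (n : ℤ) :
    Prof e u K x r (θ₀ + 2 * π * n) m a := by
  have key : ∀ θ ∈ Ioo (θ₀ + 2 * π * n) (θ₀ + 2 * π * n + 2 * π),
      ∃ θ' ∈ Ioo θ₀ (θ₀ + 2 * π), θ = θ' + 2 * π * n := by
    intro θ hθ
    exact ⟨θ - 2 * π * n, ⟨by linarith [hθ.1], by linarith [hθ.2]⟩, by ring⟩
  have hc : ∀ θ' : ℝ, (θ' + 2 * π * n - (θ₀ + 2 * π * n)) / 2
      = (θ' - θ₀) / 2 := fun θ' => by ring
  refine ⟨?_, h.amp, ?_, ?_, ?_⟩
  · rw [cpt_shift]; exact h.crack
  · intro θ hθ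
    obtain ⟨θ', h', rfl⟩ := key θ hθ
    rw [cpt_shift, hc]; exact h.val θ' h'
  · intro θ hθ
    obtain ⟨θ', h', rfl⟩ := key θ hθ
    rw [cpt_shift, tau_shift, hc]; exact h.tan θ' h'
  · intro θ hθ
    obtain ⟨θ', h', rfl⟩ := key θ hθ
    rw [cpt_shift, dir_shift, hc]; exact h.rad θ' h'

/-- the crack angle can be chosen with a given non-crack angle in the window -/
theorem Prof.window {e : ℝ} {u : E2 → ℝ} {K : Set E2} {x : E2} {r θ₀ m a : ℝ}
    (h : Prof e u K x r θ₀ m a) {θ : ℝ} (hθ : cpt x r θ ∉ K) :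
    ∃ n : ℤ, θ ∈ Ioo (θ₀ + 2 * π * n) (θ₀ + 2 * π * n + 2 * π) := by
  have hpi := Real.two_pi_pos
  refine ⟨⌊(θ - θ₀) / (2 * π)⌋, ?_, ?_⟩
  · have h1 := Int.floor_le ((θ - θ₀) / (2 * π))
    rw [le_div_iff₀ hpi] at h1
    rcases h1.lt_or_eq with h2 | h2
    · linarith
    · exfalso
      apply hθ
      have : θ = θ₀ + 2 * π * (⌊(θ - θ₀) / (2 * π)⌋ : ℤ) := by linarith
      rw [this, cpt_shift]
      have : cpt x r θ₀ ∈ K ∩ sphere x r := by rw [h.crack]; rfl
      exact this.1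
  · have h1 := Int.lt_floor_add_one ((θ - θ₀) / (2 * π))
    rw [div_lt_iff₀ hpi] at h1
    linarith

/-- gradient of the class function off `K` -/
lemma hasGradientAt {U : Set E2} {lam : ℝ} {u : E2 → ℝ} {K : Set E2} (h : IsQM U lam u K)
    (hUK : IsOpen (U \ K)) {y : E2} (hy : y ∈ U \ K) : HasGradientAt u (gradient u y) y := by
  have h1 : DifferentiableAt ℝ u y :=
    (h.c1.contDiffAt (hUK.mem_nhds hy)).differentiableAt (by simp)
  exact h1.hasGradientAt

lemma isOpen_compl_of_isQM {lam : ℝ} {u : E2 → ℝ} {K : Set E2} (h : IsQM univ lam u K) :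
    IsClosed K := by
  have := h.closed
  rw [inter_univ] at this
  exact isClosed_of_closure_subset this

lemma hasGradientAt_univ {lam : ℝ} {u : E2 → ℝ} {K : Set E2} (h : IsQM univ lam u K)
    {y : E2} (hy : y ∉ K) : HasGradientAt u (gradient u y) y :=
  hasGradientAt h (by
    rw [← compl_eq_univ_sdiff]; exact (isOpen_compl_of_isQM h).isOpen_compl) ⟨mem_univ _, hy⟩

lemma continuousOn_gradient {lam : ℝ} {u : E2 → ℝ} {K : Set E2} (h : IsQM univ lam u K) :
    ContinuousOn (gradient u) Kᶜ := by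
  have h1 : ContDiffOn ℝ 1 u Kᶜ := by rw [compl_eq_univ_sdiff]; exact h.c1
  have ho : IsOpen Kᶜ := (isOpen_compl_of_isQM h).isOpen_compl
  have h2 := h1.continuousOn_fderiv_of_isOpen ho le_rfl
  exact (InnerProductSpace.toDual ℝ E2).symm.continuous.comp_continuousOn h2

/-- almost every circle carries an `L²` gradient -/
theorem ae_good {u : E2 → ℝ} {K : Set E2} (h : IsQM univ 0 u K) (x : E2) :
    ∀ᵐ r ∂(volume.restrict (Ioi (0:ℝ))), GoodCirc K (gradient u) x r := by
  have hR : ∀ n : ℕ, ∀ᵐ t : ℝ, t ∈ Ioo 0 (n:ℝ) → GoodCirc K (gradient u) x t := by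
    intro n
    apply ae_goodCirc'
    · exact (measure_mono (inter_subset_inter_right _ ball_subset_closedBall)).trans_lt
        (h.len_fin x n (subset_univ _))
    · have h1 := (continuousOn_gradient h).aestronglyMeasurable (μ := volume)
        (isOpen_compl_of_isQM h).isOpen_compl.measurableSet
      exact h1.mono_measure (Measure.restrict_mono (fun y hy => hy.2) le_rfl)
    · exact (lintegral_mono_set (sdiff_subset_sdiff_left ball_subset_closedBall)).trans_lt
        (h.dir_fin x n (subset_univ _))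
  rw [ae_restrict_iff' measurableSet_Ioi]
  filter_upwards [ae_all_iff.2 hR] with t ht ht0
  obtain ⟨n, hn⟩ := exists_nat_gt t
  exact ht n ⟨ht0, hn⟩

/-- shift of a primitive -/
lemma isPrim_shift {a b c : ℝ} {F F1 : ℝ → ℝ} (h : IsPrim (a + c) (b + c) F F1) :
    IsPrim a b (fun x => F (x + c)) (fun x => F1 (x + c)) := by
  refine ⟨?_, fun x hx => ?_⟩
  · have := h.1.comp_add_right c
    simpa using this
  · have h1 := h.2 (x + c) ⟨by linarith [hx.1], by linarith [hx.2]⟩
    simp only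
    rw [h1, intervalIntegral.integral_comp_add_right]

lemma isL2_shift {a b c : ℝ} {f : ℝ → ℝ} (h : IsL2 (a + c) (b + c) f) :
    IsL2 a b (fun x => f (x + c)) := by
  have hmp : MeasurePreserving (fun x : ℝ => x + c) (volume.restrict (Ioc a b))
      (volume.restrict (Ioc (a + c) (b + c))) := by
    have h1 := (measurePreserving_add_right (volume : Measure ℝ) c).restrict_preimage
      (s := Ioc (a + c) (b + c)) measurableSet_Ioc
    have : (fun x : ℝ => x + c) ⁻¹' (Ioc (a + c) (b + c)) = Ioc a b := by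
      ext x; simp
    rwa [this] at h1
  exact h.comp_measurePreserving hmp

/-- on almost every circle the equality case of Bonnet's inequality holds -/
theorem cone_circle {u : E2 → ℝ} {K : Set E2} (h : IsQM univ 0 u K) {x : E2}
    (hz : ZeroFlux u K x) {e : ℝ} (he : 0 < e) (hD : ∀ r, 0 < r → Dr u K x r = e * r) :
    ∀ᵐ r ∂(volume.restrict (Ioi (0:ℝ))), ∃ θ₀ m a, Prof e u K x r θ₀ m a := by
  have hpi := Real.pi_pos
  have hcirc : ∀ᵐ r ∂(volume.restrict (Ioi (0:ℝ))), HasDerivAt (fun s => Dr u K x s) (cirE u x r) r := by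
    rw [ae_restrict_iff' measurableSet_Ioi]
    have hn : ∀ n : ℕ, ∀ᵐ r : ℝ, r ∈ Ioo 0 (n:ℝ) → HasDerivAt (fun s => Dr u K x s) (cirE u x r) r := by
      intro n
      have := h.ae_circle (x := x) (R := n) (subset_univ _)
      rw [ae_restrict_iff' measurableSet_Ioo] at this
      filter_upwards [this] with r hr hm
      exact (hr hm).2.2
    filter_upwards [ae_all_iff.2 hn] with t ht ht0
    obtain ⟨n, hn⟩ := exists_nat_gt t
    exact ht n ⟨ht0, hn⟩
  filter_upwards [ae_good h x, hcirc, hz, energy_identity h x, bonnet_arc h x, bonnet_empty h x,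
    ae_restrict_mem measurableSet_Ioi] with r hg hd hzr hei hba hbe hr0
  have hr : 0 < r := hr0
  -- circle energy
  have hcE : cirE u x r = e := by
    have h1 : HasDerivAt (fun s => Dr u K x s) e r := by
      have h2 : HasDerivAt (fun s => e * s) e r := by
        simpa using (hasDerivAt_id r).const_mul e
      refine h2.congr_of_eventuallyEq ?_
      filter_upwards [Ioi_mem_nhds hr] with s hs using hD s hs
    exact hd.unique h1
  have hDr := hD r hr
  -- the circle meets K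
  have hne : (K ∩ sphere x r).Nonempty := by
    by_contra hc
    have := hbe (not_nonempty_iff_eq_empty.1 hc)
    rw [hDr, hcE] at this
    nlinarith
  obtain ⟨y, hyK, hys⟩ := hne
  obtain ⟨θ₀, -, hθ₀⟩ := exists_cpt_eq hr hys 0
  have hθK : cpt x r θ₀ ∈ K := by rw [hθ₀]; exact hyK
  -- uniqueness
  have huniq : ∀ θ ∈ Ioo θ₀ (θ₀ + 2 * π), cpt x r θ ∉ K := by
    intro θ₁ hθ₁ hK1
    set A := max (θ₁ - θ₀) (θ₀ + 2 * π - θ₁) with hA
    have hA1 : A < 2 * π := max_lt (by linarith [hθ₁.2]) (by linarith [hθ₁.1])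
    have hlen : ∀ a b, IsArc K x r a b → b - a ≤ A := by
      rintro a b ⟨hab, hb2, haK, hbK, hno⟩
      -- shift so that a ∈ [θ₀, θ₀+2π)
      obtain ⟨n, hn⟩ : ∃ n : ℤ, θ₀ + 2 * π * n ≤ a ∧ a < θ₀ + 2 * π * n + 2 * π := by
        refine ⟨⌊(a - θ₀) / (2 * π)⌋, ?_, ?_⟩
        · have h1 := Int.floor_le ((a - θ₀) / (2 * π))
          rw [le_div_iff₀ (by positivity)] at h1
          linarith
        · have h1 := Int.lt_floor_add_one ((a - θ₀) / (2 * π))
          rw [div_lt_iff₀ (by positivity)] at h1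
          linarith
      rcases lt_or_ge a (θ₁ + 2 * π * n) with hlt | hge
      · -- b ≤ θ₁ + 2πn
        have : b ≤ θ₁ + 2 * π * n := by
          by_contra hc
          push Not at hc
          exact hno (θ₁ + 2 * π * n) ⟨hlt, hc⟩ (by rw [cpt_shift]; exact hK1)
        exact le_max_of_le_left (by linarith [hn.1])
      · have : b ≤ θ₀ + 2 * π * ((n + 1 : ℤ) : ℝ) := by
          by_contra hc
          push Not at hc
          refine hno (θ₀ + 2 * π * ((n + 1 : ℤ) : ℝ)) ⟨?_, hc⟩ (by rw [cpt_shift]; exact hθK)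
          push_cast
          linarith [hn.2]
        push_cast at this
        exact le_max_of_le_right (by linarith)
    have h1 := hba ⟨y, hyK, hys⟩ hzr A hlen
    rw [hDr, hcE] at h1
    have h2 : A / (2 * π) * (r * e) < 1 * (r * e) := by
      apply mul_lt_mul_of_pos_right _ (by positivity)
      rw [div_lt_one (by positivity)]; exact hA1
    linarith
  have hcrack : K ∩ sphere x r = {cpt x r θ₀} := by
    ext z
    constructor
    · rintro ⟨hzK, hzs⟩
      obtain ⟨θ, hθ, rfl⟩ := exists_cpt_eq hr hzs θ₀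
      rcases hθ.1.eq_or_lt with h1 | h1
      · rw [← h1]; rfl
      · exact absurd hzK (huniq θ ⟨h1, hθ.2⟩)
    · rintro rfl
      exact ⟨hθK, cpt_mem_sphere hr.le⟩
  -- gradients on the arc
  have hgrad : ∀ θ ∈ Ioo θ₀ (θ₀ + 2 * π), HasGradientAt u (gradient u (cpt x r θ)) (cpt x r θ) :=
    fun θ hθ => hasGradientAt_univ h (huniq θ hθ)
  obtain ⟨F, hF, hFu⟩ := hg.exists_isPrim (by linarith : θ₀ < θ₀ + 2 * π) hgrad
  set Q : ℝ → ℝ := fun θ => r * inner ℝ (gradient u (cpt x r θ)) (tau θ) with hQ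
  set H : ℝ → ℝ := fun θ => r * inner ℝ (gradient u (cpt x r θ)) (dir θ) with hH
  have hQL : IsL2 θ₀ (θ₀ + 2 * π) Q := (hg.isL2_tau _ _).const_mul r
  have hHL : IsL2 θ₀ (θ₀ + 2 * π) H := (hg.isL2_dir _ _).const_mul r
  have e0 : (0:ℝ) + θ₀ = θ₀ := zero_add _
  have e1 : 2 * π + θ₀ = θ₀ + 2 * π := add_comm _ _
  have hle : θ₀ ≤ θ₀ + 2 * π := by linarith
  -- flux
  have hflux : ∫ θ in θ₀..(θ₀ + 2 * π), H θ = 0 := by
    have := hzr θ₀ (θ₀ + 2 * π) ⟨by linarith, le_rfl, hθK, by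
      have := cpt_shift x r θ₀ 1
      simp only [Int.cast_one, mul_one] at this
      rw [this]; exact hθK, huniq⟩
    rw [flux] at this
    simp only [hH]
    rw [intervalIntegral.integral_const_mul]
    exact this
  -- energy
  have hE : (∫ θ in θ₀..(θ₀ + 2 * π), Q θ ^ 2) + ∫ θ in θ₀..(θ₀ + 2 * π), H θ ^ 2 = e * r := by
    have h1 := hg.integral_sq_split hle
    have h2 : circI (fun y => ‖gradient u y‖ ^ 2) x r
        = ∫ θ in θ₀..(θ₀ + 2 * π), ‖gradient u (cpt x r θ)‖ ^ 2 := circI_eq_shift _ _ _ _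
    have h3 : r * ∫ θ in θ₀..(θ₀ + 2 * π), ‖gradient u (cpt x r θ)‖ ^ 2 = e := by
      rw [← h2]; exact hcE
    have h4 : (∫ θ in θ₀..(θ₀ + 2 * π), Q θ ^ 2)
        = r ^ 2 * ∫ θ in θ₀..(θ₀ + 2 * π), (inner ℝ (gradient u (cpt x r θ)) (tau θ)) ^ 2 := by
      rw [← intervalIntegral.integral_const_mul]
      congr 1; ext θ; simp only [hQ]; ring
    have h5 : (∫ θ in θ₀..(θ₀ + 2 * π), H θ ^ 2)
        = r ^ 2 * ∫ θ in θ₀..(θ₀ + 2 * π), (inner ℝ (gradient u (cpt x r θ)) (dir θ)) ^ 2 := by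
      rw [← intervalIntegral.integral_const_mul]
      congr 1; ext θ; simp only [hH]; ring
    rw [h4, h5, ← h3, h1]; ring
  -- energy identity
  have hFH : ∫ θ in θ₀..(θ₀ + 2 * π), F θ * H θ = e * r := by
    have h1 : ∫ θ in θ₀..(θ₀ + 2 * π), F θ * H θ
        = ∫ θ in θ₀..(θ₀ + 2 * π), u (cpt x r θ) * H θ := by
      rw [intervalIntegral.integral_of_le hle, intervalIntegral.integral_of_le hle,
        integral_Ioc_eq_integral_Ioo, integral_Ioc_eq_integral_Ioo]
      exact setIntegral_congr_fun measurableSet_Ioo fun θ hθ => by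
        rw [hFu hθ]
    have h2 : ∫ θ in θ₀..(θ₀ + 2 * π), u (cpt x r θ) * H θ
        = r * ∫ θ in (-π)..π, u (cpt x r θ) * inner ℝ (gradient u (cpt x r θ)) (dir θ) := by
      have hper : Function.Periodic
          (fun θ => u (cpt x r θ) * inner ℝ (gradient u (cpt x r θ)) (dir θ)) (2 * π) := by
        intro θ
        simp only [cpt_periodic x r θ, dir_periodic θ]
      have h3 := hper.intervalIntegral_add_eq (-π) θ₀
      have h4 : -π + 2 * π = π := by ring
      rw [h4] at h3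
      rw [h3, ← intervalIntegral.integral_const_mul]
      congr 1; ext θ; simp only [hH]; ring
    rw [h1, h2, ← hei, hDr]
  -- shift to (0, 2π)
  have hF' : IsPrim 0 (2 * π) (fun φ => F (φ + θ₀)) (fun φ => Q (φ + θ₀)) := by
    apply isPrim_shift
    rw [e0, e1]; exact hF
  have hQ' : IsL2 0 (2 * π) (fun φ => Q (φ + θ₀)) := by
    apply isL2_shift
    rw [e0, e1]; exact hQL
  have hH' : IsL2 0 (2 * π) (fun φ => H (φ + θ₀)) := by
    apply isL2_shift
    rw [e0, e1]; exact hHL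
  have sh : ∀ g : ℝ → ℝ, ∫ φ in (0:ℝ)..(2 * π), g (φ + θ₀) = ∫ θ in θ₀..(θ₀ + 2 * π), g θ := by
    intro g
    rw [intervalIntegral.integral_comp_add_right, e0, e1]
  obtain ⟨m, a, k1, k2, k3⟩ := arc_eq hF' hQ' hH' (by rw [sh H]; exact hflux) (by
    rw [sh (fun θ => Q θ ^ 2), sh (fun θ => H θ ^ 2), sh (fun θ => F θ * H θ), hE, hFH])
  -- continuity on the open arc
  have hgc : ContinuousOn (fun θ => gradient u (cpt x r θ)) (Ioo θ₀ (θ₀ + 2 * π)) := by
    have hc : Continuous (cpt x r) :=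
      (continuous_cpt x).comp (Continuous.prodMk continuous_const continuous_id)
    exact (continuousOn_gradient h).comp hc.continuousOn fun θ hθ => huniq θ hθ
  have up : ∀ f g : ℝ → ℝ, ContinuousOn f (Ioo θ₀ (θ₀ + 2 * π)) → Continuous g →
      (∀ᵐ φ ∂(volume.restrict (Ioc (0:ℝ) (2 * π))), f (φ + θ₀) = g (φ + θ₀)) →
      ∀ θ ∈ Ioo θ₀ (θ₀ + 2 * π), f θ = g θ := by
    intro f g hf hgc hae θ hθ
    have h1 : EqOn (fun φ => f (φ + θ₀)) (fun φ => g (φ + θ₀)) (Ioo 0 (2 * π)) := by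
      refine Measure.eqOn_open_of_ae_eq (μ := volume) ?_ isOpen_Ioo ?_ ?_
      · exact ae_restrict_of_ae_restrict_of_subset Ioo_subset_Ioc_self hae
      · refine hf.comp (by fun_prop) fun φ hφ => ⟨by linarith [hφ.1], by linarith [hφ.2]⟩
      · exact (hgc.comp (by fun_prop)).continuousOn
    have h2 := h1 (x := θ - θ₀) ⟨by linarith [hθ.1], by linarith [hθ.2]⟩
    simpa using h2
  have hQc : ContinuousOn Q (Ioo θ₀ (θ₀ + 2 * π)) :=
    continuousOn_const.mul (hgc.inner continuous_tau.continuousOn)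
  have hHc : ContinuousOn H (Ioo θ₀ (θ₀ + 2 * π)) :=
    continuousOn_const.mul (hgc.inner continuous_dir.continuousOn)
  have hQe := up Q (fun θ => -(a/2) * Real.sin ((θ - θ₀) / 2)) hQc (by fun_prop) (by
    filter_upwards [k2] with φ hφ
    rw [hφ]; congr 2; ring)
  have hHe := up H (fun θ => (a/2) * Real.cos ((θ - θ₀) / 2)) hHc (by fun_prop) (by
    filter_upwards [k3] with φ hφ
    rw [hφ]; congr 2; ring)
  refine ⟨θ₀, m, a, hcrack, ?_, ?_, hQe, hHe⟩
  · -- amplitude
    have h1 : ∫ θ in θ₀..(θ₀ + 2 * π), Q θ ^ 2 = a ^ 2 / 4 * π := by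
      rw [← sh (fun θ => Q θ ^ 2), intervalIntegral.integral_congr_ae
        (g := fun φ => a ^ 2 / 4 * Real.sin (φ / 2) ^ 2)]
      · rw [intervalIntegral.integral_const_mul, CrackAlg.int_sin_half_sq]
        simp
      · rw [uIoc_of_le (by positivity), ← ae_restrict_iff' measurableSet_Ioc]
        filter_upwards [k2] with φ hφ
        rw [hφ]; ring
    have h2 : ∫ θ in θ₀..(θ₀ + 2 * π), H θ ^ 2 = a ^ 2 / 4 * π := by
      rw [← sh (fun θ => H θ ^ 2), intervalIntegral.integral_congr_ae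
        (g := fun φ => a ^ 2 / 4 * Real.cos (φ / 2) ^ 2)]
      · rw [intervalIntegral.integral_const_mul, CrackAlg.int_cos_half_sq]
        simp
      · rw [uIoc_of_le (by positivity), ← ae_restrict_iff' measurableSet_Ioc]
        filter_upwards [k3] with φ hφ
        rw [hφ]; ring
    rw [h1, h2] at hE
    rw [eq_div_iff hpi.ne']
    linarith
  · intro θ hθ
    have h1 := k1 (θ - θ₀) ⟨by linarith [hθ.1], by linarith [hθ.2]⟩
    simp only [sub_add_cancel] at h1
    rw [← h1]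
    exact (hFu hθ).symm

end Bon

end Crest.Agent.R135
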