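import Crest.Agent.R135.BonCone1

/-!
# R135: cone theorem, step 2: the crack direction is constant (helper898)
-/

set_option autoImplicit false

open MeasureTheory Set Filter Topology Metric
open scoped Real ENNReal NNReal ContDiff Gradient

noncomputable section

namespace Crest.Agent.R135

namespace Bon

/-- polar rectangle off `K` around a point off `K` -/
lemma exists_rect {K : Set E2} (hK : IsClosed K) {x : E2} {r₀ θ' : ℝ} (hr : 0 < r₀)
    (hy : cpt x r₀ θ' ∉ K) : ∃ δ > 0, δ < r₀ ∧ ∀ r ∈ Ioo (r₀ - δ) (r₀ + δ),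
      ∀ θ ∈ Ioo (θ' - δ) (θ' + δ), cpt x r θ ∉ K := by
  have h1 : ∀ᶠ p in 𝓝 (r₀, θ'), cpt x p.1 p.2 ∉ K := by
    have h0 : Tendsto (fun p : ℝ × ℝ => cpt x p.1 p.2) (𝓝 (r₀, θ')) (𝓝 (cpt x r₀ θ')) :=
      (continuous_cpt x).continuousAt
    exact h0 (hK.isOpen_compl.mem_nhds hy)
  rw [Metric.eventually_nhds_iff] at h1
  obtain ⟨δ, hδ, h⟩ := h1
  refine ⟨min δ (r₀ / 2), by positivity, (min_le_right _ _).trans_lt (by linarith), ?_⟩
  intro r hr' θ hθ
  have := h (y := (r, θ)) (by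
    rw [Prod.dist_eq, max_lt_iff]
    constructor
    · rw [Real.dist_eq, abs_lt]
      constructor <;> linarith [hr'.1, hr'.2, min_le_left δ (r₀ / 2)]
    · rw [Real.dist_eq, abs_lt]
      constructor <;> linarith [hθ.1, hθ.2, min_le_left δ (r₀ / 2)])
  exact this

lemma continuous_cpt_r (x : E2) (θ : ℝ) : Continuous fun r => cpt x r θ :=
  (continuous_cpt x).comp (Continuous.prodMk continuous_id continuous_const)

lemma continuous_cpt_θ (x : E2) (r : ℝ) : Continuous (cpt x r) :=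
  (continuous_cpt x).comp (Continuous.prodMk continuous_const continuous_id)

/-- window containing a whole interval of angles -/
lemma Prof.window_sub {e : ℝ} {u : E2 → ℝ} {K : Set E2} {x : E2} {r θ₀ m a : ℝ}
    (h : Prof e u K x r θ₀ m a) {θ' δ : ℝ} (hδ : 0 < δ)
    (hI : ∀ θ ∈ Ioo (θ' - δ) (θ' + δ), cpt x r θ ∉ K) :
    ∃ θ₁, Prof e u K x r θ₁ m a ∧ dir θ₁ = dir θ₀ ∧ Ioo (θ' - δ) (θ' + δ) ⊆ Ioo θ₁ (θ₁ + 2 * π) := by
  have hc : θ' ∈ Ioo (θ' - δ) (θ' + δ) := ⟨by linarith, by linarith⟩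
  obtain ⟨n, hn⟩ := h.window (hI θ' hc)
  refine ⟨θ₀ + 2 * π * n, h.shift n, dir_shift _ _, fun θ hθ => ?_⟩
  have hK : cpt x r (θ₀ + 2 * π * n) ∈ K := by
    have : cpt x r (θ₀ + 2 * π * n) ∈ K ∩ sphere x r := by rw [(h.shift n).crack]; rfl
    exact this.1
  have hK2 : cpt x r (θ₀ + 2 * π * n + 2 * π) ∈ K := by
    have := cpt_periodic x r (θ₀ + 2 * π * n)
    rw [this]; exact hK
  constructor
  · by_contra hcon
    push Not at hcon
    exact hI (θ₀ + 2 * π * n) ⟨by linarith [hθ.1], by linarith [hn.1]⟩ hK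
  · by_contra hcon
    push Not at hcon
    exact hI (θ₀ + 2 * π * n + 2 * π) ⟨by linarith [hn.2], by linarith [hθ.2]⟩ hK2

/-- inside a rectangle off `K`, `u(r,θ₁) - u(r,θ₂)` is `√r` times a constant -/
theorem diff_homog {u : E2 → ℝ} {K : Set E2} (h : IsQM univ 0 u K) {x : E2} {e : ℝ}
    (hg : ∀ᵐ r ∂(volume.restrict (Ioi (0:ℝ))), ∃ θ₀ m a, Prof e u K x r θ₀ m a)
    {r₀ θ' δ : ℝ} (hδ : 0 < δ) (hδr : δ < r₀)
    (hR : ∀ r ∈ Ioo (r₀ - δ) (r₀ + δ), ∀ θ ∈ Ioo (θ' - δ) (θ' + δ), cpt x r θ ∉ K)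
    {θ₁ θ₂ : ℝ} (h1 : θ₁ ∈ Ioo (θ' - δ) (θ' + δ)) (h2 : θ₂ ∈ Ioo (θ' - δ) (θ' + δ))
    {r r' : ℝ} (hr : r ∈ Ioo (r₀ - δ) (r₀ + δ)) (hr' : r' ∈ Ioo (r₀ - δ) (r₀ + δ)) :
    (√r)⁻¹ * (u (cpt x r θ₁) - u (cpt x r θ₂)) = (√r')⁻¹ * (u (cpt x r' θ₁) - u (cpt x r' θ₂)) := by
  set J := Ioo (r₀ - δ) (r₀ + δ) with hJ
  have hpos : ∀ t ∈ J, 0 < t := fun t ht => by linarith [ht.1]
  set k : ℝ → ℝ := fun t => u (cpt x t θ₁) - u (cpt x t θ₂) with hk
  set k' : ℝ → ℝ := fun t => inner ℝ (gradient u (cpt x t θ₁)) (dir θ₁)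
    - inner ℝ (gradient u (cpt x t θ₂)) (dir θ₂) with hk'
  have hd : ∀ t ∈ J, HasDerivAt k (k' t) t := fun t ht =>
    (hasDerivAt_ray (hasGradientAt_univ h (hR t ht θ₁ h1))).sub
      (hasDerivAt_ray (hasGradientAt_univ h (hR t ht θ₂ h2)))
  have hgc : ∀ θ ∈ Ioo (θ' - δ) (θ' + δ),
      ContinuousOn (fun t => inner ℝ (gradient u (cpt x t θ)) (dir θ)) J := by
    intro θ hθ
    have h3 : ContinuousOn (fun t => gradient u (cpt x t θ)) J :=
      (continuousOn_gradient h).comp (continuous_cpt_r x θ).continuousOn fun t ht => hR t ht θ hθ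
    exact h3.inner continuousOn_const
  have hk'c : ContinuousOn k' J := (hgc θ₁ h1).sub (hgc θ₂ h2)
  have hkc : ContinuousOn k J := fun t ht => (hd t ht).continuousAt.continuousWithinAt
  have hae : ∀ᵐ t ∂(volume.restrict J), 2 * t * k' t = k t := by
    have hsub : J ⊆ Ioi 0 := fun t ht => hpos t ht
    filter_upwards [ae_restrict_of_ae_restrict_of_subset hsub hg,
      ae_restrict_mem (measurableSet_Ioo : MeasurableSet J)] with t ht htJ
    obtain ⟨θ₀, m, a, hp⟩ := ht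
    obtain ⟨ϑ, hp', -, hsubI⟩ := hp.window_sub hδ (hR t htJ)
    have t0 := hpos t htJ
    have e1 := hp'.val θ₁ (hsubI h1)
    have e2 := hp'.val θ₂ (hsubI h2)
    have e3 := hp'.rad θ₁ (hsubI h1)
    have e4 := hp'.rad θ₂ (hsubI h2)
    simp only [hk, hk']
    rw [e1, e2]
    linear_combination 2 * e3 - 2 * e4
  have heq : EqOn (fun t => 2 * t * k' t) k J :=
    Measure.eqOn_open_of_ae_eq (μ := volume) hae isOpen_Ioo
      ((continuous_const.mul continuous_id).continuousOn.mul hk'c) hkc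
  have hder : ∀ t ∈ J, HasDerivAt (fun t => (√t)⁻¹ * k t) 0 t := by
    intro t ht
    have t0 := hpos t ht
    have hs : HasDerivAt (fun t => √t) (1 / (2 * √t)) t := Real.hasDerivAt_sqrt t0.ne'
    have hs0 : √t ≠ 0 := (Real.sqrt_pos.2 t0).ne'
    have h3 := (hs.inv hs0).mul (hd t ht)
    refine h3.congr_deriv ?_
    have e1 := heq ht
    simp only at e1
    have hsq : √t ^ 2 = t := Real.sq_sqrt t0.le
    have e2 : k' t = k t / (2 * t) := by field_simp; linarith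
    simp only [Pi.inv_apply]
    rw [e2, hsq]
    field_simp
    ring
  have hfin := IsOpen.is_const_of_deriv_eq_zero (f := fun t => (√t)⁻¹ * k t) isOpen_Ioo
    (isPreconnected_Ioo : IsPreconnected J)
    (fun t ht => (hder t ht).differentiableAt.differentiableWithinAt)
    (fun t ht => (hder t ht).deriv) hr hr'
  exact hfin

theorem tan_homog {u : E2 → ℝ} {K : Set E2} (h : IsQM univ 0 u K) {x : E2} {e : ℝ}
    (hg : ∀ᵐ r ∂(volume.restrict (Ioi (0:ℝ))), ∃ θ₀ m a, Prof e u K x r θ₀ m a)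
    {r₀ θ' δ : ℝ} (hδ : 0 < δ) (hδr : δ < r₀)
    (hR : ∀ r ∈ Ioo (r₀ - δ) (r₀ + δ), ∀ θ ∈ Ioo (θ' - δ) (θ' + δ), cpt x r θ ∉ K)
    {θ : ℝ} (hθ : θ ∈ Ioo (θ' - δ) (θ' + δ))
    {r r' : ℝ} (hr : r ∈ Ioo (r₀ - δ) (r₀ + δ)) (hr' : r' ∈ Ioo (r₀ - δ) (r₀ + δ)) :
    (√r)⁻¹ * (r * inner ℝ (gradient u (cpt x r θ)) (tau θ))
      = (√r')⁻¹ * (r' * inner ℝ (gradient u (cpt x r' θ)) (tau θ)) := by
  have hd : ∀ t ∈ Ioo (r₀ - δ) (r₀ + δ), HasDerivAt
      (fun ϑ => (√t)⁻¹ * (u (cpt x t ϑ) - u (cpt x t θ)))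
      ((√t)⁻¹ * (t * inner ℝ (gradient u (cpt x t θ)) (tau θ))) θ := by
    intro t ht
    exact ((hasDerivAt_circle (hasGradientAt_univ h (hR t ht θ hθ))).sub_const _).const_mul _
  have h1 := hd r hr
  have h2 := hd r' hr'
  refine (h1.congr_of_eventuallyEq ?_).unique h2
  filter_upwards [isOpen_Ioo.mem_nhds hθ] with ϑ hϑ
  exact (diff_homog h hg hδ hδr hR hϑ hθ hr hr').symm

/-- inside a rectangle off `K` the crack direction is the same for all good radii -/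
theorem dir_const {u : E2 → ℝ} {K : Set E2} (h : IsQM univ 0 u K) {x : E2} {e : ℝ} (he : 0 < e)
    (hg : ∀ᵐ r ∂(volume.restrict (Ioi (0:ℝ))), ∃ θ₀ m a, Prof e u K x r θ₀ m a)
    {r₀ θ' δ : ℝ} (hδ : 0 < δ) (hδr : δ < r₀)
    (hR : ∀ r ∈ Ioo (r₀ - δ) (r₀ + δ), ∀ θ ∈ Ioo (θ' - δ) (θ' + δ), cpt x r θ ∉ K)
    {r r' : ℝ} (hr : r ∈ Ioo (r₀ - δ) (r₀ + δ)) (hr' : r' ∈ Ioo (r₀ - δ) (r₀ + δ))
    {θ₁ m₁ a₁ θ₂ m₂ a₂ : ℝ} (hp₁ : Prof e u K x r θ₁ m₁ a₁) (hp₂ : Prof e u K x r' θ₂ m₂ a₂) :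
    dir θ₁ = dir θ₂ := by
  have hpi := Real.pi_pos
  obtain ⟨φ₁, q₁, d₁, s₁⟩ := hp₁.window_sub hδ (hR r hr)
  obtain ⟨φ₂, q₂, d₂, s₂⟩ := hp₂.window_sub hδ (hR r' hr')
  rw [← d₁, ← d₂]
  have r0 : 0 < r := by linarith [hr.1]
  have r0' : 0 < r' := by linarith [hr'.1]
  have hs : 0 < √r := Real.sqrt_pos.2 r0
  have hs' : 0 < √r' := Real.sqrt_pos.2 r0'
  have hc : θ' ∈ Ioo (θ' - δ) (θ' + δ) := ⟨by linarith, by linarith⟩
  set α₁ := (√r)⁻¹ * a₁ with hα₁
  set α₂ := (√r')⁻¹ * a₂ with hα₂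
  have heq : ∀ θ ∈ Ioo (θ' - δ) (θ' + δ),
      α₁ * Real.sin ((θ - φ₁) / 2) = α₂ * Real.sin ((θ - φ₂) / 2) := by
    intro θ hθ
    have h1 := tan_homog h hg hδ hδr hR hθ hr hr'
    rw [q₁.tan θ (s₁ hθ), q₂.tan θ (s₂ hθ)] at h1
    simp only [hα₁, hα₂]
    linear_combination (-2) * h1
  have hds : ∀ φ α : ℝ, HasDerivAt (fun θ : ℝ => α * Real.sin ((θ - φ) / 2))
      (α * (Real.cos ((θ' - φ) / 2) * (1 / 2))) θ' := by
    intro φ α
    have h1 : HasDerivAt (fun θ : ℝ => (θ - φ) / 2) (1 / 2) θ' :=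
      ((hasDerivAt_id θ').sub_const φ).div_const 2
    exact (h1.sin).const_mul α
  have heq2 : α₁ * Real.cos ((θ' - φ₁) / 2) = α₂ * Real.cos ((θ' - φ₂) / 2) := by
    have h1 := hds φ₁ α₁
    have h2 := hds φ₂ α₂
    have h3 := (h2.congr_of_eventuallyEq (f₁ := fun θ : ℝ => α₁ * Real.sin ((θ - φ₁) / 2)) (by
      filter_upwards [isOpen_Ioo.mem_nhds hc] with θ hθ using heq θ hθ)).unique h1
    linarith
  have heq1 := heq θ' hc
  have ha1 : α₁ ^ 2 = 2 * e / π := by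
    simp only [hα₁]
    rw [mul_pow, q₁.amp, inv_pow, Real.sq_sqrt r0.le]
    field_simp
  have ha2 : α₂ ^ 2 = 2 * e / π := by
    simp only [hα₂]
    rw [mul_pow, q₂.amp, inv_pow, Real.sq_sqrt r0'.le]
    field_simp
  have hκ : 0 < 2 * e / π := by positivity
  -- cos and sin of the double angles agree
  have hcos : Real.cos (θ' - φ₁) = Real.cos (θ' - φ₂) := by
    have e1 : ∀ φ, Real.cos (θ' - φ) = Real.cos ((θ' - φ) / 2) ^ 2 - Real.sin ((θ' - φ) / 2) ^ 2 := by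
      intro φ
      have := Real.cos_two_mul' ((θ' - φ) / 2)
      rw [← this]; congr 1; ring
    rw [e1, e1]
    apply mul_left_cancel₀ hκ.ne'
    calc 2 * e / π * (Real.cos ((θ' - φ₁) / 2) ^ 2 - Real.sin ((θ' - φ₁) / 2) ^ 2)
        = (α₁ * Real.cos ((θ' - φ₁) / 2)) ^ 2 - (α₁ * Real.sin ((θ' - φ₁) / 2)) ^ 2 := by
          rw [← ha1]; ring
      _ = (α₂ * Real.cos ((θ' - φ₂) / 2)) ^ 2 - (α₂ * Real.sin ((θ' - φ₂) / 2)) ^ 2 := by
          rw [heq1, heq2]
      _ = _ := by rw [← ha2]; ring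
  have hsin : Real.sin (θ' - φ₁) = Real.sin (θ' - φ₂) := by
    have e1 : ∀ φ, Real.sin (θ' - φ) = 2 * Real.sin ((θ' - φ) / 2) * Real.cos ((θ' - φ) / 2) := by
      intro φ
      have := Real.sin_two_mul ((θ' - φ) / 2)
      rw [← this]; congr 1; ring
    rw [e1, e1]
    apply mul_left_cancel₀ hκ.ne'
    calc 2 * e / π * (2 * Real.sin ((θ' - φ₁) / 2) * Real.cos ((θ' - φ₁) / 2))
        = 2 * (α₁ * Real.sin ((θ' - φ₁) / 2)) * (α₁ * Real.cos ((θ' - φ₁) / 2)) := by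
          rw [← ha1]; ring
      _ = 2 * (α₂ * Real.sin ((θ' - φ₂) / 2)) * (α₂ * Real.cos ((θ' - φ₂) / 2)) := by
          rw [heq1, heq2]
      _ = _ := by rw [← ha2]; ring
  have hdd : dir (θ' - φ₁) = dir (θ' - φ₂) := by
    apply ext_E2 <;> simp [hcos, hsin]
  obtain ⟨n, hn⟩ := dir_eq_dir_iff.1 hdd
  exact dir_eq_dir_iff.2 ⟨-n, by push_cast; linarith⟩

/-- a whole circle is never contained in the crack of a cone with positive energy -/
theorem not_sphere_subset {u : E2 → ℝ} {K : Set E2} (h : IsQM univ 0 u K) {x : E2} {e : ℝ}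
    (he : 0 < e) (hD : ∀ r, 0 < r → Dr u K x r = e * r) {r : ℝ} (hr : 0 < r) :
    ¬ sphere x r ⊆ K := by
  intro hs
  have hKc := isOpen_compl_of_isQM h
  set w : E2 → ℝ := fun y => if dist y x < r then 0 else u y with hw
  have hcomp : IsComp univ u K x r w K := by
    refine ⟨subset_univ _, h.closed, h.len_fin x r (subset_univ _), rfl, ?_, ?_, ?_⟩
    · intro y hy
      have hyK : y ∉ K := hy.2
      have hne : dist y x ≠ r := fun hc => hyK (hs hc)
      rcases lt_or_gt_of_ne hne with hlt | hgt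
      · -- near `y`, `w = 0`
        refine ⟨0, ball x r ∩ (univ \ K), ?_, ?_⟩
        · exact inter_mem_nhdsWithin _ (isOpen_ball.mem_nhds hlt) |> fun h => by
            rw [inter_comm] at h; exact h
        · intro a ha b hb
          have ea : w a = 0 := if_pos ha.1
          have eb : w b = 0 := if_pos hb.1
          rw [ea, eb]; simp
      · have hop : IsOpen {z : E2 | r < dist z x} := isOpen_lt continuous_const (by fun_prop)
        have hd : ContDiffAt ℝ 1 u y := h.c1.contDiffAt (by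
          rw [← compl_eq_univ_sdiff]; exact hKc.isOpen_compl.mem_nhds hyK)
        obtain ⟨C, t, ht, hC⟩ := hd.exists_lipschitzOnWith
        refine ⟨C, t ∩ {z : E2 | r < dist z x}, ?_, ?_⟩
        · exact mem_nhdsWithin_of_mem_nhds (inter_mem ht (hop.mem_nhds hgt))
        · intro a ha b hb
          have ea : w a = u a := if_neg (not_lt.2 (le_of_lt ha.2))
          have eb : w b = u b := if_neg (not_lt.2 (le_of_lt hb.2))
          rw [ea, eb]
          exact hC ha.1 hb.1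
    · intro y hy
      have : ¬ dist y x < r := fun hlt => hy.2 (Or.inr hlt.le)
      exact if_neg this
    · intro c hc
      exact ⟨c, hc, fun y _ => rfl⟩
  have hmin := h.min x r hr (subset_univ _) w K hcomp
  rw [zero_mul, ENNReal.ofReal_zero, add_zero, enE, enE] at hmin
  have hfin := h.len_fin x r (subset_univ _)
  have h1 : dirE u K (closedBall x r) ≤ dirE w K (closedBall x r) :=
    (ENNReal.add_le_add_iff_right hfin.ne).1 hmin
  have h2 : dirE w K (closedBall x r) = 0 := by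
    have hsub : closedBall x r \ K ⊆ ball x r := by
      intro y hy
      rcases (mem_closedBall.1 hy.1).lt_or_eq with h3 | h3
      · exact h3
      · exact absurd (hs h3) hy.2
    rw [dirE]
    rw [setLIntegral_congr_fun (g := fun _ => 0) (isClosed_closedBall.measurableSet.diff hKc.measurableSet)]
    · simp
    · intro y hy
      have : w =ᶠ[𝓝 y] fun _ => 0 := by
        filter_upwards [isOpen_ball.mem_nhds (hsub hy)] with z hz
        exact if_pos hz
      have hg : gradient w y = 0 := by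
        rw [gradient, this.fderiv_eq]; simp
      simp only [hg]; simp
  have h3 : Dr u K x r = 0 := by
    rw [Dr]
    have : dirE u K (ball x r) ≤ 0 := by
      calc dirE u K (ball x r) ≤ dirE u K (closedBall x r) :=
            lintegral_mono_set (sdiff_subset_sdiff_left ball_subset_closedBall)
        _ ≤ 0 := h1.trans h2.le
    rw [le_antisymm this zero_le]
    simp
  rw [hD r hr] at h3
  have : 0 < e * r := by positivity
  linarith

end Bon

end Crest.Agent.R135
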