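import Crest.Agent.R135.BonCone2

/-!
# R135: cone theorem, step 3: one direction for all circles; the half-angle function (helper898)
-/

set_option autoImplicit false

open MeasureTheory Set Filter Topology Metric
open scoped Real ENNReal NNReal ContDiff Gradient

noncomputable section

namespace Crest.Agent.R135

namespace Bon

/-- a.e. radius is good, so there are good radii in every interval of positive radii -/
lemma exists_good {P : ℝ → Prop} (hg : ∀ᵐ r ∂(volume.restrict (Ioi (0:ℝ))), P r)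
    {a b : ℝ} (ha : 0 ≤ a) (hab : a < b) : ∃ r ∈ Ioo a b, P r := by
  have hsub : Ioo a b ⊆ Ioi 0 := fun t ht => lt_of_le_of_lt ha ht.1
  have h1 := ae_restrict_of_ae_restrict_of_subset hsub hg
  have h2 : (volume.restrict (Ioo a b)) ≠ 0 := by
    rw [Ne, Measure.restrict_eq_zero, Real.volume_Ioo]
    simp only [ENNReal.ofReal_eq_zero, not_le]; linarith
  have : (ae (volume.restrict (Ioo a b))).NeBot := ae_neBot.2 h2
  obtain ⟨r, hr, hr2⟩ := (h1.and (ae_restrict_mem measurableSet_Ioo)).exists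
  exact ⟨r, hr2, hr⟩

/-- **the crack direction is the same on almost all circles** -/
theorem exists_dir {u : E2 → ℝ} {K : Set E2} (h : IsQM univ 0 u K) {x : E2} {e : ℝ} (he : 0 < e)
    (hD : ∀ r, 0 < r → Dr u K x r = e * r)
    (hg : ∀ᵐ r ∂(volume.restrict (Ioi (0:ℝ))), ∃ θ₀ m a, Prof e u K x r θ₀ m a) :
    ∃ ϑ, ∀ᵐ r ∂(volume.restrict (Ioi (0:ℝ))), ∃ m a, Prof e u K x r ϑ m a := by
  have hKc := isOpen_compl_of_isQM h
  set S : E2 → ℝ → Prop := fun d r₀ => ∃ δ > 0, δ ≤ r₀ ∧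
    ∀ r ∈ Ioo (r₀ - δ) (r₀ + δ), ∀ θ m a, Prof e u K x r θ m a → dir θ = d with hS
  have hex : ∀ r₀ ∈ Ioi (0:ℝ), ∃ d, S d r₀ := by
    intro r₀ hr₀
    have hr : 0 < r₀ := hr₀
    obtain ⟨y, hys, hyK⟩ := not_subset.1 (not_sphere_subset h he hD hr)
    obtain ⟨θ', -, rfl⟩ := exists_cpt_eq hr hys 0
    obtain ⟨δ, hδ, hδr, hR⟩ := exists_rect hKc hr hyK
    obtain ⟨r₁, hr₁, θ₁, m₁, a₁, hp₁⟩ := exists_good hg (a := r₀ - δ) (b := r₀ + δ)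
      (by linarith) (by linarith)
    exact ⟨dir θ₁, δ, hδ, hδr.le, fun r hr' θ m a hp =>
      dir_const h he hg hδ hδr hR hr' hr₁ hp hp₁⟩
  have huniq : ∀ r₀ ∈ Ioi (0:ℝ), ∀ d d', S d r₀ → S d' r₀ → d = d' := by
    rintro r₀ hr₀ d d' ⟨δ, hδ, hδr, h1⟩ ⟨δ', hδ', hδr', h2⟩
    obtain ⟨r, hr, θ, m, a, hp⟩ := exists_good hg (a := r₀ - min δ δ') (b := r₀ + min δ δ')
      (by linarith [min_le_left δ δ']) (by linarith [lt_min hδ hδ'])
    rw [← h1 r ⟨by linarith [hr.1, min_le_left δ δ'], by linarith [hr.2, min_le_left δ δ']⟩ θ m a hp,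
      ← h2 r ⟨by linarith [hr.1, min_le_right δ δ'], by linarith [hr.2, min_le_right δ δ']⟩ θ m a hp]
  have hconn : ∀ r₀ ∈ Ioi (0:ℝ), ∀ r₁ ∈ Ioi (0:ℝ), ∃ d, S d r₀ ∧ S d r₁ := by
    intro r₀ hr₀ r₁ hr₁
    refine isPreconnected_Ioi.induction₂ (fun r r' => ∃ d, S d r ∧ S d r') ?_ ?_ ?_ hr₀ hr₁
    · intro r hr
      obtain ⟨d, hd⟩ := hex r hr
      obtain ⟨δ, hδ, hδr, h1⟩ := hd
      filter_upwards [mem_nhdsWithin_of_mem_nhds (Ioo_mem_nhds (a := r - δ/2) (b := r + δ/2)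
        (by linarith) (by linarith))] with r' hr'
      refine ⟨d, ⟨δ, hδ, hδr, h1⟩, δ/2, by linarith, by linarith [hr'.1], fun t ht => h1 t ?_⟩
      exact ⟨by linarith [ht.1, hr'.1], by linarith [ht.2, hr'.2]⟩
    · rintro r r' r'' _ hr' _ ⟨d, h1, h2⟩ ⟨d', h3, h4⟩
      have := huniq r' hr' d d' h2 h3
      exact ⟨d, h1, by rw [this]; exact h4⟩
    · rintro r r' _ _ ⟨d, h1, h2⟩
      exact ⟨d, h2, h1⟩
  obtain ⟨r₁, hr₁, ϑ, m₁, a₁, hp₁⟩ := exists_good hg (a := 0) (b := 1) le_rfl one_pos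
  refine ⟨ϑ, ?_⟩
  filter_upwards [hg, ae_restrict_mem measurableSet_Ioi] with r hr hr0
  obtain ⟨θ, m, a, hp⟩ := hr
  obtain ⟨d, h1, h2⟩ := hconn r₁ hr₁.1 r hr0
  have e1 : dir ϑ = d := by
    obtain ⟨δ, hδ, -, h3⟩ := h1
    exact h3 r₁ ⟨by linarith, by linarith⟩ ϑ m₁ a₁ hp₁
  have e2 : dir θ = d := by
    obtain ⟨δ, hδ, -, h3⟩ := h2
    exact h3 r ⟨by linarith, by linarith⟩ θ m a hp
  obtain ⟨n, hn⟩ := dir_eq_dir_iff.1 (e1.trans e2.symm)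
  refine ⟨m, a, ?_⟩
  have : ϑ = θ + 2 * π * n := by linarith
  rw [this]
  exact hp.shift n

/-! ### The half-angle function -/

/-- `|z| - ⟨z, d⟩`, vanishing exactly on the half-line -/
def nN (x : E2) (ϑ : ℝ) (y : E2) : ℝ := ‖y - x‖ - inner ℝ (y - x) (dir ϑ)

/-- `√r cos((θ-ϑ)/2)` on the slit plane -/
def hf (x : E2) (ϑ : ℝ) (y : E2) : ℝ := inner ℝ (y - x) (tau ϑ) / √(2 * nN x ϑ y)

lemma nN_nonneg (x : E2) (ϑ : ℝ) (y : E2) : 0 ≤ nN x ϑ y := by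
  have := real_inner_le_norm (y - x) (dir ϑ)
  rw [norm_dir, mul_one] at this
  rw [nN]; linarith

lemma nN_pos_of_not_ray {x y : E2} {ϑ : ℝ} (hy : y ∉ ray x (dir ϑ)) : 0 < nN x ϑ y := by
  rcases (nN_nonneg x ϑ y).lt_or_eq with h | h
  · exact h
  · exfalso
    apply hy
    have h1 : inner ℝ (y - x) (dir ϑ) = ‖y - x‖ * ‖dir ϑ‖ := by
      rw [norm_dir, mul_one]; rw [nN] at h; linarith
    have h2 := (inner_eq_norm_mul_iff_real).1 h1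
    rw [norm_dir, one_smul] at h2
    exact ⟨‖y - x‖, norm_nonneg _, by rw [← h2]; abel⟩

lemma inner_tau_dir (a b : ℝ) : inner ℝ (dir a) (tau b) = Real.sin (a - b) := by
  rw [inner_E2, Real.sin_sub]; simp; ring

lemma nN_cpt (x : E2) (ϑ : ℝ) {r : ℝ} (hr : 0 ≤ r) (θ : ℝ) :
    nN x ϑ (cpt x r θ) = 2 * r * Real.sin ((θ - ϑ) / 2) ^ 2 := by
  have h1 : cpt x r θ - x = r • dir θ := by simp [cpt]
  rw [nN, h1, norm_smul, norm_dir, Real.norm_of_nonneg hr, inner_smul_left, inner_dir_dir]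
  have h2 : Real.cos (θ - ϑ) = 1 - 2 * Real.sin ((θ - ϑ) / 2) ^ 2 := by
    have h3 : Real.cos (2 * ((θ - ϑ) / 2)) = 1 - 2 * Real.sin ((θ - ϑ) / 2) ^ 2 := by
      rw [Real.cos_two_mul']; linarith [Real.sin_sq_add_cos_sq ((θ - ϑ) / 2)]
    rw [← h3]; congr 1; ring
  rw [h2]; simp; ring

lemma hf_cpt (x : E2) (ϑ : ℝ) {r : ℝ} (hr : 0 < r) {θ : ℝ} (hθ : θ ∈ Ioo ϑ (ϑ + 2 * π)) :
    hf x ϑ (cpt x r θ) = √r * Real.cos ((θ - ϑ) / 2) := by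
  have hs : 0 < Real.sin ((θ - ϑ) / 2) :=
    Real.sin_pos_of_pos_of_lt_pi (by linarith [hθ.1]) (by linarith [hθ.2])
  have h1 : cpt x r θ - x = r • dir θ := by simp [cpt]
  have h2 : √(2 * nN x ϑ (cpt x r θ)) = 2 * √r * Real.sin ((θ - ϑ) / 2) := by
    rw [nN_cpt x ϑ hr.le]
    have : 2 * (2 * r * Real.sin ((θ - ϑ) / 2) ^ 2) = r * (2 * Real.sin ((θ - ϑ) / 2)) ^ 2 := by ring
    rw [this, Real.sqrt_mul hr.le, Real.sqrt_sq (by positivity)]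
    ring
  rw [hf, h2, h1, inner_smul_left, inner_tau_dir]
  have h3 : Real.sin (θ - ϑ) = 2 * Real.sin ((θ - ϑ) / 2) * Real.cos ((θ - ϑ) / 2) := by
    rw [← Real.sin_two_mul]; congr 1; ring
  rw [h3]
  have hsr : 0 < √r := Real.sqrt_pos.2 hr
  simp only [conj_trivial]
  field_simp
  rw [Real.sq_sqrt hr.le]; ring

lemma contDiffAt_hf {x y : E2} {ϑ : ℝ} (hy : 0 < nN x ϑ y) : ContDiffAt ℝ 1 (hf x ϑ) y := by
  have hne : y - x ≠ 0 := by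
    intro h0
    rw [nN, h0] at hy; simp at hy
  have h1 : ContDiffAt ℝ 1 (fun y : E2 => ‖y - x‖) y :=
    (contDiffAt_id.sub contDiffAt_const).norm ℝ hne
  have h2 : ContDiffAt ℝ 1 (fun y : E2 => inner ℝ (y - x) (dir ϑ)) y :=
    (contDiffAt_id.sub contDiffAt_const).inner ℝ contDiffAt_const
  have h3 : ContDiffAt ℝ 1 (fun y : E2 => inner ℝ (y - x) (tau ϑ)) y :=
    (contDiffAt_id.sub contDiffAt_const).inner ℝ contDiffAt_const
  have h4 : ContDiffAt ℝ 1 (fun y : E2 => √(2 * nN x ϑ y)) y :=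
    (contDiffAt_const.mul (h1.sub h2)).sqrt (by positivity)
  exact h3.div h4 (Real.sqrt_pos.2 (by positivity)).ne'

lemma continuous_nN (x : E2) (ϑ : ℝ) : Continuous (nN x ϑ) := by
  unfold nN; fun_prop

lemma hasGradientAt_hf {x y : E2} {ϑ : ℝ} (hy : 0 < nN x ϑ y) :
    HasGradientAt (hf x ϑ) (gradient (hf x ϑ) y) y :=
  ((contDiffAt_hf hy).differentiableAt (by simp)).hasGradientAt

lemma nN_cpt_pos (x : E2) (ϑ : ℝ) {r : ℝ} (hr : 0 < r) {θ : ℝ} (hθ : θ ∈ Ioo ϑ (ϑ + 2 * π)) :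
    0 < nN x ϑ (cpt x r θ) := by
  have hs : 0 < Real.sin ((θ - ϑ) / 2) :=
    Real.sin_pos_of_pos_of_lt_pi (by linarith [hθ.1]) (by linarith [hθ.2])
  rw [nN_cpt x ϑ hr.le]; positivity

lemma hf_tan (x : E2) (ϑ : ℝ) {r : ℝ} (hr : 0 < r) {θ : ℝ} (hθ : θ ∈ Ioo ϑ (ϑ + 2 * π)) :
    r * inner ℝ (gradient (hf x ϑ) (cpt x r θ)) (tau θ) = -(√r / 2) * Real.sin ((θ - ϑ) / 2) := by
  have h1 := hasDerivAt_circle (hasGradientAt_hf (nN_cpt_pos x ϑ hr hθ))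
  have h2 : HasDerivAt (fun θ => √r * Real.cos ((θ - ϑ) / 2))
      (√r * (-Real.sin ((θ - ϑ) / 2) * (1 / 2))) θ := by
    have h3 : HasDerivAt (fun θ : ℝ => (θ - ϑ) / 2) (1 / 2) θ :=
      ((hasDerivAt_id θ).sub_const ϑ).div_const 2
    exact (h3.cos).const_mul _
  have h4 := (h2.congr_of_eventuallyEq (f₁ := fun θ => hf x ϑ (cpt x r θ)) (by
    filter_upwards [isOpen_Ioo.mem_nhds hθ] with ϑ' hϑ' using hf_cpt x ϑ hr hϑ')).unique h1
  rw [← h4]; ring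

lemma hf_rad (x : E2) (ϑ : ℝ) {r : ℝ} (hr : 0 < r) {θ : ℝ} (hθ : θ ∈ Ioo ϑ (ϑ + 2 * π)) :
    r * inner ℝ (gradient (hf x ϑ) (cpt x r θ)) (dir θ) = (√r / 2) * Real.cos ((θ - ϑ) / 2) := by
  have h1 := hasDerivAt_ray (hasGradientAt_hf (nN_cpt_pos x ϑ hr hθ))
  have h2 : HasDerivAt (fun t => √t * Real.cos ((θ - ϑ) / 2))
      (1 / (2 * √r) * Real.cos ((θ - ϑ) / 2)) r := (Real.hasDerivAt_sqrt hr.ne').mul_const _
  have h4 := (h2.congr_of_eventuallyEq (f₁ := fun t => hf x ϑ (cpt x t θ)) (by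
    filter_upwards [Ioi_mem_nhds hr] with t ht using hf_cpt x ϑ ht hθ)).unique h1
  rw [← h4]
  have hsr : 0 < √r := Real.sqrt_pos.2 hr
  field_simp
  rw [Real.sq_sqrt hr.le]

end Bon

end Crest.Agent.R135
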