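import Crest.Agent.R135.BonCone3

/-!
# R135: cone theorem, step 4: the crack is a half-line (helper898)
-/

set_option autoImplicit false

open MeasureTheory Set Filter Topology Metric
open scoped Real ENNReal NNReal ContDiff Gradient

noncomputable section

namespace Crest.Agent.R135

namespace Bon

lemma cpt_mem_ray (x : E2) (ϑ : ℝ) {r : ℝ} (hr : 0 ≤ r) : cpt x r ϑ ∈ ray x (dir ϑ) :=
  ⟨r, hr, rfl⟩

lemma isClosed_ray (x : E2) (ϑ : ℝ) : IsClosed (ray x (dir ϑ)) := by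
  have : ray x (dir ϑ) = {y | nN x ϑ y = 0} := by
    ext y
    constructor
    · rintro ⟨s, hs, rfl⟩
      have := nN_cpt x ϑ hs ϑ
      simpa [cpt] using this
    · intro hy
      by_contra hc
      exact (nN_pos_of_not_ray hc).ne' hy
  rw [this]
  exact isClosed_eq (continuous_nN x ϑ) continuous_const

lemma nN_eq_zero_of_ray {x y : E2} {ϑ : ℝ} (hy : y ∈ ray x (dir ϑ)) : nN x ϑ y = 0 := by
  obtain ⟨s, hs, rfl⟩ := hy
  have := nN_cpt x ϑ hs ϑ
  simpa [cpt] using this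

/-- polar coordinates of a point off the half-line -/
lemma exists_polar {x y : E2} {ϑ : ℝ} (hy : y ∉ ray x (dir ϑ)) :
    ∃ r > 0, ∃ θ ∈ Ioo ϑ (ϑ + 2 * π), cpt x r θ = y := by
  have hne : y ≠ x := by
    rintro rfl
    exact hy ⟨0, le_rfl, by simp⟩
  have hr : 0 < dist y x := dist_pos.2 hne
  obtain ⟨θ, hθ, he⟩ := exists_cpt_eq hr (mem_sphere.2 rfl) ϑ
  rcases hθ.1.eq_or_lt with h | h
  · exfalso
    apply hy
    rw [← he, ← h]
    exact cpt_mem_ray x ϑ hr.le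
  · exact ⟨_, hr, θ, ⟨h, hθ.2⟩, he⟩

section

variable {u : E2 → ℝ} {K : Set E2} {x : E2} {e ϑ : ℝ}

lemma ray_sub (h : IsQM univ 0 u K)
    (hg : ∀ᵐ r ∂(volume.restrict (Ioi (0:ℝ))), ∃ m a, Prof e u K x r ϑ m a) :
    ray x (dir ϑ) ⊆ K := by
  rintro y ⟨s, hs, rfl⟩
  by_contra hc
  have hKc := isOpen_compl_of_isQM h
  have h0 : Tendsto (fun r : ℝ => cpt x r ϑ) (𝓝 s) (𝓝 (cpt x s ϑ)) :=
    (continuous_cpt_r x ϑ).continuousAt
  have h1 : ∀ᶠ r in 𝓝 s, cpt x r ϑ ∉ K := h0 (hKc.isOpen_compl.mem_nhds hc)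
  obtain ⟨δ, hδ, h2⟩ := Metric.eventually_nhds_iff.1 h1
  obtain ⟨r, hr, m, a, hp⟩ := exists_good hg (a := s) (b := s + δ) hs (by linarith)
  have h3 : cpt x r ϑ ∈ K ∩ sphere x r := by rw [hp.crack]; rfl
  exact h2 (by rw [Real.dist_eq, abs_lt]; constructor <;> linarith [hr.1, hr.2]) h3.1

/-- on a good circle the gradient is a multiple of the gradient of the half-angle function -/
lemma Prof.grad_eq {r m a : ℝ} (hr : 0 < r) (hp : Prof e u K x r ϑ m a) {θ : ℝ}
    (hθ : θ ∈ Ioo ϑ (ϑ + 2 * π)) :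
    gradient u (cpt x r θ) = (a / √r) • gradient (hf x ϑ) (cpt x r θ) := by
  have hsr : 0 < √r := Real.sqrt_pos.2 hr
  have h1 := hp.tan θ hθ
  have h2 := hp.rad θ hθ
  have h3 := hf_tan x ϑ hr hθ
  have h4 := hf_rad x ϑ hr hθ
  set v := gradient u (cpt x r θ) - (a / √r) • gradient (hf x ϑ) (cpt x r θ) with hv
  have hrr : √r * √r = r := Real.mul_self_sqrt hr.le
  have e1 : inner ℝ v (tau θ) = 0 := by
    rw [hv, inner_sub_left, inner_smul_left]
    simp only [conj_trivial]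
    apply mul_left_cancel₀ hr.ne'
    have : r * (inner ℝ (gradient u (cpt x r θ)) (tau θ) -
        a / √r * inner ℝ (gradient (hf x ϑ) (cpt x r θ)) (tau θ))
        = r * inner ℝ (gradient u (cpt x r θ)) (tau θ)
          - a / √r * (r * inner ℝ (gradient (hf x ϑ) (cpt x r θ)) (tau θ)) := by ring
    rw [this, h1, h3]
    field_simp
    ring
  have e2 : inner ℝ v (dir θ) = 0 := by
    rw [hv, inner_sub_left, inner_smul_left]
    simp only [conj_trivial]
    apply mul_left_cancel₀ hr.ne'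
    have : r * (inner ℝ (gradient u (cpt x r θ)) (dir θ) -
        a / √r * inner ℝ (gradient (hf x ϑ) (cpt x r θ)) (dir θ))
        = r * inner ℝ (gradient u (cpt x r θ)) (dir θ)
          - a / √r * (r * inner ℝ (gradient (hf x ϑ) (cpt x r θ)) (dir θ)) := by ring
    rw [this, h2, h4]
    field_simp
    ring
  have h5 : ‖v‖ ^ 2 = 0 := by rw [norm_sq_frame v θ, e1, e2]; simp
  have h6 : v = 0 := by
    rw [← norm_eq_zero]
    exact pow_eq_zero_iff (two_ne_zero) |>.1 h5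
  exact sub_eq_zero.1 h6

lemma Prof.sq_eq {r m a : ℝ} (hr : 0 < r) (hp : Prof e u K x r ϑ m a) :
    (a / √r) ^ 2 = 2 * e / π := by
  rw [div_pow, hp.amp, Real.sq_sqrt hr.le]
  field_simp

lemma hf_grad_ne {y : E2} (hy : y ∉ ray x (dir ϑ)) : gradient (hf x ϑ) y ≠ 0 := by
  obtain ⟨r, hr, θ, hθ, rfl⟩ := exists_polar hy
  intro h0
  have h3 := hf_tan x ϑ hr hθ
  rw [h0, inner_zero_left, mul_zero] at h3
  have hs : 0 < Real.sin ((θ - ϑ) / 2) :=
    Real.sin_pos_of_pos_of_lt_pi (by linarith [hθ.1]) (by linarith [hθ.2])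
  have hsr : 0 < √r := Real.sqrt_pos.2 hr
  have : 0 < √r / 2 * Real.sin ((θ - ϑ) / 2) := by positivity
  linarith

lemma continuousAt_grad_hf {y : E2} (hy : y ∉ ray x (dir ϑ)) :
    ContinuousAt (gradient (hf x ϑ)) y := by
  have ho : IsOpen (ray x (dir ϑ))ᶜ := (isClosed_ray x ϑ).isOpen_compl
  have h1 : ContDiffOn ℝ 1 (hf x ϑ) (ray x (dir ϑ))ᶜ := fun z hz =>
    (contDiffAt_hf (nN_pos_of_not_ray hz)).contDiffWithinAt
  have h2 := h1.continuousOn_fderiv_of_isOpen ho le_rfl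
  exact ((InnerProductSpace.toDual ℝ E2).symm.continuous.comp_continuousOn h2).continuousAt
    (ho.mem_nhds hy)

lemma continuousAt_grad_u (h : IsQM univ 0 u K) {y : E2} (hy : y ∉ K) :
    ContinuousAt (gradient u) y :=
  (continuousOn_gradient h).continuousAt ((isOpen_compl_of_isQM h).isOpen_compl.mem_nhds hy)

/-- off the crack the gradient is a multiple of the gradient of the half-angle function -/
lemma grad_eq (h : IsQM univ 0 u K)
    (hg : ∀ᵐ r ∂(volume.restrict (Ioi (0:ℝ))), ∃ m a, Prof e u K x r ϑ m a) {y : E2} (hy : y ∉ K) :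
    ∃ σ : ℝ, σ ^ 2 = 2 * e / π ∧ gradient u y = σ • gradient (hf x ϑ) y := by
  have hyr : y ∉ ray x (dir ϑ) := fun hc => hy (ray_sub h hg hc)
  obtain ⟨r, hr, θ, hθ, rfl⟩ := exists_polar hyr
  -- some value of σ
  obtain ⟨r₁, hr₁, m₁, a₁, hp₁⟩ := exists_good hg (a := 0) (b := 1) le_rfl one_pos
  set b := a₁ / √r₁ with hb
  have hb2 : b ^ 2 = 2 * e / π := hp₁.sq_eq hr₁.1
  by_contra hcon
  push Not at hcon
  have n1 := hcon b hb2
  have n2 := hcon (-b) (by rw [neg_sq]; exact hb2)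
  have hT : Tendsto (fun t : ℝ => cpt x t θ) (𝓝 r) (𝓝 (cpt x r θ)) :=
    (continuous_cpt_r x θ).continuousAt
  have c1 : ContinuousAt (fun z => gradient u z - b • gradient (hf x ϑ) z) (cpt x r θ) :=
    (continuousAt_grad_u h hy).sub ((continuousAt_grad_hf hyr).const_smul b)
  have c2 : ContinuousAt (fun z => gradient u z - (-b) • gradient (hf x ϑ) z) (cpt x r θ) :=
    (continuousAt_grad_u h hy).sub ((continuousAt_grad_hf hyr).const_smul (-b))
  have o1 : ∀ᶠ t in 𝓝 r, gradient u (cpt x t θ) - b • gradient (hf x ϑ) (cpt x t θ) ≠ 0 :=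
    (Tendsto.comp c1 hT).eventually_ne (sub_ne_zero.2 n1)
  have o2 : ∀ᶠ t in 𝓝 r, gradient u (cpt x t θ) - (-b) • gradient (hf x ϑ) (cpt x t θ) ≠ 0 :=
    (Tendsto.comp c2 hT).eventually_ne (sub_ne_zero.2 n2)
  obtain ⟨δ, hδ, h2⟩ := Metric.eventually_nhds_iff.1 (o1.and o2)
  obtain ⟨t, ht, m, a, hp⟩ := exists_good hg (a := r) (b := r + δ) hr.le (by linarith)
  have ht0 : 0 < t := hr.trans ht.1
  have h3 := h2 (y := t) (by rw [Real.dist_eq, abs_lt]; constructor <;> linarith [ht.1, ht.2])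
  have h4 := hp.grad_eq ht0 hθ
  have h5 := hp.sq_eq ht0
  rw [← hb2] at h5
  rcases sq_eq_sq_iff_eq_or_eq_neg.1 h5 with h6 | h6
  · rw [h6] at h4; exact h3.1 (sub_eq_zero.2 h4)
  · rw [h6] at h4; exact h3.2 (sub_eq_zero.2 h4)

/-- local form of `u` off the crack -/
def LocForm (u : E2 → ℝ) (x : E2) (ϑ : ℝ) (y : E2) (σ c : ℝ) : Prop :=
  ∀ᶠ z in 𝓝 y, u z = σ * hf x ϑ z + c

lemma locForm_grad {y : E2} {σ c : ℝ} (hy : y ∉ ray x (dir ϑ)) (hl : LocForm u x ϑ y σ c) :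
    gradient u y = σ • gradient (hf x ϑ) y := by
  have h1 : HasGradientAt (fun z => σ * hf x ϑ z + c) (σ • gradient (hf x ϑ) y) y := by
    have h2 := (hasGradientAt_hf (nN_pos_of_not_ray hy)).hasFDerivAt
    have h3 := (h2.const_mul σ).add_const c
    rw [hasGradientAt_iff_hasFDerivAt]
    refine h3.congr_fderiv ?_
    simp
  have h4 : HasGradientAt u (σ • gradient (hf x ϑ) y) y := by
    rw [hasGradientAt_iff_hasFDerivAt] at h1 ⊢
    exact h1.congr_of_eventuallyEq hl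
  exact h4.gradient

lemma locForm_unique {y : E2} {σ c σ' c' : ℝ} (hy : y ∉ ray x (dir ϑ))
    (h1 : LocForm u x ϑ y σ c) (h2 : LocForm u x ϑ y σ' c') : σ = σ' ∧ c = c' := by
  have e1 := locForm_grad hy h1
  have e2 := locForm_grad hy h2
  have hσ : σ = σ' := by
    have : (σ - σ') • gradient (hf x ϑ) y = 0 := by rw [sub_smul, ← e1, ← e2, sub_self]
    rcases smul_eq_zero.1 this with h | h
    · linarith
    · exact absurd h (hf_grad_ne hy)
  refine ⟨hσ, ?_⟩
  have a1 := h1.self_of_nhds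
  have a2 := h2.self_of_nhds
  rw [hσ] at a1
  linarith

theorem exists_locForm (h : IsQM univ 0 u K) (he : 0 < e)
    (hg : ∀ᵐ r ∂(volume.restrict (Ioi (0:ℝ))), ∃ m a, Prof e u K x r ϑ m a) {y : E2} (hy : y ∉ K) :
    ∃ σ c : ℝ, σ ^ 2 = 2 * e / π ∧ LocForm u x ϑ y σ c := by
  have hKc := isOpen_compl_of_isQM h
  have hrs := ray_sub h hg
  have hyr : y ∉ ray x (dir ϑ) := fun hc => hy (hrs hc)
  obtain ⟨σ, hσ, hgy⟩ := grad_eq h hg hy
  have hσ0 : σ ≠ 0 := by
    intro h0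
    rw [h0] at hσ
    have : 0 < 2 * e / π := by positivity
    rw [← hσ] at this
    simp at this
  -- near y the gradient is σ ∇hf
  have hne : gradient u y + σ • gradient (hf x ϑ) y ≠ 0 := by
    rw [hgy, ← add_smul]
    exact smul_ne_zero (by intro h0; apply hσ0; linarith) (hf_grad_ne hyr)
  have hc : ContinuousAt (fun z => gradient u z + σ • gradient (hf x ϑ) z) y :=
    (continuousAt_grad_u h hy).add ((continuousAt_grad_hf hyr).const_smul σ)
  have hev0 : ∀ᶠ z in 𝓝 y, z ∉ K := hKc.isOpen_compl.mem_nhds hy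
  have hev : ∀ᶠ z in 𝓝 y, z ∉ K ∧ gradient u z + σ • gradient (hf x ϑ) z ≠ 0 :=
    hev0.and (hc.eventually_ne hne)
  obtain ⟨ρ, hρ, hball⟩ := Metric.eventually_nhds_iff_ball.1 hev
  have hgr : ∀ z ∈ ball y ρ, gradient u z = σ • gradient (hf x ϑ) z := by
    intro z hz
    obtain ⟨σ', hσ', hgz⟩ := grad_eq h hg (hball z hz).1
    have : σ' = σ ∨ σ' = -σ := sq_eq_sq_iff_eq_or_eq_neg.1 (by rw [hσ', hσ])
    rcases this with h1 | h1
    · rw [hgz, h1]
    · exfalso
      apply (hball z hz).2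
      rw [hgz, h1, ← add_smul]; simp
  have hd : ∀ z ∈ ball y ρ, HasFDerivAt (fun z => u z - σ * hf x ϑ z) (0 : E2 →L[ℝ] ℝ) z := by
    intro z hz
    have hzK := (hball z hz).1
    have h1 := (hasGradientAt_univ h hzK).hasFDerivAt
    have h2 := (hasGradientAt_hf (x := x) (ϑ := ϑ)
      (nN_pos_of_not_ray (fun hc => hzK (hrs hc)))).hasFDerivAt
    refine (h1.sub (h2.const_mul σ)).congr_fderiv ?_
    rw [hgr z hz]
    simp
  refine ⟨σ, u y - σ * hf x ϑ y, hσ, ?_⟩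
  have hb : ball y ρ ∈ 𝓝 y := ball_mem_nhds y hρ
  filter_upwards [hb] with z hz
  have h1 := (isOpen_ball (x := y) (ε := ρ)).is_const_of_fderiv_eq_zero
    (f := fun z => u z - σ * hf x ϑ z) (𝕜 := ℝ) (convex_ball y ρ).isPreconnected
    (fun z hz => (hd z hz).differentiableAt.differentiableWithinAt)
    (fun z hz => (hd z hz).fderiv) hz (mem_ball_self hρ)
  linarith

/-- on a good circle all local forms agree -/
theorem Prof.locForm (h : IsQM univ 0 u K) (he : 0 < e)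
    (hg : ∀ᵐ r ∂(volume.restrict (Ioi (0:ℝ))), ∃ m a, Prof e u K x r ϑ m a)
    {r m a : ℝ} (hr : 0 < r) (hp : Prof e u K x r ϑ m a) {θ : ℝ}
    (hθ : θ ∈ Ioo ϑ (ϑ + 2 * π)) : LocForm u x ϑ (cpt x r θ) (a / √r) m := by
  have hyr : cpt x r θ ∉ ray x (dir ϑ) := by
    intro hc
    have := nN_eq_zero_of_ray hc
    exact (nN_cpt_pos x ϑ hr hθ).ne' this
  have hyK : cpt x r θ ∉ K := by
    intro hc
    have : cpt x r θ ∈ K ∩ sphere x r := ⟨hc, cpt_mem_sphere hr.le⟩
    rw [hp.crack] at this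
    apply hyr
    rw [mem_singleton_iff.1 this]
    exact cpt_mem_ray x ϑ hr.le
  obtain ⟨σ, c, hσ, hl⟩ := exists_locForm h he hg hyK
  have e1 := locForm_grad hyr hl
  have e2 := hp.grad_eq hr hθ
  have hσe : σ = a / √r := by
    have : (σ - a / √r) • gradient (hf x ϑ) (cpt x r θ) = 0 := by
      rw [sub_smul, ← e1, ← e2, sub_self]
    rcases smul_eq_zero.1 this with h | h
    · linarith
    · exact absurd h (hf_grad_ne hyr)
  have hv := hp.val θ hθ
  have hv2 := hl.self_of_nhds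
  rw [hf_cpt x ϑ hr hθ] at hv2
  have hsr : 0 < √r := Real.sqrt_pos.2 hr
  have hc : c = m := by
    rw [hσe] at hv2
    have : a / √r * (√r * Real.cos ((θ - ϑ) / 2)) = a * Real.cos ((θ - ϑ) / 2) := by
      field_simp
    rw [this] at hv2
    linarith
  rw [← hσe, ← hc]
  exact hl

end

end Bon

end Crest.Agent.R135
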