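import Crest.Agent.R135.BonCone4

/-!
# R135: cone theorem, step 5: the competitor (half-line) and the conclusion (helper898)
-/

set_option autoImplicit false

open MeasureTheory Set Filter Topology Metric
open scoped Real ENNReal NNReal ContDiff Gradient

noncomputable section

namespace Crest.Agent.R135

namespace Bon

lemma volume_K_zero {u : E2 → ℝ} {K : Set E2} (h : IsQM univ 0 u K) : volume K = 0 := by
  have h1 : K ⊆ ⋃ n : ℕ, K ∩ ball 0 (n:ℝ) := by
    intro y hy
    obtain ⟨n, hn⟩ := exists_nat_gt (dist y 0)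
    exact mem_iUnion.2 ⟨n, hy, hn⟩
  refine measure_mono_null h1 ?_
  rw [measure_iUnion_null_iff]
  intro n
  apply volume_eq_zero_of_hausdorff_lt_top
  exact (measure_mono (inter_subset_inter_right _ ball_subset_closedBall)).trans_lt
    (h.len_fin 0 n (subset_univ _))

lemma lip_of_contDiffAt {w : E2 → ℝ} {y : E2} (hd : ContDiffAt ℝ 1 w y) (S : Set E2) :
    ∃ C : ℝ≥0, ∃ t ∈ 𝓝[S] y, LipschitzOnWith C w t := by
  obtain ⟨C, t, ht, hC⟩ := hd.exists_lipschitzOnWith
  exact ⟨C, t, mem_nhdsWithin_of_mem_nhds ht, hC⟩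

lemma lip_of_eventuallyEq {w w' : E2 → ℝ} {y : E2} (he : w =ᶠ[𝓝 y] w') (hd : ContDiffAt ℝ 1 w' y)
    (S : Set E2) : ∃ C : ℝ≥0, ∃ t ∈ 𝓝[S] y, LipschitzOnWith C w t :=
  lip_of_contDiffAt (hd.congr_of_eventuallyEq he) S

variable {u : E2 → ℝ} {K : Set E2} {x : E2} {e ϑ : ℝ}

lemma ray_disjoint_cpt {r : ℝ} (hr : 0 < r) {θ : ℝ} (hθ : θ ∈ Ioo ϑ (ϑ + 2 * π)) :
    cpt x r θ ∉ ray x (dir ϑ) := by
  intro hc
  exact (nN_cpt_pos x ϑ hr hθ).ne' (nN_eq_zero_of_ray hc)

/-- the crack is the half-line -/
theorem K_eq_ray (h : IsQM univ 0 u K) (he : 0 < e)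
    (hg : ∀ᵐ r ∂(volume.restrict (Ioi (0:ℝ))), ∃ m a, Prof e u K x r ϑ m a) :
    K = ray x (dir ϑ) := by
  have hKc := isOpen_compl_of_isQM h
  have hrs := ray_sub h hg
  have hray := isClosed_ray x ϑ
  refine Subset.antisymm ?_ hrs
  -- competitor in a good ball
  have main : ∀ R, 0 < R → (∃ m a, Prof e u K x R ϑ m a) →
      len ((K ∩ closedBall x R) \ ray x (dir ϑ)) = 0 := by
    rintro R hR ⟨m, a, hp⟩
    set σ := a / √R with hσ
    have hσ2 := hp.sq_eq hR
    rw [← hσ] at hσ2
    set L : Set E2 := (K \ ball x R) ∪ (ray x (dir ϑ) ∩ closedBall x R) with hL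
    set w : E2 → ℝ := fun z => if dist z x ≤ R then σ * hf x ϑ z + m else u z with hw
    have hcr : ∀ y ∈ K, dist y x = R → y ∈ ray x (dir ϑ) := by
      intro y hy hd
      have : y ∈ K ∩ sphere x R := ⟨hy, hd⟩
      rw [hp.crack] at this
      rw [mem_singleton_iff.1 this]
      exact cpt_mem_ray x ϑ hR.le
    have hLK : L ⊆ K := by
      rintro y (⟨hy, -⟩ | ⟨hy, -⟩)
      · exact hy
      · exact hrs hy
    have hLclosed : IsClosed L := by
      apply IsClosed.union
      · rw [sdiff_eq]
        exact hKc.inter isOpen_ball.isClosed_compl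
      · exact hray.inter isClosed_closedBall
    -- points off L
    have hin : ∀ y, y ∉ L → dist y x ≤ R → y ∉ ray x (dir ϑ) := fun y hy hd hc =>
      hy (Or.inr ⟨hc, hd⟩)
    have hout : ∀ y, y ∉ L → R ≤ dist y x → y ∉ K := fun y hy hd hc =>
      hy (Or.inl ⟨hc, fun hb => absurd (mem_ball.1 hb) (not_lt.2 hd)⟩)
    have hloc : ∀ y, y ∉ L → dist y x = R → LocForm u x ϑ y σ m := by
      intro y hy hd
      obtain ⟨r, hr, θ, hθ, rfl⟩ := exists_polar (hin y hy hd.le)
      have : r = R := by rw [← hd, dist_cpt, abs_of_pos hr]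
      subst this
      exact hp.locForm h he hg hr hθ
    have hform : ∀ y, y ∉ ray x (dir ϑ) → ContDiffAt ℝ 1 (fun z => σ * hf x ϑ z + m) y := fun y hy =>
      (contDiffAt_const.mul (contDiffAt_hf (nN_pos_of_not_ray hy))).add contDiffAt_const
    have hinev : ∀ y, y ∉ L → dist y x ≤ R → w =ᶠ[𝓝 y] fun z => σ * hf x ϑ z + m := by
      intro y hy hd
      rcases hd.lt_or_eq with h1 | h1
      · filter_upwards [isOpen_ball.mem_nhds (mem_ball.2 h1)] with z hz
        exact if_pos (mem_ball.1 hz).le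
      · filter_upwards [hloc y hy h1] with z hz
        simp only [hw]
        split_ifs
        · rfl
        · exact hz
    have hcomp : IsComp univ u K x R w L := by
      refine ⟨subset_univ _, ?_, ?_, ?_, ?_, ?_, ?_⟩
      · rw [hLclosed.closure_eq, inter_univ]
      · exact (measure_mono (inter_subset_inter_left _ hLK)).trans_lt
          (h.len_fin x R (subset_univ _))
      · ext y
        constructor
        · rintro ⟨hy, hb⟩
          exact ⟨hLK hy, hb⟩
        · rintro ⟨hy, hb⟩
          exact ⟨Or.inl ⟨hy, fun hc => hb (ball_subset_closedBall hc)⟩, hb⟩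
      · intro y hy
        have hyL : y ∉ L := hy.2
        rcases le_or_gt (dist y x) R with h1 | h1
        · exact lip_of_eventuallyEq (hinev y hyL h1) (hform y (hin y hyL h1)) _
        · have hop : IsOpen {z : E2 | R < dist z x} := isOpen_lt continuous_const (by fun_prop)
          have hyK := hout y hyL h1.le
          have hd : ContDiffAt ℝ 1 u y := h.c1.contDiffAt (by
            rw [← compl_eq_univ_sdiff]; exact hKc.isOpen_compl.mem_nhds hyK)
          refine lip_of_eventuallyEq (w' := u) ?_ hd _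
          filter_upwards [hop.mem_nhds h1] with z hz
          exact if_neg (not_le.2 hz)
      · intro y hy
        have : ¬ dist y x ≤ R := fun hlt => hy.2 (Or.inr hlt)
        exact if_neg this
      · -- Keeps
        intro c hc
        have hcK : ∀ y, y ∉ K → ∀ᶠ z in 𝓝 y, c z = c y := fun y hy => hc y ⟨mem_univ _, hy⟩
        have hcirc : ∀ θ ∈ Ioo ϑ (ϑ + 2 * π), c (cpt x R θ) = c (cpt x R (ϑ + π)) := by
          intro θ hθ
          refine isPreconnected_Ioo.induction₂ (fun θ θ' => c (cpt x R θ) = c (cpt x R θ'))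
            ?_ ?_ ?_ hθ ⟨by linarith [Real.pi_pos], by linarith [Real.pi_pos]⟩
          · intro φ hφ
            have hφK : cpt x R φ ∉ K := by
              intro hcc
              exact ray_disjoint_cpt hR hφ (hcr _ hcc (by simp [abs_of_pos hR]))
            have hT : Tendsto (cpt x R) (𝓝 φ) (𝓝 (cpt x R φ)) :=
              (continuous_cpt_θ x R).continuousAt
            have := hT.eventually (hcK _ hφK)
            exact (this.filter_mono nhdsWithin_le_nhds).mono fun _ h => h.symm
          · intro a b c _ _ _ h1 h2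
            exact h1.trans h2
          · intro a b _ _ h1
            exact h1.symm
        refine ⟨fun z => if dist z x ≤ R then c (cpt x R (ϑ + π)) else c z, ?_, ?_⟩
        · intro y hy
          have hyL : y ∉ L := hy.2
          rcases lt_trichotomy (dist y x) R with h1 | h1 | h1
          · filter_upwards [isOpen_ball.mem_nhds (mem_ball.2 h1)] with z hz
            rw [if_pos (mem_ball.1 hz).le, if_pos h1.le]
          · obtain ⟨r, hr, θ, hθ, rfl⟩ := exists_polar (hin y hyL h1.le)
            have : r = R := by rw [← h1, dist_cpt, abs_of_pos hr]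
            subst this
            have hyK := hout _ hyL h1.ge
            filter_upwards [hcK _ hyK] with z hz
            rw [if_pos h1.le]
            split_ifs
            · rfl
            · rw [hz, hcirc θ hθ]
          · have hop : IsOpen {z : E2 | R < dist z x} := isOpen_lt continuous_const (by fun_prop)
            filter_upwards [hop.mem_nhds h1, hcK _ (hout y hyL h1.le)] with z hz hz2
            rw [if_neg (not_le.2 hz), if_neg (not_le.2 h1), hz2]
        · intro y hy
          have : ¬ dist y x ≤ R := fun hlt => hy.2 (Or.inr hlt)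
          exact if_neg this
    have hmin := h.min x R hR (subset_univ _) w L hcomp
    rw [zero_mul, ENNReal.ofReal_zero, add_zero, enE, enE] at hmin
    -- the Dirichlet energy does not increase
    have hdir : dirE w L (closedBall x R) ≤ dirE u K (closedBall x R) := by
      have hae : (closedBall x R \ L : Set E2) =ᵐ[volume] (ball x R \ K : Set E2) := by
        have h1 : volume (sphere x R) = 0 := Measure.addHaar_sphere volume x R
        have h2 := volume_K_zero h
        have h3 : ∀ᵐ z ∂(volume : Measure E2), z ∉ sphere x R ∧ z ∉ K := by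
          rw [ae_iff]
          refine measure_mono_null (t := sphere x R ∪ K) ?_ (measure_union_null h1 h2)
          intro z hz
          simp only [mem_ofPred_eq, not_and_or, not_not] at hz
          exact hz
        filter_upwards [h3] with z hz
        apply propext
        constructor
        · rintro ⟨h4, -⟩
          refine ⟨?_, hz.2⟩
          rcases (mem_closedBall.1 h4).lt_or_eq with h5 | h5
          · exact h5
          · exact absurd h5 hz.1
        · rintro ⟨h4, h5⟩
          exact ⟨ball_subset_closedBall h4, fun h6 => h5 (hLK h6)⟩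
      rw [dirE, dirE, setLIntegral_congr hae]
      calc ∫⁻ z in ball x R \ K, ‖gradient w z‖ₑ ^ 2 = ∫⁻ z in ball x R \ K, ‖gradient u z‖ₑ ^ 2 := by
            refine setLIntegral_congr_fun (measurableSet_ball.diff hKc.measurableSet) fun z hz => ?_
            have hzr : z ∉ ray x (dir ϑ) := fun hc => hz.2 (hrs hc)
            have hzL : z ∉ L := fun hc => hz.2 (hLK hc)
            obtain ⟨σ', hσ', hgz⟩ := grad_eq h hg hz.2
            have hgw : gradient w z = σ • gradient (hf x ϑ) z :=
              locForm_grad (u := w) hzr (hinev z hzL (mem_ball.1 hz.1).le)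
            have hnorm : ‖gradient w z‖ = ‖gradient u z‖ := by
              rw [hgw, hgz, norm_smul, norm_smul]
              congr 1
              rw [Real.norm_eq_abs, Real.norm_eq_abs]
              exact (sq_eq_sq₀ (abs_nonneg _) (abs_nonneg _)).1 (by rw [sq_abs, sq_abs, hσ2, hσ'])
            rw [← ofReal_norm, ← ofReal_norm, hnorm]
        _ ≤ _ := lintegral_mono_set (sdiff_subset_sdiff_left ball_subset_closedBall)
    have hfin := h.dir_fin x R (subset_univ _)
    have hlen : len (K ∩ closedBall x R) ≤ len (L ∩ closedBall x R) := by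
      have h1 : dirE u K (closedBall x R) + len (K ∩ closedBall x R)
          ≤ dirE u K (closedBall x R) + len (L ∩ closedBall x R) :=
        hmin.trans (add_le_add hdir le_rfl)
      exact (ENNReal.add_le_add_iff_left hfin.ne).1 h1
    have hLsub : L ∩ closedBall x R ⊆ (K ∩ closedBall x R) ∩ ray x (dir ϑ) := by
      rintro y ⟨hy, hb⟩
      refine ⟨⟨hLK hy, hb⟩, ?_⟩
      rcases hy with ⟨hyK, hyb⟩ | ⟨hy, -⟩
      · refine hcr y hyK ?_
        rcases (mem_closedBall.1 hb).lt_or_eq with h5 | h5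
        · exact absurd h5 hyb
        · exact h5
      · exact hy
    have hfl : len (K ∩ closedBall x R) < ⊤ := h.len_fin x R (subset_univ _)
    have hsplit := measure_inter_add_sdiff (μ := (Measure.hausdorffMeasure 1 : Measure E2))
      (K ∩ closedBall x R) hray.measurableSet
    have h2 : len (K ∩ closedBall x R) ≤ len ((K ∩ closedBall x R) ∩ ray x (dir ϑ)) :=
      hlen.trans (measure_mono hLsub)
    change len ((K ∩ closedBall x R) ∩ ray x (dir ϑ)) + len ((K ∩ closedBall x R) \ ray x (dir ϑ))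
      = len (K ∩ closedBall x R) at hsplit
    have hf2 : len ((K ∩ closedBall x R) ∩ ray x (dir ϑ)) < ⊤ :=
      (measure_mono inter_subset_left).trans_lt hfl
    by_contra hne
    have hpos : 0 < len ((K ∩ closedBall x R) \ ray x (dir ϑ)) := pos_iff_ne_zero.2 hne
    have : len ((K ∩ closedBall x R) ∩ ray x (dir ϑ)) < len (K ∩ closedBall x R) := by
      rw [← hsplit]
      exact ENNReal.lt_add_right hf2.ne hne
    exact absurd h2 (not_le.2 this)
  intro y hy
  by_contra hyr
  obtain ⟨ρ, hρ, hball⟩ := Metric.isOpen_iff.1 hray.isOpen_compl y hyr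
  obtain ⟨R, hR, hp⟩ := exists_good hg (a := dist y x + ρ) (b := dist y x + ρ + 1)
    (by positivity) (by linarith)
  have hR0 : 0 < R := lt_of_le_of_lt (by positivity) hR.1
  have h1 := main R hR0 hp
  have h2 := h.red y hy ρ hρ
  have h3 : K ∩ ball y ρ ⊆ (K ∩ closedBall x R) \ ray x (dir ϑ) := by
    rintro z ⟨hzK, hz⟩
    refine ⟨⟨hzK, ?_⟩, hball hz⟩
    rw [mem_closedBall]
    have : dist z x ≤ dist z y + dist y x := dist_triangle _ _ _
    have h4 := mem_ball.1 hz
    linarith [hR.1]
  have h4 : len (K ∩ ball y ρ) ≤ 0 := h1 ▸ measure_mono h3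
  exact absurd h2 (not_lt.2 h4)

/-- **Cone theorem.** -/
theorem cone_ray (h : IsQM univ 0 u K) (hz : ZeroFlux u K x) (he : 0 < e)
    (hD : ∀ r, 0 < r → Dr u K x r = e * r) :
    ∃ ϑ σ c : ℝ, K = ray x (dir ϑ) ∧ σ ^ 2 = 2 * e / π ∧ ∀ y ∉ K, u y = σ * hf x ϑ y + c := by
  obtain ⟨ϑ, hg⟩ := exists_dir h he hD (cone_circle h hz he hD)
  have hK := K_eq_ray h he hg
  obtain ⟨r₁, hr₁, m₁, a₁, hp₁⟩ := exists_good hg (a := 0) (b := 1) le_rfl one_pos
  refine ⟨ϑ, a₁ / √r₁, m₁, hK, hp₁.sq_eq hr₁.1, ?_⟩
  -- connectedness of the slit plane through polar coordinates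
  set S : Set (ℝ × ℝ) := Ioi (0:ℝ) ×ˢ Ioo ϑ (ϑ + 2 * π) with hS
  have hSc : IsPreconnected S := isPreconnected_Ioi.prod isPreconnected_Ioo
  set P : ℝ × ℝ → ℝ × ℝ → Prop := fun p q => ∃ σ c : ℝ,
    LocForm u x ϑ (cpt x p.1 p.2) σ c ∧ LocForm u x ϑ (cpt x q.1 q.2) σ c with hP
  have hoff : ∀ p ∈ S, cpt x p.1 p.2 ∉ K := fun p hp => by
    rw [hK]; exact ray_disjoint_cpt hp.1 hp.2
  have key : ∀ p ∈ S, ∀ q ∈ S, P p q := by
    intro p hp q hq
    refine hSc.induction₂ P ?_ ?_ ?_ hp hq
    · intro p hp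
      obtain ⟨σ, c, -, hl⟩ := exists_locForm h he hg (hoff p hp)
      have hT : Tendsto (fun q : ℝ × ℝ => cpt x q.1 q.2) (𝓝 p) (𝓝 (cpt x p.1 p.2)) :=
        (continuous_cpt x).continuousAt
      have h1 : ∀ᶠ z in 𝓝 (cpt x p.1 p.2), LocForm u x ϑ z σ c := hl.eventually_nhds
      have h2 := hT.eventually h1
      filter_upwards [mem_nhdsWithin_of_mem_nhds h2] with q hq
      exact ⟨σ, c, hl, hq⟩
    · rintro p q r _ hq _ ⟨σ, c, h1, h2⟩ ⟨σ', c', h3, h4⟩
      obtain ⟨rfl, rfl⟩ := locForm_unique (by rw [← hK]; exact hoff q hq) h2 h3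
      exact ⟨_, _, h1, h4⟩
    · rintro p q _ _ ⟨σ, c, h1, h2⟩
      exact ⟨σ, c, h2, h1⟩
  intro y hy
  obtain ⟨r, hr, θ, hθ, rfl⟩ := exists_polar (hK ▸ hy)
  have hpi := Real.pi_pos
  have hp0 : (r₁, ϑ + π) ∈ S := ⟨hr₁.1, by constructor <;> simp only <;> linarith⟩
  obtain ⟨σ, c, h1, h2⟩ := key (r₁, ϑ + π) hp0 (r, θ) ⟨hr, hθ⟩
  have h3 := hp₁.locForm h he hg hr₁.1 hp0.2
  obtain ⟨rfl, rfl⟩ := locForm_unique (by rw [← hK]; exact hoff _ hp0) h1 h3
  exact h2.self_of_nhds

end Bon

end Crest.Agent.R135
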