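import Crest.Agent.R135.Core

/-!
# R135: the strong finite-level class (helper823)

Genuine absolute minimizers satisfy the minimality inequality for all competitors, without the
topological condition `Keeps`.
-/

set_option autoImplicit false

open MeasureTheory Set Filter Topology Metric
open scoped ENNReal NNReal ContDiff Gradient

namespace Crest.Agent.R135

/-- `(w,L)` is a competitor of `(u,K)` in `closedBall x ρ` (no topological condition) -/
structure IsComp0 (U : Set E2) (u : E2 → ℝ) (K : Set E2) (x : E2) (ρ : ℝ)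
    (w : E2 → ℝ) (L : Set E2) : Prop where
  sub : L ⊆ U
  closed : closure L ∩ U ⊆ L
  len_fin : len (L ∩ closedBall x ρ) < ⊤
  eqL : L \ closedBall x ρ = K \ closedBall x ρ
  lip : LocallyLipschitzOn (U \ L) w
  eqw : ∀ y ∈ U \ (K ∪ closedBall x ρ), w y = u y

theorem IsComp.toIsComp0 {U : Set E2} {u : E2 → ℝ} {K : Set E2} {x : E2} {ρ : ℝ}
    {w : E2 → ℝ} {L : Set E2} (h : IsComp U u K x ρ w L) : IsComp0 U u K x ρ w L :=
  ⟨h.sub, h.closed, h.len_fin, h.eqL, h.lip, h.eqw⟩

/-- strong quasi-minimizers: minimality against all competitors -/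
structure IsSQM (U : Set E2) (lam : ℝ) (u : E2 → ℝ) (K : Set E2) : Prop
    extends IsQM U lam u K where
  min0 : ∀ (x : E2) (ρ : ℝ), 0 < ρ → closedBall x ρ ⊆ U → ∀ (w : E2 → ℝ) (L : Set E2),
    IsComp0 U u K x ρ w L →
      enE u K (closedBall x ρ) ≤ enE w L (closedBall x ρ) + ENNReal.ofReal (lam * ρ ^ 2)

end Crest.Agent.R135
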