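import Crest.Agent.R135.IFDefs
import Crest.Agent.R135.Strong
import Crest.Agent.R135.ArcMove

/-!
# R135: definitions used in the interface statements after B3 (helper253)

Shapes are expressed with `Arc.Flat` and `Arc.StarAt` of block ARC (helper560):
* `Arc.Flat K y e ρ E`: in `closedBall y ρ` the set `K` is `E`-close (both ways) to the line
  through `y` with direction `e`;
* `Arc.StarAt a b K x e ρ E`: the same for the star with vertex `x` and rays `x + ℝ₊ R_k e`;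
  `Arc.a1, Arc.b1`: one ray, `Arc.a3, Arc.b3`: three rays at 120 degrees.
-/

set_option autoImplicit false

open MeasureTheory Set Filter Topology Metric
open scoped ENNReal NNReal ContDiff Gradient

namespace Crest.Agent.R135

/-- `K` is `η ρ`-close, in `closedBall y ρ`, to a line through `y` -/
def LineLike (η : ℝ) (K : Set E2) (y : E2) (ρ : ℝ) : Prop :=
  ∃ e : E2, Arc.Flat K y e ρ (η * ρ)

/-- `K` is `η ρ`-close, in `closedBall x ρ`, to a propeller centred at `x` -/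
def PropLike (η : ℝ) (K : Set E2) (x : E2) (ρ : ℝ) : Prop :=
  ∃ e : E2, Arc.StarAt Arc.a3 Arc.b3 K x e ρ (η * ρ)

/-- `K` is `η ρ`-close, in `closedBall x ρ`, to a half-line issued from `x` -/
def RayLike (η : ℝ) (K : Set E2) (x : E2) (ρ : ℝ) : Prop :=
  ∃ e : E2, Arc.StarAt Arc.a1 Arc.b1 K x e ρ (η * ρ)

/-- `(u,K)` is a centred cracktip at `x` (normalised: energy density `1`) -/
def IsTip (u : E2 → ℝ) (K : Set E2) (x : E2) : Prop :=
  ∃ θ₀ c A : ℝ, K = ray x (dir θ₀) ∧ A ^ 2 = 2 / Real.pi ∧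
    ∀ r : ℝ, 0 < r → ∀ φ ∈ Ioo (0 : ℝ) (2 * Real.pi),
      u (cpt x r (θ₀ + φ)) = c + A * Real.sqrt r * Real.cos (φ / 2) ∧
      gradient u (cpt x r (θ₀ + φ)) = (A / (2 * Real.sqrt r)) •
        (Real.cos (φ / 2) • dir (θ₀ + φ) - Real.sin (φ / 2) • tau (θ₀ + φ))

/-- Line-like regime in `ball y r`: smallness, closeness to lines and length bound for all centres
in `K ∩ ball y r` and all scales `≤ r`. -/
structure LineReg (ε : ℝ) (U : Set E2) (lam : ℝ) (u : E2 → ℝ) (K : Set E2) (y : E2) (r : ℝ) :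
    Prop where
  pos : 0 < r
  le_one : r ≤ 1
  mem : y ∈ K
  sub : closedBall y (2 * r) ⊆ U
  lam_le : lam * r ≤ ε
  en : ∀ z ∈ K, dist z y < r → ∀ s, 0 < s → s ≤ r → Dr u K z s ≤ ε * s
  flat : ∀ z ∈ K, dist z y < r → ∀ s, 0 < s → s ≤ r → LineLike ε K z s
  len_le : ∀ z ∈ K, dist z y < r → ∀ s, 0 < s → s ≤ r → Lr K z s ≤ (2 + ε) * s

/-- Propeller-like regime at the centre `x`, scales `≤ r`; the other points of `K ∩ ball x r` are
line-like up to the scale `dist z x / 2`. -/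
structure PropReg (ε : ℝ) (U : Set E2) (lam : ℝ) (u : E2 → ℝ) (K : Set E2) (x : E2) (r : ℝ) :
    Prop where
  pos : 0 < r
  le_one : r ≤ 1
  mem : x ∈ K
  sub : closedBall x (2 * r) ⊆ U
  lam_le : lam * r ≤ ε
  en : ∀ z ∈ K, dist z x < r → ∀ s, 0 < s → s ≤ r → Dr u K z s ≤ ε * s
  prop : ∀ s, 0 < s → s ≤ r → PropLike ε K x s
  len_le : ∀ s, 0 < s → s ≤ r → Lr K x s ≤ (3 + ε) * s
  line : ∀ z ∈ K, 0 < dist z x → dist z x < r → ∀ s, 0 < s → s ≤ dist z x / 2 →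
    LineLike ε K z s ∧ Lr K z s ≤ (2 + ε) * s

/-- `c` is a phase function for `u` at precision `δ √ρ` in `ball z ρ`: locally constant off `K`,
finitely many values, uniformly close to `u`. -/
structure IsPhase (δ : ℝ) (u : E2 → ℝ) (K : Set E2) (z : E2) (ρ : ℝ) (c : E2 → ℝ) : Prop where
  loc : LocConstOn (ball z ρ \ K) c
  fin : (c '' (ball z ρ \ K)).Finite
  close : ∀ w ∈ ball z ρ \ K, |u w - c w| ≤ δ * Real.sqrt ρ

/-- the two phases in the line-like case, `e` is the direction of the line -/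
def LinePhase (δ : ℝ) (u : E2 → ℝ) (K : Set E2) (z : E2) (ρ : ℝ) : Prop :=
  ∃ (c : E2 → ℝ) (e : E2) (m₁ m₂ : ℝ), IsPhase δ u K z ρ c ∧ Arc.Flat K z e ρ (δ * ρ) ∧ m₁ ≠ m₂ ∧
    (∀ w ∈ ball z ρ, δ * ρ < inner ℝ (w - z) (Arc.J e) → c w = m₁) ∧
    (∀ w ∈ ball z ρ, inner ℝ (w - z) (Arc.J e) < - (δ * ρ) → c w = m₂)

/-- the three phases in the propeller-like case, the rays have angles `θ`, `θ ± 2π/3` -/
def PropPhase (δ : ℝ) (u : E2 → ℝ) (K : Set E2) (x : E2) (ρ : ℝ) : Prop :=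
  ∃ (c : E2 → ℝ) (θ : ℝ) (m : Fin 3 → ℝ), IsPhase δ u K x ρ c ∧
    Arc.StarAt Arc.a3 Arc.b3 K x (dir θ) ρ (δ * ρ) ∧ Function.Injective m ∧
    ∀ k : Fin 3, ∀ t, ρ / 4 ≤ t → t < ρ → ∀ φ : ℝ,
      |φ - (θ + (2 * (k : ℕ) + 1) * Real.pi / 3)| ≤ Real.pi / 3 - 8 * δ →
        cpt x t φ ∉ K ∧ c (cpt x t φ) = m k

end Crest.Agent.R135
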