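import Crest.Agent.R135.BonCone5
import Crest.Agent.R135.IFDefs2

/-!
# R135: cone theorem, step 6: the explicit form gives `IsTip` (helper898)
-/

set_option autoImplicit false

open MeasureTheory Set Filter Topology Metric
open scoped Real ENNReal NNReal ContDiff Gradient

noncomputable section

namespace Crest.Agent.R135

namespace Bon

lemma vec_frame (v : E2) (θ : ℝ) :
    v = (inner ℝ v (dir θ)) • dir θ + (inner ℝ v (tau θ)) • tau θ := by
  have h := Real.sin_sq_add_cos_sq θ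
  ext i
  fin_cases i
  · simp [inner_E2]
    linear_combination (-(v.ofLp 0)) * h
  · simp [inner_E2]
    linear_combination (-(v.ofLp 1)) * h

lemma gradient_hf_cpt (x : E2) (ϑ : ℝ) {r : ℝ} (hr : 0 < r) {θ : ℝ}
    (hθ : θ ∈ Ioo ϑ (ϑ + 2 * π)) :
    gradient (hf x ϑ) (cpt x r θ) = (1 / (2 * √r)) •
      (Real.cos ((θ - ϑ) / 2) • dir θ - Real.sin ((θ - ϑ) / 2) • tau θ) := by
  have hsr : 0 < √r := Real.sqrt_pos.2 hr
  have hrr : √r * √r = r := Real.mul_self_sqrt hr.le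
  have h3 : inner ℝ (gradient (hf x ϑ) (cpt x r θ)) (tau θ)
      = -(1 / (2 * √r)) * Real.sin ((θ - ϑ) / 2) := by
    apply mul_left_cancel₀ hr.ne'
    rw [hf_tan x ϑ hr hθ]
    field_simp
    rw [Real.sq_sqrt hr.le]
    ring
  have h4 : inner ℝ (gradient (hf x ϑ) (cpt x r θ)) (dir θ)
      = (1 / (2 * √r)) * Real.cos ((θ - ϑ) / 2) := by
    apply mul_left_cancel₀ hr.ne'
    rw [hf_rad x ϑ hr hθ]
    field_simp
    rw [Real.sq_sqrt hr.le]
    ring
  rw [vec_frame (gradient (hf x ϑ) (cpt x r θ)) θ, h3, h4, smul_sub, smul_smul, smul_smul,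
    neg_mul, neg_smul, ← sub_eq_add_neg]

variable {u : E2 → ℝ} {K : Set E2} {x : E2}

/-- the gradient of `u` at the points off the ray -/
lemma gradient_of_form (h : IsQM univ 0 u K) {ϑ σ c : ℝ} (hK : K = ray x (dir ϑ))
    (hu : ∀ y ∉ K, u y = σ * hf x ϑ y + c) {y : E2} (hy : y ∉ K) :
    gradient u y = σ • gradient (hf x ϑ) y := by
  have hKc := isOpen_compl_of_isQM h
  refine locForm_grad (c := c) (by rw [← hK]; exact hy) ?_
  have : ∀ᶠ z in 𝓝 y, z ∉ K := hKc.isOpen_compl.mem_nhds hy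
  filter_upwards [this] with z hz using hu z hz

theorem isTip_of_form (h : IsQM univ 0 u K) {ϑ σ c : ℝ} (hK : K = ray x (dir ϑ))
    (hσ : σ ^ 2 = 2 / π) (hu : ∀ y ∉ K, u y = σ * hf x ϑ y + c) : IsTip u K x := by
  refine ⟨ϑ, c, σ, hK, hσ, fun r hr φ hφ => ?_⟩
  have hθ : ϑ + φ ∈ Ioo ϑ (ϑ + 2 * π) := ⟨by linarith [hφ.1], by linarith [hφ.2]⟩
  have hy : cpt x r (ϑ + φ) ∉ K := by rw [hK]; exact ray_disjoint_cpt hr hθ
  have e1 : (ϑ + φ - ϑ) / 2 = φ / 2 := by ring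
  constructor
  · rw [hu _ hy, hf_cpt x ϑ hr hθ, e1]; ring
  · rw [gradient_of_form h hK hu hy, gradient_hf_cpt x ϑ hr hθ, e1, smul_smul]
    congr 1
    ring

/-- the cone theorem, modulo `e = 1` -/
theorem cone_isTip (h : IsQM univ 0 u K) (hz : ZeroFlux u K x) {e : ℝ} 
    (hone : ∀ ϑ σ c : ℝ, 0 < e → K = ray x (dir ϑ) → σ ^ 2 = 2 * e / π →
      (∀ y ∉ K, u y = σ * hf x ϑ y + c) → e = 1)
    (hD : ∀ r : ℝ, 0 < r → Dr u K x r = e * r) : e = 0 ∨ (e = 1 ∧ IsTip u K x) := by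
  have he0 : 0 ≤ e := by
    have := hD 1 one_pos
    rw [mul_one] at this
    rw [← this]
    exact ENNReal.toReal_nonneg
  rcases he0.eq_or_lt with h0 | h0
  · exact Or.inl h0.symm
  · right
    obtain ⟨ϑ, σ, c, hK, hσ, hu⟩ := cone_ray h hz h0 hD
    have h1 := hone ϑ σ c h0 hK hσ hu
    refine ⟨h1, isTip_of_form h hK ?_ hu⟩
    rw [hσ, h1, mul_one]

end Bon

end Crest.Agent.R135
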