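import Crest.Agent.R135.IFDefs
import Crest.Agent.R135.PolarE

/-!
# R135: elementary consequences of the convergence `Conv` (helper270)

Hausdorff closeness, limits of points of the cracks, convergence of Dirichlet energies and lengths
with moving centres and radii.
-/

set_option autoImplicit false

open MeasureTheory Set Filter Topology Metric
open scoped ENNReal NNReal ContDiff Gradient

namespace Crest.Agent.R135

/-! ### closeness of sets -/

theorem HClose.mono {ε ε' : ℝ} {x x' : E2} {R R' : ℝ} {K K' : Set E2} (h : HClose ε x R K K')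
    (hε : ε ≤ ε') (hb : ball x' R' ⊆ ball x R) : HClose ε' x' R' K K' := by
  refine ⟨fun y hy => ?_, fun y hy => ?_⟩
  · obtain ⟨z, hz, hd⟩ := h.1 y ⟨hy.1, hb hy.2⟩
    exact ⟨z, hz, hd.trans_le hε⟩
  · obtain ⟨z, hz, hd⟩ := h.2 y ⟨hy.1, hb hy.2⟩
    exact ⟨z, hz, hd.trans_le hε⟩

theorem HClose.symm {ε : ℝ} {x : E2} {R : ℝ} {K K' : Set E2} (h : HClose ε x R K K') :
    HClose ε x R K' K := ⟨h.2, h.1⟩

/-- a subsequence of a convergent sequence converges -/
theorem Conv.subseq {uk : ℕ → E2 → ℝ} {Kk : ℕ → Set E2} {u : E2 → ℝ} {K : Set E2}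
    (hc : Conv uk Kk u K) {φ : ℕ → ℕ} (hφ : Tendsto φ atTop atTop) :
    Conv (fun k => uk (φ k)) (fun k => Kk (φ k)) u K where
  near x hx ε hε := hφ.eventually (hc.near x hx ε hε)
  away C hC hd := hφ.eventually (hc.away C hC hd)
  grad C hC hd ε hε := hφ.eventually (hc.grad C hC hd ε hε)
  l2 R := (hc.l2 R).comp hφ
  len x R h := (hc.len x R h).comp hφ

theorem Conv.hclose {uk : ℕ → E2 → ℝ} {Kk : ℕ → Set E2} {u : E2 → ℝ} {K : Set E2}
    (hc : Conv uk Kk u K) (hK : IsClosed K) (x : E2) (R : ℝ) {ε : ℝ} (hε : 0 < ε) :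
    ∀ᶠ k in atTop, HClose ε x R (Kk k) K := by
  have h1 : ∀ᶠ k in atTop, ∀ y ∈ Kk k ∩ ball x R, ∃ z ∈ K, dist y z < ε := by
    have hC : IsCompact (closedBall x R \ thickening ε K) :=
      (isCompact_closedBall x R).diff isOpen_thickening
    have hd : Disjoint (closedBall x R \ thickening ε K) K := by
      rw [Set.disjoint_left]
      rintro y hy hyK
      exact hy.2 (self_subset_thickening hε K hyK)
    filter_upwards [hc.away _ hC hd] with k hk y hy
    by_contra hcon
    push Not at hcon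
    refine Set.disjoint_left.1 hk ⟨ball_subset_closedBall hy.2, ?_⟩ hy.1
    rw [mem_thickening_iff]
    push Not
    exact hcon
  have h2 : ∀ᶠ k in atTop, ∀ y ∈ K ∩ ball x R, ∃ z ∈ Kk k, dist y z < ε := by
    have hC : IsCompact (K ∩ closedBall x R) := (isCompact_closedBall x R).inter_left hK
    obtain ⟨t, ht, htf, hcov⟩ := hC.elim_finite_subcover_image (b := K ∩ closedBall x R)
      (c := fun y => ball y (ε / 2)) (fun y _ => isOpen_ball)
      (fun y hy => mem_iUnion₂.2 ⟨y, hy, mem_ball_self (half_pos hε)⟩)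
    have h3 : ∀ᶠ k in atTop, ∀ y ∈ t, ∃ z ∈ Kk k, dist z y < ε / 2 := by
      rw [eventually_all_finite htf]
      intro y hy
      exact hc.near y (ht hy).1 _ (half_pos hε)
    filter_upwards [h3] with k hk y hy
    obtain ⟨y', hy', hyy'⟩ := mem_iUnion₂.1 (hcov ⟨hy.1, ball_subset_closedBall hy.2⟩)
    obtain ⟨z, hz, hd⟩ := hk y' hy'
    refine ⟨z, hz, ?_⟩
    have h4 : dist y y' < ε / 2 := hyy'
    calc dist y z ≤ dist y y' + dist y' z := dist_triangle _ _ _
      _ = dist y y' + dist z y' := by rw [dist_comm y' z]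
      _ < ε := by linarith
  filter_upwards [h1, h2] with k a b
  exact ⟨a, b⟩

/-- closeness in moving balls -/
theorem Conv.hclose_moving {uk : ℕ → E2 → ℝ} {Kk : ℕ → Set E2} {u : E2 → ℝ} {K : Set E2}
    (hc : Conv uk Kk u K) (hK : IsClosed K) {xk : ℕ → E2} {Rk : ℕ → ℝ} {M : ℝ}
    (hM : ∀ᶠ k in atTop, ball (xk k) (Rk k) ⊆ ball 0 M) {ε : ℝ} (hε : 0 < ε) :
    ∀ᶠ k in atTop, HClose ε (xk k) (Rk k) (Kk k) K := by
  filter_upwards [hc.hclose hK 0 M hε, hM] with k h1 h2
  exact h1.mono le_rfl h2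

/-- limits of points of the cracks (along any sequence of indices tending to infinity) -/
theorem Conv.mem_of_tendsto {uk : ℕ → E2 → ℝ} {Kk : ℕ → Set E2} {u : E2 → ℝ} {K : Set E2}
    (hc : Conv uk Kk u K) (hK : IsClosed K) {φ : ℕ → ℕ} (hφ : Tendsto φ atTop atTop)
    {y : ℕ → E2} (hy : ∃ᶠ k in atTop, y k ∈ Kk (φ k)) {y₀ : E2}
    (hlim : Tendsto y atTop (𝓝 y₀)) : y₀ ∈ K := by
  by_contra hcon
  obtain ⟨δ, hδ, hball⟩ := Metric.isOpen_iff.1 hK.isOpen_compl y₀ hcon
  have hd : Disjoint (closedBall y₀ (δ / 2)) K := by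
    rw [Set.disjoint_left]
    intro z hz hzK
    exact hball (closedBall_subset_ball (half_lt_self hδ) hz) hzK
  have h1 := hφ.eventually (hc.away _ (isCompact_closedBall y₀ (δ / 2)) hd)
  have h2 : ∀ᶠ k in atTop, y k ∈ closedBall y₀ (δ / 2) :=
    hlim.eventually (closedBall_mem_nhds y₀ (half_pos hδ))
  obtain ⟨k, hk1, hk2, hk3⟩ := (hy.and_eventually (h1.and h2)).exists
  exact Set.disjoint_left.1 hk2 hk3 hk1

/-- every point of the limit crack is a limit of points of the cracks -/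
theorem Conv.exists_seq {uk : ℕ → E2 → ℝ} {Kk : ℕ → Set E2} {u : E2 → ℝ} {K : Set E2}
    (hc : Conv uk Kk u K) {y₀ : E2} (hy₀ : y₀ ∈ K) :
    ∃ y : ℕ → E2, (∀ᶠ k in atTop, y k ∈ Kk k) ∧ Tendsto y atTop (𝓝 y₀) := by
  classical
  have h0 : ∀ k : ℕ, ∃ z : E2, (Kk k).Nonempty → z ∈ Kk k ∧
      dist z y₀ < infDist y₀ (Kk k) + 1 / ((k : ℝ) + 1) := by
    intro k
    by_cases hne : (Kk k).Nonempty
    · have hpos : infDist y₀ (Kk k) < infDist y₀ (Kk k) + 1 / ((k : ℝ) + 1) := by
        have : (0 : ℝ) < 1 / ((k : ℝ) + 1) := by positivity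
        linarith
      obtain ⟨z, hz, hd⟩ := (infDist_lt_iff hne).1 hpos
      exact ⟨z, fun _ => ⟨hz, by rwa [dist_comm]⟩⟩
    · exact ⟨y₀, fun h => absurd h hne⟩
  choose y hy using h0
  have hne : ∀ᶠ k in atTop, (Kk k).Nonempty := by
    filter_upwards [hc.near y₀ hy₀ 1 one_pos] with k hk
    obtain ⟨z, hz, -⟩ := hk
    exact ⟨z, hz⟩
  refine ⟨y, ?_, ?_⟩
  · filter_upwards [hne] with k hk
    exact (hy k hk).1
  · rw [Metric.tendsto_atTop']
    intro ε hε
    have h1 := hc.near y₀ hy₀ (ε / 2) (half_pos hε)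
    have h2 : ∀ᶠ k : ℕ in atTop, 1 / ((k : ℝ) + 1) < ε / 2 := by
      have := tendsto_one_div_add_atTop_nhds_zero_nat (𝕜 := ℝ)
      exact this.eventually (gt_mem_nhds (half_pos hε))
    obtain ⟨N, hN⟩ := eventually_atTop.1 ((h1.and h2).and hne)
    refine ⟨N, fun k hk => ?_⟩
    obtain ⟨⟨⟨z, hz, hzd⟩, h4⟩, h5⟩ := hN k hk.le
    have h6 := (hy k h5).2
    have h7 : infDist y₀ (Kk k) ≤ dist y₀ z := infDist_le_dist_of_mem hz
    rw [dist_comm] at h7
    linarith

/-! ### convergence of the Dirichlet energies -/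

theorem dirE_eq_ball {u : E2 → ℝ} {K B : Set E2} (hK : volume K = 0) :
    dirE u K B = ∫⁻ y in B, ‖gradient u y‖ₑ ^ 2 := by
  unfold dirE
  have h : (B \ K : Set E2) =ᵐ[volume] B := by
    refine (Set.sdiff_subset).eventuallyLE.antisymm ?_
    rw [ae_le_set]
    refine measure_mono_null ?_ hK
    intro y hy
    by_contra hyK
    exact hy.2 ⟨hy.1, hyK⟩
  exact setLIntegral_congr h

/-- `L²` norm of the gradient on a set -/
noncomputable def gN (u : E2 → ℝ) (B : Set E2) : ℝ≥0∞ :=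
  eLpNorm (fun y => gradient u y) 2 (volume.restrict B)

theorem eLpNorm_two_sq {F : Type*} [NormedAddCommGroup F] (f : E2 → F) (μ : Measure E2) :
    eLpNorm f 2 μ ^ 2 = ∫⁻ y, ‖f y‖ₑ ^ 2 ∂μ := by
  rw [eLpNorm_eq_lintegral_rpow_enorm_toReal (by norm_num) (by norm_num)]
  simp only [ENNReal.toReal_ofNat, ENNReal.rpow_ofNat]
  rw [← ENNReal.rpow_natCast, ← ENNReal.rpow_mul]
  norm_num

theorem gN_sq (u : E2 → ℝ) (B : Set E2) : gN u B ^ 2 = ∫⁻ y in B, ‖gradient u y‖ₑ ^ 2 :=
  eLpNorm_two_sq _ _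

theorem gN_le_add (u v : E2 → ℝ) (B : Set E2) :
    gN u B ≤ gN v B + eLpNorm (fun y => gradient u y - gradient v y) 2 (volume.restrict B) := by
  have hm1 : AEStronglyMeasurable (fun y => gradient v y) (volume.restrict B) :=
    (measurable_gradient v).aestronglyMeasurable
  have hm2 : AEStronglyMeasurable (fun y => gradient u y - gradient v y) (volume.restrict B) :=
    ((measurable_gradient u).sub (measurable_gradient v)).aestronglyMeasurable
  have h := eLpNorm_add_le hm1 hm2 (p := 2) (by norm_num)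
  have he : (fun y => gradient v y) + (fun y => gradient u y - gradient v y) =
      fun y => gradient u y := by
    funext y; simp
  rw [he] at h
  exact h

theorem tendsto_gN_diff {uk : ℕ → E2 → ℝ} {Kk : ℕ → Set E2} {u : E2 → ℝ} {K : Set E2}
    (hc : Conv uk Kk u K) {Bk : ℕ → Set E2} {M : ℝ} (hM : ∀ᶠ k in atTop, Bk k ⊆ ball 0 M) :
    Tendsto (fun k => eLpNorm (fun y => gradient (uk k) y - gradient u y) 2
      (volume.restrict (Bk k))) atTop (𝓝 0) := by
  have h1 : Tendsto (fun k => eLpNorm (fun y => gradient (uk k) y - gradient u y) 2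
      (volume.restrict (ball 0 M))) atTop (𝓝 0) := by
    have h2 := hc.l2 M
    have h3 : ∀ k, eLpNorm (fun y => gradient (uk k) y - gradient u y) 2
        (volume.restrict (ball 0 M)) =
        (∫⁻ y in ball (0 : E2) M, ‖gradient (uk k) y - gradient u y‖ₑ ^ 2) ^ ((1 : ℝ) / 2) := by
      intro k
      rw [← eLpNorm_two_sq, ← ENNReal.rpow_natCast, ← ENNReal.rpow_mul]
      norm_num
    simp_rw [h3]
    have h4 := (ENNReal.continuous_rpow_const (y := (1 : ℝ) / 2)).tendsto (0 : ℝ≥0∞)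
    rw [ENNReal.zero_rpow_of_pos (by norm_num)] at h4
    exact h4.comp h2
  refine tendsto_of_tendsto_of_tendsto_of_le_of_le' tendsto_const_nhds h1
    (Eventually.of_forall fun k => zero_le) ?_
  filter_upwards [hM] with k hk
  exact eLpNorm_mono_measure _ (Measure.restrict_mono hk le_rfl)

/-- Convergence of the Dirichlet energies on moving sets `Bk → B`. -/
theorem Conv.tendsto_lintegral_sets {uk : ℕ → E2 → ℝ} {Kk : ℕ → Set E2} {u : E2 → ℝ} {K : Set E2}
    (hc : Conv uk Kk u K) {Bk : ℕ → Set E2} {B : Set E2} {M : ℝ}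
    (hM : ∀ᶠ k in atTop, Bk k ⊆ ball 0 M)
    (hfin : ∫⁻ y in B, ‖gradient u y‖ₑ ^ 2 < ⊤)
    (hB : Tendsto (fun k => ∫⁻ y in Bk k, ‖gradient u y‖ₑ ^ 2) atTop
      (𝓝 (∫⁻ y in B, ‖gradient u y‖ₑ ^ 2))) :
    Tendsto (fun k => ∫⁻ y in Bk k, ‖gradient (uk k) y‖ₑ ^ 2) atTop
      (𝓝 (∫⁻ y in B, ‖gradient u y‖ₑ ^ 2)) := by
  set e : ℕ → ℝ≥0∞ := fun k => eLpNorm (fun y => gradient (uk k) y - gradient u y) 2
      (volume.restrict (Bk k)) with he
  have hE : Tendsto e atTop (𝓝 0) := tendsto_gN_diff hc hM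
  have hN : Tendsto (fun k => gN u (Bk k)) atTop (𝓝 (gN u B)) := by
    have h3 : ∀ C : Set E2, gN u C = (∫⁻ y in C, ‖gradient u y‖ₑ ^ 2) ^ ((1 : ℝ) / 2) := by
      intro C
      rw [← gN_sq, ← ENNReal.rpow_natCast, ← ENNReal.rpow_mul]
      norm_num
    simp_rw [h3]
    exact (ENNReal.continuous_rpow_const.tendsto _).comp hB
  have hNfin : gN u B ≠ ⊤ := by
    intro h
    have := gN_sq u B
    rw [h] at this
    rw [← this] at hfin
    simp at hfin
  have hup : ∀ k, gN (uk k) (Bk k) ≤ gN u (Bk k) + e k := fun k => gN_le_add _ _ _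
  have hlow : ∀ k, gN u (Bk k) - e k ≤ gN (uk k) (Bk k) := by
    intro k
    rw [tsub_le_iff_right]
    have h := gN_le_add u (uk k) (Bk k)
    have h' : eLpNorm (fun y => gradient u y - gradient (uk k) y) 2 (volume.restrict (Bk k)) =
        e k := by
      rw [he]
      exact eLpNorm_congr_norm_ae (Eventually.of_forall fun y => norm_sub_rev _ _)
    rw [h'] at h
    exact h
  have hT : Tendsto (fun k => gN (uk k) (Bk k)) atTop (𝓝 (gN u B)) := by
    refine tendsto_of_tendsto_of_tendsto_of_le_of_le (f := fun k => gN (uk k) (Bk k))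
      (g := fun k => gN u (Bk k) - e k) (h := fun k => gN u (Bk k) + e k) ?_ ?_ hlow hup
    · have := ENNReal.Tendsto.sub hN hE (Or.inl hNfin)
      simpa using this
    · have := hN.add hE
      simpa using this
  have hsq := (ENNReal.continuous_pow 2).tendsto (gN u B)
  have h5 := hsq.comp hT
  rw [gN_sq] at h5
  refine h5.congr fun k => ?_
  simp only [Function.comp]
  exact gN_sq _ _

theorem indicator_ball_tendsto {xk : ℕ → E2} {x : E2} {rk : ℕ → ℝ} {r : ℝ}
    (hx : Tendsto xk atTop (𝓝 x)) (hr : Tendsto rk atTop (𝓝 r)) (f : E2 → ℝ≥0∞) {y : E2}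
    (hy : dist y x ≠ r) :
    Tendsto (fun k => (ball (xk k) (rk k)).indicator f y) atTop (𝓝 ((ball x r).indicator f y)) := by
  have hd : Tendsto (fun k => rk k - dist y (xk k)) atTop (𝓝 (r - dist y x)) :=
    hr.sub (tendsto_const_nhds.dist hx)
  rcases lt_or_gt_of_ne hy with h | h
  · have h1 : y ∈ ball x r := h
    rw [indicator_of_mem h1]
    refine tendsto_const_nhds.congr' ?_
    filter_upwards [hd.eventually (lt_mem_nhds (sub_pos.2 h))] with k hk
    rw [indicator_of_mem (show y ∈ ball (xk k) (rk k) from sub_pos.1 hk)]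
  · have h1 : y ∉ ball x r := fun h' => absurd (mem_ball.1 h') (not_lt.2 h.le)
    rw [indicator_of_notMem h1]
    refine tendsto_const_nhds.congr' ?_
    filter_upwards [hd.eventually (gt_mem_nhds (sub_neg.2 h))] with k hk
    rw [indicator_of_notMem]
    intro h'
    have := mem_ball.1 h'
    linarith

/-- continuity of the integral of a nonnegative locally integrable function over moving balls -/
theorem tendsto_lintegral_ball {f : E2 → ℝ≥0∞} (hf : Measurable f) {xk : ℕ → E2} {x : E2}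
    {rk : ℕ → ℝ} {r : ℝ} (hx : Tendsto xk atTop (𝓝 x)) (hr : Tendsto rk atTop (𝓝 r))
    (hfin : ∀ R : ℝ, ∫⁻ y in ball (0 : E2) R, f y < ⊤) :
    Tendsto (fun k => ∫⁻ y in ball (xk k) (rk k), f y) atTop (𝓝 (∫⁻ y in ball x r, f y)) := by
  set M : ℝ := ‖x‖ + |r| + 2 with hM
  simp_rw [← lintegral_indicator measurableSet_ball]
  refine tendsto_lintegral_filter_of_dominated_convergence ((ball (0 : E2) M).indicator f) ?_ ?_ ?_ ?_
  · exact Eventually.of_forall fun k => hf.indicator measurableSet_ball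
  · have h1 : ∀ᶠ k in atTop, dist (xk k) x < 1 := hx.eventually (ball_mem_nhds x one_pos)
    have h2 : ∀ᶠ k in atTop, rk k < r + 1 := hr.eventually (gt_mem_nhds (by linarith))
    filter_upwards [h1, h2] with k a b
    refine Eventually.of_forall fun y => ?_
    refine indicator_le_indicator_of_subset ?_ (fun _ => zero_le) y
    intro z hz
    rw [mem_ball] at hz
    rw [mem_ball_zero_iff]
    have h3 : ‖z‖ ≤ dist z (xk k) + dist (xk k) x + ‖x‖ := by
      have := norm_le_norm_add_norm_sub' z x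
      have h4 : ‖z - x‖ ≤ dist z (xk k) + dist (xk k) x := by
        rw [← dist_eq_norm]; exact dist_triangle _ _ _
      linarith
    have h5 := le_abs_self r
    rw [hM]; linarith
  · rw [lintegral_indicator measurableSet_ball]
    exact (hfin M).ne
  · have h0 : ∀ᵐ y ∂(volume : Measure E2), y ∉ sphere x r :=
      measure_eq_zero_iff_ae_notMem.1 (Measure.addHaar_sphere volume x r)
    filter_upwards [h0] with y hy
    exact indicator_ball_tendsto hx hr f (fun h => hy h)

/-- **(CV3)** Dirichlet energies on moving balls. -/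
theorem Conv.tendsto_dirE_moving {uk : ℕ → E2 → ℝ} {Kk : ℕ → Set E2} {u : E2 → ℝ} {K : Set E2}
    (hc : Conv uk Kk u K) (hk : ∀ k, volume (Kk k) = 0) (hK : volume K = 0)
    (hfin : ∀ x r, dirE u K (closedBall x r) < ⊤) {xk : ℕ → E2} {x : E2} {rk : ℕ → ℝ} {r : ℝ}
    (hx : Tendsto xk atTop (𝓝 x)) (hr : Tendsto rk atTop (𝓝 r)) :
    Tendsto (fun k => dirE (uk k) (Kk k) (ball (xk k) (rk k))) atTop
      (𝓝 (dirE u K (ball x r))) := by
  have hm : Measurable (fun y => ‖gradient u y‖ₑ ^ 2) := (measurable_gradient u).enorm.pow_const 2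
  have hfin' : ∀ R : ℝ, ∫⁻ y in ball (0 : E2) R, ‖gradient u y‖ₑ ^ 2 < ⊤ := by
    intro R
    refine lt_of_le_of_lt (lintegral_mono_set ball_subset_closedBall) ?_
    rw [← dirE_eq_ball hK]
    exact hfin 0 R
  have h1 := tendsto_lintegral_ball hm hx hr hfin'
  simp_rw [dirE_eq_ball hK, fun k => dirE_eq_ball (u := uk k) (B := ball (xk k) (rk k)) (hk k)]
  refine hc.tendsto_lintegral_sets (M := ‖x‖ + |r| + 2) ?_ ?_ h1
  · have h1 : ∀ᶠ k in atTop, dist (xk k) x < 1 := hx.eventually (ball_mem_nhds x one_pos)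
    have h2 : ∀ᶠ k in atTop, rk k < r + 1 := hr.eventually (gt_mem_nhds (by linarith))
    filter_upwards [h1, h2] with k a b z hz
    rw [mem_ball] at hz
    rw [mem_ball_zero_iff]
    have h3 : ‖z‖ ≤ dist z (xk k) + dist (xk k) x + ‖x‖ := by
      have := norm_le_norm_add_norm_sub' z x
      have h4 : ‖z - x‖ ≤ dist z (xk k) + dist (xk k) x := by
        rw [← dist_eq_norm]; exact dist_triangle _ _ _
      linarith
    have h5 := le_abs_self r
    linarith
  · refine lt_of_le_of_lt (lintegral_mono_set ball_subset_closedBall) ?_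
    rw [← dirE_eq_ball hK]
    exact hfin x r

theorem Conv.tendsto_Dr_moving {uk : ℕ → E2 → ℝ} {Kk : ℕ → Set E2} {u : E2 → ℝ} {K : Set E2}
    (hc : Conv uk Kk u K) (hk : ∀ k, volume (Kk k) = 0) (hK : volume K = 0)
    (hfin : ∀ x r, dirE u K (closedBall x r) < ⊤) {xk : ℕ → E2} {x : E2} {rk : ℕ → ℝ} {r : ℝ}
    (hx : Tendsto xk atTop (𝓝 x)) (hr : Tendsto rk atTop (𝓝 r)) :
    Tendsto (fun k => Dr (uk k) (Kk k) (xk k) (rk k)) atTop (𝓝 (Dr u K x r)) := by
  have h := hc.tendsto_dirE_moving hk hK hfin hx hr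
  have hne : dirE u K (ball x r) ≠ ⊤ :=
    (lt_of_le_of_lt (lintegral_mono_set (sdiff_subset_sdiff_left ball_subset_closedBall))
      (hfin x r)).ne
  exact (ENNReal.tendsto_toReal hne).comp h

end Crest.Agent.R135
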