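import Crest.Agent.R135.CT1

/-!
# R135: convergence of lengths with moving centres and radii (helper270)
-/

set_option autoImplicit false

open MeasureTheory Set Filter Topology Metric
open scoped ENNReal NNReal ContDiff Gradient

namespace Crest.Agent.R135

/-- all but countably many circles centred at `x` carry no length of `K` -/
theorem countable_len_sphere_ne_zero {K : Set E2} (hfin : ∀ x r, R135.len (K ∩ closedBall x r) < ⊤)
    (hKm : MeasurableSet K) (x : E2) : {t : ℝ | R135.len (K ∩ sphere x t) ≠ 0}.Countable := by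
  have h : {t : ℝ | R135.len (K ∩ sphere x t) ≠ 0} ⊆
      ⋃ n : ℕ, {t : ℝ | 0 < ((Measure.hausdorffMeasure 1 : Measure E2).restrict
        (K ∩ closedBall x n)) {y | dist y x = t}} := by
    intro t ht
    obtain ⟨n, hn⟩ := exists_nat_ge t
    refine mem_iUnion.2 ⟨n, ?_⟩
    rw [mem_ofPred_eq, Measure.restrict_apply' (hKm.inter isClosed_closedBall.measurableSet)]
    refine pos_iff_ne_zero.2 fun h0 => ht ?_
    refine measure_mono_null ?_ h0
    rintro y ⟨hy1, hy2⟩
    exact ⟨hy2, hy1, mem_closedBall.2 ((mem_sphere.1 hy2).le.trans hn)⟩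
  refine Set.Countable.mono h (countable_iUnion fun n => ?_)
  have : IsFiniteMeasure ((Measure.hausdorffMeasure 1 : Measure E2).restrict
      (K ∩ closedBall x n)) := ⟨by
    rw [Measure.restrict_apply_univ]; exact hfin x n⟩
  exact Measure.countable_meas_level_set_pos (measurable_id.dist measurable_const)

theorem ct_exists_good_radius {K : Set E2} (hfin : ∀ x r, R135.len (K ∩ closedBall x r) < ⊤)
    (hKm : MeasurableSet K) (x : E2) {a b : ℝ} (hab : a < b) :
    ∃ t ∈ Ioo a b, R135.len (K ∩ sphere x t) = 0 := by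
  have h := countable_len_sphere_ne_zero hfin hKm x
  have hd := h.dense_compl ℝ
  obtain ⟨t, ht1, ht2⟩ := hd.exists_mem_open isOpen_Ioo (nonempty_Ioo.2 hab)
  refine ⟨t, ht2, ?_⟩
  by_contra hcon
  exact ht1 hcon

/-- upper semicontinuity of the length in closed balls -/
theorem exists_len_closedBall_lt {K : Set E2} (hfin : ∀ x r, R135.len (K ∩ closedBall x r) < ⊤)
    (hKm : MeasurableSet K) (x : E2) (r : ℝ) {M : ℝ≥0∞} (hM : R135.len (K ∩ closedBall x r) < M) :
    ∃ R > r, R135.len (K ∩ sphere x R) = 0 ∧ R135.len (K ∩ closedBall x R) < M := by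
  have h1 : Tendsto (fun n : ℕ => R135.len (K ∩ closedBall x (r + 1 / ((n : ℝ) + 1)))) atTop
      (𝓝 (R135.len (⋂ n : ℕ, K ∩ closedBall x (r + 1 / ((n : ℝ) + 1))))) := by
    refine tendsto_measure_iInter_atTop ?_ ?_ ⟨0, (hfin _ _).ne⟩
    · intro n
      exact (hKm.inter isClosed_closedBall.measurableSet).nullMeasurableSet
    · intro m n hmn
      refine inter_subset_inter_right _ (closedBall_subset_closedBall ?_)
      have : (1 : ℝ) / ((n : ℝ) + 1) ≤ 1 / ((m : ℝ) + 1) := by
        have : (m : ℝ) ≤ n := by exact_mod_cast hmn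
        gcongr
      linarith
  have h2 : (⋂ n : ℕ, K ∩ closedBall x (r + 1 / ((n : ℝ) + 1))) = K ∩ closedBall x r := by
    ext y
    simp only [mem_iInter, mem_inter_iff, mem_closedBall]
    constructor
    · intro h
      refine ⟨(h 0).1, ?_⟩
      have h3 : Tendsto (fun n : ℕ => r + 1 / ((n : ℝ) + 1)) atTop (𝓝 (r + 0)) :=
        tendsto_const_nhds.add (tendsto_one_div_add_atTop_nhds_zero_nat (𝕜 := ℝ))
      rw [add_zero] at h3
      exact ge_of_tendsto' h3 fun n => (h n).2
    · intro h n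
      have : (0 : ℝ) < 1 / ((n : ℝ) + 1) := by positivity
      exact ⟨h.1, by linarith [h.2]⟩
  rw [h2] at h1
  obtain ⟨n, hn⟩ := (h1.eventually (gt_mem_nhds hM)).exists
  have hpos : (0 : ℝ) < 1 / ((n : ℝ) + 1) := by positivity
  obtain ⟨t, ht, ht0⟩ := ct_exists_good_radius hfin hKm x (show r < r + 1 / ((n : ℝ) + 1) by linarith)
  refine ⟨t, ht.1, ht0, lt_of_le_of_lt (measure_mono ?_) hn⟩
  exact inter_subset_inter_right _ (closedBall_subset_closedBall ht.2.le)

/-- lower semicontinuity of the length in open balls -/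
theorem exists_lt_len_ball {K : Set E2} (hfin : ∀ x r, R135.len (K ∩ closedBall x r) < ⊤)
    (hKm : MeasurableSet K) (x : E2) (r : ℝ) {m : ℝ≥0∞} (hm : m < R135.len (K ∩ ball x r)) :
    ∃ R < r, R135.len (K ∩ sphere x R) = 0 ∧ m < R135.len (K ∩ closedBall x R) := by
  have hr : 0 < r := by
    by_contra hcon
    rw [ball_eq_empty.2 (not_lt.1 hcon), inter_empty] at hm
    simp [R135.len] at hm
  have h1 : Tendsto (fun n : ℕ => R135.len (K ∩ closedBall x (r - 1 / ((n : ℝ) + 1)))) atTop
      (𝓝 (R135.len (⋃ n : ℕ, K ∩ closedBall x (r - 1 / ((n : ℝ) + 1))))) := by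
    refine tendsto_measure_iUnion_atTop ?_
    intro m n hmn
    refine inter_subset_inter_right _ (closedBall_subset_closedBall ?_)
    have : (1 : ℝ) / ((n : ℝ) + 1) ≤ 1 / ((m : ℝ) + 1) := by
      have : (m : ℝ) ≤ n := by exact_mod_cast hmn
      gcongr
    linarith
  have h2 : (⋃ n : ℕ, K ∩ closedBall x (r - 1 / ((n : ℝ) + 1))) = K ∩ ball x r := by
    ext y
    simp only [mem_iUnion, mem_inter_iff, mem_closedBall, mem_ball]
    constructor
    · rintro ⟨n, h3, h4⟩
      have : (0 : ℝ) < 1 / ((n : ℝ) + 1) := by positivity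
      exact ⟨h3, by linarith⟩
    · rintro ⟨h3, h4⟩
      obtain ⟨n, hn⟩ := exists_nat_one_div_lt (sub_pos.2 h4)
      exact ⟨n, h3, by linarith⟩
  rw [h2] at h1
  obtain ⟨n, hn⟩ := (h1.eventually (lt_mem_nhds hm)).exists
  have hpos : (0 : ℝ) < 1 / ((n : ℝ) + 1) := by positivity
  obtain ⟨t, ht, ht0⟩ := ct_exists_good_radius hfin hKm x (show r - 1 / ((n : ℝ) + 1) < r by linarith)
  refine ⟨t, ht.2, ht0, lt_of_lt_of_le hn (measure_mono ?_)⟩
  exact inter_subset_inter_right _ (closedBall_subset_closedBall ht.1.le)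

section Moving

variable {uk : ℕ → E2 → ℝ} {Kk : ℕ → Set E2} {u : E2 → ℝ} {K : Set E2}
  {xk : ℕ → E2} {x : E2} {rk : ℕ → ℝ} {r : ℝ}

theorem Conv.eventually_len_lt (hc : Conv uk Kk u K)
    (hfin : ∀ x r, R135.len (K ∩ closedBall x r) < ⊤) (hKm : MeasurableSet K)
    (hx : Tendsto xk atTop (𝓝 x)) (hr : Tendsto rk atTop (𝓝 r)) {M : ℝ≥0∞}
    (hM : R135.len (K ∩ closedBall x r) < M) :
    ∀ᶠ k in atTop, R135.len (Kk k ∩ closedBall (xk k) (rk k)) < M := by
  obtain ⟨R, hR, hR0, hRM⟩ := exists_len_closedBall_lt hfin hKm x r hM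
  have h1 := hc.len x R hR0
  have h2 : Tendsto (fun k => rk k + dist (xk k) x) atTop (𝓝 (r + dist x x)) :=
    hr.add (hx.dist tendsto_const_nhds)
  rw [dist_self, add_zero] at h2
  filter_upwards [h1.eventually (gt_mem_nhds hRM), h2.eventually (gt_mem_nhds hR)] with k hk1 hk2
  refine lt_of_le_of_lt (measure_mono (inter_subset_inter_right _ ?_)) hk1
  exact closedBall_subset_closedBall' hk2.le

theorem Conv.eventually_lt_len (hc : Conv uk Kk u K)
    (hfin : ∀ x r, R135.len (K ∩ closedBall x r) < ⊤) (hKm : MeasurableSet K)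
    (hx : Tendsto xk atTop (𝓝 x)) (hr : Tendsto rk atTop (𝓝 r)) {m : ℝ≥0∞}
    (hm : m < R135.len (K ∩ ball x r)) :
    ∀ᶠ k in atTop, m < R135.len (Kk k ∩ ball (xk k) (rk k)) := by
  obtain ⟨R, hR, hR0, hRm⟩ := exists_lt_len_ball hfin hKm x r hm
  have h1 := hc.len x R hR0
  have h2 : Tendsto (fun k => R + dist x (xk k) - rk k) atTop (𝓝 (R + dist x x - r)) :=
    (tendsto_const_nhds.add (tendsto_const_nhds.dist hx)).sub hr
  rw [dist_self, add_zero] at h2
  filter_upwards [h1.eventually (lt_mem_nhds hRm),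
    h2.eventually (gt_mem_nhds (sub_neg.2 hR))] with k hk1 hk2
  refine lt_of_lt_of_le hk1 (measure_mono (inter_subset_inter_right _ ?_))
  intro y hy
  rw [mem_closedBall] at hy
  rw [mem_ball]
  have := dist_triangle y x (xk k)
  linarith

theorem len_ball_eq_closedBall {K : Set E2} {x : E2} {r : ℝ} (h0 : R135.len (K ∩ sphere x r) = 0) :
    R135.len (K ∩ ball x r) = R135.len (K ∩ closedBall x r) := by
  refine le_antisymm (measure_mono (inter_subset_inter_right _ ball_subset_closedBall)) ?_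
  have : K ∩ closedBall x r ⊆ (K ∩ ball x r) ∪ (K ∩ sphere x r) := by
    rw [← inter_union_distrib_left, ball_union_sphere]
  calc R135.len (K ∩ closedBall x r) ≤ R135.len ((K ∩ ball x r) ∪ (K ∩ sphere x r)) := measure_mono this
    _ ≤ R135.len (K ∩ ball x r) + R135.len (K ∩ sphere x r) := measure_union_le _ _
    _ = R135.len (K ∩ ball x r) := by rw [h0, add_zero]

/-- **(CV4)** lengths in moving closed balls -/
theorem Conv.tendsto_len_closedBall (hc : Conv uk Kk u K)
    (hfin : ∀ x r, R135.len (K ∩ closedBall x r) < ⊤) (hKm : MeasurableSet K)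
    (hx : Tendsto xk atTop (𝓝 x)) (hr : Tendsto rk atTop (𝓝 r))
    (h0 : R135.len (K ∩ sphere x r) = 0) :
    Tendsto (fun k => R135.len (Kk k ∩ closedBall (xk k) (rk k))) atTop
      (𝓝 (R135.len (K ∩ closedBall x r))) := by
  rw [tendsto_order]
  constructor
  · intro m hm
    rw [← len_ball_eq_closedBall h0] at hm
    filter_upwards [hc.eventually_lt_len hfin hKm hx hr hm] with k hk
    exact lt_of_lt_of_le hk (measure_mono (inter_subset_inter_right _ ball_subset_closedBall))
  · intro M hM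
    exact hc.eventually_len_lt hfin hKm hx hr hM

/-- lengths in moving open balls -/
theorem Conv.tendsto_len_ball (hc : Conv uk Kk u K)
    (hfin : ∀ x r, R135.len (K ∩ closedBall x r) < ⊤) (hKm : MeasurableSet K)
    (hx : Tendsto xk atTop (𝓝 x)) (hr : Tendsto rk atTop (𝓝 r))
    (h0 : R135.len (K ∩ sphere x r) = 0) :
    Tendsto (fun k => R135.len (Kk k ∩ ball (xk k) (rk k))) atTop
      (𝓝 (R135.len (K ∩ ball x r))) := by
  rw [tendsto_order]
  constructor
  · intro m hm
    exact hc.eventually_lt_len hfin hKm hx hr hm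
  · intro M hM
    rw [len_ball_eq_closedBall h0] at hM
    filter_upwards [hc.eventually_len_lt hfin hKm hx hr hM] with k hk
    exact lt_of_le_of_lt (measure_mono (inter_subset_inter_right _ ball_subset_closedBall)) hk

theorem Conv.tendsto_Lr_moving (hc : Conv uk Kk u K)
    (hfin : ∀ x r, R135.len (K ∩ closedBall x r) < ⊤) (hKm : MeasurableSet K)
    (hx : Tendsto xk atTop (𝓝 x)) (hr : Tendsto rk atTop (𝓝 r))
    (h0 : R135.len (K ∩ sphere x r) = 0) :
    Tendsto (fun k => Lr (Kk k) (xk k) (rk k)) atTop (𝓝 (Lr K x r)) :=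
  (ENNReal.tendsto_toReal (hfin x r).ne).comp
    (hc.tendsto_len_closedBall hfin hKm hx hr h0)

/-- real-valued upper bound, no condition on the sphere -/
theorem Conv.eventually_Lr_lt (hc : Conv uk Kk u K)
    (hfin : ∀ x r, R135.len (K ∩ closedBall x r) < ⊤) (hKm : MeasurableSet K)
    (hx : Tendsto xk atTop (𝓝 x)) (hr : Tendsto rk atTop (𝓝 r)) {M : ℝ} (hM : Lr K x r < M) :
    ∀ᶠ k in atTop, Lr (Kk k) (xk k) (rk k) < M := by
  have hM0 : 0 < M := lt_of_le_of_lt ENNReal.toReal_nonneg hM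
  have h1 : R135.len (K ∩ closedBall x r) < ENNReal.ofReal M := by
    rw [← ENNReal.ofReal_toReal (hfin x r).ne]
    exact (ENNReal.ofReal_lt_ofReal_iff hM0).2 hM
  filter_upwards [hc.eventually_len_lt hfin hKm hx hr h1] with k hk
  exact (ENNReal.toReal_lt_of_lt_ofReal hk)

/-- real-valued lower bound, no condition on the sphere -/
theorem Conv.eventually_lt_Lr (hc : Conv uk Kk u K)
    (hfin : ∀ x r, R135.len (K ∩ closedBall x r) < ⊤) (hKm : MeasurableSet K)
    (hx : Tendsto xk atTop (𝓝 x)) (hr : Tendsto rk atTop (𝓝 r)) {m : ℝ}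
    (hm : m < (R135.len (K ∩ ball x r)).toReal) :
    ∀ᶠ k in atTop, m < Lr (Kk k) (xk k) (rk k) := by
  have hfinb : R135.len (K ∩ ball x r) ≠ ⊤ :=
    (lt_of_le_of_lt (measure_mono (inter_subset_inter_right _ ball_subset_closedBall))
      (hfin x r)).ne
  have htop : ∀ᶠ k in atTop, R135.len (Kk k ∩ closedBall (xk k) (rk k)) < ⊤ :=
    hc.eventually_len_lt hfin hKm hx hr (hfin x r)
  rcases lt_or_ge m 0 with hm0 | hm0
  · exact Eventually.of_forall fun k => lt_of_lt_of_le hm0 ENNReal.toReal_nonneg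
  have h1 : ENNReal.ofReal m < R135.len (K ∩ ball x r) := by
    rw [← ENNReal.ofReal_toReal hfinb]
    exact (ENNReal.ofReal_lt_ofReal_iff (lt_of_le_of_lt hm0 hm)).2 hm
  filter_upwards [hc.eventually_lt_len hfin hKm hx hr h1, htop] with k hk hk2
  have h3 : ENNReal.ofReal m < R135.len (Kk k ∩ closedBall (xk k) (rk k)) :=
    lt_of_lt_of_le hk (measure_mono (inter_subset_inter_right _ ball_subset_closedBall))
  exact (ENNReal.ofReal_lt_iff_lt_toReal hm0 hk2.ne).1 h3

end Moving

end Crest.Agent.R135
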