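import Mathlib
import Crest.Agent.R135.Core

/-!
R135 (helper288): covariance of length, Dirichlet energy, energy under `y ↦ x₀ + r • y`.
-/

set_option autoImplicit false

open MeasureTheory Set Filter Topology Metric
open scoped ENNReal NNReal ContDiff Gradient

namespace Crest.Agent.R135

/-- the scaling map `y ↦ x₀ + r • y` -/
noncomputable def scm (x₀ : E2) (r : ℝ) (y : E2) : E2 := x₀ + r • y

/-- the inverse scaling map -/
noncomputable def scI (x₀ : E2) (r : ℝ) (x : E2) : E2 := r⁻¹ • (x - x₀)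

lemma scm_scI (x₀ : E2) {r : ℝ} (hr : r ≠ 0) (x : E2) : scm x₀ r (scI x₀ r x) = x := by
  unfold scm scI
  rw [smul_smul, mul_inv_cancel₀ hr, one_smul]
  abel

lemma scI_scm (x₀ : E2) {r : ℝ} (hr : r ≠ 0) (y : E2) : scI x₀ r (scm x₀ r y) = y := by
  unfold scm scI
  rw [add_sub_cancel_left, smul_smul, inv_mul_cancel₀ hr, one_smul]

lemma scI_eq_scm (x₀ : E2) (r : ℝ) (x : E2) : scI x₀ r x = scm (-(r⁻¹ • x₀)) r⁻¹ x := by
  unfold scm scI
  rw [smul_sub]; abel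

lemma continuous_scm (x₀ : E2) (r : ℝ) : Continuous (scm x₀ r) := by
  unfold scm; fun_prop

lemma continuous_scI (x₀ : E2) (r : ℝ) : Continuous (scI x₀ r) := by
  unfold scI; fun_prop

/-- the scaling map as a homeomorphism -/
noncomputable def scH (x₀ : E2) (r : ℝ) (hr : r ≠ 0) : E2 ≃ₜ E2 where
  toFun := scm x₀ r
  invFun := scI x₀ r
  left_inv := scI_scm x₀ hr
  right_inv := scm_scI x₀ hr
  continuous_toFun := continuous_scm x₀ r
  continuous_invFun := continuous_scI x₀ r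

@[simp] lemma scH_apply (x₀ : E2) (r : ℝ) (hr : r ≠ 0) (y : E2) : scH x₀ r hr y = scm x₀ r y := rfl

lemma dist_scm (x₀ : E2) (r : ℝ) (y z : E2) : dist (scm x₀ r y) (scm x₀ r z) = |r| * dist y z := by
  unfold scm
  rw [dist_add_left, dist_smul₀, Real.norm_eq_abs]

lemma rescK_eq_preimage (K : Set E2) (x₀ : E2) (r : ℝ) : rescK K x₀ r = scm x₀ r ⁻¹' K := rfl

@[simp] lemma mem_rescK {K : Set E2} {x₀ : E2} {r : ℝ} {y : E2} :
    y ∈ rescK K x₀ r ↔ x₀ + r • y ∈ K := Iff.rfl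

lemma mem_rescK' {K : Set E2} {x₀ : E2} {r : ℝ} {y : E2} :
    y ∈ rescK K x₀ r ↔ scm x₀ r y ∈ K := Iff.rfl

lemma rescK_eq_image (K : Set E2) (x₀ : E2) {r : ℝ} (hr : r ≠ 0) :
    rescK K x₀ r = scI x₀ r '' K := by
  ext y
  constructor
  · intro hy
    exact ⟨scm x₀ r y, hy, scI_scm x₀ hr y⟩
  · rintro ⟨x, hx, rfl⟩
    rw [mem_rescK', scm_scI x₀ hr]; exact hx

lemma image_scm_rescK (K : Set E2) (x₀ : E2) {r : ℝ} (hr : r ≠ 0) :
    scm x₀ r '' rescK K x₀ r = K := by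
  ext x
  constructor
  · rintro ⟨y, hy, rfl⟩; exact hy
  · intro hx
    refine ⟨scI x₀ r x, ?_, scm_scI x₀ hr x⟩
    rw [mem_rescK', scm_scI x₀ hr]; exact hx

@[simp] lemma rescK_univ (x₀ : E2) (r : ℝ) : rescK univ x₀ r = univ := rfl
@[simp] lemma rescK_empty (x₀ : E2) (r : ℝ) : rescK ∅ x₀ r = ∅ := rfl
lemma rescK_inter (A B : Set E2) (x₀ : E2) (r : ℝ) :
    rescK (A ∩ B) x₀ r = rescK A x₀ r ∩ rescK B x₀ r := rfl
lemma rescK_union (A B : Set E2) (x₀ : E2) (r : ℝ) :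
    rescK (A ∪ B) x₀ r = rescK A x₀ r ∪ rescK B x₀ r := rfl
lemma rescK_diff (A B : Set E2) (x₀ : E2) (r : ℝ) :
    rescK (A \ B) x₀ r = rescK A x₀ r \ rescK B x₀ r := rfl
lemma rescK_compl (A : Set E2) (x₀ : E2) (r : ℝ) :
    rescK Aᶜ x₀ r = (rescK A x₀ r)ᶜ := rfl
lemma rescK_mono {A B : Set E2} (h : A ⊆ B) (x₀ : E2) (r : ℝ) :
    rescK A x₀ r ⊆ rescK B x₀ r := fun _ hy => h hy

lemma rescK_closedBall (x₀ x : E2) {r : ℝ} (hr : 0 < r) (ρ : ℝ) :
    rescK (closedBall x ρ) x₀ r = closedBall (scI x₀ r x) (ρ / r) := by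
  ext y
  rw [mem_rescK', mem_closedBall, mem_closedBall, le_div_iff₀ hr, mul_comm]
  have : dist (scm x₀ r y) x = r * dist y (scI x₀ r x) := by
    conv_lhs => rw [← scm_scI x₀ hr.ne' x]
    rw [dist_scm, abs_of_pos hr]
  rw [this]

lemma rescK_ball (x₀ x : E2) {r : ℝ} (hr : 0 < r) (ρ : ℝ) :
    rescK (ball x ρ) x₀ r = ball (scI x₀ r x) (ρ / r) := by
  ext y
  rw [mem_rescK', mem_ball, mem_ball, lt_div_iff₀ hr, mul_comm]
  have : dist (scm x₀ r y) x = r * dist y (scI x₀ r x) := by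
    conv_lhs => rw [← scm_scI x₀ hr.ne' x]
    rw [dist_scm, abs_of_pos hr]
  rw [this]

lemma rescK_sphere (x₀ x : E2) {r : ℝ} (hr : 0 < r) (ρ : ℝ) :
    rescK (sphere x ρ) x₀ r = sphere (scI x₀ r x) (ρ / r) := by
  ext y
  rw [mem_rescK', mem_sphere, mem_sphere, eq_div_iff hr.ne', mul_comm]
  have : dist (scm x₀ r y) x = r * dist y (scI x₀ r x) := by
    conv_lhs => rw [← scm_scI x₀ hr.ne' x]
    rw [dist_scm, abs_of_pos hr]
  rw [this]

lemma closedBall_eq_rescK (x₀ y : E2) {r : ℝ} (hr : 0 < r) (s : ℝ) :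
    closedBall y s = rescK (closedBall (scm x₀ r y) (r * s)) x₀ r := by
  rw [rescK_closedBall x₀ _ hr, scI_scm x₀ hr.ne', mul_div_cancel_left₀ _ hr.ne']

lemma ball_eq_rescK (x₀ y : E2) {r : ℝ} (hr : 0 < r) (s : ℝ) :
    ball y s = rescK (ball (scm x₀ r y) (r * s)) x₀ r := by
  rw [rescK_ball x₀ _ hr, scI_scm x₀ hr.ne', mul_div_cancel_left₀ _ hr.ne']

lemma sphere_eq_rescK (x₀ y : E2) {r : ℝ} (hr : 0 < r) (s : ℝ) :
    sphere y s = rescK (sphere (scm x₀ r y) (r * s)) x₀ r := by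
  rw [rescK_sphere x₀ _ hr, scI_scm x₀ hr.ne', mul_div_cancel_left₀ _ hr.ne']

/-- composition of rescalings (sets) -/
lemma rescK_rescK (K : Set E2) (x₀ x₁ : E2) (r s : ℝ) :
    rescK (rescK K x₀ r) x₁ s = rescK K (scm x₀ r x₁) (r * s) := by
  ext y
  simp only [mem_rescK, scm]
  rw [smul_add, smul_smul, add_assoc]

/-- composition of rescalings (functions) -/
lemma rescF_rescF (u : E2 → ℝ) (x₀ x₁ : E2) {r s : ℝ} (hr : 0 ≤ r) :
    rescF (rescF u x₀ r) x₁ s = rescF u (scm x₀ r x₁) (r * s) := by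
  funext y
  simp only [rescF, scm]
  rw [smul_add, smul_smul, add_assoc, Real.sqrt_mul hr, mul_inv, ← mul_assoc, mul_comm (√s)⁻¹]

@[simp] lemma rescK_zero_one (K : Set E2) : rescK K 0 1 = K := by
  ext y; simp

@[simp] lemma rescF_zero_one (u : E2 → ℝ) : rescF u 0 1 = u := by
  funext y; simp [rescF]

/-- the inverse rescaling (sets) -/
lemma rescK_inv (K : Set E2) (x₀ : E2) {r : ℝ} (hr : r ≠ 0) :
    rescK (rescK K x₀ r) (-(r⁻¹ • x₀)) r⁻¹ = K := by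
  rw [rescK_rescK]
  have h1 : scm x₀ r (-(r⁻¹ • x₀)) = 0 := by
    unfold scm
    rw [smul_neg, smul_smul, mul_inv_cancel₀ hr, one_smul, add_neg_cancel]
  rw [h1, mul_inv_cancel₀ hr, rescK_zero_one]

lemma rescF_inv (u : E2 → ℝ) (x₀ : E2) {r : ℝ} (hr : 0 < r) :
    rescF (rescF u x₀ r) (-(r⁻¹ • x₀)) r⁻¹ = u := by
  rw [rescF_rescF _ _ _ hr.le]
  have h1 : scm x₀ r (-(r⁻¹ • x₀)) = 0 := by
    unfold scm
    rw [smul_neg, smul_smul, mul_inv_cancel₀ hr.ne', one_smul, add_neg_cancel]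
  rw [h1, mul_inv_cancel₀ hr.ne', rescF_zero_one]

lemma rescK_inv' (K : Set E2) (x₀ : E2) {r : ℝ} (hr : r ≠ 0) :
    rescK (rescK K (-(r⁻¹ • x₀)) r⁻¹) x₀ r = K := by
  rw [rescK_rescK]
  have h1 : scm (-(r⁻¹ • x₀)) r⁻¹ x₀ = 0 := by
    unfold scm; rw [neg_add_cancel]
  rw [h1, inv_mul_cancel₀ hr, rescK_zero_one]

lemma rescF_inv' (u : E2 → ℝ) (x₀ : E2) {r : ℝ} (hr : 0 < r) :
    rescF (rescF u (-(r⁻¹ • x₀)) r⁻¹) x₀ r = u := by
  rw [rescF_rescF _ _ _ (inv_nonneg.2 hr.le)]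
  have h1 : scm (-(r⁻¹ • x₀)) r⁻¹ x₀ = 0 := by
    unfold scm; rw [neg_add_cancel]
  rw [h1, inv_mul_cancel₀ hr.ne', rescF_zero_one]

/-! ### length -/

theorem len_rescK (K : Set E2) (x₀ : E2) {r : ℝ} (hr : 0 < r) :
    len (rescK K x₀ r) = ENNReal.ofReal r⁻¹ * len K := by
  unfold len
  have h1 : rescK K x₀ r = (fun y : E2 => r⁻¹ • y) '' ((fun x : E2 => x - x₀) '' K) := by
    rw [rescK_eq_image K x₀ hr.ne', image_image]
    rfl
  have h2 : (fun x : E2 => x - x₀) '' K = (IsometryEquiv.subRight x₀) '' K := rfl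
  rw [h1, image_smul, Measure.hausdorffMeasure_smul₀ zero_le_one (inv_ne_zero hr.ne'), h2,
    IsometryEquiv.hausdorffMeasure_image, NNReal.rpow_one, ENNReal.smul_def, smul_eq_mul]
  congr 1
  have h3 : ‖r⁻¹‖₊ = Real.toNNReal r⁻¹ := by
    rw [← Real.toNNReal_eq_nnnorm_of_nonneg (inv_nonneg.2 hr.le)]
  rw [h3]; rfl

theorem len_rescK_ne_top {K : Set E2} {x₀ : E2} {r : ℝ} (hr : 0 < r) :
    len (rescK K x₀ r) < ⊤ ↔ len K < ⊤ := by
  rw [len_rescK K x₀ hr]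
  constructor
  · intro h
    by_contra hK
    rw [not_lt, top_le_iff] at hK
    rw [hK, ENNReal.mul_top] at h
    · exact absurd h (lt_irrefl _)
    · exact (ENNReal.ofReal_pos.2 (inv_pos.2 hr)).ne'
  · intro h
    exact ENNReal.mul_lt_top ENNReal.ofReal_lt_top h

/-! ### gradients -/

theorem gradient_comp_scm (w : E2 → ℝ) (x₀ : E2) (r : ℝ) (y : E2) :
    ∇ (fun y => w (scm x₀ r y)) y = r • ∇ w (scm x₀ r y) := by
  unfold gradient
  have h1 : fderiv ℝ (fun y => w (scm x₀ r y)) y = r • fderiv ℝ w (scm x₀ r y) := by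
    have h2 := fderiv_comp_smul (𝕜 := ℝ) (f := fun z : E2 => w (x₀ + z)) (x := y) r
    have h3 : fderiv ℝ (fun z : E2 => w (x₀ + z)) (r • y) = fderiv ℝ w (x₀ + r • y) :=
      fderiv_comp_add_left x₀
    rw [h3] at h2
    exact h2
  rw [h1, map_smul]

theorem gradient_const_mul (c : ℝ) (w : E2 → ℝ) (y : E2) :
    ∇ (fun y => c * w y) y = c • ∇ w y := by
  unfold gradient
  have h1 : fderiv ℝ (fun y => c * w y) y = c • fderiv ℝ w y := by
    have := congrFun (fderiv_const_smul_field (𝕜 := ℝ) (f := w) c) y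
    exact this
  rw [h1, map_smul]

theorem gradient_rescF (w : E2 → ℝ) (x₀ : E2) {r : ℝ} (hr : 0 < r) (y : E2) :
    ∇ (rescF w x₀ r) y = √r • ∇ w (scm x₀ r y) := by
  have h1 : rescF w x₀ r = fun y => (√r)⁻¹ * (fun y => w (scm x₀ r y)) y := rfl
  rw [h1, gradient_const_mul, gradient_comp_scm, smul_smul]
  congr 1
  have h2 : √r ≠ 0 := (Real.sqrt_pos.2 hr).ne'
  field_simp
  rw [Real.sq_sqrt hr.le]

/-! ### change of variables -/

theorem map_scm_volume (x₀ : E2) {r : ℝ} (hr : 0 < r) :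
    Measure.map (scm x₀ r) (volume : Measure E2) = ENNReal.ofReal ((r ^ 2)⁻¹) • volume := by
  have h1 : scm x₀ r = (fun z => x₀ + z) ∘ (fun y : E2 => r • y) := rfl
  rw [h1, ← Measure.map_map (measurable_const_add x₀) (measurable_const_smul r),
    Measure.map_addHaar_smul volume hr.ne', Measure.map_smul, map_add_left_eq_self]
  congr 2
  rw [finrank_euclideanSpace_fin, abs_of_nonneg (by positivity)]

theorem lintegral_scm (x₀ : E2) {r : ℝ} (hr : 0 < r) (f : E2 → ℝ≥0∞) (A : Set E2) :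
    ∫⁻ y in rescK A x₀ r, f (scm x₀ r y) = ENNReal.ofReal ((r ^ 2)⁻¹) * ∫⁻ x in A, f x := by
  have hemb : MeasurableEmbedding (scm x₀ r) := (scH x₀ r hr.ne').measurableEmbedding
  have h1 := hemb.lintegral_map (μ := volume.restrict (rescK A x₀ r)) f
  have h2 : Measure.map (scm x₀ r) (volume.restrict (rescK A x₀ r)) =
      (ENNReal.ofReal ((r ^ 2)⁻¹) • (volume : Measure E2)).restrict A := by
    rw [rescK_eq_preimage, ← hemb.restrict_map, map_scm_volume x₀ hr]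
  rw [← h1, h2, Measure.restrict_smul, lintegral_smul_measure, smul_eq_mul]

theorem integral_scm {F : Type*} [NormedAddCommGroup F] [NormedSpace ℝ F]
    (x₀ : E2) {r : ℝ} (hr : 0 < r) (f : E2 → F) (A : Set E2) :
    ∫ y in rescK A x₀ r, f (scm x₀ r y) = (r ^ 2)⁻¹ • ∫ x in A, f x := by
  have hemb : MeasurableEmbedding (scm x₀ r) := (scH x₀ r hr.ne').measurableEmbedding
  have h1 := hemb.integral_map (μ := volume.restrict (rescK A x₀ r)) f
  have h2 : Measure.map (scm x₀ r) (volume.restrict (rescK A x₀ r)) =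
      (ENNReal.ofReal ((r ^ 2)⁻¹) • (volume : Measure E2)).restrict A := by
    rw [rescK_eq_preimage, ← hemb.restrict_map, map_scm_volume x₀ hr]
  rw [← h1, h2, Measure.restrict_smul, integral_smul_measure,
    ENNReal.toReal_ofReal (by positivity)]

/-! ### energies -/

theorem dirE_resc (w : E2 → ℝ) (L B : Set E2) (x₀ : E2) {r : ℝ} (hr : 0 < r) :
    dirE (rescF w x₀ r) (rescK L x₀ r) (rescK B x₀ r) = ENNReal.ofReal r⁻¹ * dirE w L B := by
  unfold dirE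
  have h1 : ∀ y, ‖∇ (rescF w x₀ r) y‖ₑ ^ 2 =
      (fun x => ENNReal.ofReal r * ‖∇ w x‖ₑ ^ 2) (scm x₀ r y) := by
    intro y
    rw [gradient_rescF w x₀ hr, enorm_smul, mul_pow]
    congr 1
    rw [Real.enorm_eq_ofReal (Real.sqrt_nonneg r),
      ← ENNReal.ofReal_pow (Real.sqrt_nonneg r), Real.sq_sqrt hr.le]
  rw [lintegral_congr h1, ← rescK_diff,
    lintegral_scm x₀ hr (fun x => ENNReal.ofReal r * ‖∇ w x‖ₑ ^ 2) (B \ L),
    lintegral_const_mul' _ _ ENNReal.ofReal_ne_top, ← mul_assoc,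
    ← ENNReal.ofReal_mul (by positivity)]
  congr 2
  field_simp

theorem len_inter_resc (L B : Set E2) (x₀ : E2) {r : ℝ} (hr : 0 < r) :
    len (rescK L x₀ r ∩ rescK B x₀ r) = ENNReal.ofReal r⁻¹ * len (L ∩ B) := by
  rw [← rescK_inter, len_rescK _ x₀ hr]

theorem enE_resc (w : E2 → ℝ) (L B : Set E2) (x₀ : E2) {r : ℝ} (hr : 0 < r) :
    enE (rescF w x₀ r) (rescK L x₀ r) (rescK B x₀ r) = ENNReal.ofReal r⁻¹ * enE w L B := by
  unfold enE
  rw [dirE_resc w L B x₀ hr, len_inter_resc L B x₀ hr, mul_add]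

theorem Lr_resc (K : Set E2) (x₀ y : E2) {r : ℝ} (hr : 0 < r) (s : ℝ) :
    Lr (rescK K x₀ r) y s = r⁻¹ * Lr K (scm x₀ r y) (r * s) := by
  unfold Lr
  rw [closedBall_eq_rescK x₀ y hr s, len_inter_resc _ _ x₀ hr, ENNReal.toReal_mul,
    ENNReal.toReal_ofReal (inv_nonneg.2 hr.le)]

theorem Dr_rescF (u : E2 → ℝ) (K : Set E2) (x₀ y : E2) {r : ℝ} (hr : 0 < r) (s : ℝ) :
    Dr (rescF u x₀ r) (rescK K x₀ r) y s = r⁻¹ * Dr u K (scm x₀ r y) (r * s) := by
  unfold Dr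
  rw [ball_eq_rescK x₀ y hr s, dirE_resc _ _ _ x₀ hr, ENNReal.toReal_mul,
    ENNReal.toReal_ofReal (inv_nonneg.2 hr.le)]

end Crest.Agent.R135
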