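import Mathlib
import Crest.Agent.R135.Scal1

/-!
R135 (helper288): the class `IsQM` is stable under rescaling.
-/

set_option autoImplicit false

open MeasureTheory Set Filter Topology Metric
open scoped ENNReal NNReal ContDiff Gradient

namespace Crest.Agent.R135

lemma isOpen_rescK {U : Set E2} (hU : IsOpen U) (x₀ : E2) (r : ℝ) : IsOpen (rescK U x₀ r) :=
  hU.preimage (continuous_scm x₀ r)

lemma isClosed_rescK {K : Set E2} (hK : IsClosed K) (x₀ : E2) (r : ℝ) :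
    IsClosed (rescK K x₀ r) := hK.preimage (continuous_scm x₀ r)

lemma closure_rescK (K : Set E2) (x₀ : E2) {r : ℝ} (hr : r ≠ 0) :
    closure (rescK K x₀ r) = rescK (closure K) x₀ r :=
  ((scH x₀ r hr).preimage_closure K).symm

lemma closure_rescK_inter {K U : Set E2} (h : closure K ∩ U ⊆ K) (x₀ : E2) {r : ℝ} (hr : r ≠ 0) :
    closure (rescK K x₀ r) ∩ rescK U x₀ r ⊆ rescK K x₀ r := by
  rw [closure_rescK K x₀ hr, ← rescK_inter]
  exact rescK_mono h x₀ r

lemma isCompact_rescK {K : Set E2} (hK : IsCompact K) (x₀ : E2) {r : ℝ} (hr : r ≠ 0) :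
    IsCompact (rescK K x₀ r) := (scH x₀ r hr).isCompact_preimage.2 hK

lemma lipschitzWith_scm (x₀ : E2) (r : ℝ) : LipschitzWith ‖r‖₊ (scm x₀ r) := by
  refine LipschitzWith.of_dist_le_mul fun y z => ?_
  rw [dist_scm, coe_nnnorm, Real.norm_eq_abs]

lemma LocConstOn.mono {W V : Set E2} {c : E2 → ℝ} (h : LocConstOn W c) (hV : V ⊆ W) :
    LocConstOn V c := fun x hx => h x (hV hx)

lemma LocConstOn.comp_scm {W : Set E2} {c : E2 → ℝ} (h : LocConstOn W c) (x₀ : E2) (r : ℝ) :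
    LocConstOn (rescK W x₀ r) (fun y => c (scm x₀ r y)) := by
  intro y hy
  have h1 := h _ hy
  exact (continuous_scm x₀ r).continuousAt.eventually h1

lemma LocConstOn.comp_scI {W : Set E2} {c : E2 → ℝ} {x₀ : E2} {r : ℝ} (hr : r ≠ 0)
    (h : LocConstOn (rescK W x₀ r) c) : LocConstOn W (fun x => c (scI x₀ r x)) := by
  intro x hx
  have h0 : scI x₀ r x ∈ rescK W x₀ r := by rw [mem_rescK', scm_scI x₀ hr]; exact hx
  have h1 := h _ h0
  exact (continuous_scI x₀ r).continuousAt.eventually h1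

theorem Keeps.resc {U K L B : Set E2} (h : Keeps U K L B) (x₀ : E2) {r : ℝ} (hr : r ≠ 0) :
    Keeps (rescK U x₀ r) (rescK K x₀ r) (rescK L x₀ r) (rescK B x₀ r) := by
  intro c hc
  rw [← rescK_diff] at hc
  obtain ⟨c', hc', hcc⟩ := h _ (LocConstOn.comp_scI hr hc)
  refine ⟨fun y => c' (scm x₀ r y), ?_, ?_⟩
  · rw [← rescK_diff]
    exact hc'.comp_scm x₀ r
  · intro y hy
    have hy' : scm x₀ r y ∈ U \ (K ∪ B) := hy
    have h3 := hcc _ hy'
    rw [scI_scm x₀ hr] at h3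
    exact h3

lemma locallyLipschitzOn_comp_scm {V : Set E2} (hV : IsOpen V) {w : E2 → ℝ}
    (h : LocallyLipschitzOn V w) (x₀ : E2) (r : ℝ) :
    LocallyLipschitzOn (rescK V x₀ r) (fun y => w (scm x₀ r y)) := by
  intro y hy
  obtain ⟨C, t, ht, hC⟩ := h (x := scm x₀ r y) hy
  have hy' : scm x₀ r y ∈ V := hy
  rw [hV.nhdsWithin_eq hy'] at ht
  refine ⟨C * ‖r‖₊, scm x₀ r ⁻¹' t, mem_nhdsWithin_of_mem_nhds
    ((continuous_scm x₀ r).continuousAt ht), ?_⟩
  exact hC.comp ((lipschitzWith_scm x₀ r).lipschitzOnWith (s := scm x₀ r ⁻¹' t))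
    (fun y hy => hy)

lemma LocallyLipschitzOn.const_mul' {V : Set E2} {w : E2 → ℝ}
    (h : LocallyLipschitzOn V w) (a : ℝ) :
    LocallyLipschitzOn V (fun y => a * w y) := by
  intro y hy
  obtain ⟨C, t, ht, hC⟩ := h hy
  refine ⟨‖a‖₊ * C, t, ht, ?_⟩
  rw [lipschitzOnWith_iff_dist_le_mul] at hC ⊢
  intro p hp q hq
  rw [Real.dist_eq, ← mul_sub, abs_mul, NNReal.coe_mul, coe_nnnorm, Real.norm_eq_abs, mul_assoc]
  have := hC p hp q hq
  rw [Real.dist_eq] at this
  gcongr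

lemma locallyLipschitzOn_rescF {V : Set E2} (hV : IsOpen V) {w : E2 → ℝ}
    (h : LocallyLipschitzOn V w) (x₀ : E2) (r : ℝ) :
    LocallyLipschitzOn (rescK V x₀ r) (rescF w x₀ r) :=
  LocallyLipschitzOn.const_mul' (locallyLipschitzOn_comp_scm hV h x₀ r) (√r)⁻¹

lemma isOpen_diff_of_closure {U K : Set E2} (hU : IsOpen U) (hK : closure K ∩ U ⊆ K) :
    IsOpen (U \ K) := by
  have : U \ K = U \ closure K := by
    ext x
    constructor
    · rintro ⟨h1, h2⟩
      exact ⟨h1, fun h3 => h2 (hK ⟨h3, h1⟩)⟩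
    · rintro ⟨h1, h2⟩
      exact ⟨h1, fun h3 => h2 (subset_closure h3)⟩
  rw [this]
  exact hU.sdiff isClosed_closure

theorem IsComp.resc {U : Set E2} {u : E2 → ℝ} {K : Set E2} {x : E2} {ρ : ℝ} {w : E2 → ℝ}
    {L : Set E2} (hU : IsOpen U) (h : IsComp U u K x ρ w L) (x₀ : E2) {r : ℝ} (hr : 0 < r) :
    IsComp (rescK U x₀ r) (rescF u x₀ r) (rescK K x₀ r) (scI x₀ r x) (ρ / r)
      (rescF w x₀ r) (rescK L x₀ r) where
  sub := rescK_mono h.sub x₀ r
  closed := closure_rescK_inter h.closed x₀ hr.ne'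
  len_fin := by
    rw [← rescK_closedBall x₀ x hr, len_inter_resc _ _ x₀ hr]
    exact ENNReal.mul_lt_top ENNReal.ofReal_lt_top h.len_fin
  eqL := by
    rw [← rescK_closedBall x₀ x hr, ← rescK_diff, ← rescK_diff, h.eqL]
  lip := by
    rw [← rescK_diff]
    exact locallyLipschitzOn_rescF (isOpen_diff_of_closure hU h.closed) h.lip x₀ r
  eqw := by
    intro y hy
    rw [← rescK_closedBall x₀ x hr, ← rescK_union, ← rescK_diff] at hy
    have := h.eqw (scm x₀ r y) hy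
    simp only [rescF]
    rw [show x₀ + r • y = scm x₀ r y from rfl, this]
  keeps := by
    rw [← rescK_closedBall x₀ x hr]
    exact h.keeps.resc x₀ hr.ne'

/-- competitors pulled back along a rescaling -/
theorem IsComp.unresc {U : Set E2} {u : E2 → ℝ} {K : Set E2} {x₀ : E2} {r : ℝ} (hr : 0 < r)
    {y : E2} {s : ℝ} {w : E2 → ℝ} {L : Set E2} (hU : IsOpen U)
    (h : IsComp (rescK U x₀ r) (rescF u x₀ r) (rescK K x₀ r) y s w L) :
    IsComp U u K (scm x₀ r y) (r * s) (rescF w (-(r⁻¹ • x₀)) r⁻¹) (rescK L (-(r⁻¹ • x₀)) r⁻¹) := by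
  have h1 := h.resc (isOpen_rescK hU x₀ r) (-(r⁻¹ • x₀)) (inv_pos.2 hr)
  rw [rescK_inv _ _ hr.ne', rescK_inv _ _ hr.ne', rescF_inv _ _ hr] at h1
  have h2 : scI (-(r⁻¹ • x₀)) r⁻¹ y = scm x₀ r y := by
    unfold scI scm
    rw [inv_inv, sub_neg_eq_add, smul_add, smul_smul, mul_inv_cancel₀ hr.ne', one_smul, add_comm]
  have h3 : s / r⁻¹ = r * s := by rw [div_inv_eq_mul, mul_comm]
  rw [h2, h3] at h1
  exact h1

theorem IsTest.comp_scI {U K : Set E2} {φ : E2 → ℝ} {x₀ : E2} {r : ℝ} (hr : 0 < r)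
    (hU : IsOpen U) (hK : closure K ∩ U ⊆ K)
    (h : IsTest (rescK U x₀ r) (rescK K x₀ r) φ) : IsTest U K (fun x => φ (scI x₀ r x)) where
  lip := by
    have h1 := locallyLipschitzOn_comp_scm (isOpen_diff_of_closure (isOpen_rescK hU x₀ r)
      (closure_rescK_inter hK x₀ hr.ne')) h.lip (-(r⁻¹ • x₀)) r⁻¹
    rw [← rescK_diff, rescK_inv _ _ hr.ne'] at h1
    have h2 : (fun x => φ (scI x₀ r x)) = fun y => φ (scm (-(r⁻¹ • x₀)) r⁻¹ y) := by
      funext x; rw [scI_eq_scm]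
    rw [h2]; exact h1
  bdd := by
    obtain ⟨M, hM⟩ := h.bdd
    exact ⟨M, fun y => hM _⟩
  supp := by
    obtain ⟨C, hC, hCU, hφ⟩ := h.supp
    refine ⟨rescK C (-(r⁻¹ • x₀)) r⁻¹, isCompact_rescK hC _ (inv_ne_zero hr.ne'), ?_, ?_⟩
    · have := rescK_mono hCU (-(r⁻¹ • x₀)) r⁻¹
      rwa [rescK_inv _ _ hr.ne'] at this
    · intro y hy
      apply hφ
      rw [scI_eq_scm]
      exact hy
  dir_fin := by
    have h1 := dirE_resc φ (rescK K x₀ r) (rescK U x₀ r) (-(r⁻¹ • x₀)) (inv_pos.2 hr)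
    rw [rescK_inv _ _ hr.ne', rescK_inv _ _ hr.ne'] at h1
    have h2 : dirE (rescF φ (-(r⁻¹ • x₀)) r⁻¹) K U < ⊤ := by
      rw [h1]; exact ENNReal.mul_lt_top ENNReal.ofReal_lt_top h.dir_fin
    have h3 : ∀ x, ‖∇ (fun x => φ (scI x₀ r x)) x‖ₑ ^ 2 = ENNReal.ofReal r⁻¹ *
        ‖∇ (rescF φ (-(r⁻¹ • x₀)) r⁻¹) x‖ₑ ^ 2 := by
      intro x
      have h4 : (fun x => φ (scI x₀ r x)) = fun y => φ (scm (-(r⁻¹ • x₀)) r⁻¹ y) := by
        funext x; rw [scI_eq_scm]
      rw [h4, gradient_comp_scm, gradient_rescF _ _ (inv_pos.2 hr), enorm_smul, enorm_smul,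
        mul_pow, mul_pow, ← mul_assoc]
      congr 1
      rw [Real.enorm_eq_ofReal (Real.sqrt_nonneg _), ← ENNReal.ofReal_pow (Real.sqrt_nonneg _),
        Real.sq_sqrt (inv_nonneg.2 hr.le), Real.enorm_eq_ofReal (inv_nonneg.2 hr.le), sq]
    unfold dirE at h2 ⊢
    rw [lintegral_congr h3, lintegral_const_mul' _ _ ENNReal.ofReal_ne_top]
    exact ENNReal.mul_lt_top ENNReal.ofReal_lt_top h2

lemma rescF_contDiffOn {V : Set E2} {u : E2 → ℝ} (h : ContDiffOn ℝ 1 u V) (x₀ : E2) (r : ℝ) :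
    ContDiffOn ℝ 1 (rescF u x₀ r) (rescK V x₀ r) := by
  have h1 : ContDiff ℝ 1 (scm x₀ r) := by unfold scm; fun_prop
  have h2 : ContDiffOn ℝ 1 (fun y => u (scm x₀ r y)) (rescK V x₀ r) :=
    h.comp h1.contDiffOn (fun y hy => hy)
  exact contDiffOn_const.mul h2

/-- The class of quasi-minimizers is stable under rescaling. -/
theorem IsQM.resc' {U : Set E2} {lam : ℝ} {u : E2 → ℝ} {K : Set E2} (h : IsQM U lam u K)
    (x₀ : E2) {r : ℝ} (hr : 0 < r) {lam' : ℝ} (h1 : r * lam ≤ lam')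
    (h2 : r * √r * lam ≤ lam') :
    IsQM (rescK U x₀ r) lam' (rescF u x₀ r) (rescK K x₀ r) where
  isOpen := isOpen_rescK h.isOpen x₀ r
  lam_nonneg := le_trans (mul_nonneg hr.le h.lam_nonneg) h1
  sub := rescK_mono h.sub x₀ r
  closed := closure_rescK_inter h.closed x₀ hr.ne'
  c1 := by
    rw [← rescK_diff]; exact rescF_contDiffOn h.c1 x₀ r
  len_fin := by
    intro y s hys
    rw [closedBall_eq_rescK x₀ y hr s] at hys ⊢
    rw [len_inter_resc _ _ x₀ hr]
    refine ENNReal.mul_lt_top ENNReal.ofReal_lt_top (h.len_fin _ _ ?_)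
    have := image_mono (f := scm x₀ r) hys
    rwa [image_scm_rescK _ _ hr.ne', image_scm_rescK _ _ hr.ne'] at this
  dir_fin := by
    intro y s hys
    rw [closedBall_eq_rescK x₀ y hr s] at hys ⊢
    rw [dirE_resc _ _ _ x₀ hr]
    refine ENNReal.mul_lt_top ENNReal.ofReal_lt_top (h.dir_fin _ _ ?_)
    have := image_mono (f := scm x₀ r) hys
    rwa [image_scm_rescK _ _ hr.ne', image_scm_rescK _ _ hr.ne'] at this
  red := by
    intro y hy s hs
    rw [ball_eq_rescK x₀ y hr s, len_inter_resc _ _ x₀ hr]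
    have := h.red _ hy (r * s) (mul_pos hr hs)
    exact ENNReal.mul_pos (ENNReal.ofReal_pos.2 (inv_pos.2 hr)).ne' this.ne'
  min := by
    intro y s hs hys w L hw
    have hc := hw.unresc hr h.isOpen
    have hsub : closedBall (scm x₀ r y) (r * s) ⊆ U := by
      rw [closedBall_eq_rescK x₀ y hr s] at hys
      have := image_mono (f := scm x₀ r) hys
      rwa [image_scm_rescK _ _ hr.ne', image_scm_rescK _ _ hr.ne'] at this
    have hm := h.min _ _ (mul_pos hr hs) hsub _ _ hc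
    have e1 := enE_resc u K (closedBall (scm x₀ r y) (r * s)) x₀ hr
    have e2 := enE_resc (rescF w (-(r⁻¹ • x₀)) r⁻¹) (rescK L (-(r⁻¹ • x₀)) r⁻¹)
      (closedBall (scm x₀ r y) (r * s)) x₀ hr
    rw [← closedBall_eq_rescK x₀ y hr s] at e1 e2
    rw [rescF_inv' _ _ hr, rescK_inv' _ _ hr.ne'] at e2
    rw [e1, e2]
    calc ENNReal.ofReal r⁻¹ * enE u K (closedBall (scm x₀ r y) (r * s))
        ≤ ENNReal.ofReal r⁻¹ * (enE (rescF w (-(r⁻¹ • x₀)) r⁻¹) (rescK L (-(r⁻¹ • x₀)) r⁻¹)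
            (closedBall (scm x₀ r y) (r * s)) + ENNReal.ofReal (lam * (r * s) ^ 2)) := by
          gcongr
      _ = ENNReal.ofReal r⁻¹ * enE (rescF w (-(r⁻¹ • x₀)) r⁻¹) (rescK L (-(r⁻¹ • x₀)) r⁻¹)
            (closedBall (scm x₀ r y) (r * s)) + ENNReal.ofReal (r * lam * s ^ 2) := by
          rw [mul_add, ← ENNReal.ofReal_mul (inv_nonneg.2 hr.le)]
          congr 2
          field_simp
      _ ≤ _ := by
          gcongr
  el := by
    obtain ⟨f, hf, hfb, hel⟩ := h.el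
    refine ⟨fun y => r * √r * f (scm x₀ r y), ?_, ?_, ?_⟩
    · exact (hf.comp (continuous_scm x₀ r).measurable).const_mul _
    · intro y
      rw [abs_mul, abs_of_nonneg (by positivity)]
      calc r * √r * |f (scm x₀ r y)| ≤ r * √r * lam := by
            gcongr; exact hfb _
        _ ≤ lam' := h2
    · intro φ hφ
      have ht := hφ.comp_scI hr h.isOpen h.closed
      have he := hel _ ht
      set ψ : E2 → ℝ := fun x => φ (scI x₀ r x) with hψ
      have hφψ : φ = fun y => ψ (scm x₀ r y) := by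
        funext y; simp only [hψ, scI_scm x₀ hr.ne']
      have e1 : ∫ y in rescK U x₀ r \ rescK K x₀ r, inner ℝ (∇ (rescF u x₀ r) y) (∇ φ y) =
          (r * √r) * ((r ^ 2)⁻¹ * ∫ x in U \ K, inner ℝ (∇ u x) (∇ ψ x)) := by
        rw [← rescK_diff]
        have e2 : ∀ y, inner ℝ (∇ (rescF u x₀ r) y) (∇ φ y) =
            (r * √r) * (fun x => inner ℝ (∇ u x) (∇ ψ x)) (scm x₀ r y) := by
          intro y
          rw [gradient_rescF u x₀ hr, hφψ, gradient_comp_scm, inner_smul_left, inner_smul_right]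
          simp only [conj_trivial]
          ring
        rw [integral_congr_ae (Eventually.of_forall e2), integral_const_mul,
          integral_scm x₀ hr (fun x => inner ℝ (∇ u x) (∇ ψ x)) (U \ K), smul_eq_mul]
      have e3 : ∫ y in rescK U x₀ r, r * √r * f (scm x₀ r y) * φ y =
          (r * √r) * ((r ^ 2)⁻¹ * ∫ x in U, f x * ψ x) := by
        have e4 : ∀ y, r * √r * f (scm x₀ r y) * φ y =
            (r * √r) * (fun x => f x * ψ x) (scm x₀ r y) := by
          intro y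
          rw [hφψ]
          ring
        rw [integral_congr_ae (Eventually.of_forall e4), integral_const_mul,
          integral_scm x₀ hr (fun x => f x * ψ x) U, smul_eq_mul]
      rw [e1, e3, he]
      ring

/-- rescaling by a factor at most one -/
theorem IsQM.resc_le {U : Set E2} {lam : ℝ} {u : E2 → ℝ} {K : Set E2} (h : IsQM U lam u K)
    (x₀ : E2) {r : ℝ} (hr : 0 < r) (hr1 : r ≤ 1) :
    IsQM (rescK U x₀ r) (r * lam) (rescF u x₀ r) (rescK K x₀ r) := by
  refine h.resc' x₀ hr le_rfl ?_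
  have h1 : √r ≤ 1 := Real.sqrt_le_one.2 hr1
  have := h.lam_nonneg
  calc r * √r * lam ≤ r * 1 * lam := by gcongr
    _ = r * lam := by ring

/-- rescaling of global objects -/
theorem IsQM.resc0 {u : E2 → ℝ} {K : Set E2} (h : IsQM univ 0 u K)
    (x₀ : E2) {r : ℝ} (hr : 0 < r) :
    IsQM univ 0 (rescF u x₀ r) (rescK K x₀ r) := by
  have := h.resc' x₀ hr (lam' := 0) (by simp) (by simp)
  simpa using this

end Crest.Agent.R135
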