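import Mathlib
import Crest.Agent.R135.QMBasic
import Crest.Agent.R135.Scal2

/-!
# Operations on the class `IsQM` (helper140)

* `IsQM.mono`: restriction to a smaller open set;
* `IsQM.weaken`: larger `lam`;
* `IsQM.addConst`: adding a locally constant function;
* `IsQM.neg`: change of sign.
-/

set_option autoImplicit false

open MeasureTheory Set Filter Topology Metric
open scoped ENNReal NNReal ContDiff Gradient

namespace Crest.Agent.R135

/-! ### gradients -/

lemma gradient_add_locConst {w c : E2 → ℝ} {x : E2} (hc : ∀ᶠ y in 𝓝 x, c y = c x) :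
    gradient (fun y => w y + c y) x = gradient w x := by
  have h1 : (fun y => w y + c y) =ᶠ[𝓝 x] fun y => w y + c x := by
    filter_upwards [hc] with y hy
    rw [hy]
  rw [gradient_congr_of_eventuallyEq h1]
  unfold gradient
  rw [fderiv_add_const]

lemma gradient_sub_locConst {w c : E2 → ℝ} {x : E2} (hc : ∀ᶠ y in 𝓝 x, c y = c x) :
    gradient (fun y => w y - c y) x = gradient w x := by
  have := gradient_add_locConst (w := w) (c := fun y => - c y) (x := x)
    (hc.mono fun y hy => by simp only [hy])
  simpa [sub_eq_add_neg] using this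

lemma gradient_neg' (w : E2 → ℝ) (x : E2) : gradient (fun y => - w y) x = - gradient w x := by
  unfold gradient
  rw [fderiv_fun_neg, map_neg]

lemma LocConstOn.lipAt {W : Set E2} {c : E2 → ℝ} (h : LocConstOn W c) {x : E2} (hx : x ∈ W) :
    LipAt c x := lipAt_of_eventually_const (c x) (h x hx)

lemma LocConstOn.contDiffOn {W : Set E2} {c : E2 → ℝ} (h : LocConstOn W c) :
    ContDiffOn ℝ 1 c W := by
  intro x hx
  have h1 : c =ᶠ[𝓝 x] fun _ => c x := h x hx
  exact (contDiffAt_const.congr_of_eventuallyEq h1).contDiffWithinAt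

lemma LocConstOn.neg {W : Set E2} {c : E2 → ℝ} (h : LocConstOn W c) :
    LocConstOn W (fun y => - c y) := fun x hx => (h x hx).mono fun y hy => by simp only [hy]

lemma LocConstOn.add {W : Set E2} {c d : E2 → ℝ} (h : LocConstOn W c) (h' : LocConstOn W d) :
    LocConstOn W (fun y => c y + d y) := fun x hx => by
  filter_upwards [h x hx, h' x hx] with y hy hy'
  rw [hy, hy']

namespace IsComp

variable {U : Set E2} {u : E2 → ℝ} {K : Set E2} {x : E2} {ρ : ℝ} {w : E2 → ℝ} {L : Set E2}

lemma isOpen_diff (h : IsComp U u K x ρ w L) (hU : IsOpen U) : IsOpen (U \ L) :=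
  (relClosed_iff hU).1 h.closed

lemma measurable_L (h : IsComp U u K x ρ w L) (hU : IsOpen U) : MeasurableSet L :=
  relClosed_measurable hU h.sub h.closed

end IsComp

namespace IsQM

variable {U : Set E2} {lam : ℝ} {u : E2 → ℝ} {K : Set E2}

/-- larger error constant -/
theorem weaken (h : IsQM U lam u K) {lam' : ℝ} (hl : lam ≤ lam') : IsQM U lam' u K where
  isOpen := h.isOpen
  lam_nonneg := h.lam_nonneg.trans hl
  sub := h.sub
  closed := h.closed
  c1 := h.c1
  len_fin := h.len_fin
  dir_fin := h.dir_fin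
  red := h.red
  min := fun x ρ hρ hB w L hc => (h.min x ρ hρ hB w L hc).trans (by gcongr)
  el := by
    obtain ⟨f, hf, hb, he⟩ := h.el
    exact ⟨f, hf, fun x => (hb x).trans hl, he⟩

/-- adding a locally constant function -/
theorem addConst (h : IsQM U lam u K) {c : E2 → ℝ} (hc : LocConstOn (U \ K) c) :
    IsQM U lam (fun y => u y + c y) K := by
  have hgrad : ∀ y ∈ U \ K, gradient (fun y => u y + c y) y = gradient u y :=
    fun y hy => gradient_add_locConst (hc y hy)
  have hen : ∀ x r, closedBall x r ⊆ U →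
      dirE (fun y => u y + c y) K (closedBall x r) = dirE u K (closedBall x r) := by
    intro x r hr
    refine dirE_congr (isClosed_closedBall.measurableSet.diff h.measurable_K) ?_
    intro y hy
    exact hgrad y ⟨hr hy.1, hy.2⟩
  refine ⟨h.isOpen, h.lam_nonneg, h.sub, h.closed, h.c1.add hc.contDiffOn, h.len_fin, ?_, h.red,
    ?_, ?_⟩
  · intro x r hr
    rw [hen x r hr]; exact h.dir_fin x r hr
  · intro x ρ hρ hB w L hcomp
    obtain ⟨c', hc', hcc⟩ := hcomp.keeps c hc
    have hopen := hcomp.isOpen_diff h.isOpen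
    have hcomp' : IsComp U u K x ρ (fun y => w y - c' y) L := by
      refine ⟨hcomp.sub, hcomp.closed, hcomp.len_fin, hcomp.eqL, ?_, ?_, hcomp.keeps⟩
      · rw [locallyLipschitzOn_iff_lipAt hopen]
        intro y hy
        exact ((locallyLipschitzOn_iff_lipAt hopen).1 hcomp.lip y hy).sub (hc'.lipAt hy)
      · intro y hy
        have h1 := hcomp.eqw y hy
        have h2 := hcc y hy
        simp only [h1, h2]; ring
    have h1 := h.min x ρ hρ hB _ L hcomp'
    have h2 : dirE (fun y => w y - c' y) L (closedBall x ρ) = dirE w L (closedBall x ρ) := by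
      refine dirE_congr (isClosed_closedBall.measurableSet.diff (hcomp.measurable_L h.isOpen)) ?_
      intro y hy
      exact gradient_sub_locConst (hc' y ⟨hB hy.1, hy.2⟩)
    rw [enE, hen x ρ hB]
    rw [enE, enE, h2] at h1
    exact h1
  · obtain ⟨f, hf, hb, he⟩ := h.el
    refine ⟨f, hf, hb, fun φ hφ => ?_⟩
    rw [← he φ hφ]
    refine setIntegral_congr_fun h.isOpen_diff.measurableSet ?_
    intro y hy
    simp only [hgrad y hy]

/-- only the values off `K` matter -/
theorem congr (h : IsQM U lam u K) {u' : E2 → ℝ} (hc : ∀ y ∈ U \ K, u' y = u y) :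
    IsQM U lam u' K := by
  have hev : ∀ y ∈ U \ K, u' =ᶠ[𝓝 y] u := by
    intro y hy
    filter_upwards [h.isOpen_diff.mem_nhds hy] with z hz
    exact hc z hz
  have hgrad : ∀ y ∈ U \ K, gradient u' y = gradient u y :=
    fun y hy => gradient_congr_of_eventuallyEq (hev y hy)
  have hen : ∀ x r, closedBall x r ⊆ U →
      dirE u' K (closedBall x r) = dirE u K (closedBall x r) := by
    intro x r hr
    refine dirE_congr (isClosed_closedBall.measurableSet.diff h.measurable_K) ?_
    intro y hy
    exact hgrad y ⟨hr hy.1, hy.2⟩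
  refine ⟨h.isOpen, h.lam_nonneg, h.sub, h.closed, h.c1.congr hc, h.len_fin, ?_, h.red, ?_, ?_⟩
  · intro x r hr
    rw [hen x r hr]; exact h.dir_fin x r hr
  · intro x ρ hρ hB w L hcomp
    have hcomp' : IsComp U u K x ρ w L := by
      refine ⟨hcomp.sub, hcomp.closed, hcomp.len_fin, hcomp.eqL, hcomp.lip, ?_, hcomp.keeps⟩
      intro y hy
      rw [hcomp.eqw y hy]
      exact hc y ⟨hy.1, fun hK => hy.2 (Or.inl hK)⟩
    have h1 := h.min x ρ hρ hB _ L hcomp'
    rw [enE, hen x ρ hB]
    exact h1
  · obtain ⟨f, hf, hb, he⟩ := h.el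
    refine ⟨f, hf, hb, fun φ hφ => ?_⟩
    rw [← he φ hφ]
    refine setIntegral_congr_fun h.isOpen_diff.measurableSet ?_
    intro y hy
    simp only [hgrad y hy]

/-- change of sign -/
theorem neg (h : IsQM U lam u K) : IsQM U lam (fun y => - u y) K := by
  have hen : ∀ (w : E2 → ℝ) (L B : Set E2), dirE (fun y => - w y) L B = dirE w L B := by
    intro w L B
    unfold dirE
    simp only [gradient_neg', enorm_neg]
  refine ⟨h.isOpen, h.lam_nonneg, h.sub, h.closed, h.c1.neg, h.len_fin, ?_, h.red, ?_, ?_⟩
  · intro x r hr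
    rw [hen]; exact h.dir_fin x r hr
  · intro x ρ hρ hB w L hcomp
    have hopen := hcomp.isOpen_diff h.isOpen
    have hcomp' : IsComp U u K x ρ (fun y => - w y) L := by
      refine ⟨hcomp.sub, hcomp.closed, hcomp.len_fin, hcomp.eqL, ?_, ?_, hcomp.keeps⟩
      · rw [locallyLipschitzOn_iff_lipAt hopen]
        intro y hy
        exact ((locallyLipschitzOn_iff_lipAt hopen).1 hcomp.lip y hy).neg
      · intro y hy
        have h1 := hcomp.eqw y hy
        simp only [h1, neg_neg]
    have h1 := h.min x ρ hρ hB _ L hcomp'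
    rw [enE, hen]
    rw [enE, enE, hen] at h1
    exact h1
  · obtain ⟨f, hf, hb, he⟩ := h.el
    refine ⟨fun y => - f y, hf.neg, fun x => by rw [abs_neg]; exact hb x, fun φ hφ => ?_⟩
    have h1 := he φ hφ
    simp only [gradient_neg', inner_neg_left, neg_mul, integral_neg]
    rw [h1]

end IsQM

end Crest.Agent.R135
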