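import Mathlib
import Crest.Agent.R135.QMOps

/-!
# Restriction of a quasi-minimizer to a smaller open set (helper140)
-/

set_option autoImplicit false

open MeasureTheory Set Filter Topology Metric
open scoped ENNReal NNReal ContDiff Gradient

namespace Crest.Agent.R135

/-- Replacement inside a ball: a competitor for the restriction to `V` extends to a competitor
in `U`. -/
theorem IsComp.extend {U V : Set E2} {u : E2 → ℝ} {K : Set E2} {x : E2} {ρ : ℝ}
    {w : E2 → ℝ} {L : Set E2} (hU : IsOpen U) (hV : IsOpen V) (hVU : V ⊆ U) (hKU : K ⊆ U)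
    (hKcl : closure K ∩ U ⊆ K) (hu : LocallyLipschitzOn (U \ K) u)
    (hB : closedBall x ρ ⊆ V) (h : IsComp V u (K ∩ V) x ρ w L) :
    ∃ (w' : E2 → ℝ) (L' : Set E2), IsComp U u K x ρ w' L' ∧ L' ∩ V = L ∧
      (∀ y ∈ V \ L, w' y = w y) ∧ (∀ y ∉ closedBall x ρ, w' y = u y) := by
  classical
  set L' : Set E2 := L ∪ (K \ V) with hL'
  set w' : E2 → ℝ := fun y => if y ∈ closedBall x ρ then w y else u y with hw'
  have hKo : IsOpen (U \ K) := (relClosed_iff hU).1 hKcl
  have hVo : IsOpen (V \ L) := h.isOpen_diff hV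
  have hL'V : L' ∩ V = L := by
    ext y
    constructor
    · rintro ⟨h1 | h1, h2⟩
      · exact h1
      · exact absurd h2 h1.2
    · intro h1
      exact ⟨Or.inl h1, h.sub h1⟩
  have hmemV : ∀ y ∈ V, (y ∈ L' ↔ y ∈ L) := by
    intro y hy
    constructor
    · rintro (h1 | h1)
      · exact h1
      · exact absurd hy h1.2
    · exact Or.inl
  have hnotL : ∀ y ∈ V, y ∉ closedBall x ρ → (y ∈ L ↔ y ∈ K) := by
    intro y hyV hyB
    have h1 : y ∈ L \ closedBall x ρ ↔ y ∈ (K ∩ V) \ closedBall x ρ := by rw [h.eqL]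
    constructor
    · intro h2; exact (h1.1 ⟨h2, hyB⟩).1.1
    · intro h2; exact (h1.2 ⟨⟨h2, hyV⟩, hyB⟩).1
  have hww : ∀ y ∈ V \ L, w' y = w y := by
    intro y hy
    by_cases hyB : y ∈ closedBall x ρ
    · simp only [hw', if_pos hyB]
    · simp only [hw', if_neg hyB]
      have hyK : y ∉ K := fun hK => hy.2 ((hnotL y hy.1 hyB).2 hK)
      symm
      refine h.eqw y ⟨hy.1, ?_⟩
      rintro (h2 | h2)
      · exact hyK h2.1
      · exact hyB h2
  have hwu : ∀ y ∉ closedBall x ρ, w' y = u y := fun y hy => by simp only [hw', if_neg hy]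
  have hcases : ∀ y ∈ U \ L', (y ∈ V \ L) ∨ (y ∉ closedBall x ρ ∧ y ∈ U \ K) := by
    intro y hy
    by_cases hyV : y ∈ V
    · left
      exact ⟨hyV, fun h1 => hy.2 ((hmemV y hyV).2 h1)⟩
    · right
      exact ⟨fun h1 => hyV (hB h1), hy.1, fun h1 => hy.2 (Or.inr ⟨h1, hyV⟩)⟩
  have hopen' : IsOpen (U \ L') := by
    have : U \ L' = (V \ L) ∪ ((closedBall x ρ)ᶜ ∩ (U \ K)) := by
      ext y
      constructor
      · intro hy; exact hcases y hy
      · rintro (hy | hy)
        · exact ⟨hVU hy.1, fun h1 => hy.2 ((hmemV y hy.1).1 h1)⟩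
        · refine ⟨hy.2.1, ?_⟩
          rintro (h1 | h1)
          · exact hy.2.2 ((hnotL y (h.sub h1) hy.1).1 h1)
          · exact hy.2.2 h1.1
    rw [this]
    exact hVo.union (isClosed_closedBall.isOpen_compl.inter hKo)
  refine ⟨w', L', ⟨?_, (relClosed_iff hU).2 hopen', ?_, ?_, ?_, ?_, ?_⟩, hL'V, hww, hwu⟩
  · exact union_subset (h.sub.trans hVU) (sdiff_subset.trans hKU)
  · refine lt_of_le_of_lt (measure_mono ?_) h.len_fin
    rintro y ⟨h1 | h1, h2⟩
    · exact ⟨h1, h2⟩
    · exact absurd (hB h2) h1.2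
  · ext y
    constructor
    · rintro ⟨h1 | h1, h2⟩
      · exact ⟨(hnotL y (h.sub h1) h2).1 h1, h2⟩
      · exact ⟨h1.1, h2⟩
    · rintro ⟨h1, h2⟩
      by_cases hyV : y ∈ V
      · exact ⟨Or.inl ((hnotL y hyV h2).2 h1), h2⟩
      · exact ⟨Or.inr ⟨h1, hyV⟩, h2⟩
  · rw [locallyLipschitzOn_iff_lipAt hopen']
    intro y hy
    rcases hcases y hy with h1 | ⟨h1, h2⟩
    · refine ((locallyLipschitzOn_iff_lipAt hVo).1 h.lip y h1).congr ?_
      filter_upwards [hVo.mem_nhds h1] with z hz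
      exact (hww z hz).symm
    · refine ((locallyLipschitzOn_iff_lipAt hKo).1 hu y h2).congr ?_
      filter_upwards [isClosed_closedBall.isOpen_compl.mem_nhds h1] with z hz
      exact (hwu z hz).symm
  · intro y hy
    exact hwu y (fun h1 => hy.2 (Or.inr h1))
  · intro c hc
    have hcV : LocConstOn (V \ (K ∩ V)) c :=
      hc.mono fun y hy => ⟨hVU hy.1, fun hK => hy.2 ⟨hK, hy.1⟩⟩
    obtain ⟨c', hc', hcc⟩ := h.keeps c hcV
    refine ⟨fun y => if y ∈ closedBall x ρ then c' y else c y, ?_, ?_⟩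
    · -- on V \ L the function equals c'
      have heq : ∀ y ∈ V \ L, (if y ∈ closedBall x ρ then c' y else c y) = c' y := by
        intro y hy
        by_cases hyB : y ∈ closedBall x ρ
        · rw [if_pos hyB]
        · rw [if_neg hyB]
          have hyK : y ∉ K := fun hK => hy.2 ((hnotL y hy.1 hyB).2 hK)
          symm
          refine hcc y ⟨hy.1, ?_⟩
          rintro (h2 | h2)
          · exact hyK h2.1
          · exact hyB h2
      intro y hy
      rcases hcases y hy with h1 | ⟨h1, h2⟩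
      · filter_upwards [hVo.mem_nhds h1, hc' y h1] with z hz hz'
        rw [heq z hz, heq y h1, hz']
      · filter_upwards [isClosed_closedBall.isOpen_compl.mem_nhds h1, hc y h2] with z hz hz'
        rw [if_neg hz, if_neg h1, hz']
    · intro y hy
      simp only [if_neg (fun h1 => hy.2 (Or.inr h1))]

/-- Restriction to a smaller open set. -/
theorem IsQM.mono {U : Set E2} {lam : ℝ} {u : E2 → ℝ} {K : Set E2} (h : IsQM U lam u K)
    {V : Set E2} (hV : IsOpen V) (hVU : V ⊆ U) : IsQM V lam u (K ∩ V) := by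
  have hVK : V \ (K ∩ V) = V \ K := by
    ext y; constructor
    · rintro ⟨h1, h2⟩; exact ⟨h1, fun h3 => h2 ⟨h3, h1⟩⟩
    · rintro ⟨h1, h2⟩; exact ⟨h1, fun h3 => h2 h3.1⟩
  have hBK : ∀ B : Set E2, B ⊆ V → B \ (K ∩ V) = B \ K := by
    intro B hB
    ext y; constructor
    · rintro ⟨h1, h2⟩; exact ⟨h1, fun h3 => h2 ⟨h3, hB h1⟩⟩
    · rintro ⟨h1, h2⟩; exact ⟨h1, fun h3 => h2 h3.1⟩
  have hBK' : ∀ B : Set E2, B ⊆ V → (K ∩ V) ∩ B = K ∩ B := by
    intro B hB
    ext y; constructor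
    · rintro ⟨⟨h1, _⟩, h3⟩; exact ⟨h1, h3⟩
    · rintro ⟨h1, h2⟩; exact ⟨⟨h1, hB h2⟩, h2⟩
  refine ⟨hV, h.lam_nonneg, inter_subset_right, ?_, ?_, ?_, ?_, ?_, ?_, ?_⟩
  · rintro y ⟨h1, h2⟩
    exact ⟨h.closed ⟨closure_mono inter_subset_left h1, hVU h2⟩, h2⟩
  · rw [hVK]; exact h.c1.mono (sdiff_subset_sdiff_left hVU)
  · intro x r hr
    rw [hBK' _ hr]; exact h.len_fin x r (hr.trans hVU)
  · intro x r hr
    unfold dirE
    rw [hBK _ hr]; exact h.dir_fin x r (hr.trans hVU)
  · intro x hx r hr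
    obtain ⟨s, hs, hsV⟩ := Metric.isOpen_iff.1 hV x hx.2
    have h1 := h.red x hx.1 (Min.min r s) (lt_min hr hs)
    refine h1.trans_le (measure_mono ?_)
    rintro y ⟨hy, hy'⟩
    exact ⟨⟨hy, hsV (ball_subset_ball (min_le_right _ _) hy')⟩,
      ball_subset_ball (min_le_left _ _) hy'⟩
  · intro x ρ hρ hB w L hcomp
    obtain ⟨w', L', hc', hLV, hww, hwu⟩ :=
      hcomp.extend h.isOpen hV hVU h.sub h.closed h.locallyLipschitzOn hB
    have h1 := h.min x ρ hρ (hB.trans hVU) w' L' hc'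
    have e1 : enE u (K ∩ V) (closedBall x ρ) = enE u K (closedBall x ρ) := by
      unfold enE dirE
      rw [hBK _ hB, hBK' _ hB]
    have hLB : L' ∩ closedBall x ρ = L ∩ closedBall x ρ := by
      ext y; constructor
      · rintro ⟨h2, h3⟩
        have : y ∈ L' ∩ V := ⟨h2, hB h3⟩
        rw [hLV] at this; exact ⟨this, h3⟩
      · rintro ⟨h2, h3⟩
        have : y ∈ L' ∩ V := by rw [hLV]; exact h2
        exact ⟨this.1, h3⟩
    have hBL : closedBall x ρ \ L' = closedBall x ρ \ L := by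
      ext y; constructor
      · rintro ⟨h2, h3⟩
        refine ⟨h2, fun h4 => h3 ?_⟩
        have : y ∈ L' ∩ closedBall x ρ := by rw [hLB]; exact ⟨h4, h2⟩
        exact this.1
      · rintro ⟨h2, h3⟩
        refine ⟨h2, fun h4 => h3 ?_⟩
        have : y ∈ L ∩ closedBall x ρ := by rw [← hLB]; exact ⟨h4, h2⟩
        exact this.1
    have e2 : enE w' L' (closedBall x ρ) = enE w L (closedBall x ρ) := by
      unfold enE
      rw [hLB]
      congr 1
      unfold dirE
      rw [hBL]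
      refine setLIntegral_congr_fun
        (isClosed_closedBall.measurableSet.diff (hcomp.measurable_L hV)) ?_
      intro y hy
      have hyo : V \ L ∈ 𝓝 y := (hcomp.isOpen_diff hV).mem_nhds ⟨hB hy.1, hy.2⟩
      have : w' =ᶠ[𝓝 y] w := by
        filter_upwards [hyo] with z hz
        exact hww z hz
      simp only [gradient_congr_of_eventuallyEq this]
    rw [e1, ← e2]; exact h1
  · obtain ⟨f, hf, hb, he⟩ := h.el
    refine ⟨f, hf, hb, fun φ hφ => ?_⟩
    obtain ⟨C, hC, hCV, hC0⟩ := hφ.supp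
    have hzero : ∀ y ∉ C, ∀ᶠ z in 𝓝 y, φ z = 0 := by
      intro y hy
      filter_upwards [hC.isClosed.isOpen_compl.mem_nhds hy] with z hz
      exact hC0 z hz
    have hgz : ∀ y ∉ C, gradient φ y = 0 := fun y hy =>
      gradient_eq_zero_of_eventually_const 0 (hzero y hy)
    have hVo : IsOpen (V \ (K ∩ V)) := by
      rw [hVK]
      have : V \ K = V ∩ (U \ K) := by
        ext y; constructor
        · rintro ⟨h1, h2⟩; exact ⟨h1, hVU h1, h2⟩
        · rintro ⟨h1, h2⟩; exact ⟨h1, h2.2⟩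
      rw [this]; exact hV.inter h.isOpen_diff
    have hset : V \ (K ∩ V) ⊆ U \ K := by rw [hVK]; exact sdiff_subset_sdiff_left hVU
    have htest : IsTest U K φ := by
      refine ⟨?_, hφ.bdd, ⟨C, hC, hCV.trans hVU, hC0⟩, ?_⟩
      · rw [locallyLipschitzOn_iff_lipAt h.isOpen_diff]
        intro y hy
        by_cases hyV : y ∈ V
        · exact (locallyLipschitzOn_iff_lipAt hVo).1 hφ.lip y ⟨hyV, fun h1 => hy.2 h1.1⟩
        · exact lipAt_of_eventually_const 0 (hzero y (fun h1 => hyV (hCV h1)))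
      · have h1 := hφ.dir_fin
        unfold dirE at h1 ⊢
        refine lt_of_le_of_lt (le_of_eq ?_) h1
        rw [hVK, ← lintegral_inter_add_sdiff _ (U \ K) hV.measurableSet]
        have a1 : ∫⁻ y in (U \ K) \ V, ‖gradient φ y‖ₑ ^ 2 = 0 := by
          refine setLIntegral_eq_zero (h.isOpen_diff.measurableSet.diff hV.measurableSet) ?_
          rintro y ⟨_, hyV⟩
          simp only [Pi.zero_apply]
          rw [hgz y (fun h2 => hyV (hCV h2))]
          simp
        rw [a1, add_zero]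
        congr 2
        ext y; constructor
        · rintro ⟨h1, h2⟩; exact ⟨h2, h1.2⟩
        · rintro ⟨h1, h2⟩; exact ⟨⟨hVU h1, h2⟩, h1⟩
    have h1 := he φ htest
    have e1 : ∫ y in V \ (K ∩ V), inner ℝ (gradient u y) (gradient φ y)
        = ∫ y in U \ K, inner ℝ (gradient u y) (gradient φ y) := by
      symm
      refine setIntegral_eq_of_subset_of_forall_sdiff_eq_zero h.isOpen_diff.measurableSet hset ?_
      rintro y ⟨hy1, hy2⟩
      have hyV : y ∉ V := fun h2 => hy2 ⟨h2, fun h3 => hy1.2 h3.1⟩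
      rw [hgz y (fun h2 => hyV (hCV h2)), inner_zero_right]
    have e2 : ∫ y in V, f y * φ y = ∫ y in U, f y * φ y := by
      symm
      refine setIntegral_eq_of_subset_of_forall_sdiff_eq_zero h.isOpen.measurableSet hVU ?_
      rintro y ⟨_, hy2⟩
      rw [hC0 y (fun h2 => hy2 (hCV h2)), mul_zero]
    rw [e1, e2]; exact h1

end Crest.Agent.R135
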