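import Crest.Agent.R135.IFDefs
import Crest.Agent.R135.QMMono

/-! INTERFACE A2: invariances of the class (helper288: Scal1, Scal2; helper140: QMOps, QMMono,
which contain `IsQM.mono`, `IsQM.addConst`, `IsQM.congr`, `IsQM.neg`). -/

set_option autoImplicit false

open MeasureTheory Set Filter Topology Metric
open scoped ENNReal NNReal ContDiff Gradient
open Crest.AnalysisR.PDE.OnePhase Crest.AnalysisR.PDE.MumfordShah

namespace Crest.Agent.R135

theorem IsQM.resc {U : Set E2} {lam : ℝ} {u : E2 → ℝ} {K : Set E2} (h : IsQM U lam u K)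
    (x₀ : E2) {r : ℝ} (hr : 0 < r) (hr1 : r ≤ 1) :
    IsQM {y | x₀ + r • y ∈ U} (lam * r) (rescF u x₀ r) (rescK K x₀ r) := by
  rw [mul_comm lam r]
  exact h.resc_le x₀ hr hr1

theorem IsQM.resc_univ {u : E2 → ℝ} {K : Set E2} (h : IsQM univ 0 u K)
    (x₀ : E2) {r : ℝ} (hr : 0 < r) : IsQM univ 0 (rescF u x₀ r) (rescK K x₀ r) :=
  h.resc0 x₀ hr

theorem IsQM.lam_mono {U : Set E2} {lam lam' : ℝ} {u : E2 → ℝ} {K : Set E2} (h : IsQM U lam u K)
    (hl : lam ≤ lam') : IsQM U lam' u K :=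
  h.weaken hl

/-- scaling of the Dirichlet energy -/
theorem Dr_resc (u : E2 → ℝ) (K : Set E2) (x₀ x : E2) {r s : ℝ} (hr : 0 < r) :
    Dr (rescF u x₀ r) (rescK K x₀ r) x s = r⁻¹ * Dr u K (x₀ + r • x) (r * s) :=
  Dr_rescF u K x₀ x hr s

/-- scaling of the length -/
theorem len_resc (K : Set E2) (x₀ x : E2) {r s : ℝ} (hr : 0 < r) :
    len (rescK K x₀ r ∩ closedBall x s) =
      ENNReal.ofReal r⁻¹ * len (K ∩ closedBall (x₀ + r • x) (r * s)) := by
  rw [closedBall_eq_rescK x₀ x hr s]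
  exact len_rescK (K ∩ closedBall (x₀ + r • x) (r * s)) x₀ hr

theorem volume_K {U : Set E2} {lam : ℝ} {u : E2 → ℝ} {K : Set E2} (h : IsQM U lam u K) :
    volume K = 0 := h.volume_K

/-- a homeomorphic image of the crack keeps the separation -/
theorem keeps_of_homeomorph {K : Set E2} (Φ : E2 ≃ₜ E2) {B : Set E2} (_hK : IsClosed K)
    (hΦ : ∀ y ∉ B, Φ y = y) (_hB : ∀ y ∈ B, Φ y ∈ B) : Keeps univ K (Φ '' K) B := by
  intro c hc
  refine ⟨fun y => c (Φ.symm y), ?_, ?_⟩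
  · intro x hx
    have hx' : Φ.symm x ∈ univ \ K := by
      refine ⟨mem_univ _, fun h => hx.2 ⟨Φ.symm x, h, by simp⟩⟩
    exact Φ.symm.continuous.continuousAt.eventually (hc _ hx')
  · rintro y ⟨_, hy⟩
    have hyB : y ∉ B := fun h => hy (Or.inr h)
    have h1 : Φ.symm y = y := by
      rw [Homeomorph.symm_apply_eq]; exact (hΦ y hyB).symm
    simp only [h1]

end Crest.Agent.R135
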