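import Crest.Agent.R135.CT2
import Crest.Agent.R135.IF_A2

/-!
# R135: gradients at moving points, convergence of differences of values (helper270)
-/

set_option autoImplicit false

open MeasureTheory Set Filter Topology Metric
open scoped ENNReal NNReal ContDiff Gradient

namespace Crest.Agent.R135

section

variable {uk : ℕ → E2 → ℝ} {Kk : ℕ → Set E2} {u : E2 → ℝ} {K : Set E2}

theorem IsQM.isClosed_univ {lam : ℝ} (h : IsQM univ lam u K) : IsClosed K := by
  have h1 := h.closed
  rw [inter_univ] at h1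
  exact closure_subset_iff_isClosed.1 h1

/-- gradients at moving points -/
theorem Conv.tendsto_gradient (hc : Conv uk Kk u K) (hK : IsClosed K)
    (hcont : ContinuousOn (gradient u) Kᶜ) {z : E2} (hz : z ∉ K) {zk : ℕ → E2}
    (hzk : Tendsto zk atTop (𝓝 z)) :
    Tendsto (fun k => gradient (uk k) (zk k)) atTop (𝓝 (gradient u z)) := by
  obtain ⟨δ, hδ, hball⟩ := Metric.isOpen_iff.1 hK.isOpen_compl z hz
  have hd : Disjoint (closedBall z (δ / 2)) K := by
    rw [Set.disjoint_left]
    intro y hy hyK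
    exact hball (closedBall_subset_ball (half_lt_self hδ) hy) hyK
  have hca : ContinuousAt (gradient u) z := hcont.continuousAt (hK.isOpen_compl.mem_nhds hz)
  rw [Metric.tendsto_nhds]
  intro ε hε
  have h1 := hc.grad _ (isCompact_closedBall z (δ / 2)) hd (ε / 2) (half_pos hε)
  have h2 : ∀ᶠ k in atTop, zk k ∈ closedBall z (δ / 2) :=
    hzk.eventually (closedBall_mem_nhds z (half_pos hδ))
  have h3 : ∀ᶠ k in atTop, dist (gradient u (zk k)) (gradient u z) < ε / 2 :=
    (hca.tendsto.comp hzk).eventually (ball_mem_nhds _ (half_pos hε))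
  filter_upwards [h1, h2, h3] with k a b c
  have h4 := a _ b
  rw [← dist_eq_norm] at h4
  calc dist (gradient (uk k) (zk k)) (gradient u z)
      ≤ dist (gradient (uk k) (zk k)) (gradient u (zk k)) + dist (gradient u (zk k)) (gradient u z) :=
        dist_triangle _ _ _
    _ < ε := by linarith

/-- local version: on a closed ball off the limit crack the differences of values converge
uniformly -/
theorem Conv.eventually_sub_ball (hc : Conv uk Kk u K) {Uk : ℕ → Set E2} {lamk : ℕ → ℝ}
    (h : ∀ k, IsQM (Uk k) (lamk k) (uk k) (Kk k))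
    (hU : ∀ R : ℝ, ∀ᶠ k in atTop, closedBall (0 : E2) R ⊆ Uk k)
    (hq : IsQM univ 0 u K) {x : E2} {ρ : ℝ} (hd : Disjoint (closedBall x ρ) K) {ε : ℝ}
    (hε : 0 < ε) :
    ∀ᶠ k in atTop, ∀ y ∈ closedBall x ρ, ∀ z ∈ closedBall x ρ,
      |(uk k z - uk k y) - (u z - u y)| ≤ ε := by
  rcases lt_or_ge ρ 0 with hρ | hρ
  · refine Eventually.of_forall fun k y hy => ?_
    rw [closedBall_eq_empty.2 hρ] at hy
    exact absurd hy (notMem_empty y)
  set η : ℝ := ε / (2 * ρ + 1) with hη
  have hηpos : 0 < η := by positivity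
  have h1 := hc.grad _ (isCompact_closedBall x ρ) hd η hηpos
  have h2 := hc.away _ (isCompact_closedBall x ρ) hd
  have h3 := hU (‖x‖ + ρ)
  filter_upwards [h1, h2, h3] with k hk1 hk2 hk3 y hy z hz
  have hsub : closedBall x ρ ⊆ Uk k \ Kk k := by
    intro w hw
    refine ⟨hk3 ?_, fun hwK => Set.disjoint_left.1 hk2 hw hwK⟩
    rw [mem_closedBall_zero_iff]
    have h4 := norm_le_norm_add_norm_sub' w x
    have h5 : ‖w - x‖ ≤ ρ := by rw [← dist_eq_norm]; exact hw
    linarith
  have hfd : ∀ w ∈ closedBall x ρ, HasFDerivWithinAt (fun w => uk k w - u w)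
      (fderiv ℝ (uk k) w - fderiv ℝ u w) (closedBall x ρ) w := by
    intro w hw
    have h4 : DifferentiableAt ℝ (uk k) w :=
      ((h k).contDiffAt (hsub hw)).differentiableAt (by norm_num)
    have h5 : DifferentiableAt ℝ u w :=
      (hq.contDiffAt ⟨mem_univ _, fun hwK => Set.disjoint_left.1 hd hw hwK⟩).differentiableAt
        (by norm_num)
    exact (h4.hasFDerivAt.sub h5.hasFDerivAt).hasFDerivWithinAt
  have hbd : ∀ w ∈ closedBall x ρ, ‖fderiv ℝ (uk k) w - fderiv ℝ u w‖ ≤ η := by
    intro w hw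
    have h4 := (hk1 w hw).le
    unfold gradient at h4
    rw [← map_sub, LinearIsometryEquiv.norm_map] at h4
    exact h4
  have h6 := (convex_closedBall x ρ).norm_image_sub_le_of_norm_hasFDerivWithin_le hfd hbd hy hz
  have h7 : ‖z - y‖ ≤ 2 * ρ := by
    rw [← dist_eq_norm]
    have h8 := dist_triangle z x y
    rw [dist_comm x y] at h8
    have h9 : dist z x ≤ ρ := hz
    have h10 : dist y x ≤ ρ := hy
    linarith
  rw [Real.norm_eq_abs] at h6
  have h8 : uk k z - uk k y - (u z - u y) = uk k z - u z - (uk k y - u y) := by ring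
  rw [h8]
  refine h6.trans ?_
  calc η * ‖z - y‖ ≤ η * (2 * ρ + 1) := by
        refine mul_le_mul_of_nonneg_left ?_ hηpos.le
        linarith
    _ = ε := by rw [hη]; field_simp

theorem Conv.tendsto_sub_of_isPreconnected (hc : Conv uk Kk u K) {Uk : ℕ → Set E2} {lamk : ℕ → ℝ}
    (h : ∀ k, IsQM (Uk k) (lamk k) (uk k) (Kk k))
    (hU : ∀ R : ℝ, ∀ᶠ k in atTop, closedBall (0 : E2) R ⊆ Uk k)
    (hq : IsQM univ 0 u K) {S : Set E2} (hS : IsPreconnected S) (hSK : Disjoint S K)
    {y z : E2} (hy : y ∈ S) (hz : z ∈ S) :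
    Tendsto (fun k => uk k z - uk k y) atTop (𝓝 (u z - u y)) := by
  have hK : IsClosed K := hq.isClosed_univ
  set T : E2 → E2 → Prop := fun a b => Tendsto (fun k => uk k b - uk k a) atTop (𝓝 (u b - u a))
    with hT
  have htrans : ∀ a b c, T a b → T b c → T a c := by
    intro a b c h1 h2
    have h3 := h1.add h2
    simp only [hT]
    have h4 : u b - u a + (u c - u b) = u c - u a := by ring
    rw [h4] at h3
    exact h3.congr fun k => by ring
  have hsymm : ∀ a b, T a b → T b a := by
    intro a b h1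
    have h3 := h1.neg
    simp only [hT]
    have h4 : -(u b - u a) = u a - u b := by ring
    rw [h4] at h3
    exact h3.congr fun k => by ring
  have hloc : ∀ a, a ∉ K → ∃ δ > 0, ∀ b ∈ ball a δ, T a b := by
    intro a ha
    obtain ⟨δ, hδ, hball⟩ := Metric.isOpen_iff.1 hK.isOpen_compl a ha
    refine ⟨δ / 2, half_pos hδ, fun b hb => ?_⟩
    have hd : Disjoint (closedBall a (δ / 2)) K := by
      rw [Set.disjoint_left]
      intro w hw hwK
      exact hball (closedBall_subset_ball (half_lt_self hδ) hw) hwK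
    simp only [hT]
    rw [Metric.tendsto_nhds]
    intro ε hε
    filter_upwards [hc.eventually_sub_ball h hU hq hd (half_pos hε)] with k hk
    have := hk a (mem_closedBall_self (half_pos hδ).le) b (ball_subset_closedBall hb)
    rw [Real.dist_eq]
    linarith
  have hA : IsOpen {b | b ∉ K ∧ T y b} := by
    rw [Metric.isOpen_iff]
    rintro b ⟨hb, hTb⟩
    obtain ⟨δ, hδ, hδT⟩ := hloc b hb
    obtain ⟨δ', hδ', hball⟩ := Metric.isOpen_iff.1 hK.isOpen_compl b hb
    refine ⟨min δ δ', lt_min hδ hδ', fun c hc' => ⟨?_, ?_⟩⟩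
    · exact hball (ball_subset_ball (min_le_right _ _) hc')
    · exact htrans _ _ _ hTb (hδT c (ball_subset_ball (min_le_left _ _) hc'))
  have hB : IsOpen {b | b ∉ K ∧ ¬ T y b} := by
    rw [Metric.isOpen_iff]
    rintro b ⟨hb, hTb⟩
    obtain ⟨δ, hδ, hδT⟩ := hloc b hb
    obtain ⟨δ', hδ', hball⟩ := Metric.isOpen_iff.1 hK.isOpen_compl b hb
    refine ⟨min δ δ', lt_min hδ hδ', fun c hc' => ⟨?_, fun hcT => hTb ?_⟩⟩
    · exact hball (ball_subset_ball (min_le_right _ _) hc')
    · exact htrans _ _ _ hcT (hsymm _ _ (hδT c (ball_subset_ball (min_le_left _ _) hc')))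
  have hAB : Disjoint {b | b ∉ K ∧ T y b} {b | b ∉ K ∧ ¬ T y b} := by
    rw [Set.disjoint_left]
    rintro b ⟨-, h1⟩ ⟨-, h2⟩
    exact h2 h1
  have hcov : S ⊆ {b | b ∉ K ∧ T y b} ∪ {b | b ∉ K ∧ ¬ T y b} := by
    intro b hb
    have hbK : b ∉ K := fun hbK => Set.disjoint_left.1 hSK hb hbK
    by_cases hTb : T y b
    · exact Or.inl ⟨hbK, hTb⟩
    · exact Or.inr ⟨hbK, hTb⟩
  have hTyy : T y y := by
    simp only [hT, sub_self]
    exact tendsto_const_nhds
  have hyA : (S ∩ {b | b ∉ K ∧ T y b}).Nonempty :=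
    ⟨y, hy, fun hyK => Set.disjoint_left.1 hSK hy hyK, hTyy⟩
  have := hS.subset_left_of_subset_union hA hB hAB hcov hyA hz
  exact this.2

/-- **(CV6)** differences of values at moving points, along a connected set off the limit crack -/
theorem Conv.tendsto_sub_moving (hc : Conv uk Kk u K) {Uk : ℕ → Set E2} {lamk : ℕ → ℝ}
    (h : ∀ k, IsQM (Uk k) (lamk k) (uk k) (Kk k))
    (hU : ∀ R : ℝ, ∀ᶠ k in atTop, closedBall (0 : E2) R ⊆ Uk k)
    (hq : IsQM univ 0 u K) {S : Set E2} (hS : IsPreconnected S) (hSK : Disjoint S K)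
    {y z : E2} (hy : y ∈ S) (hz : z ∈ S) {yk zk : ℕ → E2} (hyk : Tendsto yk atTop (𝓝 y))
    (hzk : Tendsto zk atTop (𝓝 z)) :
    Tendsto (fun k => uk k (zk k) - uk k (yk k)) atTop (𝓝 (u z - u y)) := by
  have hK : IsClosed K := hq.isClosed_univ
  have key : ∀ a : E2, a ∉ K → ∀ ak : ℕ → E2, Tendsto ak atTop (𝓝 a) →
      Tendsto (fun k => uk k (ak k) - uk k a) atTop (𝓝 0) := by
    intro a ha ak hak
    obtain ⟨δ, hδ, hball⟩ := Metric.isOpen_iff.1 hK.isOpen_compl a ha
    have hd : Disjoint (closedBall a (δ / 2)) K := by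
      rw [Set.disjoint_left]
      intro w hw hwK
      exact hball (closedBall_subset_ball (half_lt_self hδ) hw) hwK
    have hca : ContinuousAt u a := (hq.contDiffAt ⟨mem_univ _, ha⟩).continuousAt
    have h1 : Tendsto (fun k => u (ak k) - u a) atTop (𝓝 0) := by
      have := (hca.tendsto.comp hak).sub (tendsto_const_nhds (x := u a))
      simpa using this
    have h2 : Tendsto (fun k => (uk k (ak k) - uk k a) - (u (ak k) - u a)) atTop (𝓝 0) := by
      rw [Metric.tendsto_nhds]
      intro ε hε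
      filter_upwards [hc.eventually_sub_ball h hU hq hd (half_pos hε),
        hak.eventually (closedBall_mem_nhds a (half_pos hδ))] with k hk1 hk2
      have := hk1 a (mem_closedBall_self (half_pos hδ).le) _ hk2
      rw [Real.dist_eq, sub_zero]
      linarith
    have := h2.add h1
    simpa using this
  have hyK : y ∉ K := fun hyK => Set.disjoint_left.1 hSK hy hyK
  have hzK : z ∉ K := fun hzK => Set.disjoint_left.1 hSK hz hzK
  have h1 := key y hyK yk hyk
  have h2 := key z hzK zk hzk
  have h3 := hc.tendsto_sub_of_isPreconnected h hU hq hS hSK hy hz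
  have h5 := (h3.add h2).sub h1
  have h4 : u z - u y + 0 - 0 = u z - u y := by ring
  rw [h4] at h5
  exact h5.congr fun k => by ring

end

end Crest.Agent.R135
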