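import Mathlib
import Crest.Agent.R135.Core
import Crest.Agent.R135.GMT1

/-!
R135 (helper709): concentration, part 1 (block CONC, step C1).

For an Ahlfors regular set `K` and a function `F` (the norm of the gradient) whose energy in every
ball is at most `C₀ s`, every ball centred on `K` contains a smaller ball of comparable size, centred
on `K`, in which the `L¹` norm of `F` is small: `(∫_{B(y,s)} F)² ≤ e s³`. Direct proof by Tonelli's
theorem (no compactness).
-/

set_option autoImplicit false

open MeasureTheory Set Filter Topology Metric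
open scoped ENNReal NNReal

namespace Crest.Agent.R135

/-- Cauchy–Schwarz on a set -/
theorem sq_lintegral_le (S : Set E2) (F : E2 → ℝ≥0∞) (hF : AEMeasurable F (volume.restrict S)) :
    (∫⁻ x in S, F x) ^ 2 ≤ volume S * ∫⁻ x in S, F x ^ 2 := by
  have h := ENNReal.lintegral_mul_le_Lp_mul_Lq (volume.restrict S) Real.HolderConjugate.two_two hF
    (g := fun _ => (1 : ℝ≥0∞)) aemeasurable_const
  simp only [Pi.mul_apply, mul_one, ENNReal.one_rpow, lintegral_const, Measure.restrict_apply_univ,
    one_mul] at h
  have h2 : ∀ a : ℝ≥0∞, (a ^ (1 / (2 : ℝ))) ^ 2 = a := by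
    intro a
    rw [← ENNReal.rpow_natCast, ← ENNReal.rpow_mul]
    norm_num
  calc (∫⁻ x in S, F x) ^ 2 ≤ ((∫⁻ x in S, F x ^ (2 : ℝ)) ^ (1 / (2 : ℝ)) * (volume S) ^ (1 / (2 : ℝ))) ^ 2 := by
        gcongr
    _ = (∫⁻ x in S, F x ^ (2 : ℝ)) * volume S := by rw [mul_pow, h2, h2]
    _ = volume S * ∫⁻ x in S, F x ^ 2 := by
        rw [mul_comm]
        simp only [ENNReal.rpow_ofNat]

/-- Tonelli for balls -/
theorem tonelli_ball (μ : Measure E2) [SFinite μ] (G : E2 → ℝ≥0∞) (hG : Measurable G) (t : ℝ) :
    ∫⁻ k, (∫⁻ z in ball k t, G z) ∂μ = ∫⁻ z, G z * μ (ball z t) := by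
  have hmeas : MeasurableSet {p : E2 × E2 | dist p.2 p.1 < t} :=
    (isOpen_lt (continuous_snd.dist continuous_fst) continuous_const).measurableSet
  calc ∫⁻ k, (∫⁻ z in ball k t, G z) ∂μ
      = ∫⁻ k, (∫⁻ z, {p : E2 × E2 | dist p.2 p.1 < t}.indicator (fun p => G p.2) (k, z)) ∂μ := by
        apply lintegral_congr
        intro k
        rw [← lintegral_indicator measurableSet_ball]
        apply lintegral_congr
        intro z
        by_cases h : dist z k < t
        · rw [indicator_of_mem (show z ∈ ball k t from h), indicator_of_mem (show (k, z) ∈ {p : E2 × E2 | dist p.2 p.1 < t} from h)]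
        · rw [indicator_of_notMem (show z ∉ ball k t from h), indicator_of_notMem (show (k, z) ∉ {p : E2 × E2 | dist p.2 p.1 < t} from h)]
    _ = ∫⁻ z, (∫⁻ k, {p : E2 × E2 | dist p.2 p.1 < t}.indicator (fun p => G p.2) (k, z) ∂μ) := by
        apply lintegral_lintegral_swap
        exact ((hG.comp measurable_snd).indicator hmeas).aemeasurable
    _ = ∫⁻ z, G z * μ (ball z t) := by
        apply lintegral_congr
        intro z
        have : (fun k => {p : E2 × E2 | dist p.2 p.1 < t}.indicator (fun p => G p.2) (k, z)) =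
            (ball z t).indicator (fun _ => G z) := by
          ext k
          by_cases h : dist z k < t
          · rw [indicator_of_mem (show (k, z) ∈ {p : E2 × E2 | dist p.2 p.1 < t} from h),
              indicator_of_mem (show k ∈ ball z t from by rw [mem_ball, dist_comm]; exact h)]
          · rw [indicator_of_notMem (show (k, z) ∉ {p : E2 × E2 | dist p.2 p.1 < t} from h),
              indicator_of_notMem (show k ∉ ball z t from by rw [mem_ball, dist_comm]; exact h)]
        rw [this, lintegral_indicator measurableSet_ball, setLIntegral_const]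

section Ahlfors

variable {K : Set E2} {x : E2} {r c0 C0 : ℝ}

/-- the neighbourhood of size `t` of an Ahlfors regular set is small -/
theorem volume_thickening_le (hc0 : 0 < c0) (hC0 : 0 < C0)
    (hlow : ∀ y ∈ K, dist y x < r → ∀ s : ℝ, 0 < s → s ≤ r →
      ENNReal.ofReal (c0 * s) ≤ Measure.hausdorffMeasure 1 (K ∩ ball y s))
    (hup : ∀ y : E2, dist y x < r → ∀ s : ℝ, 0 < s → s ≤ r →
      Measure.hausdorffMeasure 1 (K ∩ closedBall y s) ≤ ENNReal.ofReal (C0 * s))
    {y : E2} {s t : ℝ} (hy : dist y x < r / 2) (hs : 0 < s) (hsr : s ≤ r / 4) (ht : 0 < t)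
    (hts : t ≤ s) :
    volume (ball y s ∩ thickening t K) ≤ ENNReal.ofReal (12 * Real.pi * (C0 / c0) * t * s) := by
  set N := ball y s ∩ thickening t K with hN
  have hNm : MeasurableSet N := measurableSet_ball.inter isOpen_thickening.measurableSet
  set μ : Measure E2 := (Measure.hausdorffMeasure 1).restrict (K ∩ closedBall y (3 * s)) with hμ
  have hμuniv : μ univ ≤ ENNReal.ofReal (C0 * (3 * s)) := by
    rw [hμ, Measure.restrict_apply_univ]
    exact hup y (by linarith) (3 * s) (by linarith) (by linarith)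
  have : IsFiniteMeasure μ := ⟨lt_of_le_of_lt hμuniv ENNReal.ofReal_lt_top⟩
  have hton := tonelli_ball μ (N.indicator (fun _ => (1 : ℝ≥0∞))) (measurable_const.indicator hNm) (2 * t)
  -- lower bound for the right-hand side
  have h1 : ENNReal.ofReal (c0 * t) * volume N ≤
      ∫⁻ z, N.indicator (fun _ => (1 : ℝ≥0∞)) z * μ (ball z (2 * t)) := by
    calc ENNReal.ofReal (c0 * t) * volume N = ∫⁻ z in N, ENNReal.ofReal (c0 * t) := by
          rw [setLIntegral_const]
      _ = ∫⁻ z, N.indicator (fun _ => ENNReal.ofReal (c0 * t)) z := by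
          rw [lintegral_indicator hNm]
      _ ≤ _ := by
          apply lintegral_mono
          intro z
          dsimp only
          by_cases hz : z ∈ N
          · rw [indicator_of_mem hz, indicator_of_mem hz, one_mul]
            obtain ⟨hzb, hzt⟩ := hz
            rw [mem_thickening_iff] at hzt
            obtain ⟨k, hk, hzk⟩ := hzt
            rw [mem_ball] at hzb
            have hkx : dist k x < r := by
              have := dist_triangle k z x
              have h2 := dist_triangle z y x
              rw [dist_comm k z] at this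
              linarith
            refine (hlow k hk hkx t ht (by linarith)).trans ?_
            rw [hμ, Measure.restrict_apply measurableSet_ball]
            apply measure_mono
            rintro p ⟨hpK, hpk⟩
            rw [mem_ball] at hpk
            refine ⟨?_, hpK, ?_⟩
            · rw [mem_ball]
              have := dist_triangle p k z
              rw [dist_comm k z] at this
              linarith
            · rw [mem_closedBall]
              have h3 := dist_triangle p k y
              have h4 := dist_triangle k z y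
              rw [dist_comm k z] at h4
              linarith
          · rw [indicator_of_notMem hz, indicator_of_notMem hz]; simp
  -- upper bound for the left-hand side
  have h2 : ∫⁻ k, (∫⁻ z in ball k (2 * t), N.indicator (fun _ => (1 : ℝ≥0∞)) z) ∂μ ≤
      ENNReal.ofReal (Real.pi * (2 * t) ^ 2) * ENNReal.ofReal (C0 * (3 * s)) := by
    calc ∫⁻ k, (∫⁻ z in ball k (2 * t), N.indicator (fun _ => (1 : ℝ≥0∞)) z) ∂μ
        ≤ ∫⁻ k, ENNReal.ofReal (Real.pi * (2 * t) ^ 2) ∂μ := by
          apply lintegral_mono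
          intro k
          calc ∫⁻ z in ball k (2 * t), N.indicator (fun _ => (1 : ℝ≥0∞)) z
              ≤ ∫⁻ z in ball k (2 * t), 1 := by
                apply lintegral_mono
                intro z
                exact indicator_le_self' (fun _ _ => zero_le) z
            _ = volume (ball k (2 * t)) := by simp
            _ = ENNReal.ofReal (Real.pi * (2 * t) ^ 2) := by
                rw [EuclideanSpace.volume_ball_fin_two, ← ENNReal.ofReal_pow (by positivity),
                  ← ENNReal.ofReal_mul (by positivity), mul_comm]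
      _ = ENNReal.ofReal (Real.pi * (2 * t) ^ 2) * μ univ := by rw [lintegral_const]
      _ ≤ _ := by gcongr
  rw [← hton] at h1
  have h3 := h1.trans h2
  rw [← ENNReal.ofReal_mul (by positivity)] at h3
  have hfin : volume N ≠ ⊤ := by
    apply ne_top_of_le_ne_top _ (measure_mono (inter_subset_left : N ⊆ ball y s))
    exact measure_ball_lt_top.ne
  rw [← ENNReal.ofReal_toReal hfin, ← ENNReal.ofReal_mul (by positivity)] at h3
  rw [← ENNReal.ofReal_toReal hfin]
  apply ENNReal.ofReal_le_ofReal
  have h4 := (ENNReal.ofReal_le_ofReal_iff (by positivity)).1 h3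
  have h5 : c0 * (t * (volume N).toReal) ≤ c0 * (t * (12 * Real.pi * (C0 / c0) * t * s)) := by
    have : c0 * (t * (12 * Real.pi * (C0 / c0) * t * s)) = Real.pi * (2 * t) ^ 2 * (C0 * (3 * s)) := by
      field_simp
      ring
    rw [this]
    linarith
  have h6 := le_of_mul_le_mul_left h5 hc0
  exact le_of_mul_le_mul_left h6 ht

/-- telescoping with a step -/
theorem sum_sub_shift_le (a : ℕ → ℝ) (ha : ∀ k, 0 ≤ a k) (hanti : Antitone a) (N m : ℕ) :
    ∑ k ∈ Finset.range N, (a k - a (k + m)) ≤ m * a 0 := by
  have h1 := Finset.sum_range_add (fun k => a k) N m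
  have h2 := Finset.sum_range_add (fun k => a k) m N
  rw [add_comm m N, h1] at h2
  rw [Finset.sum_sub_distrib]
  have h3 : ∑ k ∈ Finset.range N, a (k + m) = ∑ k ∈ Finset.range N, a (m + k) := by
    apply Finset.sum_congr rfl
    intro k _
    rw [add_comm]
  rw [h3]
  have h4 : 0 ≤ ∑ k ∈ Finset.range m, a (N + k) := Finset.sum_nonneg fun k _ => ha _
  have h5 : ∑ k ∈ Finset.range m, a k ≤ m * a 0 := by
    calc ∑ k ∈ Finset.range m, a k ≤ ∑ _k ∈ Finset.range m, a 0 :=
          Finset.sum_le_sum fun k _ => hanti (Nat.zero_le k)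
      _ = m * a 0 := by simp
  linarith

theorem ennreal_add_sq_le (a b : ℝ≥0∞) : (a + b) ^ 2 ≤ 2 * (a ^ 2 + b ^ 2) := by
  rcases eq_or_ne a ⊤ with rfl | ha
  · simp
  rcases eq_or_ne b ⊤ with rfl | hb
  · simp
  lift a to ℝ≥0 using ha
  lift b to ℝ≥0 using hb
  norm_cast
  exact add_sq_le

/-- Averaging over points of `K` and dyadic scales: somewhere the energy at distance at least
`2^{-m} s` from `K` is small. -/
theorem exists_far_energy_small (hC0 : 0 < C0) (hr : 0 < r) (hx : x ∈ K)
    (hlow : ∀ y ∈ K, dist y x < r → ∀ s : ℝ, 0 < s → s ≤ r →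
      ENNReal.ofReal (c0 * s) ≤ Measure.hausdorffMeasure 1 (K ∩ ball y s))
    (hup : ∀ y : E2, dist y x < r → ∀ s : ℝ, 0 < s → s ≤ r →
      Measure.hausdorffMeasure 1 (K ∩ closedBall y s) ≤ ENNReal.ofReal (C0 * s))
    (hKm : MeasurableSet K) {G : E2 → ℝ≥0∞} (hG : Measurable G)
    (hen : ∫⁻ z in ball x r, G z ≤ ENNReal.ofReal (C0 * r))
    {e : ℝ} (he : 0 < e) (m N : ℕ) (hN : 2 * C0 ^ 2 * m < N * (e * c0)) :
    ∃ y ∈ K, dist y x < r / 2 ∧ ∃ k < N,
      ∫⁻ z in ball y (r / 4 / 2 ^ k) \ thickening (r / 4 / 2 ^ (k + m)) K, G z ≤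
        ENNReal.ofReal (e * (r / 4 / 2 ^ k)) := by
  by_contra hcon
  push Not at hcon
  set s : ℕ → ℝ := fun k => r / 4 / 2 ^ k with hs
  have hspos : ∀ k, 0 < s k := fun k => by simp only [hs]; positivity
  have hsle : ∀ k, s k ≤ r / 4 := fun k => by
    simp only [hs]
    exact div_le_self (by positivity) (one_le_pow₀ (by norm_num))
  have hsanti : Antitone s := by
    intro i j hij
    simp only [hs]
    gcongr
    norm_num
  set A := K ∩ ball x (r / 2) with hA
  set μ : Measure E2 := (Measure.hausdorffMeasure 1).restrict A with hμ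
  have hμuniv : μ univ ≤ ENNReal.ofReal (C0 * (r / 2)) := by
    rw [hμ, Measure.restrict_apply_univ]
    refine le_trans (measure_mono (inter_subset_inter_right K ball_subset_closedBall)) ?_
    exact hup x (by simpa using hr) (r / 2) (by linarith) (by linarith)
  have : IsFiniteMeasure μ := ⟨lt_of_le_of_lt hμuniv ENNReal.ofReal_lt_top⟩
  have hμlow : ENNReal.ofReal (c0 * (r / 2)) ≤ μ univ := by
    rw [hμ, Measure.restrict_apply_univ]
    exact hlow x hx (by simpa using hr) (r / 2) (by linarith) (by linarith)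
  set T : ℕ → Set E2 := fun k => thickening (s k) K with hT
  have hTm : ∀ k, MeasurableSet (T k) := fun k => isOpen_thickening.measurableSet
  have hTanti : Antitone T := fun i j hij => thickening_mono (hsanti hij) K
  have hfin : ∀ S : Set E2, S ⊆ ball x r → ∫⁻ z in S, G z ≠ ⊤ := by
    intro S hS
    exact ((lintegral_mono_set hS).trans hen |>.trans_lt ENNReal.ofReal_lt_top).ne
  set a : ℕ → ℝ := fun k => (∫⁻ z in ball x r ∩ T k, G z).toReal with ha
  have ha0 : ∀ k, 0 ≤ a k := fun k => ENNReal.toReal_nonneg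
  have haanti : Antitone a := by
    intro i j hij
    simp only [ha]
    apply ENNReal.toReal_mono (hfin _ inter_subset_left)
    exact lintegral_mono_set (inter_subset_inter_right _ (hTanti hij))
  have ha00 : a 0 ≤ C0 * r := by
    simp only [ha]
    apply ENNReal.toReal_le_of_le_ofReal (by positivity)
    exact (lintegral_mono_set inter_subset_left).trans hen
  have hdiff : ∀ k, ∫⁻ z in (ball x r ∩ T k) \ T (k + m), G z = ENNReal.ofReal (a k - a (k + m)) := by
    intro k
    have h1 : ball x r ∩ T (k + m) ⊆ ball x r ∩ T k := inter_subset_inter_right _ (hTanti (Nat.le_add_right k m))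
    have h2 : (ball x r ∩ T k) \ T (k + m) = (ball x r ∩ T k) \ (ball x r ∩ T (k + m)) := by
      ext z
      simp only [Set.mem_sdiff, mem_inter_iff]
      tauto
    have h3 : ∫⁻ z in ball x r ∩ T k, G z = (∫⁻ z in (ball x r ∩ T k) ∩ (ball x r ∩ T (k + m)), G z) +
        ∫⁻ z in (ball x r ∩ T k) \ (ball x r ∩ T (k + m)), G z :=
      (lintegral_inter_add_sdiff G _ (measurableSet_ball.inter (hTm _))).symm
    rw [inter_eq_right.2 h1] at h3
    rw [h2]
    simp only [ha]
    rw [h3, ENNReal.toReal_add (hfin _ inter_subset_left)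
      (hfin _ (fun z hz => hz.1.1))]
    rw [add_sub_cancel_left, ENNReal.ofReal_toReal (hfin _ (fun z hz => hz.1.1))]
  -- the key inequality at each scale
  have hkey : ∀ k < N, e * c0 * (r / 2) ≤ C0 * (a k - a (k + m)) := by
    intro k hk
    set H : E2 → ℝ≥0∞ := (ball x r \ T (k + m)).indicator G with hH
    have hHm : Measurable H := hG.indicator (measurableSet_ball.diff (hTm _))
    have h1 : ENNReal.ofReal (e * s k) * μ univ ≤ ∫⁻ y, (∫⁻ z in ball y (s k), H z) ∂μ := by
      rw [← lintegral_const]
      apply lintegral_mono_ae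
      have hAe : ∀ᵐ y ∂μ, y ∈ A := ae_restrict_mem (hKm.inter measurableSet_ball)
      filter_upwards [hAe] with y hy
      have h3 := (hcon y hy.1 hy.2 k hk).le
      refine h3.trans ?_
      rw [hH, setLIntegral_indicator (measurableSet_ball.diff (hTm _))]
      apply lintegral_mono_set
      rintro z ⟨hz1, hz2⟩
      refine ⟨⟨?_, hz2⟩, hz1⟩
      have h4 := dist_triangle z y x
      have h5 : dist y x < r / 2 := hy.2
      have h6 : dist z y < s k := hz1
      rw [mem_ball]
      linarith [hsle k]
    have h2 : ∫⁻ y, (∫⁻ z in ball y (s k), H z) ∂μ ≤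
        ENNReal.ofReal (C0 * s k) * ENNReal.ofReal (a k - a (k + m)) := by
      rw [tonelli_ball μ H hHm (s k), ← hdiff k, ← lintegral_const_mul _ hG,
        ← lintegral_indicator ((measurableSet_ball.inter (hTm k)).diff (hTm _))]
      apply lintegral_mono
      intro z
      dsimp only
      by_cases hz1 : z ∈ ball x r \ T (k + m)
      · rw [hH, indicator_of_mem hz1]
        by_cases hz2 : z ∈ T k
        · rw [indicator_of_mem (show z ∈ (ball x r ∩ T k) \ T (k + m) from ⟨⟨hz1.1, hz2⟩, hz1.2⟩), mul_comm]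
          gcongr
          rw [hμ, Measure.restrict_apply measurableSet_ball]
          refine le_trans (measure_mono ?_) (hup z hz1.1 (s k) (hspos k) (by linarith [hsle k]))
          rintro p ⟨hp1, hp2⟩
          exact ⟨hp2.1, ball_subset_closedBall hp1⟩
        · have : μ (ball z (s k)) = 0 := by
            rw [hμ, Measure.restrict_apply measurableSet_ball]
            have hemp : ball z (s k) ∩ A = ∅ := by
              rw [eq_empty_iff_forall_notMem]
              rintro p ⟨hp1, hp2⟩
              apply hz2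
              simp only [hT]
              rw [mem_thickening_iff]
              exact ⟨p, hp2.1, by rw [dist_comm]; exact hp1⟩
            rw [hemp, measure_empty]
          rw [this, mul_zero]
          exact zero_le
      · rw [hH, indicator_of_notMem hz1, zero_mul]
        exact zero_le
    have h3 : ENNReal.ofReal (e * s k) * ENNReal.ofReal (c0 * (r / 2)) ≤
        ENNReal.ofReal (C0 * s k) * ENNReal.ofReal (a k - a (k + m)) :=
      (mul_le_mul_right hμlow _).trans (h1.trans h2)
    have hak : 0 ≤ a k - a (k + m) := sub_nonneg.2 (haanti (Nat.le_add_right k m))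
    have hsk := hspos k
    rw [← ENNReal.ofReal_mul (by positivity), ← ENNReal.ofReal_mul (by positivity),
      ENNReal.ofReal_le_ofReal_iff (by positivity)] at h3
    have h4 : s k * (e * c0 * (r / 2)) ≤ s k * (C0 * (a k - a (k + m))) := by linarith
    exact le_of_mul_le_mul_left h4 hsk
  have hsum : (N : ℝ) * (e * c0 * (r / 2)) ≤ C0 * (m * a 0) := by
    calc (N : ℝ) * (e * c0 * (r / 2)) = ∑ _k ∈ Finset.range N, e * c0 * (r / 2) := by simp
      _ ≤ ∑ k ∈ Finset.range N, C0 * (a k - a (k + m)) :=
          Finset.sum_le_sum fun k hk => hkey k (Finset.mem_range.1 hk)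
      _ = C0 * ∑ k ∈ Finset.range N, (a k - a (k + m)) := by rw [Finset.mul_sum]
      _ ≤ C0 * (m * a 0) := by
          gcongr
          exact sum_sub_shift_le a ha0 haanti N m
  have h2 : C0 * (m * a 0) ≤ C0 * (m * (C0 * r)) := by gcongr
  have h3 : r * (2 * C0 ^ 2 * m) < r * (N * (e * c0)) := by gcongr
  nlinarith

end Ahlfors

/-- **Step C1 of the concentration property.** -/
theorem exists_small_L1 (c0 C0 : ℝ) (hc0 : 0 < c0) (hC0 : 0 < C0) (e : ℝ) (he : 0 < e) :
    ∃ C : ℝ, 0 < C ∧ ∀ (K : Set E2) (x : E2) (r : ℝ), 0 < r → x ∈ K → MeasurableSet K →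
      (∀ y ∈ K, dist y x < r → ∀ s : ℝ, 0 < s → s ≤ r →
        ENNReal.ofReal (c0 * s) ≤ Measure.hausdorffMeasure 1 (K ∩ ball y s)) →
      (∀ y : E2, dist y x < r → ∀ s : ℝ, 0 < s → s ≤ r →
        Measure.hausdorffMeasure 1 (K ∩ closedBall y s) ≤ ENNReal.ofReal (C0 * s)) →
      ∀ F : E2 → ℝ≥0∞, Measurable F →
      (∀ y : E2, dist y x < r → ∀ s : ℝ, 0 < s → s ≤ r →
        ∫⁻ z in ball y s, F z ^ 2 ≤ ENNReal.ofReal (C0 * s)) →
      ∃ y ∈ K, dist y x < r / 2 ∧ ∃ s : ℝ, 0 < s ∧ s ≤ r / 4 ∧ r ≤ C * s ∧
        (∫⁻ z in ball y s, F z) ^ 2 ≤ ENNReal.ofReal (e * s ^ 3) := by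
  have hpi := Real.pi_pos
  -- choice of m
  obtain ⟨m, hm⟩ : ∃ m : ℕ, 24 * Real.pi * (C0 ^ 2 / c0) * (1 / 2) ^ m < e / 2 := by
    have h1 : Tendsto (fun m : ℕ => 24 * Real.pi * (C0 ^ 2 / c0) * (1 / 2 : ℝ) ^ m) atTop
        (𝓝 (24 * Real.pi * (C0 ^ 2 / c0) * 0)) :=
      (tendsto_pow_atTop_nhds_zero_of_lt_one (by norm_num) (by norm_num)).const_mul _
    rw [mul_zero] at h1
    exact ((tendsto_order.1 h1).2 _ (by positivity)).exists
  -- choice of N
  obtain ⟨N, hN⟩ : ∃ N : ℕ, 2 * C0 ^ 2 * m < N * (e / (4 * Real.pi) * c0) := by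
    obtain ⟨N, hN⟩ := exists_nat_gt (2 * C0 ^ 2 * m / (e / (4 * Real.pi) * c0))
    refine ⟨N, ?_⟩
    rwa [div_lt_iff₀ (by positivity)] at hN
  refine ⟨4 * 2 ^ N, by positivity, ?_⟩
  intro K x r hr hx hKm hlow hup F hF hen
  have hxx : dist x x < r := by simpa using hr
  obtain ⟨y, hy, hyx, k, hk, hfar⟩ := exists_far_energy_small (C0 := C0) hC0 hr hx hlow hup hKm
    (G := fun z => F z ^ 2) (hF.pow_const 2) (hen x hxx r hr le_rfl) (e := e / (4 * Real.pi))
    (by positivity) m N hN
  set s := r / 4 / 2 ^ k with hs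
  have hspos : 0 < s := by positivity
  have hsle : s ≤ r / 4 := div_le_self (by positivity) (one_le_pow₀ (by norm_num))
  set t := r / 4 / 2 ^ (k + m) with ht
  have htpos : 0 < t := by positivity
  have hts : t = s * (1 / 2) ^ m := by
    rw [ht, hs, pow_add, one_div, inv_pow]
    field_simp
  have htles : t ≤ s := by
    rw [hts]
    exact mul_le_of_le_one_right hspos.le (pow_le_one₀ (by norm_num) (by norm_num))
  refine ⟨y, hy, hyx, s, hspos, hsle, ?_, ?_⟩
  · have h1 : (2 : ℝ) ^ k ≤ 2 ^ N := pow_le_pow_right₀ (by norm_num) hk.le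
    calc r = 4 * 2 ^ k * s := by rw [hs]; field_simp
      _ ≤ 4 * 2 ^ N * s := by gcongr
  · have hTm : MeasurableSet (thickening t K) := isOpen_thickening.measurableSet
    have hyr : dist y x < r := by linarith
    have hsplit : ∫⁻ z in ball y s, F z = (∫⁻ z in ball y s ∩ thickening t K, F z) +
        ∫⁻ z in ball y s \ thickening t K, F z := (lintegral_inter_add_sdiff F _ hTm).symm
    have hnear : (∫⁻ z in ball y s ∩ thickening t K, F z) ^ 2 ≤
        ENNReal.ofReal (12 * Real.pi * (C0 / c0) * t * s) * ENNReal.ofReal (C0 * s) := by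
      refine (sq_lintegral_le _ F hF.aemeasurable).trans ?_
      gcongr
      · exact volume_thickening_le hc0 hC0 hlow hup hyx hspos hsle htpos htles
      · exact (lintegral_mono_set inter_subset_left).trans (hen y hyr s hspos (by linarith))
    have hfar2 : (∫⁻ z in ball y s \ thickening t K, F z) ^ 2 ≤
        ENNReal.ofReal (Real.pi * s ^ 2) * ENNReal.ofReal (e / (4 * Real.pi) * s) := by
      refine (sq_lintegral_le _ F hF.aemeasurable).trans ?_
      gcongr
      refine (measure_mono sdiff_subset).trans ?_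
      rw [EuclideanSpace.volume_ball_fin_two, ← ENNReal.ofReal_pow (by positivity),
        ← ENNReal.ofReal_mul (by positivity), mul_comm]
    rw [hsplit]
    refine (ennreal_add_sq_le _ _).trans ?_
    calc 2 * ((∫⁻ z in ball y s ∩ thickening t K, F z) ^ 2 +
          (∫⁻ z in ball y s \ thickening t K, F z) ^ 2)
        ≤ ENNReal.ofReal 2 * (ENNReal.ofReal (12 * Real.pi * (C0 / c0) * t * s) * ENNReal.ofReal (C0 * s) +
          ENNReal.ofReal (Real.pi * s ^ 2) * ENNReal.ofReal (e / (4 * Real.pi) * s)) := by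
          rw [ENNReal.ofReal_ofNat]
          gcongr
      _ = ENNReal.ofReal (2 * (12 * Real.pi * (C0 / c0) * t * s * (C0 * s) +
          Real.pi * s ^ 2 * (e / (4 * Real.pi) * s))) := by
          rw [← ENNReal.ofReal_mul (by positivity), ← ENNReal.ofReal_mul (by positivity),
            ← ENNReal.ofReal_add (by positivity) (by positivity), ← ENNReal.ofReal_mul (by positivity)]
      _ ≤ ENNReal.ofReal (e * s ^ 3) := by
          apply ENNReal.ofReal_le_ofReal
          rw [hts]
          have h1 : 2 * (12 * Real.pi * (C0 / c0) * (s * (1 / 2) ^ m) * s * (C0 * s) +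
            Real.pi * s ^ 2 * (e / (4 * Real.pi) * s)) =
            (24 * Real.pi * (C0 ^ 2 / c0) * (1 / 2) ^ m + e / 2) * s ^ 3 := by
            field_simp
            ring
          rw [h1]
          gcongr
          linarith

end Crest.Agent.R135
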