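import Mathlib
import Crest.Agent.R135.Core
import Crest.Agent.R135.GMT1
import Crest.Agent.R135.RadComp
import Crest.Agent.R135.PolarE
import Crest.Agent.R135.QMBasic

/-!
R135 (helper709): concentration, part 2 (block CONC, steps C0 and C2).

`IsQM.enE_le_of_subsingleton`: on a circle containing at most one crack point, the energy inside is
controlled by the gradient on the circle (radial competitor).
-/

set_option autoImplicit false

open MeasureTheory Set Filter Topology Metric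
open scoped ENNReal NNReal Gradient

namespace Crest.Agent.R135

/-- the angular window may be shifted (lower integrals) -/
theorem lintegral_cpt_shift (F : E2 → ℝ≥0∞) (y : E2) (ρ a : ℝ) :
    ∫⁻ θ in Ioo a (a + 2 * Real.pi), F (cpt y ρ θ) =
      ∫⁻ θ in Ioo (-Real.pi) Real.pi, F (cpt y ρ θ) := by
  have hT : (0 : ℝ) < 2 * Real.pi := Real.two_pi_pos
  have h1 := isAddFundamentalDomain_Ioc hT a
  have h2 := isAddFundamentalDomain_Ioc hT (-Real.pi)
  have h3 := h1.setLIntegral_eq h2 (fun θ => F (cpt y ρ θ)) (by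
    intro g x
    obtain ⟨n, hn⟩ := AddSubgroup.mem_zmultiples_iff.1 g.2
    have h4 : (g +ᵥ x : ℝ) = x + n • (2 * Real.pi) := by
      rw [hn, add_comm]
      rfl
    rw [h4]
    have h5 := (cpt_periodic y ρ).zsmul n x
    rw [h5])
  rw [show -Real.pi + 2 * Real.pi = Real.pi by ring] at h3
  rw [← restrict_Ioo_eq_restrict_Ioc, ← restrict_Ioo_eq_restrict_Ioc] at h3
  exact h3

theorem exists_angle_of_subsingleton {K : Set E2} {y : E2} {ρ : ℝ} (hρ : 0 < ρ)
    (hsub : (K ∩ sphere y ρ).Subsingleton) :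
    ∃ θ0 : ℝ, ∀ θ ∈ Ioo θ0 (θ0 + 2 * Real.pi), cpt y ρ θ ∉ K := by
  rcases (K ∩ sphere y ρ).eq_empty_or_nonempty with he | ⟨p, hp⟩
  · refine ⟨0, fun θ _ hK => ?_⟩
    have : cpt y ρ θ ∈ K ∩ sphere y ρ := ⟨hK, cpt_mem_sphere hρ.le⟩
    rw [he] at this
    exact this
  · obtain ⟨θ0, _, h0⟩ := exists_cpt_eq hρ hp.2 0
    refine ⟨θ0, fun θ hθ hK => ?_⟩
    have h1 : cpt y ρ θ = p := hsub ⟨hK, cpt_mem_sphere hρ.le⟩ hp
    have h2 := cpt_injOn hρ.ne' θ0 (x := y) ⟨hθ.1.le, hθ.2⟩ ⟨le_rfl, by linarith [Real.two_pi_pos]⟩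
      (h1.trans h0.symm)
    exact hθ.1.ne' h2

/-- a locally constant function off `K` is constant on a circle with at most one crack point -/
theorem locConst_circle {U K : Set E2} {y : E2} {ρ : ℝ} (hρ : 0 < ρ) (hball : closedBall y ρ ⊆ U)
    (hsub : (K ∩ sphere y ρ).Subsingleton) {c : E2 → ℝ} (hc : LocConstOn (U \ K) c) :
    ∃ c0 : ℝ, ∀ x ∈ sphere y ρ \ K, c x = c0 := by
  obtain ⟨θ0, hθ0⟩ := exists_angle_of_subsingleton hρ hsub
  set f : ℝ → ℝ := fun θ => c (cpt y ρ θ) with hf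
  have hcont : Continuous (cpt y ρ) := by
    have := continuous_cpt y
    exact this.comp (by fun_prop : Continuous fun θ : ℝ => (ρ, θ))
  have hloc : ∀ θ, cpt y ρ θ ∉ K → ∀ᶠ s in 𝓝 θ, f s = f θ := by
    intro θ hθ
    have h1 : cpt y ρ θ ∈ U \ K := ⟨hball (sphere_subset_closedBall (cpt_mem_sphere hρ.le)), hθ⟩
    exact (hcont.tendsto θ).eventually (hc _ h1)
  have hder : ∀ θ, cpt y ρ θ ∉ K → HasDerivAt f 0 θ := fun θ hθ =>
    (hasDerivAt_const θ (f θ)).congr_of_eventuallyEq (hloc θ hθ)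
  have hconst : ∀ θ ∈ Ioo θ0 (θ0 + 2 * Real.pi), ∀ θ' ∈ Ioo θ0 (θ0 + 2 * Real.pi), f θ = f θ' := by
    intro θ hθ θ' hθ'
    exact isOpen_Ioo.is_const_of_deriv_eq_zero isPreconnected_Ioo
      (fun s hs => (hder s (hθ0 s hs)).differentiableAt.differentiableWithinAt)
      (fun s hs => (hder s (hθ0 s hs)).deriv) hθ hθ'
  have hmid : θ0 + Real.pi ∈ Ioo θ0 (θ0 + 2 * Real.pi) := by
    constructor <;> linarith [Real.pi_pos]
  refine ⟨f (θ0 + Real.pi), ?_⟩
  rintro x ⟨hx, hxK⟩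
  obtain ⟨θ, hθ, rfl⟩ := exists_cpt_eq hρ hx θ0
  rcases hθ.1.lt_or_eq with h1 | h1
  · exact hconst θ ⟨h1, hθ.2⟩ _ hmid
  · have h2 := hloc θ hxK
    have h3 : ∀ᶠ s in 𝓝[>] θ, f s = f θ := h2.filter_mono nhdsWithin_le_nhds
    have h4 : ∀ᶠ s in 𝓝[>] θ, s ∈ Ioo θ (θ + 2 * Real.pi) :=
      Ioo_mem_nhdsGT (by linarith [Real.pi_pos])
    obtain ⟨s, hs1, hs2⟩ := (h3.and h4).exists
    rw [← h1] at hs2
    have h5 := hconst s hs2 _ hmid
    rw [← h5, hs1]

/-- the radial competitor keeps the separation if the circle contains at most one crack point -/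
theorem keeps_radL {U K : Set E2} {y : E2} {ρ h : ℝ} (hρ : 0 < ρ)
    (hball : closedBall y ρ ⊆ U) (hsub : (K ∩ sphere y ρ).Subsingleton) :
    Keeps U K (radL K y ρ h) (closedBall y ρ) := by
  classical
  intro c hc
  obtain ⟨c0, hc0⟩ := locConst_circle hρ hball hsub hc
  refine ⟨fun z => if dist z y < ρ then c0 else c z, ?_, ?_⟩
  · rintro x ⟨hxU, hxL⟩
    rcases lt_trichotomy (dist x y) ρ with hlt | heq | hgt
    · have h1 : ∀ᶠ z in 𝓝 x, dist z y < ρ :=
        (isOpen_lt (continuous_id.dist continuous_const) continuous_const).mem_nhds hlt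
      filter_upwards [h1] with z hz
      rw [if_pos hz, if_pos hlt]
    · have hxK : x ∉ K := fun hK => hxL (Or.inl ⟨hK, by rw [mem_ball, heq]; exact lt_irrefl _⟩)
      have h1 := hc x ⟨hxU, hxK⟩
      have h2 : c x = c0 := hc0 x ⟨heq, hxK⟩
      filter_upwards [h1] with z hz
      rw [if_neg (show ¬ dist x y < ρ by rw [heq]; exact lt_irrefl _)]
      split_ifs
      · exact h2.symm
      · exact hz
    · have hxK : x ∉ K := fun hK => hxL (Or.inl ⟨hK, by rw [mem_ball]; exact not_lt.2 hgt.le⟩)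
      have h1 := hc x ⟨hxU, hxK⟩
      have h2 : ∀ᶠ z in 𝓝 x, ρ < dist z y :=
        (isOpen_lt continuous_const (continuous_id.dist continuous_const)).mem_nhds hgt
      filter_upwards [h1, h2] with z hz1 hz2
      rw [if_neg (not_lt.2 hz2.le), if_neg (not_lt.2 hgt.le)]
      exact hz1
  · rintro z ⟨_, hz⟩
    have : ¬ dist z y < ρ := fun hlt => hz (Or.inr (mem_closedBall.2 hlt.le))
    simp only [if_neg this]

section QM

variable {U K : Set E2} {lam : ℝ} {u : E2 → ℝ}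

/-- comparison with the radial competitor, circle with at most one crack point -/
theorem IsQM.enE_le_radial (hq : IsQM U lam u K) {y : E2} {ρ h : ℝ} (hρ : 0 < ρ)
    (hball : closedBall y ρ ⊆ U) (hsub : (K ∩ sphere y ρ).Subsingleton) (hh : 0 < h) (hh1 : h < 1)
    (c : ℝ) :
    enE u K (closedBall y ρ) ≤
      ENNReal.ofReal (1 / h) * (∫⁻ θ in Ioo (-Real.pi) Real.pi, ‖u (cpt y ρ θ) - c‖ₑ ^ 2) +
      ENNReal.ofReal (h * ρ ^ 2 / (1 - h)) *
        (∫⁻ θ in Ioo (-Real.pi) Real.pi, ‖∇ u (cpt y ρ θ)‖ₑ ^ 2) +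
      ENNReal.ofReal (h * ρ) + ENNReal.ofReal (lam * ρ ^ 2) := by
  have hfin : (K ∩ sphere y ρ).Finite := hsub.finite
  have hcard : hfin.toFinset.card ≤ 1 := by
    rw [Finset.card_le_one]
    intro a ha b hb
    rw [Finite.mem_toFinset] at ha hb
    exact hsub ha hb
  have hLopen : IsOpen (U \ radL K y ρ h) := isOpen_diff_radL hq.isOpen hq.closed hρ hh1 hball
  have hseg : Measure.hausdorffMeasure 1
      {x : E2 | (1 - h) * ρ ≤ dist x y ∧ dist x y ≤ ρ ∧ radProj y ρ x ∈ K} ≤ ENNReal.ofReal (h * ρ) := by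
    refine (hausdorff_radial_segments_le hρ hh hh1 hfin).trans ?_
    calc (hfin.toFinset.card : ℝ≥0∞) * ENNReal.ofReal (h * ρ) ≤ (1 : ℕ) * ENNReal.ofReal (h * ρ) := by
          gcongr
      _ = ENNReal.ofReal (h * ρ) := by simp
  have hlenL : len (radL K y ρ h ∩ closedBall y ρ) ≤ ENNReal.ofReal (h * ρ) := by
    have h1 : radL K y ρ h ∩ closedBall y ρ ⊆ (K ∩ sphere y ρ) ∪
        {x : E2 | (1 - h) * ρ ≤ dist x y ∧ dist x y ≤ ρ ∧ radProj y ρ x ∈ K} := by
      rintro x ⟨hx | hx, hxb⟩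
      · left
        refine ⟨hx.1, ?_⟩
        have h2 := hx.2
        rw [mem_ball, not_lt] at h2
        exact le_antisymm hxb h2
      · exact Or.inr hx
    unfold len
    refine (measure_mono h1).trans ((measure_union_le _ _).trans ?_)
    have := Measure.nullSingletonClass_hausdorff E2 (d := 1) one_pos
    rw [hsub.measure_zero, zero_add]
    exact hseg
  have hcomp : IsComp U u K y ρ (radW u y ρ h c) (radL K y ρ h) := by
    refine ⟨?_, closure_radL_inter hq.closed hρ hh1 hball, ?_, ?_, ?_, ?_, keeps_radL hρ hball hsub⟩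
    · rintro x (hx | hx)
      · exact hq.sub hx.1
      · exact hball (mem_closedBall.2 hx.2.1)
    · exact lt_of_le_of_lt hlenL ENNReal.ofReal_lt_top
    · ext x
      constructor
      · rintro ⟨hx | hx, hxb⟩
        · exact ⟨hx.1, hxb⟩
        · exact absurd (mem_closedBall.2 hx.2.1) hxb
      · rintro ⟨hx, hxb⟩
        exact ⟨Or.inl ⟨hx, fun hc => hxb (ball_subset_closedBall hc)⟩, hxb⟩
    · exact locallyLipschitzOn_radW hρ hh hh1 hball (fun x hx => hq.contDiffAt hx) hLopen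
    · rintro z ⟨_, hz⟩
      apply radW_of_le
      by_contra hlt
      exact hz (Or.inr (mem_closedBall.2 (not_le.1 hlt).le))
  refine (hq.min y ρ hρ hball _ _ hcomp).trans ?_
  gcongr
  unfold enE
  gcongr
  · unfold dirE
    refine (lintegral_mono_set sdiff_subset).trans ?_
    have hsph : (closedBall y ρ : Set E2) =ᵐ[volume] ball y ρ := by
      have h1 : volume (sphere y ρ) = 0 := Measure.addHaar_sphere volume y ρ
      rw [← ball_union_sphere]
      exact union_ae_eq_left_of_ae_eq_empty (ae_eq_empty.2 h1)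
    rw [setLIntegral_congr hsph]
    apply lintegral_radW_le hρ hh hh1
    have h2 : ∀ᵐ θ ∂(volume.restrict (Ioo (-Real.pi) Real.pi)), cpt y ρ θ ∉ K := by
      have h3 : {θ : ℝ | ¬ cpt y ρ θ ∉ K} ∩ Ioo (-Real.pi) Real.pi ⊆ angles K y ρ (-Real.pi) := by
        rintro θ ⟨h4, h5⟩
        simp only [mem_ofPred_eq, not_not] at h4
        exact ⟨⟨h5.1.le, by linarith [h5.2]⟩, h4⟩
      rw [ae_iff, Measure.restrict_apply' measurableSet_Ioo]
      exact measure_mono_null h3 ((finite_angles hρ _ hfin).measure_zero volume)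
    filter_upwards [h2] with θ hθ
    exact hq.contDiffAt ⟨hball (sphere_subset_closedBall (cpt_mem_sphere hρ.le)), hθ⟩

/-- oscillation of `u` on an open arc of circle without crack points, by the `L¹` norm of the
gradient on the circle -/
theorem IsQM.enorm_sub_le_arc (hq : IsQM U lam u K) {y : E2} {ρ θ0 : ℝ} (hρ : 0 < ρ)
    (hball : closedBall y ρ ⊆ U) (h0 : ∀ θ ∈ Ioo θ0 (θ0 + 2 * Real.pi), cpt y ρ θ ∉ K)
    {a b : ℝ} (ha : a ∈ Ioo θ0 (θ0 + 2 * Real.pi)) (hb : b ∈ Ioo θ0 (θ0 + 2 * Real.pi)) :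
    ‖u (cpt y ρ a) - u (cpt y ρ b)‖ₑ ≤
      ENNReal.ofReal ρ * ∫⁻ θ in Ioo (-Real.pi) Real.pi, ‖∇ u (cpt y ρ θ)‖ₑ := by
  wlog hab : b ≤ a generalizing a b
  · have := this hb ha (not_le.1 hab).le
    rwa [← neg_sub, enorm_neg] at this
  have hcont : Continuous (cpt y ρ) :=
    (continuous_cpt y).comp (by fun_prop : Continuous fun θ : ℝ => (ρ, θ))
  have hU : ∀ θ ∈ Ioo θ0 (θ0 + 2 * Real.pi), cpt y ρ θ ∈ U \ K := fun θ hθ =>
    ⟨hball (sphere_subset_closedBall (cpt_mem_sphere hρ.le)), h0 θ hθ⟩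
  have hsub : Icc b a ⊆ Ioo θ0 (θ0 + 2 * Real.pi) := fun θ hθ =>
    ⟨lt_of_lt_of_le hb.1 hθ.1, lt_of_le_of_lt hθ.2 ha.2⟩
  have hder : ∀ θ ∈ Ioo θ0 (θ0 + 2 * Real.pi), HasDerivAt (fun θ => u (cpt y ρ θ))
      (ρ * inner ℝ (∇ u (cpt y ρ θ)) (tau θ)) θ := fun θ hθ =>
    hasDerivAt_circle ((hq.contDiffAt (hU θ hθ)).differentiableAt (by norm_num)).hasGradientAt
  have hgc : ContinuousOn (fun θ => ρ * inner ℝ (∇ u (cpt y ρ θ)) (tau θ)) (Icc b a) := by
    apply ContinuousOn.mul continuousOn_const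
    apply ContinuousOn.inner
    · intro θ hθ
      have h1 : ContinuousAt (∇ u) (cpt y ρ θ) := by
        have h2 := (hq.contDiffAt (hU θ (hsub hθ))).continuousAt_fderiv (by norm_num)
        unfold gradient
        exact (InnerProductSpace.toDual ℝ E2).symm.continuous.continuousAt.comp h2
      exact (h1.comp hcont.continuousAt).continuousWithinAt
    · exact continuous_tau.continuousOn
  have hftc : ∫ θ in b..a, ρ * inner ℝ (∇ u (cpt y ρ θ)) (tau θ) = u (cpt y ρ a) - u (cpt y ρ b) := by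
    apply intervalIntegral.integral_eq_sub_of_hasDerivAt
    · intro θ hθ
      rw [uIcc_of_le hab] at hθ
      exact hder θ (hsub hθ)
    · apply ContinuousOn.intervalIntegrable
      rwa [uIcc_of_le hab]
  rw [← hftc, intervalIntegral.integral_of_le hab]
  refine (enorm_integral_le_lintegral_enorm _).trans ?_
  calc ∫⁻ θ in Ioc b a, ‖ρ * inner ℝ (∇ u (cpt y ρ θ)) (tau θ)‖ₑ
      ≤ ∫⁻ θ in Ioc b a, ENNReal.ofReal ρ * ‖∇ u (cpt y ρ θ)‖ₑ := by
        apply lintegral_mono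
        intro θ
        dsimp only
        rw [enorm_mul, Real.enorm_of_nonneg hρ.le]
        gcongr
        rw [enorm_le_iff_norm_le, Real.norm_eq_abs]
        exact abs_inner_tau_le _ _
    _ ≤ ∫⁻ θ in Ioo θ0 (θ0 + 2 * Real.pi), ENNReal.ofReal ρ * ‖∇ u (cpt y ρ θ)‖ₑ := by
        apply lintegral_mono_set
        intro θ hθ
        exact hsub ⟨hθ.1.le, hθ.2⟩
    _ = ENNReal.ofReal ρ * ∫⁻ θ in Ioo θ0 (θ0 + 2 * Real.pi), ‖∇ u (cpt y ρ θ)‖ₑ := by
        rw [lintegral_const_mul' _ _ ENNReal.ofReal_ne_top]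
    _ = ENNReal.ofReal ρ * ∫⁻ θ in Ioo (-Real.pi) Real.pi, ‖∇ u (cpt y ρ θ)‖ₑ := by
        rw [lintegral_cpt_shift (fun z => ‖∇ u z‖ₑ) y ρ θ0]

/-- **Energy inside a circle with at most one crack point.** -/
theorem IsQM.enE_le_of_subsingleton (hq : IsQM U lam u K) {y : E2} {ρ h : ℝ} (hρ : 0 < ρ)
    (hball : closedBall y ρ ⊆ U) (hsub : (K ∩ sphere y ρ).Subsingleton) (hh : 0 < h) (hh1 : h < 1) :
    enE u K (closedBall y ρ) ≤
      ENNReal.ofReal (2 * Real.pi / h) *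
        (ENNReal.ofReal ρ * ∫⁻ θ in Ioo (-Real.pi) Real.pi, ‖∇ u (cpt y ρ θ)‖ₑ) ^ 2 +
      ENNReal.ofReal (h * ρ / (1 - h)) *
        (ENNReal.ofReal ρ * ∫⁻ θ in Ioo (-Real.pi) Real.pi, ‖∇ u (cpt y ρ θ)‖ₑ ^ 2) +
      ENNReal.ofReal (h * ρ) + ENNReal.ofReal (lam * ρ ^ 2) := by
  obtain ⟨θ0, h0⟩ := exists_angle_of_subsingleton hρ hsub
  have hmid : θ0 + Real.pi ∈ Ioo θ0 (θ0 + 2 * Real.pi) := by
    constructor <;> linarith [Real.pi_pos]
  refine (hq.enE_le_radial hρ hball hsub hh hh1 (u (cpt y ρ (θ0 + Real.pi)))).trans ?_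
  have h1h : 0 < 1 - h := by linarith
  gcongr ?_ + ?_ + ENNReal.ofReal (h * ρ) + ENNReal.ofReal (lam * ρ ^ 2)
  · rw [← lintegral_cpt_shift (fun z => ‖u z - u (cpt y ρ (θ0 + Real.pi))‖ₑ ^ 2) y ρ θ0]
    set A := ENNReal.ofReal ρ * ∫⁻ θ in Ioo (-Real.pi) Real.pi, ‖∇ u (cpt y ρ θ)‖ₑ with hA
    calc ENNReal.ofReal (1 / h) * ∫⁻ θ in Ioo θ0 (θ0 + 2 * Real.pi),
          ‖u (cpt y ρ θ) - u (cpt y ρ (θ0 + Real.pi))‖ₑ ^ 2
        ≤ ENNReal.ofReal (1 / h) * ∫⁻ θ in Ioo θ0 (θ0 + 2 * Real.pi), A ^ 2 := by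
          refine mul_le_mul_right ?_ _
          apply setLIntegral_mono' measurableSet_Ioo
          intro θ hθ
          gcongr
          exact hq.enorm_sub_le_arc hρ hball h0 hθ hmid
      _ = ENNReal.ofReal (2 * Real.pi / h) * A ^ 2 := by
          rw [setLIntegral_const, Real.volume_Ioo, mul_comm (A ^ 2), ← mul_assoc,
            ← ENNReal.ofReal_mul (by positivity)]
          congr 2
          field_simp
          ring
  · rw [← mul_assoc, ← ENNReal.ofReal_mul (by positivity)]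
    gcongr
    apply le_of_eq
    field_simp

end QM

end Crest.Agent.R135
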