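import Mathlib
import Crest.Agent.R135.Conc1
import Crest.Agent.R135.Conc2

/-!
R135 (helper709): concentration, part 3 (block CONC, step C2): small `L¹` norm of the gradient in
`B(y,s)` forces `H¹(K ∩ B(y,s)) ≥ (2-ε)s`.
-/

set_option autoImplicit false

open MeasureTheory Set Filter Topology Metric
open scoped ENNReal NNReal Gradient

namespace Crest.Agent.R135

theorem measurable_circL {F : E2 → ℝ≥0∞} (hF : Measurable F) (y : E2) :
    Measurable (fun t : ℝ => ENNReal.ofReal t * ∫⁻ θ in Ioo (-Real.pi) Real.pi, F (cpt y t θ)) := by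
  have h3 : Measurable (Function.uncurry (fun (t θ : ℝ) => F (cpt y t θ))) :=
    hF.comp (continuous_cpt y).measurable
  have h4 := h3.lintegral_prod_right' (ν := volume.restrict (Ioo (-Real.pi) Real.pi))
  exact ENNReal.measurable_ofReal.mul h4

theorem volume_le_of_mul_le {v : ℝ≥0∞} {a b : ℝ} (ha : 0 < a)
    (h : ENNReal.ofReal a * v ≤ ENNReal.ofReal b) : v ≤ ENNReal.ofReal (b / a) := by
  rw [ENNReal.ofReal_div_of_pos ha, ENNReal.le_div_iff_mul_le (Or.inl (by simpa using ha))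
    (Or.inl ENNReal.ofReal_ne_top), mul_comm]
  exact h

/-- Chebyshev for circles -/
theorem volume_bad_radii_le {F : E2 → ℝ≥0∞} (hF : Measurable F) {y : E2} {s a b : ℝ} (ha : 0 < a)
    (hb : ∫⁻ z in ball y s, F z ≤ ENNReal.ofReal b) :
    volume {t ∈ Ioo 0 s | ENNReal.ofReal a ≤
      ENNReal.ofReal t * ∫⁻ θ in Ioo (-Real.pi) Real.pi, F (cpt y t θ)} ≤ ENNReal.ofReal (b / a) := by
  apply volume_le_of_mul_le ha
  have h1 := mul_meas_ge_le_lintegral₀ (μ := volume.restrict (Ioo 0 s))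
    (measurable_circL hF y).aemeasurable (ENNReal.ofReal a)
  rw [← lintegral_ball_polar y s hF.aemeasurable] at h1
  refine le_trans (mul_le_mul_right ?_ _) (h1.trans hb)
  rw [Measure.restrict_apply' measurableSet_Ioo]
  apply measure_mono
  rintro t ⟨h1, h2⟩
  exact ⟨h2, h1⟩

/-- **Step C2 of the concentration property.** -/
theorem exists_conc_of_small_L1 (c0 C0 : ℝ) (hc0 : 0 < c0) (hC0 : 0 < C0) (ε : ℝ) (hε : 0 < ε)
    (hε1 : ε ≤ 1) : ∃ e : ℝ, 0 < e ∧ ∃ l0 : ℝ, 0 < l0 ∧ ∀ {U : Set E2} {lam : ℝ} {u : E2 → ℝ}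
      {K : Set E2}, IsQM U lam u K → ∀ (y : E2) (s : ℝ), 0 < s → closedBall y s ⊆ U → lam * s ≤ l0 →
      (∀ ρ : ℝ, 0 < ρ → ρ ≤ s → ENNReal.ofReal (c0 * ρ) ≤ len (K ∩ closedBall y ρ)) →
      ∫⁻ z in ball y s, ‖∇ u z‖ₑ ^ 2 ≤ ENNReal.ofReal (C0 * s) →
      (∫⁻ z in ball y s, ‖∇ u z‖ₑ) ^ 2 ≤ ENNReal.ofReal (e * s ^ 3) →
      ENNReal.ofReal ((2 - ε) * s) ≤ len (K ∩ ball y s) := by
  have hpi := Real.pi_pos
  set δ : ℝ := ε / 4 with hδ
  have hδ0 : 0 < δ := by positivity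
  have hδ1 : δ ≤ 1 / 4 := by rw [hδ]; linarith
  set h : ℝ := min (1 / 2) (c0 / (4 * (6 * C0 / δ + 1))) with hh
  have hden : 0 < 4 * (6 * C0 / δ + 1) := by positivity
  have hh0 : 0 < h := lt_min (by norm_num) (by positivity)
  have hh2 : h ≤ 1 / 2 := min_le_left _ _
  have hh3 : h * (6 * C0 / δ + 1) ≤ c0 / 4 := by
    have : h ≤ c0 / (4 * (6 * C0 / δ + 1)) := min_le_right _ _
    rw [le_div_iff₀ hden] at this
    linarith
  set e : ℝ := c0 * h * δ ^ 3 / (72 * Real.pi) with he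
  have he0 : 0 < e := by positivity
  refine ⟨e, he0, c0 / 4, by positivity, ?_⟩
  intro U lam u K hq y s hs hball hlam hlow hen hL1
  have hFm : Measurable (fun z => ‖∇ u z‖ₑ) := (measurable_gradient u).enorm
  have hF2m : Measurable (fun z => ‖∇ u z‖ₑ ^ 2) := hFm.pow_const 2
  set b1 : ℝ := Real.sqrt (e * s ^ 3) with hb1
  have hb1pos : 0 < b1 := Real.sqrt_pos.2 (by positivity)
  have hI1 : ∫⁻ z in ball y s, ‖∇ u z‖ₑ ≤ ENNReal.ofReal b1 := by
    have h1 : ENNReal.ofReal (e * s ^ 3) = ENNReal.ofReal b1 ^ 2 := by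
      rw [← ENNReal.ofReal_pow hb1pos.le, hb1, Real.sq_sqrt (by positivity)]
    rw [h1] at hL1
    exact (ENNReal.pow_le_pow_left_iff (by norm_num)).1 hL1
  set a1 : ℝ := 3 * b1 / (δ * s) with ha1
  set a2 : ℝ := 3 * C0 / δ with ha2
  have ha1pos : 0 < a1 := by positivity
  have ha2pos : 0 < a2 := by positivity
  set B1 := {t ∈ Ioo 0 s | ENNReal.ofReal a1 ≤
      ENNReal.ofReal t * ∫⁻ θ in Ioo (-Real.pi) Real.pi, ‖∇ u (cpt y t θ)‖ₑ} with hB1
  set B2 := {t ∈ Ioo 0 s | ENNReal.ofReal a2 ≤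
      ENNReal.ofReal t * ∫⁻ θ in Ioo (-Real.pi) Real.pi, ‖∇ u (cpt y t θ)‖ₑ ^ 2} with hB2
  have hvB1 : volume B1 ≤ ENNReal.ofReal (δ * s / 3) := by
    have := volume_bad_radii_le hFm (y := y) ha1pos hI1
    have h2 : b1 / a1 = δ * s / 3 := by rw [ha1]; field_simp
    rwa [h2] at this
  have hvB2 : volume B2 ≤ ENNReal.ofReal (δ * s / 3) := by
    have := volume_bad_radii_le hF2m (y := y) ha2pos hen
    have h2 : C0 * s / a2 = δ * s / 3 := by rw [ha2]; field_simp
    rwa [h2] at this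
  set T := {t ∈ Ioo (δ * s) s | (K ∩ sphere y t).Subsingleton} with hT
  have hTB : T ⊆ B1 ∪ B2 := by
    rintro ρ ⟨hρ, hsub⟩
    by_contra hcon
    have hρ0 : 0 < ρ := lt_trans (by positivity) hρ.1
    have hρI : ρ ∈ Ioo 0 s := ⟨hρ0, hρ.2⟩
    simp only [mem_union, not_or] at hcon
    have h1 : ENNReal.ofReal ρ * ∫⁻ θ in Ioo (-Real.pi) Real.pi, ‖∇ u (cpt y ρ θ)‖ₑ <
        ENNReal.ofReal a1 := by
      by_contra hc
      exact hcon.1 ⟨hρI, not_lt.1 hc⟩
    have h2 : ENNReal.ofReal ρ * ∫⁻ θ in Ioo (-Real.pi) Real.pi, ‖∇ u (cpt y ρ θ)‖ₑ ^ 2 <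
        ENNReal.ofReal a2 := by
      by_contra hc
      exact hcon.2 ⟨hρI, not_lt.1 hc⟩
    have hballρ : closedBall y ρ ⊆ U := (closedBall_subset_closedBall hρ.2.le).trans hball
    have h3 := hq.enE_le_of_subsingleton hρ0 hballρ hsub hh0 (by linarith)
    have h4 : enE u K (closedBall y ρ) ≤
        ENNReal.ofReal (2 * Real.pi / h) * ENNReal.ofReal a1 ^ 2 +
        ENNReal.ofReal (h * ρ / (1 - h)) * ENNReal.ofReal a2 +
        ENNReal.ofReal (h * ρ) + ENNReal.ofReal (lam * ρ ^ 2) := by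
      refine h3.trans ?_
      gcongr
    have h5 : ENNReal.ofReal (c0 * ρ) ≤ enE u K (closedBall y ρ) :=
      (hlow ρ hρ0 hρ.2.le).trans le_add_self
    have h6 := h5.trans h4
    have h1h : 0 < 1 - h := by linarith
    rw [← ENNReal.ofReal_pow ha1pos.le, ← ENNReal.ofReal_mul (by positivity),
      ← ENNReal.ofReal_mul (by positivity), ← ENNReal.ofReal_add (by positivity) (by positivity),
      ← ENNReal.ofReal_add (by positivity) (by positivity),
      ← ENNReal.ofReal_add (by positivity) (mul_nonneg hq.lam_nonneg (by positivity)),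
      ENNReal.ofReal_le_ofReal_iff (by
        have := hq.lam_nonneg
        positivity)] at h6
    -- estimates
    have e1 : 2 * Real.pi / h * a1 ^ 2 ≤ c0 / 4 * ρ := by
      have : a1 ^ 2 = 9 * e * s / δ ^ 2 := by
        rw [ha1, div_pow, mul_pow, hb1, Real.sq_sqrt (by positivity)]
        field_simp
        ring
      rw [this]
      have hsρ : δ * s ≤ ρ := hρ.1.le
      have h7 : 2 * Real.pi / h * (9 * e * s / δ ^ 2) = c0 / 4 * (δ * s) := by
        rw [he]
        field_simp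
        ring
      rw [h7]
      gcongr
    have e2 : h * ρ / (1 - h) * a2 ≤ h * (6 * C0 / δ) * ρ := by
      have h8 : h * ρ / (1 - h) ≤ 2 * (h * ρ) := by
        rw [div_le_iff₀ h1h]
        nlinarith [mul_pos hh0 hρ0]
      calc h * ρ / (1 - h) * a2 ≤ 2 * (h * ρ) * a2 := by gcongr
        _ = h * (6 * C0 / δ) * ρ := by rw [ha2]; ring
    have e3 : lam * ρ ^ 2 ≤ c0 / 4 * ρ := by
      have : lam * ρ ≤ c0 / 4 := le_trans (mul_le_mul_of_nonneg_left hρ.2.le hq.lam_nonneg) hlam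
      nlinarith
    have e4 : h * (6 * C0 / δ) * ρ + h * ρ ≤ c0 / 4 * ρ := by
      have : h * (6 * C0 / δ) * ρ + h * ρ = h * (6 * C0 / δ + 1) * ρ := by ring
      rw [this]
      gcongr
    have h9 : 0 < c0 * ρ := by positivity
    nlinarith
  have hvT : volume T ≤ ENNReal.ofReal (δ * s) := by
    refine (measure_mono hTB).trans ((measure_union_le _ _).trans ((add_le_add hvB1 hvB2).trans ?_))
    rw [← ENNReal.ofReal_add (by positivity) (by positivity)]
    apply ENNReal.ofReal_le_ofReal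
    nlinarith [mul_pos hδ0 hs]
  set T' := Ioo (δ * s) s \ T with hT'
  have hvT' : ENNReal.ofReal ((1 - 2 * δ) * s) ≤ volume T' := by
    have h1 : Ioo (δ * s) s ⊆ T' ∪ T := by
      intro t ht
      by_cases htT : t ∈ T
      · exact Or.inr htT
      · exact Or.inl ⟨ht, htT⟩
    have h2 : ENNReal.ofReal (s - δ * s) ≤ volume T' + ENNReal.ofReal (δ * s) := by
      rw [← Real.volume_Ioo]
      exact (measure_mono h1).trans ((measure_union_le _ _).trans (add_le_add le_rfl hvT))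
    have h3 : ENNReal.ofReal (s - δ * s) = ENNReal.ofReal ((1 - 2 * δ) * s) + ENNReal.ofReal (δ * s) := by
      rw [← ENNReal.ofReal_add (by
        have : 0 ≤ 1 - 2 * δ := by linarith
        positivity) (by positivity)]
      congr 1
      ring
    rw [h3] at h2
    exact (ENNReal.add_le_add_iff_right ENNReal.ofReal_ne_top).1 h2
  have hcount := mul_volume_radii_le (K ∩ ball y s) y T' 2 (by
    intro t ht
    have h1 : ¬ (K ∩ sphere y t).Subsingleton := fun hc => ht.2 ⟨ht.1, hc⟩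
    rw [not_subsingleton_iff] at h1
    have h2 := one_lt_encard_iff_nontrivial.2 h1
    have h3 : K ∩ ball y s ∩ sphere y t = K ∩ sphere y t := by
      ext z
      constructor
      · rintro ⟨⟨h4, _⟩, h5⟩
        exact ⟨h4, h5⟩
      · rintro ⟨h4, h5⟩
        refine ⟨⟨h4, ?_⟩, h5⟩
        rw [mem_ball, mem_sphere.1 h5]
        exact ht.1.2
    rw [h3]
    have h4 := Order.add_one_le_of_lt h2
    norm_num at h4
    exact_mod_cast h4)
  calc ENNReal.ofReal ((2 - ε) * s) = (2 : ℕ) * ENNReal.ofReal ((1 - 2 * δ) * s) := by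
        have h2 : ((2 : ℕ) : ℝ≥0∞) = ENNReal.ofReal 2 := by simp
        rw [h2, ← ENNReal.ofReal_mul (by norm_num)]
        congr 1
        rw [hδ]
        ring
    _ ≤ (2 : ℕ) * volume T' := by gcongr
    _ ≤ len (K ∩ ball y s) := hcount

end Crest.Agent.R135
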