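import Crest.Agent.R135.IF_B2

/-!
R135 (helper709, helper961): the density lower bound at scales `r ≤ 1` (wrapper, so that users do not
depend on the exact form of the smallness hypothesis in `density_lower`).
-/

set_option autoImplicit false

open MeasureTheory Set Filter Topology Metric
open scoped ENNReal NNReal

namespace Crest.Agent.R135

theorem density_lower_small : ∃ c₀ : ℝ, 0 < c₀ ∧ ∀ {U : Set E2} {lam : ℝ} {u : E2 → ℝ} {K : Set E2},
    IsQM U lam u K → ∀ x ∈ K, ∀ r : ℝ, 0 < r → r ≤ 1 → closedBall x r ⊆ U → lam * r ≤ 1 →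
      ENNReal.ofReal (c₀ * r) ≤ len (K ∩ closedBall x r) :=
  Gl.density_lower_le_one

end Crest.Agent.R135
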