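import Mathlib
import Crest.Agent.R135.GMT2

/-!
R135 toolbox (helper709): lower semicontinuity of `H¹` under uniform concentration.
-/

set_option autoImplicit false

open MeasureTheory Set Filter Topology Metric
open scoped ENNReal NNReal

namespace Crest.Agent.R135

variable {X : Type*} [MetricSpace X] [MeasurableSpace X] [BorelSpace X] [ProperSpace X]

omit [MeasurableSpace X] [BorelSpace X] in
/-- Finitely many disjoint closed balls inside an open set can be slightly enlarged. -/
theorem exists_enlarge_balls (U : Set X) (hU : IsOpen U) (s : Finset (X × ℝ))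
    (hsU : ∀ a ∈ s, closedBall a.1 a.2 ⊆ U)
    (hd : (s : Set (X × ℝ)).PairwiseDisjoint (fun a => closedBall a.1 a.2)) :
    ∃ η0 : ℝ, 0 < η0 ∧ ∀ η : ℝ, 0 < η → η ≤ η0 →
      (∀ a ∈ s, closedBall a.1 (a.2 + η) ⊆ U) ∧
      (s : Set (X × ℝ)).PairwiseDisjoint (fun a => closedBall a.1 (a.2 + η)) := by
  -- for each single ball and open set
  have hone : ∀ (a : X × ℝ) (V : Set X), IsOpen V → closedBall a.1 a.2 ⊆ V →
      ∃ η0 : ℝ, 0 < η0 ∧ closedBall a.1 (a.2 + η0) ⊆ V := by
    intro a V hV haV
    by_contra hcon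
    push Not at hcon
    -- a sequence of points outside V
    have hx : ∀ n : ℕ, ∃ x, x ∈ closedBall a.1 (a.2 + 1 / ((n : ℝ) + 1)) ∧ x ∉ V := by
      intro n
      have := hcon (1 / ((n : ℝ) + 1)) (by positivity)
      exact not_subset.1 this
    choose x hx hxV using hx
    have hcomp : IsCompact (closedBall a.1 (a.2 + 1)) := isCompact_closedBall _ _
    have hxc : ∀ n, x n ∈ closedBall a.1 (a.2 + 1) := by
      intro n
      refine closedBall_subset_closedBall ?_ (hx n)
      have : 1 / ((n : ℝ) + 1) ≤ 1 := by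
        rw [div_le_one (by positivity)]
        have : (0 : ℝ) ≤ n := Nat.cast_nonneg n
        linarith
      linarith
    obtain ⟨z, _, φ, hφ, hz⟩ := hcomp.tendsto_subseq hxc
    have hzV : z ∉ V := by
      have : z ∈ Vᶜ := hV.isClosed_compl.mem_of_tendsto hz
        (Eventually.of_forall fun n => hxV (φ n))
      exact this
    apply hzV
    apply haV
    rw [mem_closedBall]
    have h1 : Tendsto (fun n => dist (x (φ n)) a.1) atTop (𝓝 (dist z a.1)) :=
      (hz.dist tendsto_const_nhds)
    have h2 : Tendsto (fun n => a.2 + 1 / (((φ n : ℕ) : ℝ) + 1)) atTop (𝓝 (a.2 + 0)) := by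
      apply Tendsto.add tendsto_const_nhds
      exact tendsto_one_div_add_atTop_nhds_zero_nat.comp hφ.tendsto_atTop
    rw [add_zero] at h2
    exact le_of_tendsto_of_tendsto' h1 h2 (fun n => hx (φ n))
  -- U part
  have hUpart : ∃ η0 : ℝ, 0 < η0 ∧ ∀ a ∈ s, closedBall a.1 (a.2 + η0) ⊆ U := by
    choose! f hf0 hf using fun (a : X × ℝ) (ha : a ∈ s) => hone a U hU (hsU a ha)
    rcases s.eq_empty_or_nonempty with rfl | hne
    · exact ⟨1, one_pos, by simp⟩
    · refine ⟨s.inf' hne f, ?_, ?_⟩
      · rw [Finset.lt_inf'_iff]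
        exact fun a ha => hf0 a ha
      · intro a ha
        refine (closedBall_subset_closedBall ?_).trans (hf a ha)
        have := Finset.inf'_le f ha
        linarith
  -- pairs
  have hpair : ∀ a b : X × ℝ, Disjoint (closedBall a.1 a.2) (closedBall b.1 b.2) →
      ∃ η0 : ℝ, 0 < η0 ∧ Disjoint (closedBall a.1 (a.2 + η0)) (closedBall b.1 (b.2 + η0)) := by
    intro a b hab
    obtain ⟨η1, hη1, h1⟩ := hone a (closedBall b.1 b.2)ᶜ isClosed_closedBall.isOpen_compl
      (disjoint_left.1 hab)
    obtain ⟨η2, hη2, h2⟩ := hone b (closedBall a.1 (a.2 + η1))ᶜ isClosed_closedBall.isOpen_compl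
      (by
        intro z hz hz'
        exact h1 hz' hz)
    refine ⟨min η1 η2, lt_min hη1 hη2, ?_⟩
    rw [disjoint_left]
    intro z hz hz'
    exact h2 (closedBall_subset_closedBall (by gcongr; exact min_le_right _ _) hz')
      (closedBall_subset_closedBall (by gcongr; exact min_le_left _ _) hz)
  have hPpart : ∃ η0 : ℝ, 0 < η0 ∧
      (s : Set (X × ℝ)).PairwiseDisjoint (fun a => closedBall a.1 (a.2 + η0)) := by
    classical
    have : ∀ p : (X × ℝ) × (X × ℝ), p ∈ (s ×ˢ s).filter (fun p => p.1 ≠ p.2) →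
        ∃ η0 : ℝ, 0 < η0 ∧
          Disjoint (closedBall p.1.1 (p.1.2 + η0)) (closedBall p.2.1 (p.2.2 + η0)) := by
      intro p hp
      simp only [Finset.mem_filter, Finset.mem_product] at hp
      exact hpair p.1 p.2 (hd hp.1.1 hp.1.2 hp.2)
    choose! f hf0 hf using this
    rcases ((s ×ˢ s).filter (fun p => p.1 ≠ p.2)).eq_empty_or_nonempty with he | hne
    · refine ⟨1, one_pos, ?_⟩
      intro a ha b hb hab
      exfalso
      have : (a, b) ∈ (s ×ˢ s).filter (fun p => p.1 ≠ p.2) := by
        simp only [Finset.mem_filter, Finset.mem_product]; exact ⟨⟨ha, hb⟩, hab⟩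
      rw [he] at this
      simp at this
    · refine ⟨((s ×ˢ s).filter (fun p => p.1 ≠ p.2)).inf' hne f, ?_, ?_⟩
      · rw [Finset.lt_inf'_iff]
        exact fun p hp => hf0 p hp
      · intro a ha b hb hab
        have hp : (a, b) ∈ (s ×ˢ s).filter (fun p => p.1 ≠ p.2) := by
          simp only [Finset.mem_filter, Finset.mem_product]; exact ⟨⟨ha, hb⟩, hab⟩
        have h1 := Finset.inf'_le f hp
        exact (hf _ hp).mono (closedBall_subset_closedBall (by simpa using h1))
          (closedBall_subset_closedBall (by simpa using h1))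
  obtain ⟨η1, hη1, h1⟩ := hUpart
  obtain ⟨η2, hη2, h2⟩ := hPpart
  refine ⟨min η1 η2, lt_min hη1 hη2, ?_⟩
  intro η hη hle
  refine ⟨fun a ha => (closedBall_subset_closedBall ?_).trans (h1 a ha), ?_⟩
  · have := hle.trans (min_le_left _ _); linarith
  · intro a ha b hb hab
    have hη2' := hle.trans (min_le_right η1 η2)
    exact (h2 ha hb hab).mono (closedBall_subset_closedBall (by linarith))
      (closedBall_subset_closedBall (by linarith))

/-- Lower semicontinuity of `H¹` from uniform concentration (Dal Maso–Morel–Solimini). -/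
theorem hausdorff_le_liminf_of_concentration {ι : Type*} (l : Filter ι) (K : ι → Set X)
    (K0 U : Set X) (hU : IsOpen U) (κ C : ℝ) (hκ : 0 < κ) (hC : 0 < C)
    (h : ∀ x ∈ K0 ∩ U, ∃ r0 : ℝ, 0 < r0 ∧ ∀ r : ℝ, 0 < r → r ≤ r0 → ∀ᶠ n in l,
      ∃ (y : X) (s : ℝ), dist x y + s ≤ r ∧ r ≤ C * s ∧
        ENNReal.ofReal (κ * (2 * s)) ≤ Measure.hausdorffMeasure 1 (K n ∩ closedBall y s)) :
    ENNReal.ofReal κ * Measure.hausdorffMeasure 1 (K0 ∩ U) ≤
      liminf (fun n => Measure.hausdorffMeasure 1 (K n ∩ U)) l := by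
  classical
  by_contra hcon
  push Not at hcon
  obtain ⟨m, hm1, hm2⟩ := exists_between hcon
  have hmt : m ≠ ⊤ := (lt_of_lt_of_le hm2 le_top).ne
  -- frequently below m
  have hfreq : ∃ᶠ n in l, Measure.hausdorffMeasure 1 (K n ∩ U) < m := by
    by_contra hnf
    rw [not_frequently] at hnf
    have : m ≤ liminf (fun n => Measure.hausdorffMeasure 1 (K n ∩ U)) l := by
      apply le_liminf_of_le (by isBoundedDefault)
      filter_upwards [hnf] with n hn
      exact not_lt.1 hn
    exact absurd hm1 (not_lt.2 this)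
  have hne : (l ⊓ 𝓟 {n | Measure.hausdorffMeasure 1 (K n ∩ U) < m}).NeBot :=
    frequently_mem_iff_neBot.1 hfreq
  obtain ⟨𝒰, h𝒰⟩ := Ultrafilter.exists_le (l ⊓ 𝓟 {n | Measure.hausdorffMeasure 1 (K n ∩ U) < m})
  have h𝒰l : (𝒰 : Filter ι) ≤ l := h𝒰.trans inf_le_left
  have h𝒰m : ∀ᶠ n in (𝒰 : Filter ι), Measure.hausdorffMeasure 1 (K n ∩ U) < m :=
    (le_principal_iff.1 (h𝒰.trans inf_le_right))
  -- the limit family
  let F : Set (X × ℝ) := {a | 0 < a.2 ∧ closedBall a.1 a.2 ⊆ U ∧ ∀ η : ℝ, 0 < η →
    ∀ᶠ n in (𝒰 : Filter ι), ENNReal.ofReal (κ * (2 * (a.2 - η))) ≤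
      Measure.hausdorffMeasure 1 (K n ∩ closedBall a.1 (a.2 + η))}
  have hfam := hausdorff_le_of_fine_family (K0 ∩ U) C hC F (fun a ha => ha.1)
    (by
      intro x hx
      obtain ⟨r1, hr1, hr⟩ := h x hx
      obtain ⟨ρ, hρ, hρU⟩ := Metric.nhds_basis_closedBall.mem_iff.1 (hU.mem_nhds hx.2)
      refine ⟨min r1 ρ, lt_min hr1 hρ, ?_⟩
      intro r hr0 hrle
      have hev := h𝒰l (hr r hr0 (hrle.trans (min_le_left _ _)))
      -- choose balls
      have hev' : ∀ᶠ n in (𝒰 : Filter ι), ∃ p : X × ℝ, dist x p.1 + p.2 ≤ r ∧ r ≤ C * p.2 ∧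
          ENNReal.ofReal (κ * (2 * p.2)) ≤
            Measure.hausdorffMeasure 1 (K n ∩ closedBall p.1 p.2) := by
        filter_upwards [hev] with n hn
        obtain ⟨y, s, h1, h2, h3⟩ := hn
        exact ⟨(y, s), h1, h2, h3⟩
      let S : ι → X × ℝ := fun n => if hn : ∃ p : X × ℝ, dist x p.1 + p.2 ≤ r ∧ r ≤ C * p.2 ∧
          ENNReal.ofReal (κ * (2 * p.2)) ≤
            Measure.hausdorffMeasure 1 (K n ∩ closedBall p.1 p.2) then hn.choose else (x, r)
      have hS : ∀ᶠ n in (𝒰 : Filter ι), dist x (S n).1 + (S n).2 ≤ r ∧ r ≤ C * (S n).2 ∧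
          ENNReal.ofReal (κ * (2 * (S n).2)) ≤
            Measure.hausdorffMeasure 1 (K n ∩ closedBall (S n).1 (S n).2) := by
        filter_upwards [hev'] with n hn
        simp only [S, dif_pos hn]
        exact hn.choose_spec
      have hSc : ∀ᶠ n in (𝒰 : Filter ι), S n ∈ closedBall x r ×ˢ Icc (r / C) r := by
        filter_upwards [hS] with n hn
        obtain ⟨h1, h2, _⟩ := hn
        have hs0 : r / C ≤ (S n).2 := by rw [div_le_iff₀ hC]; linarith
        have hs1 : 0 < r / C := by positivity
        refine ⟨?_, hs0, ?_⟩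
        · rw [mem_closedBall, dist_comm]; linarith
        · have := dist_nonneg (x := x) (y := (S n).1); linarith
      have hcomp : IsCompact (closedBall x r ×ˢ Icc (r / C) r) :=
        (isCompact_closedBall x r).prod isCompact_Icc
      obtain ⟨a, ha, hlim⟩ := hcomp.ultrafilter_le_nhds (𝒰.map S) (by
        rw [le_principal_iff]; exact hSc)
      have hlim' : Tendsto S (𝒰 : Filter ι) (𝓝 a) := hlim
      have h1lim : Tendsto (fun n => (S n).1) (𝒰 : Filter ι) (𝓝 a.1) :=
        (continuous_fst.tendsto a).comp hlim'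
      have h2lim : Tendsto (fun n => (S n).2) (𝒰 : Filter ι) (𝓝 a.2) :=
        (continuous_snd.tendsto a).comp hlim'
      have hsum : dist x a.1 + a.2 ≤ r := by
        have : Tendsto (fun n => dist x (S n).1 + (S n).2) (𝒰 : Filter ι) (𝓝 (dist x a.1 + a.2)) :=
          (tendsto_const_nhds.dist h1lim).add h2lim
        exact le_of_tendsto this (hS.mono fun n hn => hn.1)
      have hra : r ≤ C * a.2 := by
        have : Tendsto (fun n => C * (S n).2) (𝒰 : Filter ι) (𝓝 (C * a.2)) :=
          h2lim.const_mul C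
        exact ge_of_tendsto this (hS.mono fun n hn => hn.2.1)
      have ha0 : 0 < a.2 := by
        by_contra hneg
        push Not at hneg
        nlinarith
      have hasub : closedBall a.1 a.2 ⊆ closedBall x r := by
        apply closedBall_subset_closedBall'
        rw [dist_comm]; linarith
      refine ⟨a, ⟨ha0, ?_, ?_⟩, hasub, ?_, hra⟩
      · exact hasub.trans ((closedBall_subset_closedBall (hrle.trans (min_le_right _ _))).trans hρU)
      · intro η hη
        have h3 : ∀ᶠ n in (𝒰 : Filter ι), dist (S n).1 a.1 < η / 2 :=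
          (Metric.tendsto_nhds.1 h1lim) (η / 2) (by positivity)
        have h4 : ∀ᶠ n in (𝒰 : Filter ι), dist (S n).2 a.2 < η / 2 :=
          (Metric.tendsto_nhds.1 h2lim) (η / 2) (by positivity)
        filter_upwards [hS, h3, h4] with n hn hn3 hn4
        rw [Real.dist_eq, abs_lt] at hn4
        calc ENNReal.ofReal (κ * (2 * (a.2 - η))) ≤ ENNReal.ofReal (κ * (2 * (S n).2)) := by
              apply ENNReal.ofReal_le_ofReal
              have : a.2 - η ≤ (S n).2 := by linarith
              gcongr
          _ ≤ Measure.hausdorffMeasure 1 (K n ∩ closedBall (S n).1 (S n).2) := hn.2.2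
          _ ≤ _ := by
              apply measure_mono
              apply inter_subset_inter_right
              apply closedBall_subset_closedBall'
              linarith
      · have := dist_nonneg (x := x) (y := a.1); linarith)
    (m.toReal / κ)
    (by
      intro s hsF hsd
      obtain ⟨η0, hη0, hen⟩ := exists_enlarge_balls U hU s (fun a ha => (hsF ha).2.1) hsd
      -- bound for small η
      have hb : ∀ η : ℝ, 0 < η → η ≤ η0 → ∑ a ∈ s, κ * (2 * (a.2 - η)) ≤ m.toReal := by
        intro η hη hle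
        obtain ⟨hsub, hdis⟩ := hen η hη hle
        have hall : ∀ᶠ n in (𝒰 : Filter ι), ∀ a ∈ s, ENNReal.ofReal (κ * (2 * (a.2 - η))) ≤
            Measure.hausdorffMeasure 1 (K n ∩ closedBall a.1 (a.2 + η)) := by
          rw [Filter.eventually_all_finset]
          intro a ha
          exact (hsF ha).2.2 η hη
        obtain ⟨n, hn, hnm⟩ := (hall.and h𝒰m).exists
        have h5 : ∑ a ∈ s, ENNReal.ofReal (κ * (2 * (a.2 - η))) ≤ m := by
          calc ∑ a ∈ s, ENNReal.ofReal (κ * (2 * (a.2 - η)))
              ≤ ∑ a ∈ s, Measure.hausdorffMeasure 1 (K n ∩ closedBall a.1 (a.2 + η)) :=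
                Finset.sum_le_sum hn
            _ = ∑ a ∈ s, (Measure.hausdorffMeasure 1).restrict (K n) (closedBall a.1 (a.2 + η)) := by
                apply Finset.sum_congr rfl
                intro a _
                rw [Measure.restrict_apply isClosed_closedBall.measurableSet, inter_comm]
            _ = (Measure.hausdorffMeasure 1).restrict (K n)
                  (⋃ a ∈ s, closedBall a.1 (a.2 + η)) := by
                rw [measure_biUnion_finset hdis (fun a _ => isClosed_closedBall.measurableSet)]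
            _ ≤ (Measure.hausdorffMeasure 1).restrict (K n) U := by
                apply measure_mono
                intro z hz
                simp only [mem_iUnion] at hz
                obtain ⟨a, ha, hz⟩ := hz
                exact hsub a ha hz
            _ = Measure.hausdorffMeasure 1 (K n ∩ U) := by
                rw [Measure.restrict_apply hU.measurableSet, inter_comm]
            _ ≤ m := hnm.le
        have h6 : ∑ a ∈ s, κ * (2 * (a.2 - η)) ≤
            ∑ a ∈ s, (ENNReal.ofReal (κ * (2 * (a.2 - η)))).toReal := by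
          apply Finset.sum_le_sum
          intro a _
          exact Real.le_coe_toNNReal _
        have h7 : ∑ a ∈ s, (ENNReal.ofReal (κ * (2 * (a.2 - η)))).toReal =
            (∑ a ∈ s, ENNReal.ofReal (κ * (2 * (a.2 - η)))).toReal := by
          rw [ENNReal.toReal_sum]
          intro a _
          exact ENNReal.ofReal_ne_top
        rw [h7] at h6
        exact h6.trans (ENNReal.toReal_mono hmt h5)
      -- let η → 0
      have hlim : Tendsto (fun η : ℝ => ∑ a ∈ s, κ * (2 * (a.2 - η))) (𝓝[>] 0)
          (𝓝 (∑ a ∈ s, κ * (2 * (a.2 - 0)))) := by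
        apply Tendsto.mono_left _ nhdsWithin_le_nhds
        apply Continuous.tendsto
        fun_prop
      have hfin : ∑ a ∈ s, κ * (2 * (a.2 - 0)) ≤ m.toReal := by
        apply le_of_tendsto hlim
        filter_upwards [Ioc_mem_nhdsGT hη0] with η hη
        exact hb η hη.1 hη.2
      rw [le_div_iff₀ hκ]
      calc (∑ a ∈ s, 2 * a.2) * κ = ∑ a ∈ s, κ * (2 * (a.2 - 0)) := by
            rw [Finset.sum_mul]
            apply Finset.sum_congr rfl
            intro a _
            ring
        _ ≤ m.toReal := hfin)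
  -- contradiction
  have h8 : ENNReal.ofReal κ * Measure.hausdorffMeasure 1 (K0 ∩ U) ≤ m := by
    calc ENNReal.ofReal κ * Measure.hausdorffMeasure 1 (K0 ∩ U)
        ≤ ENNReal.ofReal κ * ENNReal.ofReal (m.toReal / κ) := by gcongr
      _ = ENNReal.ofReal (κ * (m.toReal / κ)) := by rw [ENNReal.ofReal_mul hκ.le]
      _ = m := by
          rw [mul_div_cancel₀ _ hκ.ne', ENNReal.ofReal_toReal hmt]
  exact absurd hm2 (not_lt.2 h8)

end Crest.Agent.R135
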