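import Crest.Agent.R135.IFDefs
import Crest.Agent.R135.QMBasic

/-! INTERFACE B1: energy upper bound `IsQM.energy_le` (proved in QMBasic.lean, helper140):
`h.energy_le (hr : 0 < r) (hx : closedBall x r ⊆ U) :
  enE u K (closedBall x r) ≤ ENNReal.ofReal (2 * π * r + lam * r ^ 2)`. -/
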