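import Mathlib
import Crest.Agent.R135.Conc3
import Crest.Agent.R135.GMT3
import Crest.Agent.R135.IF_B1
import Crest.Agent.R135.DLS

/-!
R135 (helper709): concentration, part 4: the concentration property of quasi-minimizers and lower
semicontinuity of the length along sequences of quasi-minimizers (input of B3).
-/

set_option autoImplicit false

open MeasureTheory Set Filter Topology Metric
open scoped ENNReal NNReal Gradient

namespace Crest.Agent.R135

section QM

variable {U K : Set E2} {lam : ℝ} {u : E2 → ℝ}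

theorem IsQM.volume_inter (hq : IsQM U lam u K) {x : E2} {r : ℝ} (h : closedBall x r ⊆ U) :
    volume (K ∩ closedBall x r) = 0 :=
  volume_eq_zero_of_hausdorff_lt_top (hq.len_fin x r h)

theorem IsQM.lintegral_ball_le (hq : IsQM U lam u K) {x : E2} {r : ℝ} (h : closedBall x r ⊆ U)
    (f : E2 → ℝ≥0∞) : ∫⁻ z in ball x r, f z ≤ ∫⁻ z in closedBall x r \ K, f z := by
  have h0 : (closedBall x r \ K : Set E2) =ᵐ[volume] closedBall x r := by
    have h1 : volume (closedBall x r ∩ K) = 0 := by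
      rw [inter_comm]
      exact hq.volume_inter h
    rw [ae_eq_set]
    refine ⟨?_, ?_⟩
    · rw [sdiff_eq_empty.2 sdiff_subset, measure_empty]
    · rw [sdiff_sdiff_right_self]
      exact h1
  rw [setLIntegral_congr h0]
  exact lintegral_mono_set ball_subset_closedBall

end QM

/-- **Concentration property** (Dal Maso–Morel–Solimini) for quasi-minimizers. -/
theorem concentration (ε : ℝ) (hε : 0 < ε) (hε1 : ε ≤ 1) :
    ∃ C : ℝ, 0 < C ∧ ∃ l0 : ℝ, 0 < l0 ∧ ∀ {U : Set E2} {lam : ℝ} {u : E2 → ℝ} {K : Set E2},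
      IsQM U lam u K → ∀ x ∈ K, ∀ r : ℝ, 0 < r → r ≤ 1 → closedBall x (2 * r) ⊆ U →
      lam * r ≤ l0 →
      ∃ y ∈ K, dist y x < r / 2 ∧ ∃ s : ℝ, 0 < s ∧ s ≤ r / 4 ∧ r ≤ C * s ∧
        ENNReal.ofReal ((2 - ε) * s) ≤ len (K ∩ ball y s) := by
  have hpi := Real.pi_pos
  obtain ⟨c₀, hc₀, hdens⟩ := density_lower_small
  set C0 : ℝ := 2 * Real.pi + 1 with hC0
  have hC0pos : 0 < C0 := by positivity
  obtain ⟨e, he, l1, hl1, hC2⟩ := exists_conc_of_small_L1 c₀ C0 hc₀ hC0pos ε hε hε1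
  obtain ⟨C, hC, hC1⟩ := exists_small_L1 (c₀ / 2) C0 (by positivity) hC0pos e he
  refine ⟨C, hC, min 1 l1, lt_min one_pos hl1, ?_⟩
  intro U lam u K hq x hx r hr hr1 hball hlam
  have hlam1 : lam * r ≤ 1 := hlam.trans (min_le_left _ _)
  have hlam2 : lam * r ≤ l1 := hlam.trans (min_le_right _ _)
  have hlams : ∀ s : ℝ, s ≤ r → lam * s ≤ lam * r := fun s hs =>
    mul_le_mul_of_nonneg_left hs hq.lam_nonneg
  have hsubU : ∀ (y : E2) (s : ℝ), dist y x < r → s ≤ r → closedBall y s ⊆ U := by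
    intro y s hy hs
    refine Subset.trans ?_ hball
    apply closedBall_subset_closedBall'
    linarith
  have hlow : ∀ y ∈ K, dist y x < r → ∀ s : ℝ, 0 < s → s ≤ r →
      ENNReal.ofReal (c₀ * s) ≤ len (K ∩ closedBall y s) := by
    intro y hy hyx s hs hsr
    exact hdens hq y hy s hs (hsr.trans hr1) (hsubU y s hyx hsr) ((hlams s hsr).trans hlam1)
  have hlow' : ∀ y ∈ K, dist y x < r → ∀ s : ℝ, 0 < s → s ≤ r →
      ENNReal.ofReal (c₀ / 2 * s) ≤ Measure.hausdorffMeasure 1 (K ∩ ball y s) := by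
    intro y hy hyx s hs hsr
    have h1 := hlow y hy hyx (s / 2) (by positivity) (by linarith)
    rw [show c₀ / 2 * s = c₀ * (s / 2) by ring]
    refine h1.trans (measure_mono (inter_subset_inter_right _ ?_))
    exact closedBall_subset_ball (by linarith)
  have hen : ∀ y : E2, dist y x < r → ∀ s : ℝ, 0 < s → s ≤ r →
      enE u K (closedBall y s) ≤ ENNReal.ofReal (C0 * s) := by
    intro y hyx s hs hsr
    refine (hq.energy_le hs (hsubU y s hyx hsr)).trans (ENNReal.ofReal_le_ofReal ?_)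
    have h1 : lam * s ≤ 1 := (hlams s hsr).trans hlam1
    rw [hC0]
    nlinarith
  have hup : ∀ y : E2, dist y x < r → ∀ s : ℝ, 0 < s → s ≤ r →
      Measure.hausdorffMeasure 1 (K ∩ closedBall y s) ≤ ENNReal.ofReal (C0 * s) :=
    fun y hyx s hs hsr => le_trans le_add_self (hen y hyx s hs hsr)
  have hen2 : ∀ y : E2, dist y x < r → ∀ s : ℝ, 0 < s → s ≤ r →
      ∫⁻ z in ball y s, ‖∇ u z‖ₑ ^ 2 ≤ ENNReal.ofReal (C0 * s) := by
    intro y hyx s hs hsr
    refine (hq.lintegral_ball_le (hsubU y s hyx hsr) _).trans ?_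
    exact le_trans le_self_add (hen y hyx s hs hsr)
  obtain ⟨y, hy, hyx, s, hs, hsr, hrC, hL1⟩ := hC1 K x r hr hx hq.measurable_K hlow' hup
    (fun z => ‖∇ u z‖ₑ) (measurable_gradient u).enorm hen2
  have hyr : dist y x < r := by linarith
  refine ⟨y, hy, hyx, s, hs, hsr, hrC, ?_⟩
  refine hC2 hq y s hs (hsubU y s hyr (by linarith)) ((hlams s (by linarith)).trans hlam2) ?_
    (hen2 y hyr s hs (by linarith)) hL1
  intro ρ hρ hρs
  exact hlow y hy hyr ρ hρ (by linarith)

/-- **Lower semicontinuity of the length** along quasi-minimizers. -/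
theorem len_le_liminf {ι : Type*} {l : Filter ι} {Uk : ι → Set E2} {lamk : ι → ℝ}
    {uk : ι → E2 → ℝ} {Kk : ι → Set E2} (h : ∀ k, IsQM (Uk k) (lamk k) (uk k) (Kk k))
    {K V : Set E2} (hV : IsOpen V)
    (near : ∀ x ∈ K ∩ V, ∀ ε : ℝ, 0 < ε → ∀ᶠ k in l, ∃ y ∈ Kk k, dist y x < ε)
    (loc : ∀ x ∈ K ∩ V, ∃ r0 : ℝ, 0 < r0 ∧ ∃ Λ : ℝ, ∀ᶠ k in l, closedBall x r0 ⊆ Uk k ∧ lamk k ≤ Λ) :
    len (K ∩ V) ≤ liminf (fun k => len (Kk k ∩ V)) l := by
  have hkey : ∀ ε : ℝ, 0 < ε → ε ≤ 1 →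
      ENNReal.ofReal ((2 - ε) / 2) * len (K ∩ V) ≤ liminf (fun k => len (Kk k ∩ V)) l := by
    intro ε hε hε1
    obtain ⟨C, hC, l0, hl0, hconc⟩ := concentration ε hε hε1
    apply hausdorff_le_liminf_of_concentration l Kk K V hV ((2 - ε) / 2) (4 * C) (by linarith)
      (by positivity)
    intro x hx
    obtain ⟨r0, hr0, Λ, hloc⟩ := loc x hx
    have hΛ : 0 < |Λ| + 1 := by positivity
    refine ⟨min 1 (min r0 (l0 / (|Λ| + 1))), lt_min one_pos (lt_min hr0 (by positivity)), ?_⟩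
    intro r hr hrr'
    have hr1 : r ≤ 1 := hrr'.trans (min_le_left _ _)
    have hrr : r ≤ min r0 (l0 / (|Λ| + 1)) := hrr'.trans (min_le_right _ _)
    have hrr0 : r ≤ r0 := hrr.trans (min_le_left _ _)
    have hrl : (|Λ| + 1) * r ≤ l0 := by
      have := hrr.trans (min_le_right _ _)
      rw [le_div_iff₀ hΛ] at this
      linarith
    filter_upwards [near x hx (r / 4) (by positivity), hloc] with k hk1 hk2
    obtain ⟨xk, hxk, hdist⟩ := hk1
    obtain ⟨y, _, hyx, s, hs, hsr, hrC, hlen⟩ := hconc (h k) xk hxk (r / 4) (by positivity)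
      (by linarith)
      (by
        refine Subset.trans ?_ hk2.1
        apply closedBall_subset_closedBall'
        linarith)
      (by
        have h1 : lamk k ≤ |Λ| + 1 := by linarith [hk2.2, le_abs_self Λ]
        have h2 : lamk k * (r / 4) ≤ (|Λ| + 1) * (r / 4) := by gcongr
        nlinarith [mul_pos hΛ hr])
    refine ⟨y, s, ?_, by linarith, ?_⟩
    · have h1 := dist_triangle x xk y
      rw [dist_comm x xk, dist_comm xk y] at h1
      linarith
    · rw [show (2 - ε) / 2 * (2 * s) = (2 - ε) * s by ring]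
      exact hlen.trans (measure_mono (inter_subset_inter_right _ ball_subset_closedBall))
  have hlim : Tendsto (fun n : ℕ => ENNReal.ofReal ((2 - 1 / ((n : ℝ) + 1)) / 2) * len (K ∩ V)) atTop
      (𝓝 (ENNReal.ofReal ((2 - 0) / 2) * len (K ∩ V))) := by
    apply ENNReal.Tendsto.mul_const
    · apply ENNReal.tendsto_ofReal
      exact (tendsto_const_nhds.sub tendsto_one_div_add_atTop_nhds_zero_nat).div_const _
    · left
      norm_num
  have h1 : ENNReal.ofReal ((2 - 0) / 2) * len (K ∩ V) = len (K ∩ V) := by norm_num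
  rw [h1] at hlim
  apply le_of_tendsto' hlim
  intro n
  apply hkey
  · positivity
  · rw [div_le_one (by positivity)]
    have : (0 : ℝ) ≤ n := Nat.cast_nonneg n
    linarith

end Crest.Agent.R135
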