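import Mathlib

/-!
R135 (helper288): sequential compactness of sets for local Hausdorff (Fell/Kuratowski)
convergence in a second countable metric space.
-/

set_option autoImplicit false

open Set Filter Topology Metric TopologicalSpace

namespace Crest.Agent.R135

/-- Kuratowski/Fell convergence of `K n` to the closed set `Kl`, both halves. -/
structure FellTo {X : Type*} [PseudoMetricSpace X] (K : ℕ → Set X) (Kl : Set X) : Prop where
  closed : IsClosed Kl
  near : ∀ x ∈ Kl, ∀ ε > 0, ∀ᶠ n in atTop, ∃ y ∈ K n, dist y x < ε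
  away : ∀ C : Set X, IsCompact C → Disjoint C Kl → ∀ᶠ n in atTop, Disjoint C (K n)

/-- every sequence of sets has a Fell convergent subsequence -/
theorem exists_fell_subseq {X : Type*} [PseudoMetricSpace X] [SecondCountableTopology X]
    (K : ℕ → Set X) : ∃ φ : ℕ → ℕ, StrictMono φ ∧ ∃ Kl : Set X, FellTo (fun n => K (φ n)) Kl := by
  classical
  let x : ℕ → (countableBasis X → Bool) := fun n i => decide ((K n ∩ (i : Set X)).Nonempty)
  have : Countable (countableBasis X) := (countable_countableBasis X).to_subtype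
  obtain ⟨a, φ, hφ, ha⟩ := CompactSpace.tendsto_subseq x
  have hev : ∀ i : countableBasis X, ∀ᶠ n in atTop, x (φ n) i = a i := by
    intro i
    have h1 : Tendsto (fun n => x (φ n) i) atTop (𝓝 (a i)) := (tendsto_pi_nhds.1 ha) i
    rw [nhds_discrete, tendsto_pure] at h1
    exact h1
  have hb := isBasis_countableBasis X
  refine ⟨φ, hφ, {p | ∀ i : countableBasis X, p ∈ (i : Set X) → a i = true}, ?_, ?_, ?_⟩
  · rw [← isOpen_compl_iff, isOpen_iff_forall_mem_open]
    intro p hp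
    rw [mem_compl_iff] at hp
    have hp' : ∃ i : countableBasis X, p ∈ (i : Set X) ∧ a i ≠ true := by
      by_contra hcon
      push Not at hcon
      exact hp hcon
    obtain ⟨i, hpi, hai⟩ := hp'
    refine ⟨(i : Set X), ?_, hb.isOpen i.2, hpi⟩
    intro q hq hqK
    exact hai (hqK i hq)
  · intro p hp ε hε
    obtain ⟨B, hB, hpB, hBε⟩ := hb.exists_subset_of_mem_open (mem_ball_self hε) isOpen_ball
    filter_upwards [hev ⟨B, hB⟩] with n hn
    rw [hp ⟨B, hB⟩ hpB] at hn
    have h2 : (K (φ n) ∩ B).Nonempty := by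
      simpa [x] using hn
    obtain ⟨y, hy1, hy2⟩ := h2
    exact ⟨y, hy1, hBε hy2⟩
  · intro C hC hd
    have h1 : ∀ p ∈ C, ∃ B : Set X, B ∈ 𝓝 p ∧ ∀ᶠ n in atTop, ¬ (K (φ n) ∩ B).Nonempty := by
      intro p hp
      have h2 : p ∉ {p | ∀ i : countableBasis X, p ∈ (i : Set X) → a i = true} :=
        disjoint_left.1 hd hp
      have hp' : ∃ i : countableBasis X, p ∈ (i : Set X) ∧ a i ≠ true := by
        by_contra hcon
        push Not at hcon
        exact h2 hcon
      obtain ⟨i, hpi, hai⟩ := hp'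
      refine ⟨(i : Set X), (hb.isOpen i.2).mem_nhds hpi, ?_⟩
      filter_upwards [hev i] with n hn
      intro h5
      have : x (φ n) i = true := by simpa [x] using h5
      exact hai (hn ▸ this)
    choose! f hf1 hf2 using h1
    obtain ⟨t, ht, hCt⟩ := hC.elim_nhds_subcover f hf1
    have h3 : ∀ᶠ n in atTop, ∀ p ∈ t, ¬ (K (φ n) ∩ f p).Nonempty := by
      rw [eventually_all_finset]
      intro p hp
      exact hf2 p (ht p hp)
    filter_upwards [h3] with n hn
    rw [disjoint_left]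
    intro q hq hqK
    obtain ⟨p, hp, hqp⟩ := mem_iUnion₂.1 (hCt hq)
    exact hn p hp ⟨q, hqK, hqp⟩

/-- the near half as convergence of a sequence of points -/
theorem FellTo.exists_seq {X : Type*} [PseudoMetricSpace X] {K : ℕ → Set X} {Kl : Set X}
    (h : FellTo K Kl) {x : X} (hx : x ∈ Kl) :
    ∃ y : ℕ → X, Tendsto y atTop (𝓝 x) ∧ ∀ᶠ n in atTop, y n ∈ K n := by
  classical
  have h1 : ∀ m : ℕ, ∀ᶠ n in atTop, ∃ y ∈ K n, dist y x < 1 / ((m : ℝ) + 1) :=
    fun m => h.near x hx _ (by positivity)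
  have hX : Nonempty X := ⟨x⟩
  -- for each n pick y within twice the distance to K n
  have h2 : ∀ n, (K n).Nonempty → ∃ y ∈ K n, dist y x < infDist x (K n) + 1 / ((n : ℝ) + 1) := by
    intro n hn
    obtain ⟨y, hy, hd⟩ := (infDist_lt_iff hn).1
      (lt_add_of_pos_right (infDist x (K n)) (by positivity : (0:ℝ) < 1 / ((n : ℝ) + 1)))
    exact ⟨y, hy, by rwa [dist_comm]⟩
  choose! y hy1 hy2 using h2
  have hne : ∀ᶠ n in atTop, (K n).Nonempty := by
    filter_upwards [h1 0] with n hn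
    obtain ⟨z, hz, _⟩ := hn
    exact ⟨z, hz⟩
  refine ⟨y, ?_, hne.mono fun n hn => hy1 n hn⟩
  rw [Metric.tendsto_atTop']
  intro ε hε
  obtain ⟨m, hm⟩ := exists_nat_one_div_lt (half_pos hε)
  have h3 : ∀ᶠ n : ℕ in atTop, 1 / ((n : ℝ) + 1) < ε / 2 := by
    filter_upwards [eventually_ge_atTop m] with n hn
    refine lt_of_le_of_lt ?_ hm
    apply one_div_le_one_div_of_le (by positivity)
    exact_mod_cast Nat.succ_le_succ hn
  have h4 : ∀ᶠ n in atTop, dist (y n) x < ε := by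
    filter_upwards [h1 m, hne, h3] with n hn1 hn2 hn3
    obtain ⟨z, hz, hzd⟩ := hn1
    have h5 : infDist x (K n) ≤ dist x z := infDist_le_dist_of_mem hz
    rw [dist_comm] at h5
    have := hy2 n hn2
    linarith
  obtain ⟨N0, hN0⟩ := eventually_atTop.1 h4
  exact ⟨N0, fun n hn => hN0 n hn.le⟩

theorem FellTo.comp {X : Type*} [PseudoMetricSpace X] {K : ℕ → Set X} {Kl : Set X}
    (h : FellTo K Kl) {φ : ℕ → ℕ} (hφ : Tendsto φ atTop atTop) :
    FellTo (fun n => K (φ n)) Kl where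
  closed := h.closed
  near x hx ε hε := hφ.eventually (h.near x hx ε hε)
  away C hC hd := hφ.eventually (h.away C hC hd)

/-- cluster points of points of `K n` lie in `Kl` -/
theorem FellTo.mem_of_frequently {X : Type*} [PseudoMetricSpace X] [LocallyCompactSpace X]
    {K : ℕ → Set X} {Kl : Set X} (h : FellTo K Kl) {x : X}
    (hx : ∀ ε > 0, ∃ᶠ n in atTop, ∃ y ∈ K n, dist y x < ε) : x ∈ Kl := by
  by_contra hxK
  have hop : Klᶜ ∈ 𝓝 x := h.closed.isOpen_compl.mem_nhds hxK
  obtain ⟨C, hCn, hCK, hC⟩ := local_compact_nhds hop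
  obtain ⟨ε, hε, hεC⟩ := Metric.mem_nhds_iff.1 hCn
  have h1 := h.away C hC (disjoint_left.2 fun p hp hpK => hCK hp hpK)
  obtain ⟨n, ⟨y, hy, hyx⟩, hd⟩ := ((hx ε hε).and_eventually h1).exists
  exact disjoint_left.1 hd (hεC hyx) hy

/-- limits of points of `K n` lie in `Kl` -/
theorem FellTo.mem_of_tendsto {X : Type*} [PseudoMetricSpace X] [LocallyCompactSpace X]
    {K : ℕ → Set X} {Kl : Set X} (h : FellTo K Kl) {x : X} {y : ℕ → X}
    (hy : Tendsto y atTop (𝓝 x)) (hyK : ∃ᶠ n in atTop, y n ∈ K n) : x ∈ Kl := by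
  refine h.mem_of_frequently fun ε hε => ?_
  have h1 : ∀ᶠ n in atTop, dist (y n) x < ε := hy.eventually (ball_mem_nhds x hε)
  exact (hyK.and_eventually h1).mono fun n hn => ⟨y n, hn.1, hn.2⟩

/-- one-sided uniform closeness on compact sets: `Kl ∩ C` lies in the `ε`-neighbourhood of `K n` -/
theorem FellTo.eventually_near {X : Type*} [PseudoMetricSpace X]
    {K : ℕ → Set X} {Kl : Set X} (h : FellTo K Kl) {C : Set X} (hC : IsCompact C) {ε : ℝ}
    (hε : 0 < ε) : ∀ᶠ n in atTop, ∀ x ∈ Kl ∩ C, ∃ y ∈ K n, dist x y < ε := by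
  have hcomp : IsCompact (Kl ∩ C) := hC.inter_left h.closed
  obtain ⟨t, ht, hCt⟩ := hcomp.elim_nhds_subcover (fun p => ball p (ε / 2))
    (fun p _ => ball_mem_nhds p (half_pos hε))
  have h3 : ∀ᶠ n in atTop, ∀ p ∈ t, ∃ y ∈ K n, dist y p < ε / 2 := by
    rw [eventually_all_finset]
    intro p hp
    exact h.near p (ht p hp).1 _ (half_pos hε)
  filter_upwards [h3] with n hn x hx
  obtain ⟨p, hp, hxp⟩ := mem_iUnion₂.1 (hCt hx)
  obtain ⟨y, hy, hyp⟩ := hn p hp
  refine ⟨y, hy, ?_⟩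
  have h4 : dist x p < ε / 2 := hxp
  calc dist x y ≤ dist x p + dist p y := dist_triangle _ _ _
    _ < ε / 2 + ε / 2 := by rw [dist_comm p y]; exact add_lt_add h4 hyp
    _ = ε := by ring

/-- the other side: `K n ∩ C` lies in the `ε`-neighbourhood of `Kl` -/
theorem FellTo.eventually_near' {X : Type*} [PseudoMetricSpace X]
    {K : ℕ → Set X} {Kl : Set X} (h : FellTo K Kl) {C : Set X} (hC : IsCompact C) {ε : ℝ}
    (hε : 0 < ε) : ∀ᶠ n in atTop, ∀ x ∈ K n ∩ C, ∃ y ∈ Kl, dist x y < ε := by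
  have hcomp : IsCompact (C \ ⋃ y ∈ Kl, ball y ε) :=
    hC.diff (isOpen_biUnion fun y _ => isOpen_ball)
  have hd : Disjoint (C \ ⋃ y ∈ Kl, ball y ε) Kl := by
    rw [disjoint_left]
    intro p hp hpK
    exact hp.2 (mem_iUnion₂.2 ⟨p, hpK, mem_ball_self hε⟩)
  filter_upwards [h.away _ hcomp hd] with n hn x hx
  by_contra hcon
  push Not at hcon
  refine disjoint_left.1 hn ⟨hx.2, ?_⟩ hx.1
  intro hxU
  obtain ⟨y, hy, hxy⟩ := mem_iUnion₂.1 hxU
  exact absurd hxy (not_lt.2 (hcon y hy))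

end Crest.Agent.R135
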