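import Crest.Agent.R135.FV3
import Crest.Agent.R135.PolarE
import Crest.Agent.R135.Core

/-!
# R135 (FV): the radial identity in the class `IsQM`
-/

set_option autoImplicit false
open MeasureTheory Set Metric Filter Topology
open scoped Real ContDiff ENNReal NNReal RealInnerProductSpace Gradient

namespace Crest.Agent.R135.Gl

/-! ### locally Lipschitz functions -/

theorem locLip_ae_diff {V : Set P} (hV : IsOpen V) {w : P → ℝ} (hw : LocallyLipschitzOn V w) :
    ∀ᵐ x, x ∈ V → DifferentiableAt ℝ w x := by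
  have hnull : volume {x | x ∈ V ∧ ¬ DifferentiableAt ℝ w x} = 0 := by
    refine measure_null_of_locally_null _ ?_
    rintro x ⟨hx, -⟩
    obtain ⟨C, t, ht, hC⟩ := hw hx
    rw [hV.nhdsWithin_eq hx] at ht
    obtain ⟨r, hr, hrt⟩ := Metric.mem_nhds_iff.1 ht
    obtain ⟨g, hg, hgw⟩ := (hC.mono hrt).extend_real
    refine ⟨ball x r ∩ {x | x ∈ V ∧ ¬ DifferentiableAt ℝ w x}, ?_, ?_⟩
    · rw [inter_comm]
      exact inter_mem_nhdsWithin _ (ball_mem_nhds x hr)
    · have h1 := hg.ae_differentiableAt (μ := (volume : Measure P))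
      rw [ae_iff] at h1
      refine measure_mono_null ?_ h1
      rintro y ⟨hy, -, hyd⟩
      refine fun hd => hyd ?_
      refine hd.congr_of_eventuallyEq ?_
      filter_upwards [isOpen_ball.mem_nhds hy] with z hz
      exact hgw hz
  rw [ae_iff]
  refine measure_mono_null ?_ hnull
  intro x hx
  simp only [mem_ofPred_eq, Classical.not_imp] at hx
  exact hx

theorem locLip_mul {V : Set P} {a b : P → ℝ} (ha : LocallyLipschitzOn V a)
    (hb : LocallyLipschitzOn V b) {A B : ℝ≥0} (hA : ∀ x ∈ V, |a x| ≤ A) (hB : ∀ x ∈ V, |b x| ≤ B) :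
    LocallyLipschitzOn V (fun x => a x * b x) := by
  intro x hx
  obtain ⟨Ca, s, hs, hCa⟩ := ha hx
  obtain ⟨Cb, t, ht, hCb⟩ := hb hx
  refine ⟨A * Cb + B * Ca, s ∩ t ∩ V, inter_mem (inter_mem hs ht) self_mem_nhdsWithin, ?_⟩
  refine LipschitzOnWith.of_dist_le_mul ?_
  rintro y ⟨⟨hys, hyt⟩, hyV⟩ z ⟨⟨hzs, hzt⟩, hzV⟩
  have h1 := hCa.dist_le_mul y hys z hzs
  have h2 := hCb.dist_le_mul y hyt z hzt
  rw [Real.dist_eq] at h1 h2 ⊢
  push_cast
  have e : a y * b y - a z * b z = a y * (b y - b z) + b z * (a y - a z) := by ring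
  rw [e]
  calc |a y * (b y - b z) + b z * (a y - a z)|
      ≤ |a y * (b y - b z)| + |b z * (a y - a z)| := abs_add_le _ _
    _ = |a y| * |b y - b z| + |b z| * |a y - a z| := by rw [abs_mul, abs_mul]
    _ ≤ A * (Cb * dist y z) + B * (Ca * dist y z) := by
        refine add_le_add (mul_le_mul (hA y hyV) h2 (abs_nonneg _) A.2)
          (mul_le_mul (hB z hzV) h1 (abs_nonneg _) B.2)
    _ = (A * Cb + B * Ca) * dist y z := by ring

theorem smooth_locLip {V : Set P} {η : P → ℝ} (hη : ContDiff ℝ ∞ η) : LocallyLipschitzOn V η := by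
  have h : LocallyLipschitz η := (hη.of_le (by simp)).locallyLipschitz
  exact fun x _ => h.locallyLipschitzOn (by assumption)

theorem grad_mul {a b : P → ℝ} {x : P} (ha : DifferentiableAt ℝ a x) (hb : DifferentiableAt ℝ b x) :
    ∇ (fun y => a y * b y) x = a x • ∇ b x + b x • ∇ a x := by
  unfold gradient
  rw [fderiv_fun_mul ha hb, map_add, map_smul, map_smul]

theorem grad_zero_of_eq_zero {w : P → ℝ} {O : Set P} (hO : IsOpen O) (h : ∀ y ∈ O, w y = 0)
    {x : P} (hx : x ∈ O) : ∇ w x = 0 := by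
  have h1 : w =ᶠ[𝓝 x] fun _ => (0 : ℝ) := by
    filter_upwards [hO.mem_nhds hx] with y hy
    exact h y hy
  rw [gradient_congr_of_eventuallyEq h1]
  unfold gradient
  simp

/-! ### the identity -/

section
variable {U K : Set P} {lam : ℝ} {u : P → ℝ}

theorem qm_vol (h : IsQM U lam u K) {x₀ : P} {R : ℝ} (hB : closedBall x₀ R ⊆ U) :
    volume (K ∩ closedBall x₀ R) = 0 :=
  volume_eq_zero_of_hausdorff_lt_top (h.len_fin x₀ R hB)

theorem ball_sdiff_ae {x₀ : P} {R : ℝ} (h0 : volume (K ∩ closedBall x₀ R) = 0) :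
    (volume : Measure P).restrict (ball x₀ R \ K) = volume.restrict (ball x₀ R) := by
  have e : ball x₀ R \ K = ball x₀ R \ (K ∩ closedBall x₀ R) := by
    ext y
    constructor
    · rintro ⟨h1, h2⟩; exact ⟨h1, fun h3 => h2 h3.1⟩
    · rintro ⟨h1, h2⟩; exact ⟨h1, fun h3 => h2 ⟨h3, ball_subset_closedBall h1⟩⟩
  rw [e]
  exact restrict_sdiff_null h0

theorem qm_isOpen (h : IsQM U lam u K) : IsOpen (U \ K) := isOpen_compl_of_relClosed h.isOpen h.closed

theorem qm_measK (h : IsQM U lam u K) : MeasurableSet K :=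
  measurableSet_of_relClosed h.isOpen h.sub h.closed

/-- square integrability of a gradient with finite `dirE` -/
theorem memLp_grad {φ : P → ℝ} {x₀ : P} {R : ℝ} (h0 : volume (K ∩ closedBall x₀ R) = 0)
    (hd : dirE φ K (ball x₀ R) < ⊤) :
    MemLp (fun y => ∇ φ y) 2 (volume.restrict (ball x₀ R)) := by
  refine memLp_two_of_lintegral (measurable_gradient φ).aestronglyMeasurable ?_
  unfold dirE at hd
  rw [ball_sdiff_ae h0] at hd
  exact hd

theorem qm_memLp_grad (h : IsQM U lam u K) {x₀ : P} {R : ℝ} (hB : closedBall x₀ R ⊆ U) :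
    MemLp (fun y => ∇ u y) 2 (volume.restrict (ball x₀ R)) := by
  refine memLp_grad (K := K) (qm_vol h hB) ?_
  exact (lintegral_mono_set (sdiff_subset_sdiff_left ball_subset_closedBall)).trans_lt
    (h.dir_fin x₀ R hB)

theorem memLp_bdd {x₀ : P} {R : ℝ} {φ : P → ℝ}
    (hm : AEStronglyMeasurable φ (volume.restrict (ball x₀ R))) {M : ℝ} (hM : ∀ y, |φ y| ≤ M) :
    MemLp φ 2 (volume.restrict (ball x₀ R)) := by
  have : IsFiniteMeasure (volume.restrict (ball x₀ R)) :=
    ⟨by rw [Measure.restrict_apply_univ]; exact measure_ball_lt_top⟩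
  exact MemLp.of_bound hm M (Eventually.of_forall fun y => by rw [Real.norm_eq_abs]; exact hM y)

theorem aesm_locLip (h : IsQM U lam u K) {x₀ : P} {R : ℝ} (hB : closedBall x₀ R ⊆ U) {φ : P → ℝ}
    (hφ : LocallyLipschitzOn (U \ K) φ) :
    AEStronglyMeasurable φ (volume.restrict (ball x₀ R)) := by
  rw [← ball_sdiff_ae (qm_vol h hB)]
  have h1 : AEStronglyMeasurable φ (volume.restrict (U \ K)) :=
    hφ.continuousOn.aestronglyMeasurable (qm_isOpen h).measurableSet
  exact h1.mono_measure (Measure.restrict_mono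
    (sdiff_subset_sdiff_left (ball_subset_closedBall.trans hB)) le_rfl)

/-- **Radial identity in the class `IsQM`**, jumping test function `φ` -/
theorem qm_radial (h : IsQM U lam u K) {f : P → ℝ} (hfm : Measurable f) (hfb : ∀ x, |f x| ≤ lam)
    (hel : ∀ φ : P → ℝ, IsTest U K φ →
      ∫ x in U \ K, ⟪∇ u x, ∇ φ x⟫ = - ∫ x in U, f x * φ x)
    {x₀ : P} {R : ℝ} (hR : 0 < R) (hB : closedBall x₀ R ⊆ U) {φ : P → ℝ}
    (hφ : LocallyLipschitzOn (U \ K) φ) {M : ℝ} (hM : ∀ y, |φ y| ≤ M)
    (hd : dirE φ K (ball x₀ R) < ⊤) :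
    ∀ᵐ t ∂(volume.restrict (Ioo (0:ℝ) R)),
      t * circI (fun y => φ y * ⟪∇ u y, nrm x₀ y⟫) x₀ t
        = ∫ y in ball x₀ t, (⟪∇ u y, ∇ φ y⟫ + f y * φ y) := by
  have h0 := qm_vol h hB
  have hO := qm_isOpen h
  have hG := qm_memLp_grad h hB
  have hH := memLp_grad (K := K) h0 hd
  have hφ2 := memLp_bdd (aesm_locLip h hB hφ) hM
  have hf2 : MemLp f 2 (volume.restrict (ball x₀ R)) := memLp_bdd hfm.aestronglyMeasurable hfb
  have hBU : ball x₀ R ⊆ U := ball_subset_closedBall.trans hB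
  refine radial_core hR ((integrable_inner2 hG hH).add (hf2.integrable_mul hφ2))
    (hφ2.integrable_mul (memLp_inner_nrm hG)) ?_
  intro χ k a b c ha hb0 hb hχ hk hdχ hχa hχb hkb hka
  obtain ⟨hηs, hgη, hη0, hgη0⟩ := radial_cutoff (x₀ := x₀) ha hχ hdχ hχa hχb hkb
  set η : P → ℝ := fun x => χ ‖x - x₀‖ with hη
  have hη0' : ∀ y, y ∉ closedBall x₀ b → η y = 0 := hη0
  have hcb : closedBall x₀ b ⊆ ball x₀ R := closedBall_subset_ball hb
  obtain ⟨C₁, hC₁⟩ := (isCompact_closedBall x₀ R).exists_bound_of_continuousOn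
    hηs.continuous.continuousOn
  obtain ⟨C₂, hC₂⟩ := (isCompact_closedBall x₀ R).exists_bound_of_continuousOn
    (continuous_grad hηs).continuousOn
  have hηb : ∀ y, |η y| ≤ max C₁ 0 := by
    intro y
    by_cases hy : y ∈ closedBall x₀ b
    · exact (hC₁ y (ball_subset_closedBall (hcb hy))).trans (le_max_left _ _)
    · rw [hη0' y hy, abs_zero]; exact le_max_right _ _
  have hM0 : 0 ≤ M := (abs_nonneg _).trans (hM 0)
  have hΨ : MemLp (fun y => η y • ∇ φ y + φ y • ∇ η y) 2 (volume.restrict (ball x₀ R)) :=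
    (memLp_smul_bdd measurableSet_ball hηs.continuous
      (fun y hy => hC₁ y (ball_subset_closedBall hy)) hH).add
    (memLp_smul_bdd' measurableSet_ball (continuous_grad hηs)
      (fun y hy => hC₂ y (ball_subset_closedBall hy)) hφ2)
  -- gradient of the product
  have hgr : ∀ᵐ y ∂(volume.restrict (ball x₀ R)),
      ∇ (fun y => η y * φ y) y = η y • ∇ φ y + φ y • ∇ η y := by
    rw [← ball_sdiff_ae h0, ae_restrict_iff' (measurableSet_ball.diff (qm_measK h))]
    filter_upwards [locLip_ae_diff hO hφ] with y hy hy2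
    exact grad_mul (hηs.differentiable (by simp) y) (hy ⟨hBU hy2.1, hy2.2⟩)
  have hzero : ∀ y, y ∉ closedBall x₀ b → ∇ (fun y => η y * φ y) y = 0 := fun y hy =>
    grad_zero_of_eq_zero (O := (closedBall x₀ b)ᶜ) isClosed_closedBall.isOpen_compl
      (fun z hz => by simp only [hη0' z hz, zero_mul]) hy
  have hsub : (U \ K) \ (ball x₀ R \ K) ⊆ (closedBall x₀ b)ᶜ := by
    rintro y ⟨⟨_, h2⟩, h3⟩ h4
    exact h3 ⟨hcb h4, h2⟩
  have htest : IsTest U K (fun y => η y * φ y) := by
    refine ⟨?_, ⟨max C₁ 0 * M, fun y => ?_⟩, ⟨closedBall x₀ b, isCompact_closedBall _ _,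
      hcb.trans hBU, fun y hy => by simp only [hη0' y hy, zero_mul]⟩, ?_⟩
    · refine locLip_mul (smooth_locLip hηs) hφ (A := Real.toNNReal (max C₁ 0))
        (B := Real.toNNReal M) (fun y _ => ?_) (fun y _ => ?_)
      · rw [Real.coe_toNNReal _ (le_max_right _ _)]; exact hηb y
      · rw [Real.coe_toNNReal _ hM0]; exact hM y
    · rw [abs_mul]
      exact mul_le_mul (hηb y) (hM y) (abs_nonneg _) (le_max_right _ _)
    · have e1 : dirE (fun y => η y * φ y) K U
          = ∫⁻ x in ball x₀ R, ‖∇ (fun y => η y * φ y) x‖ₑ ^ 2 := by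
        unfold dirE
        rw [← ball_sdiff_ae h0, ← lintegral_indicator hO.measurableSet,
          ← lintegral_indicator (measurableSet_ball.diff (qm_measK h))]
        refine lintegral_congr fun y => ?_
        by_cases hy : y ∈ ball x₀ R \ K
        · rw [indicator_of_mem hy, indicator_of_mem (sdiff_subset_sdiff_left hBU hy)]
        · rw [indicator_of_notMem hy]
          by_cases hy2 : y ∈ U \ K
          · rw [indicator_of_mem hy2]
            have e2 : ∇ (fun x => η x * φ x) y = 0 := hzero y (hsub ⟨hy2, hy⟩)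
            rw [e2]
            simp
          · rw [indicator_of_notMem hy2]
      rw [e1, lintegral_congr_ae (hgr.mono fun y hy => by rw [hy]), lintegral_sq_eq hΨ]
      exact ENNReal.ofReal_lt_top
  have key := hel _ htest
  have k1 : ∫ x in U \ K, ⟪∇ u x, ∇ (fun y => η y * φ y) x⟫
      = ∫ x in ball x₀ R, ⟪∇ u x, η x • ∇ φ x + φ x • ∇ η x⟫ := by
    rw [setIntegral_eq_of_subset_of_forall_sdiff_eq_zero (s := ball x₀ R \ K) hO.measurableSet
      (sdiff_subset_sdiff_left hBU), ball_sdiff_ae h0]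
    · exact integral_congr_ae (hgr.mono fun y hy => by simp only [hy])
    · intro y hy
      rw [hzero y (hsub hy), inner_zero_right]
  have k2 : ∫ x in U, f x * (η x * φ x) = ∫ x in ball x₀ R, f x * (η x * φ x) := by
    refine setIntegral_eq_of_subset_of_forall_sdiff_eq_zero h.isOpen.measurableSet hBU fun y hy => ?_
    have : y ∉ closedBall x₀ b := fun h => hy.2 (hcb h)
    simp only [hη0' y this, zero_mul, mul_zero]
  have hηw : MemLp (fun y => η y * φ y) 2 (volume.restrict (ball x₀ R)) :=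
    memLp_smul_bdd measurableSet_ball hηs.continuous
      (fun y hy => hC₁ y (ball_subset_closedBall hy)) hφ2
  have k4 : Integrable (fun x => f x * (η x * φ x)) (volume.restrict (ball x₀ R)) :=
    hf2.integrable_mul hηw
  rw [k1, k2] at key
  have key2 : (∫ x in ball x₀ R, ⟪∇ u x, η x • ∇ φ x + φ x • ∇ η x⟫)
      + ∫ x in ball x₀ R, f x * (η x * φ x) = 0 := by rw [key]; ring
  rw [← integral_add (integrable_inner2 hG hΨ) k4] at key2
  rw [← key2]
  refine integral_congr_ae (Eventually.of_forall fun y => ?_)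
  simp only
  rw [inner_add_right, inner_smul_right, inner_smul_right, hgη, inner_smul_right]
  ring

end

end Crest.Agent.R135.Gl
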