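import Mathlib
import Crest.Agent.R135.QMBasic

/-!
# R135, block BL (helper517): convergence of sequences in the class `IsQM`

`LimSeq U lam u K u0 K0` says that `(u n, K n)` (quasi-minimizers in `U n` exhausting the plane,
`lam n → 0`) converges to `(u0, K0)`: local convergence of the closed sets, local uniform
convergence of the gradients off `K0`.

This file: the constants.  `Rel` is the equivalence relation "`u n - u0` has asymptotically the same
value at `y` and `z` and every locally constant function off `K n` takes the same value there";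
classes of points off `K0` are open.  `rep` chooses representatives.
-/

set_option autoImplicit false

open MeasureTheory Set Filter Topology Metric
open scoped ENNReal NNReal ContDiff Gradient

namespace Crest.Agent.R135.Lim

open Crest.Agent.R135

/-- local convergence of `(u n, K n)` to `(u0, K0)` -/
structure LimSeq (U : ℕ → Set E2) (lam : ℕ → ℝ) (u : ℕ → E2 → ℝ) (K : ℕ → Set E2)
    (u0 : E2 → ℝ) (K0 : Set E2) : Prop where
  qm : ∀ n, IsQM (U n) (lam n) (u n) (K n)
  lam_lim : Tendsto lam atTop (𝓝 0)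
  exh : ∀ C : Set E2, IsCompact C → ∀ᶠ n in atTop, C ⊆ U n
  closed : IsClosed K0
  c1 : ContDiffOn ℝ 1 u0 K0ᶜ
  k1 : ∀ C : Set E2, IsCompact C → Disjoint C K0 → ∀ᶠ n in atTop, Disjoint C (K n)
  k2 : ∀ x ∈ K0, ∀ r : ℝ, 0 < r → ∀ᶠ n in atTop, (K n ∩ ball x r).Nonempty
  grad : TendstoLocallyUniformlyOn (fun n => gradient (u n)) (gradient u0) atTop K0ᶜ

theorem norm_gradient_eq_norm_fderiv (f : E2 → ℝ) (x : E2) : ‖gradient f x‖ = ‖fderiv ℝ f x‖ := by
  unfold gradient
  rw [LinearIsometryEquiv.norm_map]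

theorem norm_gradient_sub_eq (f g : E2 → ℝ) (x : E2) :
    ‖gradient f x - gradient g x‖ = ‖fderiv ℝ f x - fderiv ℝ g x‖ := by
  unfold gradient
  rw [← map_sub, LinearIsometryEquiv.norm_map]

theorem qm_differentiableAt {U : Set E2} {lam : ℝ} {u : E2 → ℝ} {K : Set E2} (h : IsQM U lam u K)
    {x : E2} (hx : x ∈ U \ K) : DifferentiableAt ℝ u x :=
  (h.c1.differentiableOn (by norm_num)).differentiableAt (h.isOpen_diff.mem_nhds hx)

variable {U : ℕ → Set E2} {lam : ℕ → ℝ} {u : ℕ → E2 → ℝ} {K : ℕ → Set E2}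
    {u0 : E2 → ℝ} {K0 : Set E2}

/-- asymptotic equivalence of points -/
def Rel (U : ℕ → Set E2) (u : ℕ → E2 → ℝ) (K : ℕ → Set E2) (u0 : E2 → ℝ) (y z : E2) : Prop :=
  Tendsto (fun n => (u n y - u0 y) - (u n z - u0 z)) atTop (𝓝 0) ∧
    ∀ᶠ n in atTop, ∀ c : E2 → ℝ, LocConstOn (U n \ K n) c → c y = c z

theorem Rel.refl (y : E2) : Rel U u K u0 y y := by
  refine ⟨?_, Eventually.of_forall fun n c _ => rfl⟩
  simp

theorem Rel.symm {y z : E2} (h : Rel U u K u0 y z) : Rel U u K u0 z y := by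
  refine ⟨?_, h.2.mono fun n hn c hc => (hn c hc).symm⟩
  have := h.1.neg
  simpa using this

theorem Rel.trans {y z w : E2} (h : Rel U u K u0 y z) (h' : Rel U u K u0 z w) :
    Rel U u K u0 y w := by
  refine ⟨?_, ?_⟩
  · have := h.1.add h'.1
    simpa using this
  · filter_upwards [h.2, h'.2] with n h1 h2 c hc
    rw [h1 c hc, h2 c hc]

/-- the setoid of asymptotic equivalence -/
def relSetoid (U : ℕ → Set E2) (u : ℕ → E2 → ℝ) (K : ℕ → Set E2) (u0 : E2 → ℝ) : Setoid E2 where
  r := Rel U u K u0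
  iseqv := ⟨fun y => Rel.refl y, fun h => h.symm, fun h h' => h.trans h'⟩

/-- representative of the class of `y` -/
noncomputable def rep (U : ℕ → Set E2) (u : ℕ → E2 → ℝ) (K : ℕ → Set E2) (u0 : E2 → ℝ) (y : E2) :
    E2 := (Quotient.mk (relSetoid U u K u0) y).out

theorem rel_rep (y : E2) : Rel U u K u0 (rep U u K u0 y) y :=
  Quotient.exact (s := relSetoid U u K u0) (Quotient.out_eq _)

theorem rep_eq_of_rel {y z : E2} (h : Rel U u K u0 y z) : rep U u K u0 y = rep U u K u0 z := by
  unfold rep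
  rw [Quotient.sound (s := relSetoid U u K u0) h]

/-- a locally constant function is constant on preconnected sets -/
theorem locConst_eq_of_isPreconnected {W : Set E2} {c : E2 → ℝ} (hc : LocConstOn W c) {A : Set E2}
    (hA : IsPreconnected A) (hAW : A ⊆ W) {y z : E2} (hy : y ∈ A) (hz : z ∈ A) : c y = c z := by
  have hcont : ContinuousOn (X := E2) (Y := ℝ) c A := by
    intro x hx
    have h1 : c =ᶠ[𝓝 x] fun _ => c x := hc x (hAW hx)
    exact (h1.continuousAt).continuousWithinAt
  -- use clopen argument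
  by_contra hne
  have h1 : IsPreconnected (c '' A) := hA.image c hcont
  let O : Set E2 := interior {x | c x = c y}
  let O' : Set E2 := interior {x | c x ≠ c y}
  have hcov : A ⊆ O ∪ O' := by
    intro x hx
    have h2 : ∀ᶠ t in 𝓝 x, c t = c x := hc x (hAW hx)
    by_cases h3 : c x = c y
    · left
      rw [mem_interior_iff_mem_nhds]
      filter_upwards [h2] with t ht
      simp [ht, h3]
    · right
      rw [mem_interior_iff_mem_nhds]
      filter_upwards [h2] with t ht
      simp [ht, h3]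
  have hyO : y ∈ O := by
    rcases hcov hy with h | h
    · exact h
    · have h5 : y ∈ {x | c x ≠ c y} := interior_subset h
      exact absurd rfl h5
  have hzO : z ∈ O' := by
    rcases hcov hz with h | h
    · have h5 : z ∈ {x | c x = c y} := interior_subset h
      exact absurd (Eq.symm h5) hne
    · exact h
  obtain ⟨t, -, ht1, ht2⟩ := hA O O' isOpen_interior isOpen_interior hcov ⟨y, hy, hyO⟩ ⟨z, hz, hzO⟩
  have h6 : t ∈ {x | c x ≠ c y} := interior_subset ht2
  have h7 : t ∈ {x | c x = c y} := interior_subset ht1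
  exact h6 h7

theorem LimSeq.eventually_sub (h : LimSeq U lam u K u0 K0) {C : Set E2} (hC : IsCompact C)
    (hCK : C ⊆ K0ᶜ) : ∀ᶠ n in atTop, C ⊆ U n \ K n := by
  filter_upwards [h.exh C hC, h.k1 C hC (disjoint_left.2 fun x hx => hCK hx)] with n h1 h2
  exact fun x hx => ⟨h1 hx, fun hx' => (disjoint_left.1 h2 hx) hx'⟩

theorem LimSeq.eventually_grad (h : LimSeq U lam u K u0 K0) {C : Set E2} (hC : IsCompact C)
    (hCK : C ⊆ K0ᶜ) {ε : ℝ} (hε : 0 < ε) :
    ∀ᶠ n in atTop, ∀ z ∈ C, ‖gradient (u n) z - gradient u0 z‖ ≤ ε := by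
  have h1 := (tendstoLocallyUniformlyOn_iff_forall_isCompact h.closed.isOpen_compl).1 h.grad C hCK hC
  rw [Metric.tendstoUniformlyOn_iff] at h1
  filter_upwards [h1 ε hε] with n hn z hz
  have := hn z hz
  rw [dist_eq_norm, norm_sub_rev] at this
  exact this.le

theorem LimSeq.diffAt0 (h : LimSeq U lam u K u0 K0) {x : E2} (hx : x ∉ K0) :
    DifferentiableAt ℝ u0 x :=
  (h.c1.differentiableOn (by norm_num)).differentiableAt (h.closed.isOpen_compl.mem_nhds hx)

/-- local statement at a point off `K0` -/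
theorem LimSeq.local (h : LimSeq U lam u K u0 K0) {y : E2} {r : ℝ}
    (hr : closedBall y r ⊆ K0ᶜ) {ε : ℝ} (hε : 0 < ε) :
    ∀ᶠ n in atTop, ∀ z ∈ closedBall y r,
      |(u n z - u0 z) - (u n y - u0 y)| ≤ ε ∧
      ∀ c : E2 → ℝ, LocConstOn (U n \ K n) c → c z = c y := by
  rcases lt_or_ge r 0 with hneg | hr0
  · filter_upwards with n z hz
    rw [closedBall_eq_empty.2 hneg] at hz
    exact absurd hz (notMem_empty z)
  have hε' : 0 < ε / (r + 1) := by positivity
  filter_upwards [h.eventually_sub (isCompact_closedBall y r) hr,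
    h.eventually_grad (isCompact_closedBall y r) hr hε'] with n h1 h2 z hz
  have hy : y ∈ closedBall y r := mem_closedBall_self hr0
  refine ⟨?_, fun c hc => ?_⟩
  · have hd : ∀ x ∈ closedBall y r, HasFDerivWithinAt (fun t => u n t - u0 t)
        (fderiv ℝ (u n) x - fderiv ℝ u0 x) (closedBall y r) x := by
      intro x hx
      have e1 := (qm_differentiableAt (h.qm n) (h1 hx)).hasFDerivAt
      have e2 := (h.diffAt0 (hr hx)).hasFDerivAt
      exact (e1.sub e2).hasFDerivWithinAt
    have hb : ∀ x ∈ closedBall y r, ‖fderiv ℝ (u n) x - fderiv ℝ u0 x‖ ≤ ε / (r + 1) := by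
      intro x hx
      rw [← norm_gradient_sub_eq]
      exact h2 x hx
    have h3 := (convex_closedBall y r).norm_image_sub_le_of_norm_hasFDerivWithin_le hd hb hy hz
    rw [Real.norm_eq_abs] at h3
    refine h3.trans ?_
    have h4 : ‖z - y‖ ≤ r := by rw [← dist_eq_norm]; exact hz
    calc ε / (r + 1) * ‖z - y‖ ≤ ε / (r + 1) * (r + 1) := by
          gcongr; linarith
      _ = ε := by field_simp
  · exact locConst_eq_of_isPreconnected hc (convex_closedBall y r).isPreconnected h1 hz hy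

theorem LimSeq.rel_of_mem (h : LimSeq U lam u K u0 K0) {y : E2} {r : ℝ}
    (hr : closedBall y r ⊆ K0ᶜ) {z : E2} (hz : z ∈ closedBall y r) : Rel U u K u0 z y := by
  refine ⟨?_, (h.local hr one_pos).mono fun n hn c hc => (hn z hz).2 c hc⟩
  rw [Metric.tendsto_nhds]
  intro ε hε
  filter_upwards [h.local hr (half_pos hε)] with n hn
  rw [Real.dist_eq, sub_zero]
  exact ((hn z hz).1).trans_lt (half_lt_self hε)

theorem LimSeq.exists_ball (h : LimSeq U lam u K u0 K0) {y : E2} (hy : y ∉ K0) :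
    ∃ r : ℝ, 0 < r ∧ closedBall y r ⊆ K0ᶜ := by
  obtain ⟨r, hr, hrs⟩ := Metric.nhds_basis_closedBall.mem_iff.1 (h.closed.isOpen_compl.mem_nhds hy)
  exact ⟨r, hr, hrs⟩

/-- `rep` is locally constant off `K0` -/
theorem LimSeq.rep_locConst (h : LimSeq U lam u K u0 K0) {y : E2} (hy : y ∉ K0) :
    ∀ᶠ z in 𝓝 y, rep U u K u0 z = rep U u K u0 y := by
  obtain ⟨r, hr, hrs⟩ := h.exists_ball hy
  filter_upwards [closedBall_mem_nhds y hr] with z hz
  exact rep_eq_of_rel (h.rel_of_mem hrs hz)

/-- the normalised difference -/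
noncomputable def errF (U : ℕ → Set E2) (u : ℕ → E2 → ℝ) (K : ℕ → Set E2) (u0 : E2 → ℝ) (n : ℕ)
    (z : E2) : ℝ :=
  (u n z - u0 z) - (u n (rep U u K u0 z) - u0 (rep U u K u0 z))

/-- uniform statement on compact sets off `K0` -/
theorem LimSeq.compact (h : LimSeq U lam u K u0 K0) {C : Set E2} (hC : IsCompact C)
    (hCK : C ⊆ K0ᶜ) {ε : ℝ} (hε : 0 < ε) :
    ∀ᶠ n in atTop, ∀ z ∈ C, |errF U u K u0 n z| ≤ ε ∧
      ∀ c : E2 → ℝ, LocConstOn (U n \ K n) c → c z = c (rep U u K u0 z) := by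
  have key : ∀ y ∈ C, ∃ V ∈ 𝓝[C] y, ∀ᶠ n in atTop, ∀ z ∈ V, |errF U u K u0 n z| ≤ ε ∧
      ∀ c : E2 → ℝ, LocConstOn (U n \ K n) c → c z = c (rep U u K u0 z) := by
    intro y hy
    obtain ⟨r, hr, hrs⟩ := h.exists_ball (hCK hy)
    refine ⟨closedBall y r, mem_nhdsWithin_of_mem_nhds (closedBall_mem_nhds y hr), ?_⟩
    have h1 := (rel_rep (U := U) (u := u) (K := K) (u0 := u0) y)
    have h2 := (Metric.tendsto_nhds.1 h1.1) (ε / 2) (half_pos hε)
    filter_upwards [h.local hrs (half_pos hε), h2, h1.2] with n e1 e2 e3 z hz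
    have hrep : rep U u K u0 z = rep U u K u0 y := rep_eq_of_rel (h.rel_of_mem hrs hz)
    refine ⟨?_, fun c hc => ?_⟩
    · unfold errF
      rw [hrep]
      rw [Real.dist_eq, sub_zero] at e2
      have e4 := (e1 z hz).1
      rw [abs_le] at e4 ⊢
      rw [abs_lt] at e2
      constructor <;> linarith [e4.1, e4.2, e2.1, e2.2]
    · rw [hrep, e3 c hc]
      exact (e1 z hz).2 c hc
  choose! V hV hVn using key
  obtain ⟨t, ht, htC⟩ := hC.elim_nhdsWithin_subcover V hV
  have : ∀ᶠ n in atTop, ∀ y ∈ t, ∀ z ∈ V y, |errF U u K u0 n z| ≤ ε ∧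
      ∀ c : E2 → ℝ, LocConstOn (U n \ K n) c → c z = c (rep U u K u0 z) := by
    rw [Filter.eventually_all_finset]
    intro y hy
    exact hVn y (ht y hy)
  filter_upwards [this] with n hn z hz
  obtain ⟨y, hy, hzy⟩ := mem_iUnion₂.1 (htC hz)
  exact hn y hy z hzy

/-- pull-back of a locally constant function off `K n` to a locally constant function off `K0` -/
theorem LimSeq.locConst_comp_rep (h : LimSeq U lam u K u0 K0) (c : E2 → ℝ) :
    LocConstOn (univ \ K0) (fun z => c (rep U u K u0 z)) := by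
  intro y hy
  filter_upwards [h.rep_locConst hy.2] with z hz
  simp [hz]

end Crest.Agent.R135.Lim
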