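import Mathlib
import Crest.Agent.R135.LimA
import Crest.Agent.R135.PolarE

/-!
# R135, block BL (helper517): ingredients of the transplantation of competitors
-/

set_option autoImplicit false

open MeasureTheory Set Filter Topology Metric
open scoped ENNReal NNReal ContDiff Gradient Manifold

namespace Crest.Agent.R135.Lim

open Crest.Agent.R135

/-- smooth cut-off in the plane -/
theorem exists_cutoffE2 {C W : Set E2} (hC : IsCompact C) (hW : IsOpen W) (hCW : C ⊆ W) :
    ∃ χ : E2 → ℝ, ContDiff ℝ ∞ χ ∧ HasCompactSupport χ ∧ tsupport χ ⊆ W ∧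
      (∀ᶠ y in 𝓝ˢ C, χ y = 1) ∧ (∀ y ∈ C, χ y = 1) ∧ ∀ y, χ y ∈ Icc (0 : ℝ) 1 := by
  obtain ⟨V, hVo, hKV, hVΩ, hVc⟩ := exists_open_between_and_isCompact_closure hC hW hCW
  obtain ⟨f, hf1, hf0, hf⟩ := exists_contMDiffMap_one_nhds_of_subset_interior
    (modelWithCornersSelf ℝ E2) (n := (⊤ : ℕ∞)) hC.isClosed (t := V)
    (hKV.trans (interior_eq_iff_isOpen.mpr hVo).ge)
  have hsm : ContDiff ℝ ∞ (f : E2 → ℝ) := f.contMDiff.contDiff
  have hts : tsupport (f : E2 → ℝ) ⊆ closure V := by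
    apply closure_mono
    intro x hx
    by_contra h
    exact hx (hf0 x h)
  have hcs : HasCompactSupport (f : E2 → ℝ) := hVc.of_isClosed_subset isClosed_closure hts
  exact ⟨f, hsm, hcs, hts.trans hVΩ, hf1, fun y hy => hf1.self_of_nhdsSet y hy, hf⟩

/-- a closed neighbourhood (in the sphere) of a null compact subset of the sphere, with small
length -/
theorem exists_small_nhd {x : E2} {s : ℝ} (hs : 0 < s) {A : Set E2} (hA : IsCompact A)
    (hlen : len A = 0) {ε : ℝ≥0∞} (hε : 0 < ε) :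
    ∃ δ : ℝ, 0 < δ ∧ len (cthickening δ A ∩ sphere x s) ≤ ε := by
  have hfin : IsFiniteMeasure ((Measure.hausdorffMeasure 1 : Measure E2).restrict (sphere x s)) := by
    refine ⟨?_⟩
    rw [Measure.restrict_apply_univ]
    exact (hausdorff_sphere_le x hs).trans_lt ENNReal.ofReal_lt_top
  have h0 : (Measure.hausdorffMeasure 1 : Measure E2).restrict (sphere x s) A < ε := by
    refine lt_of_le_of_lt (Measure.restrict_apply_le _ _) ?_
    have : (Measure.hausdorffMeasure 1 : Measure E2) A = 0 := hlen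
    rw [this]; exact hε
  obtain ⟨O, hAO, hO, hOε⟩ := A.exists_isOpen_lt_of_lt ε h0
  obtain ⟨δ, hδ, hδO⟩ := hA.exists_cthickening_subset_open hO hAO
  refine ⟨δ, hδ, ?_⟩
  have h1 : len (cthickening δ A ∩ sphere x s) =
      (Measure.hausdorffMeasure 1 : Measure E2).restrict (sphere x s) (cthickening δ A) := by
    rw [Measure.restrict_apply isClosed_cthickening.measurableSet]
    rfl
  rw [h1]
  exact (measure_mono hδO).trans hOε.le

/-- norm of the gradient of a sum, second function differentiable -/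
theorem norm_gradient_add_le {w F : E2 → ℝ} {y : E2} (hF : DifferentiableAt ℝ F y) :
    ‖gradient (fun z => w z + F z) y‖ ≤ ‖gradient w y‖ + ‖gradient F y‖ := by
  rw [norm_gradient_eq_norm_fderiv, norm_gradient_eq_norm_fderiv, norm_gradient_eq_norm_fderiv]
  by_cases hw : DifferentiableAt ℝ w y
  · have : fderiv ℝ (fun z => w z + F z) y = fderiv ℝ w y + fderiv ℝ F y := fderiv_fun_add hw hF
    rw [this]
    exact norm_add_le _ _
  · have : ¬ DifferentiableAt ℝ (fun z => w z + F z) y := by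
      intro h
      apply hw
      have h2 : DifferentiableAt ℝ (fun z => (w z + F z) - F z) y := h.fun_sub hF
      simpa using h2
    rw [fderiv_zero_of_not_differentiableAt this, norm_zero]
    positivity

theorem gradient_congr_nhds {w w' : E2 → ℝ} {x : E2} (h : w =ᶠ[𝓝 x] w') :
    gradient w x = gradient w' x := by
  unfold gradient
  rw [h.fderiv_eq]

theorem sq_add_le_ofReal (a : ℝ) (ha : 0 ≤ a) (b : ℝ) (hb : 0 ≤ b) {t : ℝ} (ht : 0 < t) :
    (ENNReal.ofReal (a + b)) ^ 2 ≤ ENNReal.ofReal (1 + t) * (ENNReal.ofReal a) ^ 2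
      + ENNReal.ofReal ((1 + 1 / t) * b ^ 2) := by
  rw [← ENNReal.ofReal_pow (by positivity), ← ENNReal.ofReal_pow ha,
    ← ENNReal.ofReal_mul (by positivity), ← ENNReal.ofReal_add (by positivity) (by positivity)]
  apply ENNReal.ofReal_le_ofReal
  have h1 : 0 ≤ (t * a - b) ^ 2 / t := by positivity
  have h2 : (1 + t) * a ^ 2 + (1 + 1 / t) * b ^ 2 - (a + b) ^ 2 = (t * a - b) ^ 2 / t := by
    field_simp
    ring
  linarith

/-- energy of a perturbation: abstract estimate -/
theorem lintegral_sq_perturb_le {B : Set E2} {f g : E2 → ℝ}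
    (hg : ∀ x, 0 ≤ g x) {η t : ℝ} (hη : 0 ≤ η) (ht : 0 < t)
    (hfg : ∀ᵐ x ∂volume.restrict B, 0 ≤ f x ∧ f x ≤ g x + η) (hgm : Measurable g) :
    ∫⁻ x in B, (ENNReal.ofReal (f x)) ^ 2 ≤
      ENNReal.ofReal (1 + t) * (∫⁻ x in B, (ENNReal.ofReal (g x)) ^ 2)
        + ENNReal.ofReal ((1 + 1 / t) * η ^ 2) * volume B := by
  calc ∫⁻ x in B, (ENNReal.ofReal (f x)) ^ 2
      ≤ ∫⁻ x in B, (ENNReal.ofReal (1 + t) * (ENNReal.ofReal (g x)) ^ 2
        + ENNReal.ofReal ((1 + 1 / t) * η ^ 2)) := by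
        apply lintegral_mono_ae
        filter_upwards [hfg] with x hx
        refine le_trans ?_ (sq_add_le_ofReal (g x) (hg x) η hη ht)
        gcongr
        exact hx.2
    _ = _ := by
        rw [lintegral_add_right _ measurable_const, lintegral_const_mul _
          (by fun_prop), lintegral_const, Measure.restrict_apply_univ]

variable {U : ℕ → Set E2} {lam : ℕ → ℝ} {u : ℕ → E2 → ℝ} {K : ℕ → Set E2}
    {u0 : E2 → ℝ} {K0 : Set E2}

open Classical in
/-- `χ * errF n` is differentiable with small gradient. -/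
theorem LimSeq.cutoff_err (h : LimSeq U lam u K u0 K0) {χ : E2 → ℝ} (hχ : ContDiff ℝ ∞ χ)
    (hχc : HasCompactSupport χ) (hχs : tsupport χ ⊆ K0ᶜ) (hχ1 : ∀ y, χ y ∈ Icc (0 : ℝ) 1)
    {η : ℝ} (hη : 0 < η) :
    ∀ᶠ n in atTop, Differentiable ℝ (fun z => χ z * errF U u K u0 n z) ∧
      ∀ z, ‖gradient (fun z => χ z * errF U u K u0 n z) z‖ ≤ η := by
  have hcont : Continuous (fderiv ℝ χ) := hχ.continuous_fderiv (by norm_num)
  obtain ⟨M, hM⟩ : ∃ M : ℝ, ∀ z, ‖fderiv ℝ χ z‖ ≤ M := by
    have h1 : HasCompactSupport (fderiv ℝ χ) := hχc.fderiv ℝ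
    obtain ⟨M, hM⟩ := h1.exists_bound_of_continuous hcont
    exact ⟨M, hM⟩
  have hM0 : 0 ≤ M := (norm_nonneg _).trans (hM 0)
  set η1 : ℝ := η / (M + 1) with hη1
  have hη1p : 0 < η1 := by positivity
  have hd : Differentiable ℝ χ := hχ.differentiable (by norm_num)
  filter_upwards [h.eventually_sub hχc hχs, h.compact hχc hχs hη1p,
    h.eventually_grad hχc hχs hη1p] with n h1 h2 h3
  have key : ∀ z, HasFDerivAt (fun z => χ z * errF U u K u0 n z)
      (if z ∈ tsupport χ then χ z • (fderiv ℝ (u n) z - fderiv ℝ u0 z)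
        + errF U u K u0 n z • fderiv ℝ χ z else 0) z := by
    intro z
    split_ifs with hz
    · have e1 := (qm_differentiableAt (h.qm n) (h1 hz)).hasFDerivAt
      have e2 := (h.diffAt0 (hχs hz)).hasFDerivAt
      have e3 : HasFDerivAt (errF U u K u0 n) (fderiv ℝ (u n) z - fderiv ℝ u0 z) z := by
        have e4 : HasFDerivAt (fun y => (u n y - u0 y)
            - (u n (rep U u K u0 z) - u0 (rep U u K u0 z)))
            (fderiv ℝ (u n) z - fderiv ℝ u0 z) z := (e1.sub e2).sub_const _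
        refine e4.congr_of_eventuallyEq ?_
        filter_upwards [h.rep_locConst (hχs hz)] with y hy
        simp only [errF, hy]
      exact (hd z).hasFDerivAt.mul e3
    · have : (fun z => χ z * errF U u K u0 n z) =ᶠ[𝓝 z] fun _ => 0 := by
        filter_upwards [(isClosed_tsupport χ).isOpen_compl.mem_nhds hz] with y hy
        rw [image_eq_zero_of_notMem_tsupport hy, zero_mul]
      exact (hasFDerivAt_const 0 z).congr_of_eventuallyEq this
  refine ⟨fun z => (key z).differentiableAt, fun z => ?_⟩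
  rw [norm_gradient_eq_norm_fderiv, (key z).fderiv]
  split_ifs with hz
  · have hb1 : ‖fderiv ℝ (u n) z - fderiv ℝ u0 z‖ ≤ η1 := by
      rw [← norm_gradient_sub_eq]; exact h3 z hz
    have hb2 : |errF U u K u0 n z| ≤ η1 := (h2 z hz).1
    calc ‖χ z • (fderiv ℝ (u n) z - fderiv ℝ u0 z) + errF U u K u0 n z • fderiv ℝ χ z‖
        ≤ ‖χ z • (fderiv ℝ (u n) z - fderiv ℝ u0 z)‖ + ‖errF U u K u0 n z • fderiv ℝ χ z‖ :=
          norm_add_le _ _
      _ = |χ z| * ‖fderiv ℝ (u n) z - fderiv ℝ u0 z‖ + |errF U u K u0 n z| * ‖fderiv ℝ χ z‖ := by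
          rw [norm_smul, norm_smul, Real.norm_eq_abs, Real.norm_eq_abs]
      _ ≤ 1 * η1 + η1 * M := by
          have h01 := hχ1 z
          have : |χ z| ≤ 1 := by rw [abs_of_nonneg h01.1]; exact h01.2
          gcongr
          exact hM z
      _ = η := by rw [hη1]; field_simp; ring
  · rw [norm_zero]; exact hη.le

end Crest.Agent.R135.Lim
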