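import Mathlib
import Crest.Agent.R135.LimB

/-!
# R135, block BL (helper517): transplantation of competitors from the limit to level `n`
-/

set_option autoImplicit false

open MeasureTheory Set Filter Topology Metric
open scoped ENNReal NNReal ContDiff Gradient

namespace Crest.Agent.R135.Lim

open Crest.Agent.R135

theorem isClosed_of_closure_univ {L : Set E2} (hL : closure L ∩ univ ⊆ L) : IsClosed L := by
  rw [inter_univ] at hL
  exact isClosed_of_closure_subset hL

theorem len_mono {A B : Set E2} (h : A ⊆ B) : len A ≤ len B := measure_mono h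

theorem len_union_le (A B : Set E2) : len (A ∪ B) ≤ len A + len B := measure_union_le A B

variable {U : ℕ → Set E2} {lam : ℕ → ℝ} {u : ℕ → E2 → ℝ} {K : ℕ → Set E2}
    {u0 : E2 → ℝ} {K0 : Set E2}

/-- the transplanted set -/
def tpL (K : Set E2) (L Z : Set E2) (x : E2) (s : ℝ) : Set E2 :=
  (K \ closedBall x s) ∪ Z ∪ (L ∩ closedBall x s)

open Classical in
/-- the transplanted function -/
noncomputable def tpW (u v : E2 → ℝ) (x : E2) (s : ℝ) (z : E2) : ℝ :=
  if z ∈ closedBall x s then v z else u z

open Classical in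
/-- transplantation gives a competitor at level `n` (one level, abstract form) -/
theorem transplant_isComp {U K K0 L Z S : Set E2} {lam : ℝ} {u u0 w c' F : E2 → ℝ} {r : E2 → E2}
    {x : E2} {ρ s η : ℝ} (hqm : IsQM U lam u K) (hc : IsComp univ u0 K0 x ρ w L)
    (hlen : len (K0 ∩ closedBall x s) < ⊤) (hU : closedBall x s ⊆ U)
    (hZ : IsClosed Z) (hZs : Z ⊆ sphere x s) (hZl : len Z < ⊤) (hSZ : sphere x s ⊆ S ∪ Z)
    (hSK0 : S ⊆ K0ᶜ) (hSρ : S ⊆ (closedBall x ρ)ᶜ) (hSK : S ⊆ U \ K)
    (hr : ∀ y, y ∉ K0 → ∀ᶠ z in 𝓝 y, r z = r y)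
    (hc' : LocConstOn (univ \ L) c')
    (hcc : ∀ y ∈ univ \ (K0 ∪ closedBall x ρ), c' y = u (r y) - u0 (r y))
    (hF : LipschitzWith (Real.toNNReal η) F)
    (hFS : ∀ y ∈ S, F y = (u y - u0 y) - (u (r y) - u0 (r y)))
    (hcS : ∀ y ∈ S, ∀ c : E2 → ℝ, LocConstOn (U \ K) c → c y = c (r y)) :
    IsComp U u K x s (tpW u (fun z => w z + c' z + F z) x s) (tpL K L Z x s) := by
  have hLcl : IsClosed L := isClosed_of_closure_univ hc.closed
  have hLcb : L ∩ closedBall x s ⊆ (L ∩ closedBall x ρ) ∪ (K0 ∩ closedBall x s) := by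
    rintro y ⟨hy, hys⟩
    by_cases hyρ : y ∈ closedBall x ρ
    · exact Or.inl ⟨hy, hyρ⟩
    · right
      have : y ∈ L \ closedBall x ρ := ⟨hy, hyρ⟩
      rw [hc.eqL] at this
      exact ⟨this.1, hys⟩
  have hclosed : closure (tpL K L Z x s) ∩ U ⊆ tpL K L Z x s := by
    rintro y ⟨hy, hyU⟩
    unfold tpL at hy ⊢
    rw [closure_union, closure_union, hZ.closure_eq,
      (hLcl.inter isClosed_closedBall).closure_eq] at hy
    rcases hy with (hy | hy) | hy
    · have hyK : y ∈ K := hqm.closed ⟨closure_mono sdiff_subset hy, hyU⟩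
      by_cases hycb : y ∈ closedBall x s
      · have hyb : y ∈ (ball x s)ᶜ := by
          have h1 : closure (K \ closedBall x s) ⊆ (ball x s)ᶜ := by
            apply closure_minimal _ isOpen_ball.isClosed_compl
            intro z hz hz'
            exact hz.2 (ball_subset_closedBall hz')
          exact h1 hy
        have hys : y ∈ sphere x s := by
          rw [mem_sphere]
          rw [mem_closedBall] at hycb
          rw [mem_compl_iff, mem_ball, not_lt] at hyb
          exact le_antisymm hycb hyb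
        rcases hSZ hys with h1 | h1
        · exact absurd hyK (hSK h1).2
        · exact Or.inl (Or.inr h1)
      · exact Or.inl (Or.inl ⟨hyK, hycb⟩)
    · exact Or.inl (Or.inr hy)
    · exact Or.inr hy
  have hVo : IsOpen (U \ tpL K L Z x s) := (relClosed_iff hqm.isOpen).1 hclosed
  have hLsphere : ∀ y ∈ U \ tpL K L Z x s, y ∈ closedBall x s → y ∉ L := fun y hy hys hyL =>
    hy.2 (Or.inr ⟨hyL, hys⟩)
  have hKout : ∀ y ∈ U \ tpL K L Z x s, y ∉ ball x s → y ∉ K := by
    intro y hy hyb hyK
    by_cases hycb : y ∈ closedBall x s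
    · have hys : y ∈ sphere x s := by
        rw [mem_sphere]
        rw [mem_closedBall] at hycb
        rw [mem_ball, not_lt] at hyb
        exact le_antisymm hycb hyb
      rcases hSZ hys with h1 | h1
      · exact (hSK h1).2 hyK
      · exact hy.2 (Or.inl (Or.inr h1))
    · exact hy.2 (Or.inl (Or.inl ⟨hyK, hycb⟩))
  have hSmem : ∀ y ∈ U \ tpL K L Z x s, y ∉ ball x s → y ∈ closedBall x s → y ∈ S := by
    intro y hy hyb hycb
    have hys : y ∈ sphere x s := by
      rw [mem_sphere]
      rw [mem_closedBall] at hycb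
      rw [mem_ball, not_lt] at hyb
      exact le_antisymm hycb hyb
    rcases hSZ hys with h1 | h1
    · exact h1
    · exact absurd (Or.inl (Or.inr h1)) hy.2
  refine ⟨?_, hclosed, ?_, ?_, ?_, ?_, ?_⟩
  · -- sub
    rintro y ((hy | hy) | hy)
    · exact hqm.sub hy.1
    · exact hU (sphere_subset_closedBall (hZs hy))
    · exact hU hy.2
  · -- len_fin
    have h1 : tpL K L Z x s ∩ closedBall x s ⊆ Z ∪ (L ∩ closedBall x s) := by
      rintro y ⟨(hy | hy) | hy, hys⟩
      · exact absurd hys hy.2
      · exact Or.inl hy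
      · exact Or.inr hy
    calc len (tpL K L Z x s ∩ closedBall x s) ≤ len (Z ∪ (L ∩ closedBall x s)) := len_mono h1
      _ ≤ len Z + len (L ∩ closedBall x s) := len_union_le _ _
      _ ≤ len Z + (len (L ∩ closedBall x ρ) + len (K0 ∩ closedBall x s)) := by
          gcongr
          exact (len_mono hLcb).trans (len_union_le _ _)
      _ < ⊤ := by
          rw [ENNReal.add_lt_top, ENNReal.add_lt_top]
          exact ⟨hZl, hc.len_fin, hlen⟩
  · -- eqL
    ext y
    constructor
    · rintro ⟨(hy | hy) | hy, hys⟩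
      · exact hy
      · exact absurd (sphere_subset_closedBall (hZs hy)) hys
      · exact absurd hy.2 hys
    · rintro ⟨hy, hys⟩
      exact ⟨Or.inl (Or.inl ⟨hy, hys⟩), hys⟩
  · -- lip
    apply locallyLipschitzOn_of_closed_cover (u := u) (w := fun z => w z + c' z + F z)
      (A1 := (ball x s)ᶜ) (A2 := closedBall x s) hVo isOpen_ball.isClosed_compl
      isClosed_closedBall
    · intro y _
      by_cases hy : y ∈ ball x s
      · exact Or.inr (ball_subset_closedBall hy)
      · exact Or.inl hy
    · rintro y ⟨hy, hyb⟩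
      unfold tpW
      split_ifs with hycb
      · have hyS := hSmem y hy hyb hycb
        have hy0 : y ∈ univ \ (K0 ∪ closedBall x ρ) :=
          ⟨mem_univ _, fun h => h.elim (hSK0 hyS) (hSρ hyS)⟩
        change w y + c' y + F y = u y
        rw [hc.eqw y hy0, hcc y hy0, hFS y hyS]
        ring
      · rfl
    · rintro y ⟨hy, hyb⟩
      unfold tpW
      rw [if_pos hyb]
    · rintro y ⟨hy, hyb⟩
      have hyK := hKout y hy hyb
      have h1 : ContDiffAt ℝ 1 u y := hqm.c1.contDiffAt (hqm.isOpen_diff.mem_nhds ⟨hy.1, hyK⟩)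
      obtain ⟨C, t, ht, hCt⟩ := h1.exists_lipschitzOnWith
      exact ⟨C, t, ht, hCt.mono inter_subset_left⟩
    · rintro y ⟨hy, hyb⟩
      have hyL := hLsphere y hy hyb
      have hLo : IsOpen (univ \ L) := (relClosed_iff isOpen_univ).1 hc.closed
      have hlip := hc.lip
      obtain ⟨C1, t1, ht1, hCt1⟩ := @hlip y ⟨mem_univ _, hyL⟩
      rw [hLo.nhdsWithin_eq ⟨mem_univ _, hyL⟩] at ht1
      have h2 : ∀ᶠ z in 𝓝 y, c' z = c' y := hc' y ⟨mem_univ _, hyL⟩
      refine ⟨C1 + 0 + Real.toNNReal η, t1 ∩ {z | c' z = c' y}, Filter.inter_mem ht1 h2, ?_⟩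
      have hcl : LipschitzOnWith 0 c' (t1 ∩ {z | c' z = c' y}) := by
        intro p hp q hq
        have e1 : c' p = c' y := hp.2
        have e2 : c' q = c' y := hq.2
        simp [e1, e2]
      have hfin : LipschitzOnWith (C1 + 0 + Real.toNNReal η) (fun z => w z + c' z + F z)
          (t1 ∩ {z | c' z = c' y}) :=
        LipschitzOnWith.add (LipschitzOnWith.add (hCt1.mono inter_subset_left) hcl)
          hF.lipschitzOnWith
      exact hfin.mono inter_subset_left
  · -- eqw
    intro y hy
    unfold tpW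
    rw [if_neg (fun h => hy.2 (Or.inr h))]
  · -- keeps
    intro c hcl
    have hrl : LocConstOn (univ \ K0) (fun z => c (r z)) := by
      intro y hy
      filter_upwards [hr y hy.2] with z hz
      simp [hz]
    obtain ⟨c1, hc1, hc1e⟩ := hc.keeps _ hrl
    refine ⟨fun z => if z ∈ closedBall x s then c1 z else c z, ?_, ?_⟩
    · intro y hy
      by_cases hycb : y ∈ closedBall x s
      · by_cases hyb : y ∈ ball x s
        · have hyL := hLsphere y hy hycb
          filter_upwards [isOpen_ball.mem_nhds hyb, hc1 y ⟨mem_univ _, hyL⟩] with z hz hz1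
          rw [if_pos (ball_subset_closedBall hz), if_pos hycb, hz1]
        · have hyS := hSmem y hy hyb hycb
          have hyL := hLsphere y hy hycb
          have hyK := hKout y hy hyb
          have e1 : c1 y = c (r y) := by
            apply hc1e
            exact ⟨mem_univ _, fun h => h.elim (hSK0 hyS) (hSρ hyS)⟩
          have e2 : c y = c (r y) := hcS y hyS c hcl
          filter_upwards [hc1 y ⟨mem_univ _, hyL⟩, hcl y ⟨hy.1, hyK⟩] with z hz1 hz2
          rw [if_pos hycb]
          split_ifs
          · exact hz1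
          · rw [hz2, e2, e1]
      · have hyK : y ∉ K := hKout y hy (fun h => hycb (ball_subset_closedBall h))
        filter_upwards [isClosed_closedBall.isOpen_compl.mem_nhds hycb, hcl y ⟨hy.1, hyK⟩]
          with z hz hz1
        rw [if_neg hz, if_neg hycb, hz1]
    · intro y hy
      simp only
      rw [if_neg (fun h => hy.2 (Or.inr h))]

open Classical in
/-- energy of the transplanted pair -/
theorem transplant_energy {K L Z : Set E2} {u w c' F : E2 → ℝ}
    {x : E2} {s η t : ℝ} (hη : 0 ≤ η) (ht : 0 < t)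
    (hL : IsClosed L) (hZ : IsClosed Z) (hZs : Z ⊆ sphere x s)
    (hc' : LocConstOn (univ \ L) c')
    (hF : Differentiable ℝ F) (hFη : ∀ z, ‖gradient F z‖ ≤ η) :
    enE (tpW u (fun z => w z + c' z + F z) x s) (tpL K L Z x s) (closedBall x s) ≤
      ENNReal.ofReal (1 + t) * dirE w L (closedBall x s)
        + ENNReal.ofReal ((1 + 1 / t) * η ^ 2) * volume (closedBall x s)
        + (len Z + len (L ∩ closedBall x s)) := by
  have hcap : tpL K L Z x s ∩ closedBall x s = Z ∪ (L ∩ closedBall x s) := by
    ext y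
    constructor
    · rintro ⟨(hy | hy) | hy, hys⟩
      · exact absurd hys hy.2
      · exact Or.inl hy
      · exact Or.inr hy
    · rintro (hy | hy)
      · exact ⟨Or.inl (Or.inr hy), sphere_subset_closedBall (hZs hy)⟩
      · exact ⟨Or.inr hy, hy.2⟩
  unfold enE
  gcongr ?_ + ?_
  · have hBe : closedBall x s \ tpL K L Z x s = closedBall x s \ (Z ∪ (L ∩ closedBall x s)) := by
      rw [← hcap]
      ext y
      constructor
      · rintro ⟨h1, h2⟩
        exact ⟨h1, fun h => h2 h.1⟩
      · rintro ⟨h1, h2⟩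
        exact ⟨h1, fun h => h2 ⟨h, h1⟩⟩
    have hBm : MeasurableSet (closedBall x s \ tpL K L Z x s) := by
      rw [hBe]
      exact isClosed_closedBall.measurableSet.diff
        (hZ.measurableSet.union (hL.measurableSet.inter isClosed_closedBall.measurableSet))
    have hBL : closedBall x s \ tpL K L Z x s ⊆ closedBall x s \ L :=
      fun y hy => ⟨hy.1, fun h => hy.2 (Or.inr ⟨h, hy.1⟩)⟩
    have hsph0 : ∀ᵐ y ∂(volume : Measure E2), y ∉ sphere x s := by
      have h0 : volume (sphere x s) = 0 := Measure.addHaar_sphere volume x s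
      exact measure_eq_zero_iff_ae_notMem.1 h0
    have hae : ∀ᵐ y ∂volume.restrict (closedBall x s \ tpL K L Z x s),
        0 ≤ ‖gradient (tpW u (fun z => w z + c' z + F z) x s) y‖ ∧
        ‖gradient (tpW u (fun z => w z + c' z + F z) x s) y‖ ≤ ‖gradient w y‖ + η := by
      rw [ae_restrict_iff' hBm]
      filter_upwards [hsph0] with y hy hyB
      refine ⟨norm_nonneg _, ?_⟩
      have hyb : y ∈ ball x s := by
        rcases lt_or_eq_of_le (mem_closedBall.1 hyB.1) with h | h
        · exact h
        · exact absurd (mem_sphere.2 h) hy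
      have hyL : y ∉ L := (hBL hyB).2
      have e1 : (tpW u (fun z => w z + c' z + F z) x s) =ᶠ[𝓝 y]
          fun z => w z + (F z + c' y) := by
        filter_upwards [isOpen_ball.mem_nhds hyb, hc' y ⟨mem_univ _, hyL⟩] with z hz hz1
        unfold tpW
        rw [if_pos (ball_subset_closedBall hz)]
        change w z + c' z + F z = w z + (F z + c' y)
        rw [hz1]
        ring
      rw [gradient_congr_nhds e1]
      have e2 : DifferentiableAt ℝ (fun z => F z + c' y) y := (hF y).add_const _
      refine (norm_gradient_add_le e2).trans ?_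
      gcongr
      have e3 : gradient (fun z => F z + c' y) y = gradient F y := by
        unfold gradient
        rw [fderiv_add_const]
      rw [e3]
      exact hFη y
    have h1 := lintegral_sq_perturb_le (B := closedBall x s \ tpL K L Z x s)
      (g := fun y => ‖gradient w y‖) (fun y => norm_nonneg _) hη ht hae
      (measurable_gradient w).norm
    unfold dirE
    simp only [ofReal_norm] at h1
    refine h1.trans ?_
    gcongr ?_ + ?_
    · gcongr
    · gcongr
      exact sdiff_subset
  · rw [hcap]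
    exact len_union_le _ _

/-- **Transplantation**: the energy of any competitor of the limit bounds the energies at level
`n` from above. -/
theorem LimSeq.transplant (h : LimSeq U lam u K u0 K0) {x : E2} {ρ s : ℝ} (hρ : 0 < ρ)
    (hs : ρ < s) {w : E2 → ℝ} {L : Set E2} (hc : IsComp univ u0 K0 x ρ w L)
    (hlen : len (K0 ∩ closedBall x s) < ⊤) (hsph : len (K0 ∩ sphere x s) = 0) {ε : ℝ}
    (hε : 0 < ε) :
    ∀ᶠ n in atTop, enE (u n) (K n) (closedBall x s) ≤
      enE w L (closedBall x s) + ENNReal.ofReal ε := by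
  have hs0 : 0 < s := hρ.trans hs
  by_cases hD : dirE w L (closedBall x s) = ⊤
  · filter_upwards with n
    unfold enE
    rw [hD]
    simp
  -- data
  set D := dirE w L (closedBall x s) with hDdef
  set A := K0 ∩ sphere x s with hA
  have hAc : IsCompact A := (isCompact_sphere x s).inter_left h.closed
  have hε4 : (0 : ℝ≥0∞) < ENNReal.ofReal (ε / 4) := ENNReal.ofReal_pos.2 (by positivity)
  obtain ⟨δ, hδ, hZlen⟩ := exists_small_nhd hs0 hAc hsph hε4
  set Z := cthickening δ A ∩ sphere x s with hZdef
  set S := sphere x s \ thickening δ A with hSdef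
  have hZcl : IsClosed Z := isClosed_cthickening.inter isClosed_sphere
  have hZs : Z ⊆ sphere x s := inter_subset_right
  have hZl : len Z < ⊤ := hZlen.trans_lt ENNReal.ofReal_lt_top
  have hSc : IsCompact S := (isCompact_sphere x s).diff isOpen_thickening
  have hSZ : sphere x s ⊆ S ∪ Z := by
    intro y hy
    by_cases h1 : y ∈ thickening δ A
    · exact Or.inr ⟨thickening_subset_cthickening _ _ h1, hy⟩
    · exact Or.inl ⟨hy, h1⟩
  have hSK0 : S ⊆ K0ᶜ := by
    intro y hy hyK
    exact hy.2 (self_subset_thickening hδ A ⟨hyK, hy.1⟩)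
  have hSρ : S ⊆ (closedBall x ρ)ᶜ := by
    intro y hy hyρ
    have h1 : dist y x = s := hy.1
    have h2 : dist y x ≤ ρ := hyρ
    linarith
  obtain ⟨χ, hχ, hχc, hχs, -, hχS, hχ1⟩ := exists_cutoffE2 hSc
    (h.closed.isOpen_compl.inter (isClosed_closedBall (x := x) (ε := ρ)).isOpen_compl)
    (fun y hy => ⟨hSK0 hy, hSρ hy⟩)
  -- parameters
  set a := D.toReal with ha
  have ha0 : 0 ≤ a := ENNReal.toReal_nonneg
  set V := (volume (closedBall x s)).toReal with hV
  have hV0 : 0 ≤ V := ENNReal.toReal_nonneg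
  have hVfin : volume (closedBall x s) ≠ ⊤ := measure_closedBall_lt_top.ne
  set t := ε / (4 * (a + 1)) with ht
  have ht0 : 0 < t := by positivity
  obtain ⟨η, hη0, hη⟩ : ∃ η : ℝ, 0 < η ∧ (1 + 1 / t) * η ^ 2 * V ≤ ε / 4 := by
    have hlim : Tendsto (fun η : ℝ => (1 + 1 / t) * η ^ 2 * V) (𝓝[>] 0)
        (𝓝 ((1 + 1 / t) * 0 ^ 2 * V)) := by
      apply Tendsto.mono_left _ nhdsWithin_le_nhds
      apply Continuous.tendsto
      fun_prop
    have h0 : (1 + 1 / t) * 0 ^ 2 * V < ε / 4 := by
      simp; positivity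
    obtain ⟨η, h1, h2⟩ := ((hlim.eventually (gt_mem_nhds h0)).and self_mem_nhdsWithin).exists
    exact ⟨η, h2, h1.le⟩
  have hlamev : ∀ᶠ n in atTop, lam n * s ^ 2 ≤ ε / 4 := by
    have hl : Tendsto (fun n => lam n * s ^ 2) atTop (𝓝 (0 * s ^ 2)) := h.lam_lim.mul_const _
    have h0 : 0 * s ^ 2 < ε / 4 := by simp; positivity
    exact (hl.eventually (gt_mem_nhds h0)).mono fun n hn => hn.le
  have hLcl : IsClosed L := isClosed_of_closure_univ hc.closed
  filter_upwards [h.cutoff_err hχ hχc (hχs.trans inter_subset_left) hχ1 hη0,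
    h.eventually_sub hSc hSK0, h.compact hSc hSK0 one_pos, h.exh _ (isCompact_closedBall x s),
    hlamev] with n h1 h2 h3 h4 h5
  obtain ⟨hFd, hFη⟩ := h1
  obtain ⟨c', hc'1, hc'2⟩ := hc.keeps _ (h.locConst_comp_rep (fun z => u n z - u0 z))
  have hFlip : LipschitzWith (Real.toNNReal η) (fun z => χ z * errF U u K u0 n z) := by
    apply lipschitzWith_of_nnnorm_fderiv_le hFd
    intro z
    have := hFη z
    rw [norm_gradient_eq_norm_fderiv] at this
    rw [← NNReal.coe_le_coe, coe_nnnorm, Real.coe_toNNReal _ hη0.le]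
    exact this
  have hcomp := transplant_isComp (F := fun z => χ z * errF U u K u0 n z)
    (r := rep U u K u0) (h.qm n) hc hlen h4 hZcl hZs hZl hSZ hSK0 hSρ h2
    (fun y hy => h.rep_locConst hy) hc'1 (fun y hy => hc'2 y hy) hFlip
    (fun y hy => by simp only [hχS y hy, one_mul, errF]) (fun y hy => (h3 y hy).2)
  have hmin := (h.qm n).min x s hs0 h4 _ _ hcomp
  have hen := transplant_energy (K := K n) (u := u n) (F := fun z => χ z * errF U u K u0 n z)
    hη0.le ht0 hLcl hZcl hZs hc'1 hFd hFη (w := w)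
  have hD' : D = ENNReal.ofReal a := (ENNReal.ofReal_toReal hD).symm
  have hV' : volume (closedBall x s) = ENNReal.ofReal V := (ENNReal.ofReal_toReal hVfin).symm
  calc enE (u n) (K n) (closedBall x s)
      ≤ (ENNReal.ofReal (1 + t) * D + ENNReal.ofReal ((1 + 1 / t) * η ^ 2)
          * volume (closedBall x s) + (len Z + len (L ∩ closedBall x s)))
        + ENNReal.ofReal (lam n * s ^ 2) := hmin.trans (by gcongr)
    _ ≤ ((D + ENNReal.ofReal (ε / 4)) + ENNReal.ofReal (ε / 4)
          + (ENNReal.ofReal (ε / 4) + len (L ∩ closedBall x s))) + ENNReal.ofReal (ε / 4) := by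
        gcongr
        · rw [hD', ← ENNReal.ofReal_mul (by positivity), ← ENNReal.ofReal_add ha0 (by positivity)]
          apply ENNReal.ofReal_le_ofReal
          have : t * a ≤ ε / 4 := by
            rw [ht, div_mul_eq_mul_div, div_le_iff₀ (by positivity)]
            nlinarith
          linarith
        · rw [hV', ← ENNReal.ofReal_mul (by positivity)]
          exact ENNReal.ofReal_le_ofReal hη
    _ = (D + len (L ∩ closedBall x s)) + (ENNReal.ofReal (ε / 4) + ENNReal.ofReal (ε / 4)
          + ENNReal.ofReal (ε / 4) + ENNReal.ofReal (ε / 4)) := by ring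
    _ = enE w L (closedBall x s) + ENNReal.ofReal ε := by
        rw [← ENNReal.ofReal_add (by positivity) (by positivity),
          ← ENNReal.ofReal_add (by positivity) (by positivity),
          ← ENNReal.ofReal_add (by positivity) (by positivity)]
        unfold enE
        rw [show ε / 4 + ε / 4 + ε / 4 + ε / 4 = ε by ring]

end Crest.Agent.R135.Lim
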