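import Mathlib
import Crest.Agent.R135.LimC

/-!
# R135, block BL (helper517): lower semicontinuity, strong convergence

Inputs: `hlsc` (lower semicontinuity of length on open sets) and `hub` (local upper bounds of the
energies).
-/

set_option autoImplicit false

open MeasureTheory Set Filter Topology Metric
open scoped ENNReal NNReal ContDiff Gradient

namespace Crest.Agent.R135.Lim

open Crest.Agent.R135

/-! ### `ENNReal` lemmas -/

theorem eventually_le_add_of_le_liminf {b : ℝ≥0∞} {bn : ℕ → ℝ≥0∞} (h : b ≤ liminf bn atTop)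
    (hb : b ≠ ⊤) {ε : ℝ≥0∞} (hε : 0 < ε) : ∀ᶠ n in atTop, b ≤ bn n + ε := by
  by_cases hb0 : b = 0
  · filter_upwards with n
    rw [hb0]; exact zero_le
  by_cases hεt : ε = ⊤
  · filter_upwards with n
    rw [hεt]; simp
  have h1 : b - ε < b := ENNReal.sub_lt_self hb hb0 hε.ne'
  filter_upwards [eventually_lt_of_lt_liminf (h1.trans_le h)] with n hn
  exact tsub_le_iff_right.1 hn.le

theorem tendsto_of_sum_le {a b : ℝ≥0∞} {an bn : ℕ → ℝ≥0∞} (ha : a ≤ liminf an atTop)
    (hb : b ≤ liminf bn atTop) (hat : a ≠ ⊤) (hbt : b ≠ ⊤)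
    (hab : ∀ ε : ℝ, 0 < ε → ∀ᶠ n in atTop, an n + bn n ≤ a + b + ENNReal.ofReal ε) :
    Tendsto an atTop (𝓝 a) := by
  rw [ENNReal.tendsto_nhds hat]
  intro ε hε
  -- reduce to a real ε
  obtain ⟨e, he0, hee⟩ : ∃ e : ℝ, 0 < e ∧ ENNReal.ofReal e ≤ ε := by
    by_cases hεt : ε = ⊤
    · exact ⟨1, one_pos, by rw [hεt]; exact le_top⟩
    · exact ⟨ε.toReal, ENNReal.toReal_pos hε.ne' hεt, by rw [ENNReal.ofReal_toReal hεt]⟩
  have h2 : (0 : ℝ≥0∞) < ENNReal.ofReal (e / 2) := ENNReal.ofReal_pos.2 (by positivity)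
  filter_upwards [eventually_le_add_of_le_liminf ha hat hε,
    eventually_le_add_of_le_liminf hb hbt h2, hab (e / 2) (by positivity)] with n h3 h4 h5
  refine ⟨tsub_le_iff_right.2 h3, ?_⟩
  refine le_trans ?_ (add_le_add_right hee a)
  have h6 : an n + b ≤ (a + ENNReal.ofReal e) + b := by
    calc an n + b ≤ an n + (bn n + ENNReal.ofReal (e / 2)) := by gcongr
      _ = (an n + bn n) + ENNReal.ofReal (e / 2) := by ring
      _ ≤ (a + b + ENNReal.ofReal (e / 2)) + ENNReal.ofReal (e / 2) := by gcongr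
      _ = (a + (ENNReal.ofReal (e / 2) + ENNReal.ofReal (e / 2))) + b := by ring
      _ = (a + ENNReal.ofReal e) + b := by
          rw [← ENNReal.ofReal_add (by positivity) (by positivity), add_halves]
  exact (ENNReal.add_le_add_iff_right hbt).1 h6

theorem le_of_forall_ofReal {a b : ℝ≥0∞} (h : ∀ ε : ℝ, 0 < ε → a ≤ b + ENNReal.ofReal ε) :
    a ≤ b := by
  apply ENNReal.le_of_forall_pos_le_add
  intro ε hε _
  have := h ε hε
  rwa [ENNReal.ofReal_coe_nnreal] at this

variable {U : ℕ → Set E2} {lam : ℕ → ℝ} {u : ℕ → E2 → ℝ} {K : ℕ → Set E2}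
    {u0 : E2 → ℝ} {K0 : Set E2}

/-- Fatou for the Dirichlet energies -/
theorem LimSeq.dirE_le_liminf (h : LimSeq U lam u K u0 K0) {B : Set E2} {R : ℝ} (hBR : B ⊆ closedBall 0 R) :
    dirE u0 K0 B ≤ liminf (fun n => dirE (u n) (K n) B) atTop := by
  classical
  have hmeas : ∀ n, Measurable (fun y => (U n \ K n).indicator
      (fun y => ‖gradient (u n) y‖ₑ ^ 2) y) := fun n =>
    ((measurable_gradient (u n)).enorm.pow_const 2).indicator (h.qm n).isOpen_diff.measurableSet
  have h1 : dirE u0 K0 B ≤ ∫⁻ y in B, liminf (fun n => (U n \ K n).indicator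
      (fun y => ‖gradient (u n) y‖ₑ ^ 2) y) atTop := by
    have h2 : dirE u0 K0 B = ∫⁻ y in B, (K0ᶜ).indicator (fun y => ‖gradient u0 y‖ₑ ^ 2) y := by
      unfold dirE
      rw [lintegral_indicator h.closed.isOpen_compl.measurableSet, Measure.restrict_restrict
        h.closed.isOpen_compl.measurableSet, inter_comm]
      rfl
    rw [h2]
    apply lintegral_mono
    intro y
    by_cases hy : y ∈ K0
    · simp [hy]
    · have hyc : y ∈ K0ᶜ := hy
      simp only [indicator_of_mem hyc]
      have hs : ∀ᶠ n in atTop, ({y} : Set E2) ⊆ U n \ K n :=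
        h.eventually_sub isCompact_singleton (by simpa using hy)
      have hl : Tendsto (fun n => gradient (u n) y) atTop (𝓝 (gradient u0 y)) :=
        h.grad.tendsto_at hyc
      have hl2 : Tendsto (fun n => (U n \ K n).indicator
          (fun y => ‖gradient (u n) y‖ₑ ^ 2) y) atTop (𝓝 (‖gradient u0 y‖ₑ ^ 2)) := by
        have hl3 : Tendsto (fun n => ‖gradient (u n) y‖ₑ ^ 2) atTop (𝓝 (‖gradient u0 y‖ₑ ^ 2)) :=
          ((ENNReal.continuous_pow 2).tendsto _).comp hl.enorm
        refine hl3.congr' ?_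
        filter_upwards [hs] with n hn
        rw [indicator_of_mem (hn (mem_singleton y))]
      exact hl2.liminf_eq.ge
  refine h1.trans ((lintegral_liminf_le (fun n => hmeas n)).trans ?_)
  apply le_of_eq
  apply liminf_congr
  filter_upwards [h.exh _ (isCompact_closedBall 0 R)] with n hn
  unfold dirE
  rw [lintegral_indicator (h.qm n).isOpen_diff.measurableSet, Measure.restrict_restrict
    (h.qm n).isOpen_diff.measurableSet]
  congr 2
  ext y
  constructor
  · rintro ⟨h3, h4⟩
    exact ⟨h4, h3.2⟩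
  · rintro ⟨h3, h4⟩
    exact ⟨⟨hn (hBR h3), h4⟩, h3⟩

theorem dirE_mono {w : E2 → ℝ} {L A B : Set E2} (h : A ⊆ B) : dirE w L A ≤ dirE w L B :=
  lintegral_mono_set (sdiff_subset_sdiff_left h)

theorem dirE_closedBall {w : E2 → ℝ} {L : Set E2} (x : E2) (s : ℝ) :
    dirE w L (closedBall x s) = dirE w L (ball x s) := by
  unfold dirE
  apply setLIntegral_congr
  have h0 : volume (sphere x s) = 0 := Measure.addHaar_sphere volume x s
  have h1 : (closedBall x s : Set E2) =ᵐ[volume] ball x s := by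
    rw [← ball_union_sphere]
    exact union_ae_eq_left_of_ae_eq_empty (by simpa using h0)
  exact h1.diff (ae_eq_refl _)

theorem len_closedBall {K : Set E2} {x : E2} {s : ℝ} (h : len (K ∩ sphere x s) = 0) :
    len (K ∩ closedBall x s) = len (K ∩ ball x s) := by
  apply le_antisymm
  · rw [← ball_union_sphere, inter_union_distrib_left]
    exact (len_union_le _ _).trans (by rw [h, add_zero])
  · exact len_mono (inter_subset_inter_right _ ball_subset_closedBall)

/-- almost all radii (in fact all but countably many) are good for a set of locally finite length -/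
theorem countable_bad_radii {K : Set E2} {x : E2} {R : ℝ}
    (hfin : len (K ∩ closedBall x R) < ⊤) :
    {s : ℝ | s ≤ R ∧ 0 < len (K ∩ sphere x s)}.Countable := by
  have hf : IsFiniteMeasure ((Measure.hausdorffMeasure 1 : Measure E2).restrict
      (K ∩ closedBall x R)) := by
    refine ⟨?_⟩
    rw [Measure.restrict_apply_univ]
    exact hfin
  have h1 := Measure.countable_meas_level_set_pos (μ := (Measure.hausdorffMeasure 1 :
    Measure E2).restrict (K ∩ closedBall x R)) (g := fun y : E2 => dist y x) (by fun_prop)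
  refine h1.mono ?_
  rintro s ⟨hs, hpos⟩
  rw [mem_ofPred_eq]
  rw [Measure.restrict_apply (by measurability)]
  refine hpos.trans_le (len_mono ?_)
  rintro y ⟨hy, hys⟩
  exact ⟨hys, hy, (mem_closedBall.2 ((mem_sphere.1 hys).le.trans hs))⟩

theorem exists_good_radius {K : Set E2} {x : E2} {R a b : ℝ}
    (hfin : len (K ∩ closedBall x R) < ⊤) (hab : a < b) (hbR : b ≤ R) :
    ∃ s ∈ Ioo a b, len (K ∩ sphere x s) = 0 := by
  by_contra hcon
  push Not at hcon
  have h1 : Ioo a b ⊆ {s : ℝ | s ≤ R ∧ 0 < len (K ∩ sphere x s)} := by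
    intro s hs
    exact ⟨hs.2.le.trans hbR, pos_iff_ne_zero.2 (hcon s hs)⟩
  have h2 := (countable_bad_radii hfin).mono h1
  rw [← Cardinal.le_aleph0_iff_set_countable, Cardinal.mk_Ioo_real hab] at h2
  exact absurd h2 (not_le.2 Cardinal.aleph0_lt_continuum)

end Crest.Agent.R135.Lim
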