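import Mathlib
import Crest.Agent.R135.LimD

/-!
# R135, block BL (helper517): strong convergence and minimality of the limit
-/

set_option autoImplicit false

open MeasureTheory Set Filter Topology Metric
open scoped ENNReal NNReal ContDiff Gradient

namespace Crest.Agent.R135.Lim

open Crest.Agent.R135

variable {U : ℕ → Set E2} {lam : ℕ → ℝ} {u : ℕ → E2 → ℝ} {K : ℕ → Set E2}
    {u0 : E2 → ℝ} {K0 : Set E2}

/-- lower semicontinuity of length along the sequence (input from the concentration block) -/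
def LenLsc (K : ℕ → Set E2) (K0 : Set E2) : Prop :=
  ∀ V : Set E2, IsOpen V → len (K0 ∩ V) ≤ liminf (fun n => len (K n ∩ V)) atTop

theorem LimSeq.enE_bound (h : LimSeq U lam u K u0 K0) {x : E2} {ρ : ℝ} (hρ : 0 < ρ) :
    ∀ᶠ n in atTop, enE (u n) (K n) (closedBall x ρ) ≤
      ENNReal.ofReal (2 * Real.pi * ρ + 1 * ρ ^ 2) := by
  filter_upwards [h.exh _ (isCompact_closedBall x ρ), h.lam_lim.eventually (gt_mem_nhds one_pos)]
    with n h1 h2
  refine ((h.qm n).energy_le hρ h1).trans (ENNReal.ofReal_le_ofReal ?_)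
  gcongr

theorem LimSeq.len_fin (h : LimSeq U lam u K u0 K0) (hl : LenLsc K K0) (x : E2) (ρ : ℝ) :
    len (K0 ∩ closedBall x ρ) < ⊤ := by
  rcases lt_or_ge ρ 0 with hneg | hρ
  · rw [closedBall_eq_empty.2 hneg, inter_empty]
    unfold len
    rw [measure_empty]
    exact ENNReal.zero_lt_top
  have h1 : len (K0 ∩ closedBall x ρ) ≤ len (K0 ∩ ball x (ρ + 1)) :=
    len_mono (inter_subset_inter_right _ (closedBall_subset_ball (by linarith)))
  refine (h1.trans (hl _ isOpen_ball)).trans_lt ?_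
  refine lt_of_le_of_lt ?_ (ENNReal.ofReal_lt_top
    (r := 2 * Real.pi * (ρ + 1) + 1 * (ρ + 1) ^ 2))
  apply liminf_le_of_frequently_le'
  apply Eventually.frequently
  filter_upwards [h.enE_bound (x := x) (ρ := ρ + 1) (by linarith)] with n hn
  refine le_trans ?_ hn
  unfold enE
  exact (len_mono (inter_subset_inter_right _ ball_subset_closedBall)).trans le_add_self

theorem LimSeq.dir_fin (h : LimSeq U lam u K u0 K0) (x : E2) (ρ : ℝ) :
    dirE u0 K0 (closedBall x ρ) < ⊤ := by
  have h0 : closedBall x ρ ⊆ closedBall x (max ρ 1) := closedBall_subset_closedBall (le_max_left _ _)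
  refine (dirE_mono h0).trans_lt ?_
  set ρ' := max ρ 1
  have hρ' : 0 < ρ' := lt_max_of_lt_right one_pos
  have h1 : closedBall x ρ' ⊆ closedBall 0 (‖x‖ + ρ') := by
    apply closedBall_subset_closedBall'
    rw [dist_zero_right]; linarith
  refine (h.dirE_le_liminf h1).trans_lt ?_
  refine lt_of_le_of_lt ?_ (ENNReal.ofReal_lt_top (r := 2 * Real.pi * ρ' + 1 * ρ' ^ 2))
  apply liminf_le_of_frequently_le'
  apply Eventually.frequently
  filter_upwards [h.enE_bound (x := x) hρ'] with n hn
  refine le_trans ?_ hn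
  unfold enE
  exact le_self_add

theorem LimSeq.enE_fin (h : LimSeq U lam u K u0 K0) (hl : LenLsc K K0) (x : E2) (ρ : ℝ) :
    enE u0 K0 (closedBall x ρ) < ⊤ := by
  unfold enE
  exact ENNReal.add_lt_top.2 ⟨h.dir_fin x ρ, h.len_fin hl x ρ⟩

/-- the limit is a competitor of itself -/
theorem LimSeq.isComp_self (h : LimSeq U lam u K u0 K0) (hl : LenLsc K K0) (x : E2) (ρ : ℝ) :
    IsComp univ u0 K0 x ρ u0 K0 where
  sub := subset_univ _
  closed := by rw [inter_univ, h.closed.closure_eq]
  len_fin := h.len_fin hl x ρ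
  eqL := rfl
  lip := by
    have hV : IsOpen (univ \ K0) := by rw [← compl_eq_univ_sdiff]; exact h.closed.isOpen_compl
    rw [locallyLipschitzOn_iff_lipAt hV]
    intro y hy
    apply lipAt_of_contDiffAt
    exact h.c1.contDiffAt (h.closed.isOpen_compl.mem_nhds hy.2)
  eqw := fun _ _ => rfl
  keeps := fun c hc => ⟨c, hc, fun _ _ => rfl⟩

theorem LimSeq.eventually_enE_le (h : LimSeq U lam u K u0 K0) (hl : LenLsc K K0) {x : E2} {s : ℝ}
    (hs : 0 < s) (hsph : len (K0 ∩ sphere x s) = 0) {ε : ℝ} (hε : 0 < ε) :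
    ∀ᶠ n in atTop, enE (u n) (K n) (closedBall x s) ≤
      enE u0 K0 (closedBall x s) + ENNReal.ofReal ε :=
  h.transplant (half_pos hs) (half_lt_self hs) (h.isComp_self hl x (s / 2))
    (h.len_fin hl x s) hsph hε

/-- strong convergence: Dirichlet energies -/
theorem LimSeq.tendsto_dirE (h : LimSeq U lam u K u0 K0) (hl : LenLsc K K0) {x : E2} {s : ℝ}
    (hs : 0 < s) (hsph : len (K0 ∩ sphere x s) = 0) :
    Tendsto (fun n => dirE (u n) (K n) (closedBall x s)) atTop
      (𝓝 (dirE u0 K0 (closedBall x s))) := by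
  have h1 : closedBall x s ⊆ closedBall 0 (‖x‖ + s) := by
    apply closedBall_subset_closedBall'
    rw [dist_zero_right]; linarith
  apply tendsto_of_sum_le (b := len (K0 ∩ closedBall x s))
    (bn := fun n => len (K n ∩ closedBall x s)) (h.dirE_le_liminf h1) _ (h.dir_fin x s).ne
    (h.len_fin hl x s).ne
  · intro ε hε
    exact h.eventually_enE_le hl hs hsph hε
  · rw [len_closedBall hsph]
    refine (hl _ isOpen_ball).trans (liminf_le_liminf ?_)
    filter_upwards with n
    exact len_mono (inter_subset_inter_right _ ball_subset_closedBall)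

/-- strong convergence: lengths -/
theorem LimSeq.tendsto_len (h : LimSeq U lam u K u0 K0) (hl : LenLsc K K0) {x : E2} {s : ℝ}
    (hs : 0 < s) (hsph : len (K0 ∩ sphere x s) = 0) :
    Tendsto (fun n => len (K n ∩ closedBall x s)) atTop (𝓝 (len (K0 ∩ closedBall x s))) := by
  have h1 : closedBall x s ⊆ closedBall 0 (‖x‖ + s) := by
    apply closedBall_subset_closedBall'
    rw [dist_zero_right]; linarith
  apply tendsto_of_sum_le (b := dirE u0 K0 (closedBall x s))
    (bn := fun n => dirE (u n) (K n) (closedBall x s)) _ (h.dirE_le_liminf h1)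
    (h.len_fin hl x s).ne (h.dir_fin x s).ne
  · intro ε hε
    filter_upwards [h.eventually_enE_le hl hs hsph hε] with n hn
    unfold enE at hn
    rw [add_comm, add_comm (len (K0 ∩ closedBall x s))]
    exact hn
  · rw [len_closedBall hsph]
    refine (hl _ isOpen_ball).trans (liminf_le_liminf ?_)
    filter_upwards with n
    exact len_mono (inter_subset_inter_right _ ball_subset_closedBall)

/-- strong convergence: total energies -/
theorem LimSeq.tendsto_enE (h : LimSeq U lam u K u0 K0) (hl : LenLsc K K0) {x : E2} {s : ℝ}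
    (hs : 0 < s) (hsph : len (K0 ∩ sphere x s) = 0) :
    Tendsto (fun n => enE (u n) (K n) (closedBall x s)) atTop
      (𝓝 (enE u0 K0 (closedBall x s))) :=
  (h.tendsto_dirE hl hs hsph).add (h.tendsto_len hl hs hsph)

theorem dirE_split {w : E2 → ℝ} {L A B : Set E2} (hA : MeasurableSet A)
    (hAB : A ⊆ B) :
    dirE w L B = dirE w L A + dirE w L (B \ A) := by
  unfold dirE
  rw [← lintegral_inter_add_sdiff (μ := volume) (fun x => ‖gradient w x‖ₑ ^ 2) (B \ L) hA]
  congr 2
  · congr 1
    ext y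
    constructor
    · rintro ⟨h1, h2⟩; exact ⟨h2, h1.2⟩
    · rintro ⟨h1, h2⟩; exact ⟨⟨hAB h1, h2⟩, h1⟩
  · congr 1
    ext y
    constructor
    · rintro ⟨⟨h1, h2⟩, h3⟩; exact ⟨⟨h1, h3⟩, h2⟩
    · rintro ⟨⟨h1, h2⟩, h3⟩; exact ⟨⟨h1, h3⟩, h2⟩

theorem len_split {L A B : Set E2} (hA : MeasurableSet A) (hAB : A ⊆ B) :
    len (L ∩ B) = len (L ∩ A) + len (L ∩ (B \ A)) := by
  unfold len
  rw [← measure_inter_add_sdiff (L ∩ B) hA]
  congr 2
  · ext y
    constructor
    · rintro ⟨⟨h1, h2⟩, h3⟩; exact ⟨h1, h3⟩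
    · rintro ⟨h1, h2⟩; exact ⟨⟨h1, hAB h2⟩, h2⟩
  · ext y
    constructor
    · rintro ⟨⟨h1, h2⟩, h3⟩; exact ⟨h1, h2, h3⟩
    · rintro ⟨h1, h2, h3⟩; exact ⟨⟨h1, h2⟩, h3⟩

/-- **Minimality of the limit** -/
theorem LimSeq.min (h : LimSeq U lam u K u0 K0) (hl : LenLsc K K0) {x : E2} {ρ : ℝ}
    (hρ : 0 < ρ) {w : E2 → ℝ} {L : Set E2} (hc : IsComp univ u0 K0 x ρ w L) :
    enE u0 K0 (closedBall x ρ) ≤ enE w L (closedBall x ρ) := by
  obtain ⟨s, hs, hsph⟩ := exists_good_radius (K := K0) (x := x) (R := ρ + 1) (a := ρ) (b := ρ + 1)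
    (h.len_fin hl x (ρ + 1)) (by linarith) le_rfl
  have hs0 : 0 < s := hρ.trans hs.1
  have h1 : enE u0 K0 (closedBall x s) ≤ enE w L (closedBall x s) := by
    apply le_of_forall_ofReal
    intro ε hε
    exact le_of_tendsto (h.tendsto_enE hl hs0 hsph)
      (h.transplant hρ hs.1 hc (h.len_fin hl x s) hsph hε)
  have hsub : closedBall x ρ ⊆ closedBall x s := closedBall_subset_closedBall hs.1.le
  have hm : MeasurableSet (closedBall x ρ) := isClosed_closedBall.measurableSet
  have e1 : enE u0 K0 (closedBall x s) =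
      enE u0 K0 (closedBall x ρ) + enE u0 K0 (closedBall x s \ closedBall x ρ) := by
    unfold enE
    rw [dirE_split hm hsub, len_split hm hsub]
    ring
  have e2 : enE w L (closedBall x s) =
      enE w L (closedBall x ρ) + enE w L (closedBall x s \ closedBall x ρ) := by
    unfold enE
    rw [dirE_split hm hsub, len_split hm hsub]
    ring
  have hdiff : ∀ y, y ∉ closedBall x ρ → (y ∈ L ↔ y ∈ K0) := by
    intro y hy
    constructor
    · intro hyL
      have : y ∈ L \ closedBall x ρ := ⟨hyL, hy⟩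
      rw [hc.eqL] at this
      exact this.1
    · intro hyL
      have : y ∈ K0 \ closedBall x ρ := ⟨hyL, hy⟩
      rw [← hc.eqL] at this
      exact this.1
  have e3 : enE w L (closedBall x s \ closedBall x ρ)
      = enE u0 K0 (closedBall x s \ closedBall x ρ) := by
    have e4 : (closedBall x s \ closedBall x ρ) \ L = (closedBall x s \ closedBall x ρ) \ K0 := by
      ext y
      constructor
      · rintro ⟨h3, h4⟩
        exact ⟨h3, fun h5 => h4 ((hdiff y h3.2).2 h5)⟩
      · rintro ⟨h3, h4⟩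
        exact ⟨h3, fun h5 => h4 ((hdiff y h3.2).1 h5)⟩
    have e5 : L ∩ (closedBall x s \ closedBall x ρ) = K0 ∩ (closedBall x s \ closedBall x ρ) := by
      ext y
      constructor
      · rintro ⟨h3, h4⟩
        exact ⟨(hdiff y h4.2).1 h3, h4⟩
      · rintro ⟨h3, h4⟩
        exact ⟨(hdiff y h4.2).2 h3, h4⟩
    unfold enE
    rw [e5]
    congr 1
    unfold dirE
    rw [e4]
    apply setLIntegral_congr_fun
    · exact (isClosed_closedBall.measurableSet.diff isClosed_closedBall.measurableSet).diff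
        h.closed.measurableSet
    · intro y hy
      have e6 : w =ᶠ[𝓝 y] u0 := by
        have hV : IsOpen ((K0 ∪ closedBall x ρ)ᶜ) := (h.closed.union isClosed_closedBall).isOpen_compl
        have hyV : y ∈ (K0 ∪ closedBall x ρ)ᶜ := fun h7 => h7.elim hy.2 hy.1.2
        filter_upwards [hV.mem_nhds hyV] with z hz
        exact hc.eqw z ⟨mem_univ _, hz⟩
      simp only [gradient_congr_nhds e6]
  rw [e1, e2, e3] at h1
  refine (ENNReal.add_le_add_iff_right ?_).1 h1
  refine (lt_of_le_of_lt ?_ (h.enE_fin hl x s)).ne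
  rw [e1]
  exact le_add_self

end Crest.Agent.R135.Lim
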