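import Mathlib
import Crest.Agent.R135.LimE
import Crest.Agent.R135.FV4
import Crest.Agent.R135.IFDefs

/-!
# R135, block BL (helper517): Euler-Lagrange equation of the limit, reducedness, `Conv`
-/

set_option autoImplicit false

open MeasureTheory Set Filter Topology Metric
open scoped ENNReal NNReal ContDiff Gradient

namespace Crest.Agent.R135.Lim

open Crest.Agent.R135

variable {U : ℕ → Set E2} {lam : ℕ → ℝ} {u : ℕ → E2 → ℝ} {K : ℕ → Set E2}
    {u0 : E2 → ℝ} {K0 : Set E2}

theorem LimSeq.isOpen0 (h : LimSeq U lam u K u0 K0) : IsOpen (univ \ K0) := by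
  rw [← compl_eq_univ_sdiff]; exact h.closed.isOpen_compl

/-- variation `u0 + t φ` -/
theorem LimSeq.isComp_var (h : LimSeq U lam u K u0 K0) (hl : LenLsc K K0) {φ : E2 → ℝ}
    (hφ : LocallyLipschitzOn (univ \ K0) φ) {x : E2} {R : ℝ} (hs : ∀ y, y ∉ closedBall x R → φ y = 0)
    (t : ℝ) : IsComp univ u0 K0 x R (fun y => u0 y + t * φ y) K0 where
  sub := subset_univ _
  closed := by rw [inter_univ, h.closed.closure_eq]
  len_fin := h.len_fin hl x R
  eqL := rfl
  lip := by
    rw [locallyLipschitzOn_iff_lipAt h.isOpen0] at hφ ⊢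
    intro y hy
    have h1 : LipAt u0 y := lipAt_of_contDiffAt
      (h.c1.contDiffAt (h.closed.isOpen_compl.mem_nhds hy.2))
    exact h1.add ((lipAt_const t y).mul (hφ y hy))
  eqw := fun y hy => by
    rw [hs y (fun h1 => hy.2 (Or.inr h1)), mul_zero, add_zero]
  keeps := fun c hc => ⟨c, hc, fun _ _ => rfl⟩

/-- Euler-Lagrange equation of the limit for all test functions jumping on `K0` -/
theorem LimSeq.el (h : LimSeq U lam u K u0 K0) (hl : LenLsc K K0) {φ : E2 → ℝ}
    (hφ : IsTest univ K0 φ) :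
    ∫ x in univ \ K0, inner ℝ (gradient u0 x) (gradient φ x) = 0 := by
  obtain ⟨C, hC, -, hC0⟩ := hφ.supp
  obtain ⟨R, hR0, hR⟩ : ∃ R : ℝ, 0 < R ∧ C ⊆ closedBall 0 R := by
    obtain ⟨R, hR⟩ := hC.isBounded.subset_closedBall 0
    exact ⟨max R 1, lt_max_of_lt_right one_pos, hR.trans (closedBall_subset_closedBall
      (le_max_left _ _))⟩
  have hs : ∀ y, y ∉ closedBall (0 : E2) R → φ y = 0 := fun y hy => hC0 y (fun h1 => hy (hR h1))
  set μ : Measure E2 := volume.restrict (closedBall 0 R \ K0) with hμ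
  have hBm : MeasurableSet (closedBall (0 : E2) R \ K0) :=
    isClosed_closedBall.measurableSet.diff h.closed.measurableSet
  have hG : MemLp (fun y => gradient u0 y) 2 μ :=
    Gl.memLp_two_of_lintegral (measurable_gradient u0).aestronglyMeasurable (h.dir_fin 0 R)
  have hΦ : MemLp (fun y => gradient φ y) 2 μ := by
    refine Gl.memLp_two_of_lintegral (measurable_gradient φ).aestronglyMeasurable ?_
    exact (dirE_mono (subset_univ _)).trans_lt hφ.dir_fin
  have hdiff := Gl.locLip_ae_diff h.isOpen0 hφ.lip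
  -- the expansion
  have key : ∀ t : ℝ, 0 ≤ 2 * t * (∫ y, inner ℝ (gradient u0 y) (gradient φ y) ∂μ)
      + t ^ 2 * ∫ y, ‖gradient φ y‖ ^ 2 ∂μ := by
    intro t
    have hmin := h.min hl hR0 (h.isComp_var hl hφ.lip hs t)
    have hmin2 : dirE u0 K0 (closedBall 0 R) ≤
        dirE (fun y => u0 y + t * φ y) K0 (closedBall 0 R) := by
      unfold enE at hmin
      exact (ENNReal.add_le_add_iff_right (h.len_fin hl 0 R).ne).1 hmin
    have e1 : dirE (fun y => u0 y + t * φ y) K0 (closedBall 0 R) =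
        ∫⁻ y, ‖gradient u0 y + t • gradient φ y‖ₑ ^ 2 ∂μ := by
      unfold dirE
      apply lintegral_congr_ae
      rw [EventuallyEq, ae_restrict_iff' hBm]
      filter_upwards [hdiff] with y hy hyB
      have hd1 := h.diffAt0 hyB.2
      have hd2 := hy ⟨mem_univ _, hyB.2⟩
      have e2 : gradient (fun y => u0 y + t * φ y) y = gradient u0 y + t • gradient φ y := by
        unfold gradient
        rw [fderiv_fun_add hd1 (hd2.const_mul t), fderiv_const_mul hd2, map_add, map_smul]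
      rw [e2]
    have hS : MemLp (fun y => gradient u0 y + t • gradient φ y) 2 μ := hG.add (hΦ.const_smul t)
    rw [e1, Gl.lintegral_sq_eq hS] at hmin2
    have e3 : dirE u0 K0 (closedBall 0 R) = ENNReal.ofReal (∫ y, ‖gradient u0 y‖ ^ 2 ∂μ) :=
      Gl.lintegral_sq_eq hG
    rw [e3, ENNReal.ofReal_le_ofReal_iff (integral_nonneg fun y => by positivity)] at hmin2
    have e4 : ∫ y, ‖gradient u0 y + t • gradient φ y‖ ^ 2 ∂μ =
        ∫ y, ‖gradient u0 y‖ ^ 2 ∂μ + (2 * t * (∫ y, inner ℝ (gradient u0 y) (gradient φ y) ∂μ)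
          + t ^ 2 * ∫ y, ‖gradient φ y‖ ^ 2 ∂μ) := by
      have i1 := Gl.integrable_normsq hG
      have i2 := Gl.integrable_inner2 hG hΦ
      have i3 := Gl.integrable_normsq hΦ
      have I2 : Integrable (fun y => 2 * t * inner ℝ (gradient u0 y) (gradient φ y)) μ :=
        i2.const_mul _
      have I3 : Integrable (fun y => t ^ 2 * ‖gradient φ y‖ ^ 2) μ := i3.const_mul _
      have I23 : Integrable (fun y => 2 * t * inner ℝ (gradient u0 y) (gradient φ y)
        + t ^ 2 * ‖gradient φ y‖ ^ 2) μ := I2.add I3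
      rw [← integral_const_mul, ← integral_const_mul, ← integral_add I2 I3,
        ← integral_add i1 I23]
      apply integral_congr_ae
      filter_upwards with y
      have := norm_add_sq_real (gradient u0 y) (t • gradient φ y)
      rw [this, norm_smul, inner_smul_right, mul_pow, Real.norm_eq_abs, sq_abs]
      ring
    rw [e4] at hmin2
    linarith
  have h0 := Gl.quad_zero key
  rw [← h0, hμ]
  apply setIntegral_eq_of_subset_of_forall_sdiff_eq_zero
  · exact h.isOpen0.measurableSet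
  · exact sdiff_subset_sdiff_left (subset_univ _)
  · rintro y ⟨hy1, hy2⟩
    have hyB : y ∉ closedBall (0 : E2) R := fun h1 => hy2 ⟨h1, hy1.2⟩
    have e5 : gradient φ y = 0 := by
      apply gradient_eq_zero_of_eventually_const 0
      filter_upwards [isClosed_closedBall.isOpen_compl.mem_nhds hyB] with z hz
      exact hs z hz
    rw [e5, inner_zero_right]

/-- reducedness of the limit (input: density lower bound) -/
theorem LimSeq.red (h : LimSeq U lam u K u0 K0) (hl : LenLsc K K0)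
    (hd : ∃ c₀ : ℝ, 0 < c₀ ∧ ∀ n, ∀ x ∈ K n, ∀ r : ℝ, 0 < r → r ≤ 1 → closedBall x r ⊆ U n →
      lam n * r ≤ 1 → ENNReal.ofReal (c₀ * r) ≤ len (K n ∩ closedBall x r)) :
    ∀ x ∈ K0, ∀ r : ℝ, 0 < r → 0 < len (K0 ∩ ball x r) := by
  intro x hx r' hr'
  obtain ⟨c₀, hc₀, hd⟩ := hd
  refine lt_of_lt_of_le ?_ (len_mono (inter_subset_inter_right K0
    (ball_subset_ball (min_le_left r' 1))))
  have hr : 0 < Min.min r' 1 := lt_min hr' one_pos
  have hr1 : Min.min r' 1 ≤ 1 := min_le_right _ _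
  generalize Min.min r' 1 = r at hr hr1
  obtain ⟨s, hs, hsph⟩ := exists_good_radius (K := K0) (x := x) (R := r) (a := r / 2) (b := r)
    (h.len_fin hl x r) (by linarith) le_rfl
  have hs0 : 0 < s := (by positivity : (0:ℝ) < r / 2).trans hs.1
  have hlam : ∀ᶠ n in atTop, lam n * (r / 4) ≤ 1 := by
    have h1 : Tendsto (fun n => lam n * (r / 4)) atTop (𝓝 (0 * (r / 4))) := h.lam_lim.mul_const _
    rw [zero_mul] at h1
    exact (h1.eventually (gt_mem_nhds one_pos)).mono fun n hn => hn.le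
  have hev : ∀ᶠ n in atTop, ENNReal.ofReal (c₀ * (r / 4)) ≤ len (K n ∩ closedBall x s) := by
    filter_upwards [h.k2 x hx (r / 4) (by positivity), h.exh _ (isCompact_closedBall x r), hlam]
      with n h1 h2 h3
    obtain ⟨y, hyK, hyb⟩ := h1
    have hsub : closedBall y (r / 4) ⊆ closedBall x s := by
      apply closedBall_subset_closedBall'
      rw [mem_ball] at hyb
      linarith [hs.1]
    refine (hd n y hyK (r / 4) (by positivity) (by linarith) ?_ h3).trans
      (len_mono (inter_subset_inter_right _ hsub))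
    exact hsub.trans ((closedBall_subset_closedBall hs.2.le).trans h2)
  have h4 : ENNReal.ofReal (c₀ * (r / 4)) ≤ len (K0 ∩ closedBall x s) :=
    ge_of_tendsto (h.tendsto_len hl hs0 hsph) hev
  have h5 : 0 < ENNReal.ofReal (c₀ * (r / 4)) := ENNReal.ofReal_pos.2 (by positivity)
  exact (h5.trans_le h4).trans_le
    (len_mono (inter_subset_inter_right _ (closedBall_subset_ball hs.2)))

/-- **the limit is in the class** -/
theorem LimSeq.isQM (h : LimSeq U lam u K u0 K0) (hl : LenLsc K K0)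
    (hd : ∃ c₀ : ℝ, 0 < c₀ ∧ ∀ n, ∀ x ∈ K n, ∀ r : ℝ, 0 < r → r ≤ 1 → closedBall x r ⊆ U n →
      lam n * r ≤ 1 → ENNReal.ofReal (c₀ * r) ≤ len (K n ∩ closedBall x r)) :
    IsQM univ 0 u0 K0 where
  isOpen := isOpen_univ
  lam_nonneg := le_rfl
  sub := subset_univ _
  closed := by rw [inter_univ, h.closed.closure_eq]
  c1 := by rw [← compl_eq_univ_sdiff]; exact h.c1
  len_fin := fun x r _ => h.len_fin hl x r
  dir_fin := fun x r _ => h.dir_fin x r
  red := h.red hl hd
  min := fun x ρ hρ _ w L hc => by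
    rw [zero_mul, ENNReal.ofReal_zero, add_zero]
    exact h.min hl hρ hc
  el := ⟨fun _ => 0, measurable_const, fun x => by simp, fun φ hφ => by
    rw [h.el hl hφ]; simp⟩

/-! ### `Conv` -/

theorem LimSeq.volume_K0 (h : LimSeq U lam u K u0 K0) (hl : LenLsc K K0) : volume K0 = 0 := by
  apply measure_null_of_locally_null
  intro x _
  refine ⟨K0 ∩ closedBall x 1, ?_, ?_⟩
  · exact inter_mem_nhdsWithin K0 (closedBall_mem_nhds x one_pos)
  · exact volume_eq_zero_of_hausdorff_lt_top (h.len_fin hl x 1)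

theorem dirE_eq_of_null {w : E2 → ℝ} {L B : Set E2} (hL : volume L = 0) :
    dirE w L B = ∫⁻ y in B, ‖gradient w y‖ₑ ^ 2 := by
  unfold dirE
  apply setLIntegral_congr
  exact sdiff_null_ae_eq_self hL

theorem lintegral_sub_sq_tendsto {μ : Measure E2} {f : ℕ → E2 → E2} {g : E2 → E2}
    (hf : ∀ n, Measurable (f n)) (hg : Measurable g)
    (hlim : ∀ᵐ y ∂μ, Tendsto (fun n => f n y) atTop (𝓝 (g y)))
    (hfin : ∫⁻ y, ‖g y‖ₑ ^ 2 ∂μ ≠ ⊤)
    (hn : Tendsto (fun n => ∫⁻ y, ‖f n y‖ₑ ^ 2 ∂μ) atTop (𝓝 (∫⁻ y, ‖g y‖ₑ ^ 2 ∂μ))) :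
    Tendsto (fun n => ∫⁻ y, ‖f n y - g y‖ₑ ^ 2 ∂μ) atTop (𝓝 0) := by
  set a := ∫⁻ y, ‖g y‖ₑ ^ 2 ∂μ with ha
  -- the Fatou function
  set F : ℕ → E2 → ℝ≥0∞ := fun n y => ENNReal.ofReal (2 * ‖f n y‖ ^ 2 + 2 * ‖g y‖ ^ 2
    - ‖f n y - g y‖ ^ 2) with hF
  have hFm : ∀ n, Measurable (F n) := fun n => by
    have := hf n
    fun_prop
  have hpos : ∀ n y, 0 ≤ 2 * ‖f n y‖ ^ 2 + 2 * ‖g y‖ ^ 2 - ‖f n y - g y‖ ^ 2 := by
    intro n y
    have h1 := parallelogram_law_with_norm ℝ (f n y) (g y)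
    nlinarith [norm_nonneg (f n y + g y), sq_nonneg ‖f n y + g y‖]
  have hFsum : ∀ n y, F n y + ‖f n y - g y‖ₑ ^ 2 = 2 * ‖f n y‖ₑ ^ 2 + 2 * ‖g y‖ₑ ^ 2 := by
    intro n y
    have e : ∀ v : E2, ‖v‖ₑ ^ 2 = ENNReal.ofReal (‖v‖ ^ 2) := fun v => by
      rw [ENNReal.ofReal_pow (norm_nonneg _), ofReal_norm]
    have e2 : ∀ b : ℝ, (2 : ℝ≥0∞) * ENNReal.ofReal b = ENNReal.ofReal (2 * b) := fun b => by
      rw [ENNReal.ofReal_mul (by norm_num)]; simp
    rw [e, e, e, hF, e2, e2]
    simp only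
    rw [← ENNReal.ofReal_add (hpos n y) (by positivity), ← ENNReal.ofReal_add (by positivity)
      (by positivity)]
    congr 1
    ring
  have hInt : ∀ n, ∫⁻ y, F n y ∂μ + ∫⁻ y, ‖f n y - g y‖ₑ ^ 2 ∂μ =
      2 * ∫⁻ y, ‖f n y‖ₑ ^ 2 ∂μ + 2 * a := by
    intro n
    have hfn := hf n
    rw [← lintegral_add_left (hFm n)]
    simp_rw [hFsum]
    rw [lintegral_add_left (by fun_prop), lintegral_const_mul _ (by fun_prop),
      lintegral_const_mul _ (by fun_prop)]
  have hfatou : 4 * a ≤ liminf (fun n => ∫⁻ y, F n y ∂μ) atTop := by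
    refine le_trans ?_ (lintegral_liminf_le hFm)
    have e1 : 4 * a = ∫⁻ y, 4 * ‖g y‖ₑ ^ 2 ∂μ := by
      rw [lintegral_const_mul _ (by fun_prop)]
    rw [e1]
    apply lintegral_mono_ae
    filter_upwards [hlim] with y hy
    have h1 : Tendsto (fun n => F n y) atTop (𝓝 (ENNReal.ofReal (2 * ‖g y‖ ^ 2 + 2 * ‖g y‖ ^ 2
        - ‖g y - g y‖ ^ 2))) := by
      apply ENNReal.tendsto_ofReal
      exact (((hy.norm.pow 2).const_mul 2).add tendsto_const_nhds).sub
        ((hy.sub tendsto_const_nhds).norm.pow 2)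
    rw [h1.liminf_eq]
    have e : ‖g y‖ₑ ^ 2 = ENNReal.ofReal (‖g y‖ ^ 2) := by
      rw [ENNReal.ofReal_pow (norm_nonneg _), ofReal_norm]
    have e2 : ∀ b : ℝ, (4 : ℝ≥0∞) * ENNReal.ofReal b = ENNReal.ofReal (4 * b) := fun b => by
      rw [ENNReal.ofReal_mul (by norm_num)]; simp
    rw [e, e2]
    apply ENNReal.ofReal_le_ofReal
    simp
    linarith
  refine tendsto_of_sum_le (a := 0) (b := 4 * a) (bn := fun n => ∫⁻ y, F n y ∂μ) (zero_le) hfatou
    ENNReal.zero_ne_top (ENNReal.mul_ne_top (by simp) hfin) ?_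
  intro ε hε
  have h2 : Tendsto (fun n => 2 * ∫⁻ y, ‖f n y‖ₑ ^ 2 ∂μ + 2 * a) atTop (𝓝 (2 * a + 2 * a)) :=
    (ENNReal.Tendsto.const_mul hn (Or.inr (by simp))).add tendsto_const_nhds
  have h3 : 2 * a + 2 * a < 0 + 4 * a + ENNReal.ofReal ε := by
    have : 2 * a + 2 * a = 4 * a := by rw [← add_mul]; norm_num
    rw [this, zero_add]
    exact ENNReal.lt_add_right (ENNReal.mul_ne_top (by simp) hfin) (ENNReal.ofReal_pos.2 hε).ne'
  filter_upwards [h2.eventually (gt_mem_nhds h3)] with n hn'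
  rw [add_comm, hInt n]
  exact hn'.le

theorem LimSeq.conv (h : LimSeq U lam u K u0 K0) (hl : LenLsc K K0) : Conv u K u0 K0 where
  near := fun x hx ε hε => (h.k2 x hx ε hε).mono fun n hn => by
    obtain ⟨y, hy1, hy2⟩ := hn
    exact ⟨y, hy1, hy2⟩
  away := h.k1
  grad := fun C hC hd ε hε => by
    have hCK : C ⊆ K0ᶜ := fun y hy hyK => (disjoint_left.1 hd hy) hyK
    filter_upwards [h.eventually_grad hC hCK (half_pos hε)] with n hn y hy
    exact (hn y hy).trans_lt (half_lt_self hε)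
  l2 := fun R => by
    obtain ⟨s, hs, hsph⟩ := exists_good_radius (K := K0) (x := 0) (R := max R 0 + 1)
      (a := max R 0) (b := max R 0 + 1) (h.len_fin hl 0 _) (by linarith) le_rfl
    have hs0 : 0 < s := (le_max_right R 0).trans_lt hs.1
    have hRs : ball (0 : E2) R ⊆ closedBall 0 s :=
      ball_subset_closedBall.trans (closedBall_subset_closedBall ((le_max_left R 0).trans hs.1.le))
    have h1 : Tendsto (fun n => ∫⁻ y in closedBall (0 : E2) s,
        ‖gradient (u n) y - gradient u0 y‖ₑ ^ 2) atTop (𝓝 0) := by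
      apply lintegral_sub_sq_tendsto (fun n => measurable_gradient (u n)) (measurable_gradient u0)
      · have h2 : ∀ᵐ y ∂(volume : Measure E2), y ∉ K0 :=
          measure_eq_zero_iff_ae_notMem.1 (h.volume_K0 hl)
        filter_upwards [ae_restrict_of_ae h2] with y hy
        exact h.grad.tendsto_at hy
      · rw [← dirE_eq_of_null (h.volume_K0 hl)]
        exact (h.dir_fin 0 s).ne
      · have h2 := h.tendsto_dirE hl hs0 hsph
        rw [dirE_eq_of_null (h.volume_K0 hl)] at h2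
        simp_rw [fun n => dirE_eq_of_null (w := u n) (B := closedBall (0:E2) s) (h.qm n).volume_K]
          at h2
        exact h2
    refine tendsto_of_tendsto_of_tendsto_of_le_of_le tendsto_const_nhds h1 (fun n => zero_le)
      (fun n => lintegral_mono_set hRs)
  len := fun x R hsph => by
    rcases lt_or_ge 0 R with hR | hR
    · exact h.tendsto_len hl hR hsph
    · have h1 : ∀ L : Set E2, Crest.Agent.R135.len (L ∩ closedBall x R) = 0 := by
        intro L
        apply measure_mono_null (t := {x})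
        · rintro y ⟨-, hy⟩
          rw [mem_closedBall] at hy
          exact mem_singleton_iff.2 (dist_le_zero.1 (hy.trans hR))
        · have : NullSingletonClass (Measure.hausdorffMeasure 1 : Measure E2) :=
            Measure.nullSingletonClass_hausdorff E2 one_pos
          exact measure_singleton x
      simp_rw [h1]
      exact tendsto_const_nhds

end Crest.Agent.R135.Lim
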