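import Crest.Agent.R135.RegComp
import Crest.Agent.R135.PolarE

/-!
# Row 135 (Mumford-Shah): regularity and compactness off the crack in the class `IsQM`
(regularity toolbox, part 10)
-/

set_option autoImplicit false
open MeasureTheory Metric Set Filter Topology Laplacian InnerProductSpace
open scoped RealInnerProductSpace NNReal ENNReal ContDiff Gradient

namespace Crest.Agent.R135
open Crest.Agent.R097 Crest.AnalysisR.PDE.OnePhase Crest.Agent.R135.Reg Crest.Agent.R135.Gl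

/-- `C¹` functions on open sets are locally Lipschitz -/
theorem Reg.locLip_of_C1 {V : Set E2} (hV : IsOpen V) {u : E2 → ℝ}
    (hu : ContDiffOn ℝ 1 u V) : LocallyLipschitzOn V u := by
  intro x hx
  obtain ⟨K, t, ht, hK⟩ := (hu.contDiffAt (hV.mem_nhds hx)).exists_lipschitzOnWith
  exact ⟨K, t, mem_nhdsWithin_of_mem_nhds ht, hK⟩

/-- smooth test functions off the crack are admissible -/
theorem Reg.isTest_smooth {U K : Set E2} {φ : E2 → ℝ} (hφ : ContDiff ℝ ∞ φ)
    (hc : HasCompactSupport φ) (hs : tsupport φ ⊆ U) : IsTest U K φ := by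
  refine ⟨?_, ?_, ⟨tsupport φ, hc, hs, fun y hy => image_eq_zero_of_notMem_tsupport hy⟩, ?_⟩
  · have h : LocallyLipschitz φ := (hφ.of_le (by simp)).locallyLipschitz
    exact fun x _ => h.locallyLipschitzOn (by assumption)
  · obtain ⟨M, hM⟩ := hφ.continuous.bounded_above_of_compact_support hc
    exact ⟨M, fun y => by rw [← Real.norm_eq_abs]; exact hM y⟩
  · unfold dirE
    have hgc : Continuous (fun x => ∇ φ x) := continuous_grad hφ
    have hgcs : HasCompactSupport (fun x => ∇ φ x) :=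
      HasCompactSupport.of_support_subset_isCompact hc.isCompact (fun x hx => by
        by_contra h
        apply hx
        have : φ =ᶠ[𝓝 x] fun _ => (0 : ℝ) := by
          filter_upwards [(isClosed_tsupport φ).isOpen_compl.mem_nhds h] with y hy
          exact image_eq_zero_of_notMem_tsupport hy
        have h2 := this.gradient_eq
        exact h2.trans (gradient_const x 0))
    refine lt_of_le_of_lt (lintegral_mono_set (subset_univ _)) ?_
    rw [Measure.restrict_univ]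
    have h2 : MemLp (fun x => ∇ φ x) 2 := hgc.memLp_of_hasCompactSupport hgcs
    have h3 := h2.2
    rw [eLpNorm_lt_top_iff_lintegral_rpow_enorm_lt_top (by norm_num) (by norm_num)] at h3
    simpa using h3

/-- **weak equation off the crack** -/
theorem IsQM.wlap {U K : Set E2} {lam : ℝ} {u : E2 → ℝ} (h : IsQM U lam u K) :
    ∃ f : E2 → ℝ, Measurable f ∧ (∀ x, |f x| ≤ lam) ∧ WLap (U \ K) u f := by
  obtain ⟨f, hfm, hf, hel⟩ := h.el
  refine ⟨f, hfm, hf, ?_⟩
  have hV : IsOpen (U \ K) := isOpen_compl_of_relClosed h.isOpen h.closed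
  refine wlap_of_weakGrad (isWeakGradOn_of_locallyLipschitzOn hV
    (Reg.locLip_of_C1 hV h.c1)) ?_
  intro φ hφ hc hs
  have h1 := hel φ (Reg.isTest_smooth hφ hc (hs.trans sdiff_subset))
  rw [h1]
  congr 1
  refine setIntegral_eq_of_subset_of_forall_sdiff_eq_zero h.isOpen.measurableSet sdiff_subset ?_
  intro x hx
  have : x ∉ tsupport φ := fun hcon => hx.2 (hs hcon)
  rw [image_eq_zero_of_notMem_tsupport this, mul_zero]

/-- gradient bound: half ball, by the energy in the ball -/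
theorem IsQM.gradient_bound : ∃ C : ℝ, 0 < C ∧ ∀ {U K : Set E2} {lam : ℝ} {u : E2 → ℝ},
    IsQM U lam u K → ∀ (x : E2) (R E : ℝ), 0 < R → ball x R ⊆ U \ K → 0 ≤ E →
    dirE u K (ball x R) ≤ ENNReal.ofReal E →
    ∀ y ∈ ball x (R / 2), ‖∇ u y‖ ≤ C * √E / R + C * lam * R := by
  obtain ⟨C, hC, hb⟩ := fderiv_bound_L2
  refine ⟨C, hC, ?_⟩
  intro U K lam u h x R E hR hsub hE hE2 y hy
  obtain ⟨f, hfm, hf, hw⟩ := h.wlap
  rw [Crest.Agent.R097.norm_grad]
  refine hb u f x R lam E hR (h.c1.mono hsub) hfm.aestronglyMeasurable (fun y _ => hf y)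
    (hw.mono hsub) hE ?_ y hy
  unfold dirE at hE2
  have : ball x R \ K = ball x R := by
    ext z
    exact ⟨fun hz => hz.1, fun hz => ⟨hz, (hsub hz).2⟩⟩
  rw [this] at hE2
  simpa only [enorm_gradient] using hE2

/-- modulus of continuity of the gradient -/
theorem IsQM.gradient_modulus : ∃ C : ℝ, 0 < C ∧ ∀ {U K : Set E2} {lam : ℝ} {u : E2 → ℝ},
    IsQM U lam u K → ∀ (x : E2) (R M : ℝ), 0 < R → ball x R ⊆ U \ K →
    (∀ y ∈ ball x R, ‖∇ u y‖ ≤ M) →
    ∀ y ∈ ball x (R / 2), ∀ z ∈ ball x (R / 2),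
      ‖∇ u y - ∇ u z‖ ≤ C * (M + lam * R) * √(dist y z / R) := by
  obtain ⟨C, hC, hb⟩ := fderiv_modulus
  refine ⟨C, hC, ?_⟩
  intro U K lam u h x R M hR hsub hM y hy z hz
  obtain ⟨f, hfm, hf, hw⟩ := h.wlap
  rw [norm_gradient_sub]
  exact hb u f x R lam M hR (h.c1.mono hsub) hfm.aestronglyMeasurable (fun y _ => hf y)
    (hw.mono hsub) (fun y hy => by rw [← Crest.Agent.R097.norm_grad]; exact hM y hy) y hy z hz

/-- **Compactness off the crack for quasi-minimizers.** -/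
theorem IsQM.exists_limit {U K : ℕ → Set E2} {lam : ℕ → ℝ} {u : ℕ → E2 → ℝ}
    (h : ∀ n, IsQM (U n) (lam n) (u n) (K n)) (hlam : Tendsto lam atTop (𝓝 0))
    {W : Set E2} (hW : IsOpen W)
    (hVW : ∀ C, IsCompact C → C ⊆ W → ∀ᶠ n in atTop, C ⊆ U n \ K n)
    (hE : ∀ x ∈ W, ∃ r > 0, ∃ B : ℝ≥0∞, B < ⊤ ∧ ∀ᶠ n in atTop, dirE (u n) (K n) (ball x r) ≤ B) :
    ∃ φ : ℕ → ℕ, StrictMono φ ∧ ∃ v : E2 → ℝ, Harm v W ∧
      TendstoLocallyUniformlyOn (fun n x => u (φ n) x - u (φ n) (cpt0 W x)) v atTop W ∧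
      TendstoLocallyUniformlyOn (fun n x => ∇ (u (φ n)) x) (fun x => ∇ v x) atTop W := by
  choose f hfm hf hw using fun n => (h n).wlap
  refine Reg.exists_limit hW (V := fun n => U n \ K n) (f := f) (A := lam) hVW
    (fun n => (h n).c1) (fun n => (hfm n).aestronglyMeasurable) (fun n x _ => hf n x) hlam hw ?_
  intro x hx
  obtain ⟨r, hr, B, hB, hBn⟩ := hE x hx
  refine ⟨r, hr, B, hB, ?_⟩
  filter_upwards [hBn] with n hn
  refine le_trans (lintegral_mono_set ?_) hn
  rintro y ⟨hy1, hy2⟩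
  exact ⟨hy1, hy2.2⟩

/-- harmonicity of `u` off the crack when `lam = 0` -/
theorem IsQM.harm {U K : Set E2} {u : E2 → ℝ} (h : IsQM U 0 u K) : Harm u (U \ K) := by
  obtain ⟨f, hfm, hf, hw⟩ := h.wlap
  have h0 : ∀ x, f x = 0 := fun x => abs_nonpos_iff.mp (hf x)
  refine Crest.Agent.R097.weyl_cont (isOpen_compl_of_relClosed h.isOpen h.closed)
    h.c1.continuousOn ?_
  intro φ hφ hc hs
  rw [hw φ hφ hc hs]
  simp [h0]

end Crest.Agent.R135
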