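import Crest.Agent.R135.IFDefs
import Crest.Agent.R135.LimF
import Crest.Agent.R135.Conc4
import Crest.Agent.R135.RegQM
import Crest.Agent.R135.Fell

/-! INTERFACE B3: compactness theorem (proved by helper517 on top of Lim*, Conc4, RegQM, Fell). -/

set_option autoImplicit false

open MeasureTheory Set Filter Topology Metric
open scoped ENNReal NNReal ContDiff Gradient
open Crest.AnalysisR.PDE.OnePhase Crest.AnalysisR.PDE.MumfordShah

namespace Crest.Agent.R135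

open Lim

theorem Lim.exists_limSeq {Uk : ℕ → Set E2} {lamk : ℕ → ℝ} {uk : ℕ → E2 → ℝ} {Kk : ℕ → Set E2}
    (h : ∀ k, IsQM (Uk k) (lamk k) (uk k) (Kk k))
    (hU : ∀ R : ℝ, ∀ᶠ k in atTop, closedBall (0 : E2) R ⊆ Uk k)
    (hlam : Tendsto lamk atTop (𝓝 0)) :
    ∃ φ : ℕ → ℕ, StrictMono φ ∧ ∃ (u : E2 → ℝ) (K : Set E2),
      LimSeq (fun k => Uk (φ k)) (fun k => lamk (φ k)) (fun k => uk (φ k)) (fun k => Kk (φ k)) u K := by
  obtain ⟨φ1, hφ1, K, hK⟩ := exists_fell_subseq Kk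
  have hexh : ∀ C : Set E2, IsCompact C → ∀ᶠ k in atTop, C ⊆ Uk k := by
    intro C hC
    obtain ⟨R, hR⟩ := hC.isBounded.subset_closedBall 0
    exact (hU R).mono fun k hk => hR.trans hk
  have hVW : ∀ C, IsCompact C → C ⊆ Kᶜ → ∀ᶠ n in atTop, C ⊆ Uk (φ1 n) \ Kk (φ1 n) := by
    intro C hC hCK
    filter_upwards [hφ1.tendsto_atTop.eventually (hexh C hC),
      hK.away C hC (disjoint_left.2 fun x hx => hCK hx)] with n h1 h2
    exact fun x hx => ⟨h1 hx, fun hx' => (disjoint_left.1 h2 hx) hx'⟩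
  have hlam1 : Tendsto (fun n => lamk (φ1 n)) atTop (𝓝 0) := hlam.comp hφ1.tendsto_atTop
  obtain ⟨φ2, hφ2, v, hv, -, hg⟩ := IsQM.exists_limit (fun n => h (φ1 n)) hlam1
    hK.closed.isOpen_compl hVW (by
      intro x _
      refine ⟨1, one_pos, ENNReal.ofReal (2 * Real.pi * 1 + 1 * 1 ^ 2), ENNReal.ofReal_lt_top, ?_⟩
      filter_upwards [hφ1.tendsto_atTop.eventually (hexh _ (isCompact_closedBall x 1)),
        hlam1.eventually (gt_mem_nhds one_pos)] with n h1 h2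
      have h3 := ((h (φ1 n)).energy_le one_pos h1).trans (ENNReal.ofReal_le_ofReal
        (show 2 * Real.pi * 1 + lamk (φ1 n) * 1 ^ 2 ≤ 2 * Real.pi * 1 + 1 * 1 ^ 2 by linarith))
      refine (dirE_mono ball_subset_closedBall).trans (le_trans ?_ h3)
      unfold enE
      exact le_self_add)
  refine ⟨φ1 ∘ φ2, hφ1.comp hφ2, v, K, ?_⟩
  exact
    { qm := fun n => h _
      lam_lim := hlam1.comp hφ2.tendsto_atTop
      exh := fun C hC => (hφ1.comp hφ2).tendsto_atTop.eventually (hexh C hC)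
      closed := hK.closed
      c1 := hv.1.of_le (by simp)
      k1 := fun C hC hd => hφ2.tendsto_atTop.eventually (hK.away C hC hd)
      k2 := fun x hx r hr => by
        filter_upwards [hφ2.tendsto_atTop.eventually (hK.near x hx r hr)] with n hn
        obtain ⟨y, hy, hyd⟩ := hn
        exact ⟨y, hy, hyd⟩
      grad := hg }

theorem Lim.LimSeq.lenLsc {U : ℕ → Set E2} {lam : ℕ → ℝ} {u : ℕ → E2 → ℝ} {K : ℕ → Set E2}
    {u0 : E2 → ℝ} {K0 : Set E2} (h : LimSeq U lam u K u0 K0) : LenLsc K K0 := by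
  intro V hV
  apply len_le_liminf h.qm hV
  · rintro x ⟨hx, -⟩ ε hε
    filter_upwards [h.k2 x hx ε hε] with n hn
    obtain ⟨y, hy, hyd⟩ := hn
    exact ⟨y, hy, hyd⟩
  · rintro x ⟨hx, -⟩
    refine ⟨1, one_pos, 1, ?_⟩
    filter_upwards [h.exh _ (isCompact_closedBall x 1), h.lam_lim.eventually (gt_mem_nhds one_pos)]
      with n h1 h2
    exact ⟨h1, h2.le⟩

theorem Lim.LimSeq.isQM' {U : ℕ → Set E2} {lam : ℕ → ℝ} {u : ℕ → E2 → ℝ} {K : ℕ → Set E2}
    {u0 : E2 → ℝ} {K0 : Set E2} (h : LimSeq U lam u K u0 K0) : IsQM univ 0 u0 K0 := by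
  apply h.isQM h.lenLsc
  obtain ⟨c₀, hc₀, hd⟩ := density_lower_small
  exact ⟨c₀, hc₀, fun n x hx r hr hr1 hU hl => hd (h.qm n) x hx r hr hr1 hU hl⟩

theorem compactness {Uk : ℕ → Set E2} {lamk : ℕ → ℝ} {uk : ℕ → E2 → ℝ} {Kk : ℕ → Set E2}
    (h : ∀ k, IsQM (Uk k) (lamk k) (uk k) (Kk k))
    (hU : ∀ R : ℝ, ∀ᶠ k in atTop, closedBall (0 : E2) R ⊆ Uk k)
    (hlam : Tendsto lamk atTop (𝓝 0)) :
    ∃ φ : ℕ → ℕ, StrictMono φ ∧ ∃ (u : E2 → ℝ) (K : Set E2), IsQM univ 0 u K ∧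
      Conv (fun k => uk (φ k)) (fun k => Kk (φ k)) u K := by
  obtain ⟨φ, hφ, u, K, hs⟩ := exists_limSeq h hU hlam
  exact ⟨φ, hφ, u, K, hs.isQM', hs.conv hs.lenLsc⟩

/-- L² norm, as an extended nonnegative real -/
noncomputable def Lim.nrm2 (μ : Measure E2) (f : E2 → E2) : ℝ≥0∞ :=
  (∫⁻ y, ‖f y‖ₑ ^ (2 : ℝ) ∂μ) ^ (1 / 2 : ℝ)

theorem Lim.nrm2_add_le {μ : Measure E2} {f g : E2 → E2} (hf : Measurable f) (hg : Measurable g) :
    nrm2 μ (fun y => f y + g y) ≤ nrm2 μ f + nrm2 μ g := by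
  unfold nrm2
  refine le_trans ?_ (ENNReal.lintegral_Lp_add_le (μ := μ) (p := 2) (f := fun y => ‖f y‖ₑ)
    (g := fun y => ‖g y‖ₑ) hf.enorm.aemeasurable hg.enorm.aemeasurable (by norm_num))
  gcongr with y
  exact enorm_add_le _ _

theorem Lim.nrm2_sq {μ : Measure E2} {f : E2 → E2} : nrm2 μ f ^ 2 = ∫⁻ y, ‖f y‖ₑ ^ 2 ∂μ := by
  unfold nrm2
  rw [← ENNReal.rpow_natCast, ← ENNReal.rpow_mul]
  norm_num

theorem Lim.tendsto_lintegral_sq_of_sub {μ : Measure E2} {f : ℕ → E2 → E2} {g : E2 → E2}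
    (hf : ∀ n, Measurable (f n)) (hg : Measurable g) (hfin : ∫⁻ y, ‖g y‖ₑ ^ 2 ∂μ ≠ ⊤)
    (h : Tendsto (fun n => ∫⁻ y, ‖f n y - g y‖ₑ ^ 2 ∂μ) atTop (𝓝 0)) :
    Tendsto (fun n => ∫⁻ y, ‖f n y‖ₑ ^ 2 ∂μ) atTop (𝓝 (∫⁻ y, ‖g y‖ₑ ^ 2 ∂μ)) := by
  have h1 : Tendsto (fun n => nrm2 μ (fun y => f n y - g y)) atTop (𝓝 0) := by
    have h2 : Tendsto (fun n => (∫⁻ y, ‖f n y - g y‖ₑ ^ 2 ∂μ) ^ (1 / 2 : ℝ)) atTop
        (𝓝 (0 ^ (1 / 2 : ℝ))) := (ENNReal.continuous_rpow_const.tendsto _).comp h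
    rw [ENNReal.zero_rpow_of_pos (by norm_num)] at h2
    refine h2.congr fun n => ?_
    unfold nrm2
    congr 2
    ext y
    rw [← ENNReal.rpow_natCast]
    norm_num
  have hgn : nrm2 μ g ≠ ⊤ := by
    intro h3
    have := nrm2_sq (μ := μ) (f := g)
    rw [h3] at this
    simp only [ne_eq, OfNat.ofNat_ne_zero, not_false_eq_true, ENNReal.top_pow] at this
    exact hfin this.symm
  have h4 : Tendsto (fun n => nrm2 μ (f n)) atTop (𝓝 (nrm2 μ g)) := by
    rw [ENNReal.tendsto_nhds hgn]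
    intro ε hε
    filter_upwards [(ENNReal.tendsto_nhds_zero.1 h1) ε hε] with n hn
    constructor
    · rw [tsub_le_iff_right]
      have h5 := nrm2_add_le (μ := μ) (f := f n) (g := fun y => g y - f n y) (hf n)
        (hg.sub (hf n))
      have h6 : (fun y => f n y + (g y - f n y)) = g := by ext1 y; abel
      rw [h6] at h5
      refine h5.trans ?_
      gcongr
      refine le_trans (le_of_eq ?_) hn
      unfold nrm2
      congr 2
      ext y
      rw [← enorm_neg, neg_sub]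
    · have h5 := nrm2_add_le (μ := μ) (f := fun y => f n y - g y) (g := g) ((hf n).sub hg) hg
      have h6 : (fun y => f n y - g y + g y) = f n := by ext1 y; abel
      rw [h6, add_comm] at h5
      refine h5.trans ?_
      gcongr
  have h7 := (ENNReal.continuous_pow 2).tendsto (nrm2 μ g) |>.comp h4
  rw [nrm2_sq] at h7
  refine h7.congr fun n => ?_
  simp only [Function.comp_apply]
  exact nrm2_sq

/-- convergence of the Dirichlet energies on all balls -/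
theorem Conv.tendsto_Dr {uk : ℕ → E2 → ℝ} {Kk : ℕ → Set E2} {u : E2 → ℝ} {K : Set E2}
    (hc : Conv uk Kk u K) (hk : ∀ k, volume (Kk k) = 0) (hK : volume K = 0)
    (hfin : ∀ x r, dirE u K (closedBall x r) < ⊤) (x : E2) (r : ℝ) :
    Tendsto (fun k => Dr (uk k) (Kk k) x r) atTop (𝓝 (Dr u K x r)) := by
  have hfin' : dirE u K (ball x r) ≠ ⊤ :=
    ((dirE_mono ball_subset_closedBall).trans_lt (hfin x r)).ne
  unfold Dr
  refine (ENNReal.tendsto_toReal hfin').comp ?_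
  rw [dirE_eq_of_null hK] at hfin' ⊢
  simp_rw [fun k => dirE_eq_of_null (w := uk k) (B := ball x r) (hk k)]
  apply tendsto_lintegral_sq_of_sub (fun k => measurable_gradient (uk k)) (measurable_gradient u)
    hfin'
  have hsub : ball x r ⊆ ball (0 : E2) (‖x‖ + |r| + 1) := by
    intro y hy
    rw [mem_ball] at hy
    rw [mem_ball, dist_zero_right]
    have h1 : ‖y‖ ≤ dist y x + ‖x‖ := by
      rw [dist_eq_norm]
      calc ‖y‖ = ‖(y - x) + x‖ := by rw [sub_add_cancel]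
        _ ≤ _ := norm_add_le _ _
    have := le_abs_self r
    linarith
  exact tendsto_of_tendsto_of_tendsto_of_le_of_le tendsto_const_nhds (hc.l2 (‖x‖ + |r| + 1))
    (fun n => zero_le) (fun n => lintegral_mono_set hsub)

end Crest.Agent.R135
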