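import Crest.Agent.R135.CT3
import Crest.Agent.R135.IF_B3

/-!
# R135: blow-up and blow-down extraction with moving centres (helper270)

Everything is a consequence of `compactness` (interface B3).
-/

set_option autoImplicit false

open MeasureTheory Set Filter Topology Metric
open scoped ENNReal NNReal ContDiff Gradient

namespace Crest.Agent.R135

theorem closedBall_subset_rescK {U : Set E2} {x : E2} {r R : ℝ} (hr : 0 < r)
    (h : closedBall x (r * R) ⊆ U) : closedBall (0 : E2) R ⊆ rescK U x r := by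
  rw [closedBall_eq_rescK x 0 hr R]
  refine rescK_mono ?_ x r
  simpa [scm] using h

/-- **(CT3)** blow-up of a sequence of quasi-minimizers with moving centres -/
theorem ct_extract {Uk : ℕ → Set E2} {lamk : ℕ → ℝ} {uk : ℕ → E2 → ℝ} {Kk : ℕ → Set E2}
    (h : ∀ k, IsQM (Uk k) (lamk k) (uk k) (Kk k)) {xk : ℕ → E2} {rk : ℕ → ℝ}
    (hr : ∀ k, 0 < rk k)
    (hlam : Tendsto (fun k => rk k * lamk k * (1 + √(rk k))) atTop (𝓝 0))
    (hd : ∀ R : ℝ, ∀ᶠ k in atTop, closedBall (xk k) (rk k * R) ⊆ Uk k) :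
    ∃ φ : ℕ → ℕ, StrictMono φ ∧ ∃ (u : E2 → ℝ) (K : Set E2), IsQM univ 0 u K ∧
      Conv (fun k => rescF (uk (φ k)) (xk (φ k)) (rk (φ k)))
        (fun k => rescK (Kk (φ k)) (xk (φ k)) (rk (φ k))) u K := by
  have h0 : ∀ k, IsQM (rescK (Uk k) (xk k) (rk k)) (rk k * lamk k * (1 + √(rk k)))
      (rescF (uk k) (xk k) (rk k)) (rescK (Kk k) (xk k) (rk k)) := by
    intro k
    have h1 := (h k).lam_nonneg
    have h2 := hr k
    have h3 := Real.sqrt_nonneg (rk k)
    refine (h k).resc' (xk k) h2 ?_ ?_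
    · nlinarith [mul_nonneg (mul_nonneg h2.le h1) h3]
    · nlinarith [mul_nonneg h2.le h1]
  exact compactness h0 (fun R => (hd R).mono fun k hk => closedBall_subset_rescK (hr k) hk) hlam

/-- blow-up of one quasi-minimizer at moving centres, scales tending to zero -/
theorem ct_blowup {U : Set E2} {lam : ℝ} {u : E2 → ℝ} {K : Set E2} (h : IsQM U lam u K)
    {xk : ℕ → E2} {rk : ℕ → ℝ} (hr : ∀ k, 0 < rk k) (hr0 : Tendsto rk atTop (𝓝 0))
    (hd : ∀ R : ℝ, ∀ᶠ k in atTop, closedBall (xk k) (rk k * R) ⊆ U) :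
    ∃ φ : ℕ → ℕ, StrictMono φ ∧ ∃ (u' : E2 → ℝ) (K' : Set E2), IsQM univ 0 u' K' ∧
      Conv (fun k => rescF u (xk (φ k)) (rk (φ k)))
        (fun k => rescK K (xk (φ k)) (rk (φ k))) u' K' := by
  refine ct_extract (Uk := fun _ => U) (lamk := fun _ => lam) (uk := fun _ => u)
    (Kk := fun _ => K) (fun _ => h) hr ?_ hd
  have h1 : Tendsto (fun k => √(rk k)) atTop (𝓝 0) := by
    have h2 := (Real.continuous_sqrt.tendsto 0).comp hr0
    rw [Real.sqrt_zero] at h2
    exact h2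
  have h2 := (hr0.mul_const lam).mul (h1.const_add 1)
  simpa using h2

/-- balls with centres in a slightly smaller ball are inside `U` at small scales -/
theorem ct_inside {U : Set E2} {x₀ : E2} {R₀ R₁ : ℝ} (hR : R₁ < R₀) (hU : closedBall x₀ R₀ ⊆ U)
    {xk : ℕ → E2} {rk : ℕ → ℝ} (hx : ∀ᶠ k in atTop, xk k ∈ closedBall x₀ R₁)
    (hr0 : Tendsto rk atTop (𝓝 0)) (R : ℝ) :
    ∀ᶠ k in atTop, closedBall (xk k) (rk k * R) ⊆ U := by
  have h1 : Tendsto (fun k => rk k * R) atTop (𝓝 0) := by simpa using hr0.mul_const R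
  filter_upwards [hx, h1.eventually (gt_mem_nhds (sub_pos.2 hR))] with k hk1 hk2
  refine subset_trans (closedBall_subset_closedBall' ?_) hU
  have := mem_closedBall.1 hk1
  linarith

/-- **(CT1)** blow-up with centres in a closed ball strictly inside -/
theorem ct_blowup_ball {U : Set E2} {lam : ℝ} {u : E2 → ℝ} {K : Set E2} (h : IsQM U lam u K)
    {x₀ : E2} {R₀ R₁ : ℝ} (hR : R₁ < R₀) (hU : closedBall x₀ R₀ ⊆ U)
    {xk : ℕ → E2} {rk : ℕ → ℝ} (hr : ∀ k, 0 < rk k) (hr0 : Tendsto rk atTop (𝓝 0))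
    (hx : ∀ᶠ k in atTop, xk k ∈ closedBall x₀ R₁) :
    ∃ φ : ℕ → ℕ, StrictMono φ ∧ ∃ (u' : E2 → ℝ) (K' : Set E2), IsQM univ 0 u' K' ∧
      Conv (fun k => rescF u (xk (φ k)) (rk (φ k)))
        (fun k => rescK K (xk (φ k)) (rk (φ k))) u' K' :=
  ct_blowup h hr hr0 (ct_inside hR hU hx hr0)

/-- **(CT2)** blow-up / blow-down of a global object, arbitrary centres and scales -/
theorem ct_global {u : E2 → ℝ} {K : Set E2} (h : IsQM univ 0 u K)
    {xk : ℕ → E2} {rk : ℕ → ℝ} (hr : ∀ k, 0 < rk k) :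
    ∃ φ : ℕ → ℕ, StrictMono φ ∧ ∃ (u' : E2 → ℝ) (K' : Set E2), IsQM univ 0 u' K' ∧
      Conv (fun k => rescF u (xk (φ k)) (rk (φ k)))
        (fun k => rescK K (xk (φ k)) (rk (φ k))) u' K' := by
  refine ct_extract (Uk := fun _ => univ) (lamk := fun _ => 0) (uk := fun _ => u)
    (Kk := fun _ => K) (fun _ => h) hr ?_ (fun R => Eventually.of_forall fun _ => subset_univ _)
  simp

/-! ### reading the convergence of rescalings at the original scale -/

section Read

variable {Uk : ℕ → Set E2} {lamk : ℕ → ℝ} {uk : ℕ → E2 → ℝ} {Kk : ℕ → Set E2}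
  {xk : ℕ → E2} {rk : ℕ → ℝ} {u : E2 → ℝ} {K : Set E2}

theorem volume_rescK_zero {K : Set E2} (hK : volume K = 0) (x : E2) {r : ℝ} (hr : 0 < r) :
    volume (rescK K x r) = 0 := by
  have h := lintegral_scm x hr (fun _ => 1) K
  rw [lintegral_one, lintegral_one, Measure.restrict_apply_univ, Measure.restrict_apply_univ, hK,
    mul_zero] at h
  exact h

/-- Dirichlet energy at the original scale, with moving point and radius -/
theorem Conv.tendsto_Dr_resc (hr : ∀ k, 0 < rk k) (hk : ∀ k, volume (Kk k) = 0)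
    (hq : IsQM univ 0 u K)
    (hc : Conv (fun k => rescF (uk k) (xk k) (rk k)) (fun k => rescK (Kk k) (xk k) (rk k)) u K)
    {yk : ℕ → E2} {y : E2} {sk : ℕ → ℝ} {s : ℝ} (hy : Tendsto yk atTop (𝓝 y))
    (hs : Tendsto sk atTop (𝓝 s)) :
    Tendsto (fun k => (rk k)⁻¹ * Dr (uk k) (Kk k) (xk k + rk k • yk k) (rk k * sk k)) atTop
      (𝓝 (Dr u K y s)) := by
  have h1 := hc.tendsto_Dr_moving (fun k => volume_rescK_zero (hk k) (xk k) (hr k)) hq.volume_K
    (fun x r => hq.dir_fin x r (subset_univ _)) hy hs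
  refine h1.congr fun k => ?_
  exact Dr_resc (uk k) (Kk k) (xk k) (yk k) (hr k)

/-- length at the original scale, with moving point and radius -/
theorem Conv.tendsto_Lr_resc (hr : ∀ k, 0 < rk k) (hq : IsQM univ 0 u K)
    (hc : Conv (fun k => rescF (uk k) (xk k) (rk k)) (fun k => rescK (Kk k) (xk k) (rk k)) u K)
    {yk : ℕ → E2} {y : E2} {sk : ℕ → ℝ} {s : ℝ} (hy : Tendsto yk atTop (𝓝 y))
    (hs : Tendsto sk atTop (𝓝 s)) (h0 : Crest.Agent.R135.len (K ∩ sphere y s) = 0) :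
    Tendsto (fun k => (rk k)⁻¹ * Lr (Kk k) (xk k + rk k • yk k) (rk k * sk k)) atTop
      (𝓝 (Lr K y s)) := by
  have h1 := hc.tendsto_Lr_moving (fun x r => hq.len_fin x r (subset_univ _)) hq.measurable_K
    hy hs h0
  refine h1.congr fun k => ?_
  exact Lr_resc (Kk k) (xk k) (yk k) (hr k) (sk k)

/-- upper bound for the length at the original scale, no condition on the sphere -/
theorem Conv.eventually_Lr_resc_lt (hr : ∀ k, 0 < rk k) (hq : IsQM univ 0 u K)
    (hc : Conv (fun k => rescF (uk k) (xk k) (rk k)) (fun k => rescK (Kk k) (xk k) (rk k)) u K)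
    {yk : ℕ → E2} {y : E2} {sk : ℕ → ℝ} {s M : ℝ} (hy : Tendsto yk atTop (𝓝 y))
    (hs : Tendsto sk atTop (𝓝 s)) (hM : Lr K y s < M) :
    ∀ᶠ k in atTop, Lr (Kk k) (xk k + rk k • yk k) (rk k * sk k) < M * rk k := by
  filter_upwards [hc.eventually_Lr_lt (fun x r => hq.len_fin x r (subset_univ _)) hq.measurable_K
    hy hs hM] with k hk
  have h1 := Lr_resc (Kk k) (xk k) (yk k) (hr k) (sk k)
  rw [h1] at hk
  have h2 := hr k
  rw [inv_mul_lt_iff₀ h2, mul_comm (rk k) M] at hk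
  exact hk

/-- closeness at the original scale -/
theorem HClose.of_resc {ε R r : ℝ} (hr : 0 < r) {x y : E2} {A B : Set E2}
    (h : HClose ε y R (rescK A x r) (rescK B x r)) :
    HClose (ε * r) (x + r • y) (r * R) A B := by
  have key : ∀ A B : Set E2, (∀ a ∈ rescK A x r ∩ ball y R, ∃ z ∈ rescK B x r, dist a z < ε) →
      ∀ a ∈ A ∩ ball (x + r • y) (r * R), ∃ z ∈ B, dist a z < ε * r := by
    intro A B h a ha
    have h1 : scI x r a ∈ rescK A x r := by
      rw [mem_rescK', scm_scI x hr.ne']; exact ha.1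
    have h2 : scI x r a ∈ ball y R := by
      rw [ball_eq_rescK x y hr R, mem_rescK', scm_scI x hr.ne']; exact ha.2
    obtain ⟨z, hz, hd⟩ := h _ ⟨h1, h2⟩
    refine ⟨scm x r z, hz, ?_⟩
    have h3 := dist_scm x r (scI x r a) z
    rw [scm_scI x hr.ne', abs_of_pos hr] at h3
    rw [h3, mul_comm]
    exact mul_lt_mul_of_pos_right hd hr
  exact ⟨key A B h.1, key B A h.2⟩

/-- closeness at the original scale to the inverse rescaling of the limit -/
theorem Conv.eventually_hclose_resc (hr : ∀ k, 0 < rk k) (hq : IsQM univ 0 u K)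
    (hc : Conv (fun k => rescF (uk k) (xk k) (rk k)) (fun k => rescK (Kk k) (xk k) (rk k)) u K)
    (y : E2) (R : ℝ) {ε : ℝ} (hε : 0 < ε) :
    ∀ᶠ k in atTop, HClose (ε * rk k) (xk k + rk k • y) (rk k * R) (Kk k)
      (scm (xk k) (rk k) '' K) := by
  filter_upwards [hc.hclose hq.isClosed_univ y R hε] with k hk
  refine HClose.of_resc (hr k) ?_
  have h1 : rescK (scm (xk k) (rk k) '' K) (xk k) (rk k) = K := by
    rw [rescK_eq_preimage, preimage_image_eq]
    intro a b hab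
    have := congrArg (scI (xk k) (rk k)) hab
    rwa [scI_scm _ (hr k).ne', scI_scm _ (hr k).ne'] at this
  rw [h1]
  exact hk

/-- the centre belongs to the limit crack if the centres are in the cracks -/
theorem Conv.zero_mem_of_center {u : E2 → ℝ} {K : Set E2}
    (hc : Conv (fun k => rescF (uk k) (xk k) (rk k)) (fun k => rescK (Kk k) (xk k) (rk k)) u K)
    (hK : IsClosed K) (hx : ∃ᶠ k in atTop, xk k ∈ Kk k) : (0 : E2) ∈ K := by
  refine hc.mem_of_tendsto hK tendsto_id (y := fun _ => 0) ?_ tendsto_const_nhds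
  refine hx.mono fun k hk => ?_
  simpa [mem_rescK] using hk

/-- limits of rescaled points of the cracks -/
theorem Conv.mem_of_points (hr : ∀ k, 0 < rk k)
    (hc : Conv (fun k => rescF (uk k) (xk k) (rk k)) (fun k => rescK (Kk k) (xk k) (rk k)) u K)
    (hK : IsClosed K) {pk : ℕ → E2} (hp : ∃ᶠ k in atTop, pk k ∈ Kk k) {y : E2}
    (hy : Tendsto (fun k => (rk k)⁻¹ • (pk k - xk k)) atTop (𝓝 y)) : y ∈ K := by
  refine hc.mem_of_tendsto hK tendsto_id (y := fun k => (rk k)⁻¹ • (pk k - xk k)) ?_ hy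
  refine hp.mono fun k hk => ?_
  have : scm (xk k) (rk k) (scI (xk k) (rk k) (pk k)) = pk k := scm_scI _ (hr k).ne' _
  rw [id, mem_rescK']
  show scm (xk k) (rk k) (scI (xk k) (rk k) (pk k)) ∈ Kk k
  rw [this]; exact hk

/-- existence of points of the cracks near the blown-up positions -/
theorem Conv.exists_points (hr : ∀ k, 0 < rk k)
    (hc : Conv (fun k => rescF (uk k) (xk k) (rk k)) (fun k => rescK (Kk k) (xk k) (rk k)) u K)
    {y : E2} (hy : y ∈ K) :
    ∃ pk : ℕ → E2, (∀ᶠ k in atTop, pk k ∈ Kk k) ∧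
      Tendsto (fun k => (rk k)⁻¹ • (pk k - xk k)) atTop (𝓝 y) := by
  obtain ⟨yk, h1, h2⟩ := hc.exists_seq hy
  refine ⟨fun k => scm (xk k) (rk k) (yk k), h1, h2.congr fun k => ?_⟩
  exact (scI_scm (xk k) (hr k).ne' (yk k)).symm

end Read

end Crest.Agent.R135
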