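import Mathlib
import Crest.Agent.R135.IF_A2
import Crest.Agent.R135.IF_B1
import Crest.Agent.R135.IF_B3

/-!
# R135: classification of the density `D(x,r)/r` of global objects (helper804)

Inputs, passed as hypotheses: monotonicity of `Dr u K x r / r` (`MonoStmt`) and the cone theorem
(`ConeStmt`).
-/

set_option autoImplicit false

open MeasureTheory Set Filter Topology Metric
open scoped ENNReal NNReal ContDiff Gradient

namespace Crest.Agent.R135

/-- monotonicity formula for global minimizers -/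
def MonoStmt : Prop := ∀ (u : E2 → ℝ) (K : Set E2), IsQM univ 0 u K → ∀ x : E2,
  MonotoneOn (fun r => Dr u K x r / r) (Ioi 0)

/-- the density of a homogeneous global minimizer is `0` or `1` -/
def ConeStmt : Prop := ∀ (u : E2 → ℝ) (K : Set E2) (x : E2) (e : ℝ), IsQM univ 0 u K → 0 < e →
  (∀ r : ℝ, 0 < r → Dr u K x r = e * r) → e = 1

namespace Cls

lemma Dr_nonneg (u : E2 → ℝ) (K : Set E2) (x : E2) (r : ℝ) : 0 ≤ Dr u K x r :=
  ENNReal.toReal_nonneg

lemma dirE_ball_lt_top {u : E2 → ℝ} {K : Set E2} (h : IsQM univ 0 u K) (x : E2) (r : ℝ) :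
    dirE u K (ball x r) < ⊤ :=
  h.dir_fin_ball (subset_univ _)

lemma dirE_closedBall_lt_top {u : E2 → ℝ} {K : Set E2} (h : IsQM univ 0 u K) (x : E2) (r : ℝ) :
    dirE u K (closedBall x r) < ⊤ :=
  h.dir_fin x r (subset_univ _)

lemma dirE_mono {u : E2 → ℝ} {K B B' : Set E2} (hB : B ⊆ B') : dirE u K B ≤ dirE u K B' :=
  lintegral_mono_set (sdiff_subset_sdiff_left hB)

lemma Dr_le {u : E2 → ℝ} {K : Set E2} (h : IsQM univ 0 u K) (x : E2) {r : ℝ} (hr : 0 < r) :
    Dr u K x r ≤ 2 * Real.pi * r := by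
  have h1 := h.energy_le hr (subset_univ (closedBall x r))
  rw [zero_mul, add_zero] at h1
  have h2 : dirE u K (ball x r) ≤ ENNReal.ofReal (2 * Real.pi * r) :=
    (dirE_mono ball_subset_closedBall).trans (le_self_add.trans h1)
  have h3 := ENNReal.toReal_mono ENNReal.ofReal_ne_top h2
  rwa [ENNReal.toReal_ofReal (by positivity)] at h3

lemma Dr_mono {u : E2 → ℝ} {K : Set E2} (h : IsQM univ 0 u K) (x : E2) {r s : ℝ} (hrs : r ≤ s) :
    Dr u K x r ≤ Dr u K x s :=
  ENNReal.toReal_mono (dirE_ball_lt_top h x s).ne (dirE_mono (ball_subset_ball hrs))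

/-- blow-ups / blow-downs along which the density converges are cones -/
theorem exists_cone_limit {u : E2 → ℝ} {K : Set E2} (h : IsQM univ 0 u K) (x : E2) {r : ℕ → ℝ}
    (hr : ∀ k, 0 < r k) {e : ℝ}
    (he : ∀ s : ℝ, 0 < s → Tendsto (fun k => Dr u K x (r k * s) / (r k * s)) atTop (𝓝 e)) :
    ∃ φ : ℕ → ℕ, StrictMono φ ∧ ∃ (u' : E2 → ℝ) (K' : Set E2), IsQM univ 0 u' K' ∧
      Conv (fun k => rescF u x (r (φ k))) (fun k => rescK K x (r (φ k))) u' K' ∧
      ∀ s : ℝ, 0 < s → Dr u' K' 0 s = e * s := by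
  have h0 : ∀ k, IsQM univ 0 (rescF u x (r k)) (rescK K x (r k)) := fun k =>
    h.resc_univ x (hr k)
  obtain ⟨φ, hφ, u', K', hu', hc⟩ := compactness (Uk := fun _ => univ) (lamk := fun _ => 0)
    (uk := fun k => rescF u x (r k)) (Kk := fun k => rescK K x (r k)) h0
    (fun R => Eventually.of_forall fun _ => subset_univ _) tendsto_const_nhds
  refine ⟨φ, hφ, u', K', hu', hc, fun s hs => ?_⟩
  have h1 := hc.tendsto_Dr (fun k => (h0 (φ k)).volume_K) hu'.volume_K
    (fun y ρ => dirE_closedBall_lt_top hu' y ρ) 0 s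
  have h2 : Tendsto (fun k => Dr (rescF u x (r (φ k))) (rescK K x (r (φ k))) 0 s) atTop
      (𝓝 (e * s)) := by
    have h3 := ((he s hs).comp hφ.tendsto_atTop).mul_const s
    refine h3.congr fun k => ?_
    have hk := hr (φ k)
    rw [Dr_resc u K x 0 hk, smul_zero, add_zero]
    simp only [Function.comp]
    field_simp
  exact tendsto_nhds_unique h1 h2

/-- the limit of the density along any sequence for which it exists at all multiples is `0` or
`1` -/
theorem limit_zero_or_one (hcone : ConeStmt) {u : E2 → ℝ} {K : Set E2} (h : IsQM univ 0 u K)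
    (x : E2) {r : ℕ → ℝ} (hr : ∀ k, 0 < r k) {e : ℝ}
    (he : ∀ s : ℝ, 0 < s → Tendsto (fun k => Dr u K x (r k * s) / (r k * s)) atTop (𝓝 e)) :
    e = 0 ∨ e = 1 := by
  obtain ⟨φ, -, u', K', hu', -, hD⟩ := exists_cone_limit h x hr he
  have he0 : 0 ≤ e := by
    have := Dr_nonneg u' K' 0 1
    rw [hD 1 one_pos, mul_one] at this
    exact this
  rcases he0.eq_or_lt with h1 | h1
  · exact Or.inl h1.symm
  · exact Or.inr (hcone u' K' 0 e hu' h1 hD)

variable {u : E2 → ℝ} {K : Set E2}

/-- the density has a limit at infinity, which is `0` or `1` -/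
theorem tendsto_atTop (hmono : MonoStmt) (hcone : ConeStmt) (h : IsQM univ 0 u K) (x : E2) :
    Tendsto (fun r => Dr u K x r / r) atTop (𝓝 0) ∨
      Tendsto (fun r => Dr u K x r / r) atTop (𝓝 1) := by
  set f : ℝ → ℝ := fun r => Dr u K x r / r with hf
  have hm : MonotoneOn f (Ioi 0) := hmono u K h x
  have hb : ∀ r, 0 < r → f r ≤ 2 * Real.pi := fun r hr => by
    rw [hf]; simp only
    rw [div_le_iff₀ hr]; exact Dr_le h x hr
  -- a globally monotone version
  have hlim : ∃ e, Tendsto f atTop (𝓝 e) := by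
    have hg : Monotone fun r => f (max r 1) := by
      intro a b hab
      exact hm (mem_Ioi.2 (lt_of_lt_of_le one_pos (le_max_right _ _)))
        (mem_Ioi.2 (lt_of_lt_of_le one_pos (le_max_right _ _))) (max_le_max_right 1 hab)
    have hgb : BddAbove (range fun r => f (max r 1)) := by
      refine ⟨2 * Real.pi, ?_⟩
      rintro _ ⟨r, rfl⟩
      exact hb _ (lt_of_lt_of_le one_pos (le_max_right _ _))
    refine ⟨_, (tendsto_atTop_ciSup hg hgb).congr' ?_⟩
    filter_upwards [eventually_ge_atTop (1 : ℝ)] with r hr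
    rw [max_eq_left hr]
  obtain ⟨e, he⟩ := hlim
  have h01 := limit_zero_or_one hcone h x (r := fun k : ℕ => (k : ℝ) + 1)
    (fun k => by positivity) (e := e) (fun s hs => by
      refine he.comp ?_
      refine Tendsto.atTop_mul_const hs ?_
      exact tendsto_atTop_add_const_right _ _ tendsto_natCast_atTop_atTop)
  rcases h01 with h1 | h1
  · left; rwa [h1] at he
  · right; rwa [h1] at he

/-- the density has a limit at zero, which is `0` or `1` -/
theorem tendsto_nhds_zero (hmono : MonoStmt) (hcone : ConeStmt) (h : IsQM univ 0 u K) (x : E2) :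
    Tendsto (fun r => Dr u K x r / r) (𝓝[>] 0) (𝓝 0) ∨
      Tendsto (fun r => Dr u K x r / r) (𝓝[>] 0) (𝓝 1) := by
  set f : ℝ → ℝ := fun r => Dr u K x r / r with hf
  have hm : MonotoneOn f (Ioi 0) := hmono u K h x
  have hb : BddBelow (f '' Ioi 0) := by
    refine ⟨0, ?_⟩
    rintro _ ⟨r, hr, rfl⟩
    exact div_nonneg (Dr_nonneg _ _ _ _) (le_of_lt hr)
  have he : Tendsto f (𝓝[>] 0) (𝓝 (sInf (f '' Ioi 0))) := hm.tendsto_nhdsGT hb
  set e := sInf (f '' Ioi 0)
  have h01 := limit_zero_or_one hcone h x (r := fun k : ℕ => 1 / ((k : ℝ) + 1))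
    (fun k => by positivity) (e := e) (fun s hs => by
      refine he.comp ?_
      rw [tendsto_nhdsWithin_iff]
      constructor
      · have := (tendsto_one_div_add_atTop_nhds_zero_nat (𝕜 := ℝ)).mul_const s
        rwa [zero_mul] at this
      · exact Eventually.of_forall fun k => mem_Ioi.2 (by positivity))
  rcases h01 with h1 | h1
  · left; rwa [h1] at he
  · right; rwa [h1] at he

/-- zero Dirichlet energy in all balls means zero gradient off the crack -/
theorem gradient_eq_zero_of_Dr {U : Set E2} {lam : ℝ} {x : E2} {r : ℝ} (h : IsQM U lam u K)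
    (hB : closedBall x r ⊆ U) (hD : Dr u K x r = 0) : ∀ y ∈ ball x r \ K, gradient u y = 0 := by
  intro y hy
  have hU : ball x r ⊆ U := ball_subset_closedBall.trans hB
  have hopen : IsOpen (ball x r \ K) := by
    have : ball x r \ K = ball x r ∩ (U \ K) := by
      ext z
      exact ⟨fun hz => ⟨hz.1, hU hz.1, hz.2⟩, fun hz => ⟨hz.1, hz.2.2⟩⟩
    rw [this]
    exact isOpen_ball.inter h.isOpen_diff
  have hfin : dirE u K (ball x r) ≠ ⊤ := (h.dir_fin_ball hB).ne
  have h0 : dirE u K (ball x r) = 0 := by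
    rcases (ENNReal.toReal_eq_zero_iff _).1 hD with h1 | h1
    · exact h1
    · exact absurd h1 hfin
  have hcont : ContinuousOn (fun z => ‖gradient u z‖ₑ ^ 2) (ball x r \ K) := by
    have h1 : ContinuousOn (gradient u) (ball x r \ K) :=
      h.continuousOn_gradient.mono (sdiff_subset_sdiff_left hU)
    exact (ENNReal.continuous_pow 2).comp_continuousOn h1.enorm
  by_contra hne
  have hpos : 0 < ‖gradient u y‖ₑ ^ 2 := by
    have : 0 < ‖gradient u y‖ₑ := by simpa [enorm_pos] using hne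
    positivity
  -- the integrand is bounded below by a positive constant near `y`
  obtain ⟨b, hb0, hb⟩ := exists_between hpos
  have hnhds : {z ∈ ball x r \ K | b < ‖gradient u z‖ₑ ^ 2} ∈ 𝓝 y := by
    have h1 : ∀ᶠ z in 𝓝[ball x r \ K] y, b < ‖gradient u z‖ₑ ^ 2 :=
      (hcont y hy).eventually (lt_mem_nhds hb)
    rw [hopen.nhdsWithin_eq hy] at h1
    filter_upwards [h1, hopen.mem_nhds hy] with z h2 h3 using ⟨h3, h2⟩
  obtain ⟨ε, hε, hball⟩ := Metric.mem_nhds_iff.1 hnhds
  have h2 : b * volume (ball y ε) ≤ dirE u K (ball x r) := by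
    calc b * volume (ball y ε) = ∫⁻ _ in ball y ε, b := by simp
      _ ≤ ∫⁻ z in ball y ε, ‖gradient u z‖ₑ ^ 2 :=
          setLIntegral_mono' measurableSet_ball fun z hz => (hball hz).2.le
      _ ≤ dirE u K (ball x r) := lintegral_mono_set fun z hz => (hball hz).1
  rw [h0, nonpos_iff_eq_zero, mul_eq_zero] at h2
  rcases h2 with h3 | h3
  · exact hb0.ne' h3
  · exact (measure_ball_pos volume y hε).ne' h3

theorem gradient_eq_zero_of_Dr_all (h : IsQM univ 0 u K) (x : E2)
    (hD : ∀ r : ℝ, 0 < r → Dr u K x r = 0) : ∀ y, y ∉ K → gradient u y = 0 := by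
  intro y hy
  have h1 : 0 < dist y x + 1 := by positivity
  refine gradient_eq_zero_of_Dr h (subset_univ (closedBall x (dist y x + 1))) (hD _ h1) y ⟨?_, hy⟩
  rw [mem_ball]; linarith

theorem Dr_eq_zero_of_gradient (h : IsQM univ 0 u K) (h0 : ∀ y, y ∉ K → gradient u y = 0)
    (x : E2) (r : ℝ) : Dr u K x r = 0 := by
  have h1 : dirE u K (ball x r) = 0 := by
    unfold dirE
    rw [setLIntegral_congr_fun (g := fun _ => 0) (measurableSet_ball.diff h.measurable_K)]
    · simp
    · intro y hy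
      simp [h0 y hy.2]
  rw [Dr, h1]; simp

/-- the density is at most `1` -/
theorem Dr_le_self (hmono : MonoStmt) (hcone : ConeStmt) (h : IsQM univ 0 u K) (x : E2) {r : ℝ}
    (hr : 0 < r) : Dr u K x r ≤ r := by
  have hm : MonotoneOn (fun r => Dr u K x r / r) (Ioi 0) := hmono u K h x
  have h1 : Dr u K x r / r ≤ 1 := by
    rcases tendsto_atTop hmono hcone h x with h2 | h2
    · refine (ge_of_tendsto h2 ?_).trans zero_le_one
      filter_upwards [eventually_ge_atTop r] with s hs using hm hr (hr.trans_le hs) hs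
    · refine ge_of_tendsto h2 ?_
      filter_upwards [eventually_ge_atTop r] with s hs using hm hr (hr.trans_le hs) hs
  rwa [div_le_one hr] at h1

/-- small density at infinity: zero energy -/
theorem Dr_eq_zero_of_small (hmono : MonoStmt) (hcone : ConeStmt) (h : IsQM univ 0 u K) (x : E2)
    {c : ℝ} (hc : c < 1) (hfr : ∃ᶠ r in atTop, Dr u K x r ≤ c * r) (r : ℝ) (hr : 0 < r) :
    Dr u K x r = 0 := by
  have hm : MonotoneOn (fun r => Dr u K x r / r) (Ioi 0) := hmono u K h x
  have h0 : Tendsto (fun r => Dr u K x r / r) atTop (𝓝 0) := by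
    rcases tendsto_atTop hmono hcone h x with h2 | h2
    · exact h2
    · exfalso
      have h3 : ∀ᶠ r in atTop, c < Dr u K x r / r := h2.eventually (lt_mem_nhds hc)
      obtain ⟨s, hs1, hs2, hs3⟩ := (hfr.and_eventually (h3.and (eventually_gt_atTop 0))).exists
      rw [lt_div_iff₀ hs3] at hs2
      linarith
  have h1 : Dr u K x r / r ≤ 0 := by
    refine ge_of_tendsto h0 ?_
    filter_upwards [eventually_ge_atTop r] with s hs using hm hr (hr.trans_le hs) hs
  have h2 : Dr u K x r ≤ 0 := by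
    have := (div_le_iff₀ hr).1 h1
    linarith
  exact le_antisymm h2 (Dr_nonneg _ _ _ _)

theorem gradient_eq_zero_of_small (hmono : MonoStmt) (hcone : ConeStmt) (h : IsQM univ 0 u K)
    (x : E2) {c : ℝ} (hc : c < 1) (hfr : ∃ᶠ r in atTop, Dr u K x r ≤ c * r) :
    ∀ y, y ∉ K → gradient u y = 0 :=
  gradient_eq_zero_of_Dr_all h x (Dr_eq_zero_of_small hmono hcone h x hc hfr)

/-- positive density at zero: the density is constant equal to one -/
theorem Dr_eq_self_of_big (hmono : MonoStmt) (hcone : ConeStmt) (h : IsQM univ 0 u K) (x : E2)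
    {c : ℝ} (hc : 0 < c) (hfr : ∃ᶠ r in 𝓝[>] (0 : ℝ), c * r ≤ Dr u K x r) (r : ℝ) (hr : 0 < r) :
    Dr u K x r = r := by
  have hm : MonotoneOn (fun r => Dr u K x r / r) (Ioi 0) := hmono u K h x
  have h1 : Tendsto (fun r => Dr u K x r / r) (𝓝[>] 0) (𝓝 1) := by
    rcases tendsto_nhds_zero hmono hcone h x with h2 | h2
    · exfalso
      have h3 : ∀ᶠ r in 𝓝[>] (0 : ℝ), Dr u K x r / r < c := h2.eventually (gt_mem_nhds hc)
      have h4 : ∀ᶠ r in 𝓝[>] (0 : ℝ), 0 < r := eventually_mem_nhdsWithin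
      obtain ⟨s, hs1, hs2, hs3⟩ := (hfr.and_eventually (h3.and h4)).exists
      rw [div_lt_iff₀ hs3] at hs2
      linarith
    · exact h2
  have h2 : 1 ≤ Dr u K x r / r := by
    refine le_of_tendsto h1 ?_
    have h4 : ∀ᶠ s in 𝓝[>] (0 : ℝ), 0 < s := eventually_mem_nhdsWithin
    have h5 : ∀ᶠ s in 𝓝[>] (0 : ℝ), s < r :=
      eventually_nhdsWithin_of_eventually_nhds (gt_mem_nhds hr)
    filter_upwards [h4, h5] with s hs hs' using hm (mem_Ioi.2 hs) (mem_Ioi.2 hr) hs'.le
  rw [le_div_iff₀ hr, one_mul] at h2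
  exact le_antisymm (Dr_le_self hmono hcone h x hr) h2

/-- alternative at a point: zero gradient everywhere, or density one at infinity about every
centre -/
theorem zero_or_one (hmono : MonoStmt) (hcone : ConeStmt) (h : IsQM univ 0 u K) :
    (∀ y, y ∉ K → gradient u y = 0) ∨
      ∀ x : E2, Tendsto (fun r => Dr u K x r / r) atTop (𝓝 1) := by
  by_cases hx : ∀ x : E2, Tendsto (fun r => Dr u K x r / r) atTop (𝓝 1)
  · exact Or.inr hx
  · left
    push Not at hx
    obtain ⟨x, hx⟩ := hx
    have h0 : Tendsto (fun r => Dr u K x r / r) atTop (𝓝 0) :=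
      (tendsto_atTop hmono hcone h x).resolve_right hx
    refine gradient_eq_zero_of_small hmono hcone h x (c := 1 / 2) (by norm_num) ?_
    refine Eventually.frequently ?_
    filter_upwards [h0.eventually (gt_mem_nhds (by norm_num : (0 : ℝ) < 1 / 2)),
      eventually_gt_atTop 0] with r h1 h2
    rw [div_lt_iff₀ h2] at h1
    exact h1.le

end Cls

end Crest.Agent.R135
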