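import Crest.Agent.R135.Wirt

/-!
# R135: the cracktip circle lemma (helper633)

On a good circle around a crack tip, cut at the single crack point, write (after scaling)
`F(φ) = u / √r`, `F1 = ∂_φ F = √r u_τ`, `H = √r u_ν`, `φ ∈ (0,2π)`.  With
`E = ∫ F1²+H²`, `X = ∫ F H`, `R = ∫ (H²-F1²) cos φ - 2 H F1 sin φ`,
`T = ∫ (H²-F1²) sin φ + 2 H F1 cos φ` we prove, if `∫ H = 0`,
`X ≤ E`, `|X - R| ≤ 13 (E - X)`, `T² ≤ 40 E (E - X)`.
-/

set_option autoImplicit false

open MeasureTheory Set Filter Topology intervalIntegral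
open scoped Real Interval

noncomputable section

namespace Crest.Agent.R135

namespace CrackAlg

theorem hasDerivAt_sin_half (x : ℝ) : HasDerivAt (fun x : ℝ => 2 * Real.sin (x/2)) (Real.cos (x/2)) x := by
  have h := ((hasDerivAt_id x).div_const 2).sin.const_mul 2
  refine h.congr_deriv ?_
  simp only [id_eq]
  ring

theorem int_cos_half (a b : ℝ) : ∫ x in a..b, Real.cos (x/2) = 2 * Real.sin (b/2) - 2 * Real.sin (a/2) := by
  rw [intervalIntegral.integral_eq_sub_of_hasDerivAt (fun x _ => hasDerivAt_sin_half x)]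
  exact (by fun_prop : Continuous fun x : ℝ => Real.cos (x/2)).intervalIntegrable _ _

theorem int_cos_half_sq (a b : ℝ) :
    ∫ x in a..b, Real.cos (x/2) ^ 2 = (b + Real.sin b)/2 - (a + Real.sin a)/2 := by
  rw [intervalIntegral.integral_eq_sub_of_hasDerivAt (f := fun x => (x + Real.sin x)/2)]
  · intro x _
    have h := ((hasDerivAt_id x).add (Real.hasDerivAt_sin x)).div_const 2
    refine h.congr_deriv ?_
    have : Real.cos x = 2 * Real.cos (x/2)^2 - 1 := by
      rw [← Real.cos_two_mul]; ring_nf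
    rw [this]; ring
  · exact (by fun_prop : Continuous fun x : ℝ => Real.cos (x/2) ^ 2).intervalIntegrable _ _

theorem int_sin_half_sq (a b : ℝ) :
    ∫ x in a..b, Real.sin (x/2) ^ 2 = (b - Real.sin b)/2 - (a - Real.sin a)/2 := by
  rw [intervalIntegral.integral_eq_sub_of_hasDerivAt (f := fun x => (x - Real.sin x)/2)]
  · intro x _
    have h := ((hasDerivAt_id x).sub (Real.hasDerivAt_sin x)).div_const 2
    refine h.congr_deriv ?_
    have : Real.cos x = 1 - 2 * Real.sin (x/2)^2 := by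
      have h1 : Real.cos x = 2 * Real.cos (x/2)^2 - 1 := by
        rw [← Real.cos_two_mul]; ring_nf
      have h2 := Real.sin_sq_add_cos_sq (x/2)
      rw [h1]; linarith
    rw [this]; ring
  · exact (by fun_prop : Continuous fun x : ℝ => Real.sin (x/2) ^ 2).intervalIntegrable _ _

/-- `∫ cos²(3x/2) ≤ 7` is all we need (the value is `π`). -/
theorem int_cos_three_half_sq : ∫ x in (0:ℝ)..(2*π), Real.cos (3*x/2) ^ 2 = π := by
  rw [intervalIntegral.integral_eq_sub_of_hasDerivAt (f := fun x => x/2 + Real.sin (3*x)/6)]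
  · have : Real.sin (3*(2*π)) = 0 := by
      rw [show 3*(2*π) = ((6:ℕ):ℝ)*π by push_cast; ring]; exact Real.sin_nat_mul_pi 6
    simp only [this]; simp
  · intro x _
    have h := ((hasDerivAt_id x).div_const 2).add (((hasDerivAt_id x).const_mul 3).sin.div_const 6)
    refine h.congr_deriv ?_
    have : Real.cos (3*x) = 2 * Real.cos (3*x/2)^2 - 1 := by
      rw [← Real.cos_two_mul]; ring_nf
    simp only [id_eq, this]; ring
  · exact (by fun_prop : Continuous fun x : ℝ => Real.cos (3*x/2) ^ 2).intervalIntegrable _ _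

theorem int_sin_three_half_sq : ∫ x in (0:ℝ)..(2*π), Real.sin (3*x/2) ^ 2 = π := by
  have h : ∀ x : ℝ, Real.sin (3*x/2) ^ 2 = 1 - Real.cos (3*x/2) ^ 2 := by
    intro x; linarith [Real.sin_sq_add_cos_sq (3*x/2)]
  simp_rw [h]
  rw [intervalIntegral.integral_sub intervalIntegrable_const
    ((by fun_prop : Continuous fun x : ℝ => Real.cos (3*x/2) ^ 2).intervalIntegrable _ _),
    int_cos_three_half_sq]
  simp; ring

theorem trig_id (x : ℝ) :
    Real.cos x = 2 * Real.cos (x/2)^2 - 1 ∧ Real.sin x = 2 * Real.sin (x/2) * Real.cos (x/2) ∧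
    Real.cos (3*x/2) = 4 * Real.cos (x/2)^3 - 3 * Real.cos (x/2) ∧
    Real.sin (3*x/2) = 3 * Real.sin (x/2) - 4 * Real.sin (x/2)^3 := by
  refine ⟨?_, ?_, ?_, ?_⟩
  · rw [← Real.cos_two_mul]; ring_nf
  · rw [← Real.sin_two_mul]; ring_nf
  · rw [← Real.cos_three_mul]; ring_nf
  · rw [← Real.sin_three_mul]; ring_nf

theorem wirt_second_aux {A1 A2 B1 B2 C1 C2 μ : ℝ} (hA1 : 0 ≤ A1) (hA2 : 0 ≤ A2)
    (w1 : A1 ≤ C1) (w2 : A2 ≤ C2) (cs1 : B1^2 ≤ A1 * (π/2)) (cs2 : B2^2 ≤ A2 * (π/2))
    (hB : B1 + B2 = -(4*μ)) :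
    A1 + π * μ^2 + (A2 + π * μ^2) ≤ (9/4) * (C1 + C2) := by
  have hpi := Real.pi_pos
  have h16 : 16 * μ^2 ≤ π * (A1 + A2) := by
    have : (B1+B2)^2 ≤ 2 * (B1^2 + B2^2) := by nlinarith [sq_nonneg (B1-B2)]
    rw [hB] at this
    nlinarith
  have hpi2 : π^2 ≤ 10 := by nlinarith [Real.pi_lt_d2, Real.pi_pos]
  have h2 : 2 * π * μ^2 ≤ (5/4) * (A1 + A2) := by
    have h3 : 2 * π * μ^2 ≤ π^2 * (A1+A2) / 8 := by nlinarith
    have h4 : π^2 * (A1+A2) ≤ 10 * (A1+A2) :=
      mul_le_mul_of_nonneg_right hpi2 (add_nonneg hA1 hA2)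
    linarith
  linarith

/-- second Wirtinger inequality (with a non optimal constant `9/4 < 4`). -/
theorem wirt_second {F F1 : ℝ → ℝ} (hF : IsPrim 0 (2*π) F F1) (hF1 : IsL2 0 (2*π) F1)
    (h0 : ∫ x in (0:ℝ)..(2*π), F x = 0) (h1 : ∫ x in (0:ℝ)..(2*π), Real.cos (x/2) * F x = 0) :
    ∫ x in (0:ℝ)..(2*π), F x ^ 2 ≤ (9/4) * ∫ x in (0:ℝ)..(2*π), F1 x ^ 2 := by
  have hpi := Real.pi_pos
  have hle1 : (0:ℝ) ≤ π := hpi.le
  have hle2 : π ≤ 2*π := by linarith
  have hF_1 : IsPrim 0 π F F1 := hF.mono le_rfl hle1 hle2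
  have hF_2 : IsPrim π (2*π) F F1 := hF.mono hle1 hle2 le_rfl
  have hF1_1 : IsL2 0 π F1 := hF1.mono le_rfl hle2
  have hF1_2 : IsL2 π (2*π) F1 := hF1.mono hle1 le_rfl
  have hFL1 := hF_1.isL2 hle1
  have hFL2 := hF_2.isL2 hle2
  set μ : ℝ := π⁻¹ * ∫ x in (0:ℝ)..π, F x with hμ
  have s1 : ∫ x in (0:ℝ)..π, F x = π * μ := by rw [hμ]; field_simp
  have s2 : ∫ x in π..(2*π), F x = -(π * μ) := by
    have := intervalIntegral.integral_add_adjacent_intervals (hFL1.intervalIntegrable hle1)
      (hFL2.intervalIntegrable hle2)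
    rw [h0, s1] at this; linarith
  have w1 := wirt_neumann (a := 0) (b := π) hpi hF_1 hF1_1
  have w2 := wirt_neumann (a := π) (b := 2*π) (by linarith) hF_2 hF1_2
  have m1 : (π - 0)⁻¹ * ∫ t in (0:ℝ)..π, F t = μ := by rw [sub_zero]
  have m2 : (2*π - π)⁻¹ * ∫ t in π..(2*π), F t = -μ := by
    rw [s2, show 2*π - π = π by ring]; field_simp
  rw [m1, show ((π - 0)/π)^2 = 1 by rw [sub_zero, div_self hpi.ne']; norm_num, one_mul] at w1
  rw [m2, show ((2*π - π)/π)^2 = 1 by rw [show 2*π-π = π by ring, div_self hpi.ne']; norm_num, one_mul] at w2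
  -- L² pieces
  have hG1 : IsL2 0 π (fun x => F x - μ) := hFL1.sub (isL2_of_continuousOn continuousOn_const)
  have hG2 : IsL2 π (2*π) (fun x => F x - -μ) := hFL2.sub (isL2_of_continuousOn continuousOn_const)
  have hc1 : IsL2 0 π (fun x => Real.cos (x/2)) := isL2_of_continuousOn (by fun_prop)
  have hc2 : IsL2 π (2*π) (fun x => Real.cos (x/2)) := isL2_of_continuousOn (by fun_prop)
  have cs1 := cs_sq hle1 hG1 hc1
  have cs2 := cs_sq hle2 hG2 hc2
  rw [int_cos_half_sq] at cs1 cs2
  have v1 : (π + Real.sin π)/2 - (0 + Real.sin 0)/2 = π/2 := by simp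
  have v2 : (2*π + Real.sin (2*π))/2 - (π + Real.sin π)/2 = π/2 := by simp; ring
  rw [v1] at cs1
  rw [v2] at cs2
  -- decomposition of the integrals
  have q1 : ∫ x in (0:ℝ)..π, F x ^ 2 = (∫ x in (0:ℝ)..π, (F x - μ)^2) + π * μ^2 := by
    have e : ∀ x, (F x - μ)^2 = F x ^ 2 - (2*μ) * F x + μ^2 := fun x => by ring
    simp_rw [e]
    rw [intervalIntegral.integral_add ((hFL1.sq hle1).sub ((hFL1.intervalIntegrable hle1).const_mul _))
      intervalIntegrable_const, intervalIntegral.integral_sub (hFL1.sq hle1)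
      ((hFL1.intervalIntegrable hle1).const_mul _), intervalIntegral.integral_const_mul, s1]
    simp; ring
  have q2 : ∫ x in π..(2*π), F x ^ 2 = (∫ x in π..(2*π), (F x - -μ)^2) + π * μ^2 := by
    have e : ∀ x, (F x - -μ)^2 = F x ^ 2 - (2*(-μ)) * F x + μ^2 := fun x => by ring
    simp_rw [e]
    rw [intervalIntegral.integral_add ((hFL2.sq hle2).sub ((hFL2.intervalIntegrable hle2).const_mul _))
      intervalIntegrable_const, intervalIntegral.integral_sub (hFL2.sq hle2)
      ((hFL2.intervalIntegrable hle2).const_mul _), intervalIntegral.integral_const_mul, s2]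
    simp; ring
  have b1 : ∫ x in (0:ℝ)..π, (F x - μ) * Real.cos (x/2) =
      (∫ x in (0:ℝ)..π, Real.cos (x/2) * F x) - 2 * μ := by
    have e : ∀ x, (F x - μ) * Real.cos (x/2) = Real.cos (x/2) * F x - μ * Real.cos (x/2) :=
      fun x => by ring
    simp_rw [e]
    rw [intervalIntegral.integral_sub (hc1.mul hle1 hFL1) ((hc1.intervalIntegrable hle1).const_mul _),
      intervalIntegral.integral_const_mul, int_cos_half]
    simp; ring
  have b2 : ∫ x in π..(2*π), (F x - -μ) * Real.cos (x/2) =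
      (∫ x in π..(2*π), Real.cos (x/2) * F x) - 2 * μ := by
    have e : ∀ x, (F x - -μ) * Real.cos (x/2) = Real.cos (x/2) * F x - (-μ) * Real.cos (x/2) :=
      fun x => by ring
    simp_rw [e]
    rw [intervalIntegral.integral_sub (hc2.mul hle2 hFL2) ((hc2.intervalIntegrable hle2).const_mul _),
      intervalIntegral.integral_const_mul, int_cos_half]
    have : Real.sin (2*π/2) = 0 := by rw [show 2*π/2 = π by ring]; exact Real.sin_pi
    rw [this]; simp; ring
  have adj := intervalIntegral.integral_add_adjacent_intervals (hc1.mul hle1 hFL1) (hc2.mul hle2 hFL2)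
  rw [h1] at adj
  have adjF := intervalIntegral.integral_add_adjacent_intervals (hFL1.sq hle1) (hFL2.sq hle2)
  have adjF1 := intervalIntegral.integral_add_adjacent_intervals (hF1_1.sq hle1) (hF1_2.sq hle2)
  rw [← adjF, ← adjF1, q1, q2]
  have hA1 : 0 ≤ ∫ x in (0:ℝ)..π, (F x - μ)^2 :=
    intervalIntegral.integral_nonneg hle1 fun x _ => sq_nonneg _
  have hA2 : 0 ≤ ∫ x in π..(2*π), (F x - -μ)^2 :=
    intervalIntegral.integral_nonneg hle2 fun x _ => sq_nonneg _
  have hB : (∫ x in (0:ℝ)..π, (F x - μ) * Real.cos (x/2)) +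
      (∫ x in π..(2*π), (F x - -μ) * Real.cos (x/2)) = -(4*μ) := by
    rw [b1, b2]; linarith
  exact wirt_second_aux hA1 hA2 w1 w2 cs1 cs2 hB

/-- The energy quantities of the circle lemma. -/
def cE (F1 H : ℝ → ℝ) : ℝ := (∫ x in (0:ℝ)..(2*π), F1 x ^ 2) + ∫ x in (0:ℝ)..(2*π), H x ^ 2
/-- `∫ F H`. -/
def cX (F H : ℝ → ℝ) : ℝ := ∫ x in (0:ℝ)..(2*π), F x * H x
/-- radial force component -/
def cR (F1 H : ℝ → ℝ) : ℝ :=
  ∫ x in (0:ℝ)..(2*π), ((H x ^ 2 - F1 x ^ 2) * Real.cos x - 2 * H x * F1 x * Real.sin x)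
/-- tangential force component -/
def cT (F1 H : ℝ → ℝ) : ℝ :=
  ∫ x in (0:ℝ)..(2*π), ((H x ^ 2 - F1 x ^ 2) * Real.sin x + 2 * H x * F1 x * Real.cos x)

theorem int_main_R (p q : ℝ) : ∫ x in (0:ℝ)..(2*π),
    (((q * Real.cos (x/2))^2 - (-p * Real.sin (x/2))^2) * Real.cos x
      - 2 * (q * Real.cos (x/2)) * (-p * Real.sin (x/2)) * Real.sin x) = π/2 * (p+q)^2 := by
  rw [intervalIntegral.integral_eq_sub_of_hasDerivAt
    (f := fun x => q^2 * (Real.sin x + (x + Real.sin x * Real.cos x)/2)/2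
      - p^2 * (Real.sin x - (x + Real.sin x * Real.cos x)/2)/2
      + p*q*((x - Real.sin x * Real.cos x)/2))]
  · simp; ring
  · intro x _
    have hs := Real.hasDerivAt_sin x
    have hc := Real.hasDerivAt_cos x
    have hsc := hs.mul hc
    have hx := hasDerivAt_id x
    have h := (((hs.add ((hx.add hsc).div_const 2)).const_mul (q^2)).div_const 2).sub
      (((hs.sub ((hx.add hsc).div_const 2)).const_mul (p^2)).div_const 2) |>.add
      (((hx.sub hsc).div_const 2).const_mul (p*q))
    refine h.congr_deriv ?_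
    obtain ⟨h1, h2, _, _⟩ := trig_id x
    have h3 := Real.sin_sq_add_cos_sq (x/2)
    have h4 : Real.sin (x/2)^2 = 1 - Real.cos (x/2)^2 := by linarith
    rw [h1, h2]
    ring_nf
    simp only [show Real.sin (x * (1/2)) ^ 2 = 1 - Real.cos (x * (1/2))^2 by
      have := h4; ring_nf at this ⊢; linarith]
    ring_nf
  · exact (by fun_prop : Continuous _).intervalIntegrable _ _

theorem int_main_T (p q : ℝ) : ∫ x in (0:ℝ)..(2*π),
    (((q * Real.cos (x/2))^2 - (-p * Real.sin (x/2))^2) * Real.sin x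
      + 2 * (q * Real.cos (x/2)) * (-p * Real.sin (x/2)) * Real.cos x) = 0 := by
  rw [intervalIntegral.integral_eq_sub_of_hasDerivAt
    (f := fun x => q^2 * (-Real.cos x + Real.sin x ^ 2/2)/2
      - p^2 * (-Real.cos x - Real.sin x ^ 2/2)/2
      - p*q*(Real.sin x ^ 2/2))]
  · simp
  · intro x _
    have hs := Real.hasDerivAt_sin x
    have hc := (Real.hasDerivAt_cos x).neg
    have hs2 := (hs.pow 2).div_const 2
    have h := (((hc.add hs2).const_mul (q^2)).div_const 2).sub
      (((hc.sub hs2).const_mul (p^2)).div_const 2) |>.sub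
      (hs2.const_mul (p*q))
    refine h.congr_deriv ?_
    obtain ⟨h1, h2, _, _⟩ := trig_id x
    have h3 := Real.sin_sq_add_cos_sq (x/2)
    have h4 : Real.sin (x/2)^2 = 1 - Real.cos (x/2)^2 := by linarith
    rw [h1, h2]
    ring_nf
    have h5 : Real.sin (x * (1/2)) ^ 2 = 1 - Real.cos (x * (1/2))^2 := by
      have := h4; ring_nf at this ⊢; linarith
    have h6 : Real.sin (x * (1/2)) ^ 3 = Real.sin (x * (1/2)) * (1 - Real.cos (x * (1/2))^2) := by
      rw [← h5]; ring
    simp only [h6]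
    ring_nf
  · exact (by fun_prop : Continuous _).intervalIntegrable _ _

theorem quad_bound_R (k g x : ℝ) :
    |(k ^ 2 - g ^ 2) * Real.cos x - 2 * k * g * Real.sin x| ≤ g ^ 2 + k ^ 2 := by
  have h := Real.sin_sq_add_cos_sq x
  apply abs_le_of_sq_le_sq _ (by positivity)
  nlinarith [sq_nonneg ((k^2-g^2) * Real.sin x + 2*k*g*Real.cos x)]

theorem quad_bound_T (k g x : ℝ) :
    |(k ^ 2 - g ^ 2) * Real.sin x + 2 * k * g * Real.cos x| ≤ g ^ 2 + k ^ 2 := by
  have h := Real.sin_sq_add_cos_sq x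
  apply abs_le_of_sq_le_sq _ (by positivity)
  nlinarith [sq_nonneg ((k^2-g^2) * Real.cos x - 2*k*g*Real.sin x)]

theorem pointwise_R {p q H F K G x : ℝ} (hH : H = K + q * Real.cos (x/2))
    (hF : F = G - p * Real.sin (x/2)) :
    (H ^ 2 - F ^ 2) * Real.cos x - 2 * H * F * Real.sin x =
          (((q * Real.cos (x/2))^2 - (-p * Real.sin (x/2))^2) * Real.cos x
            - 2 * (q * Real.cos (x/2)) * (-p * Real.sin (x/2)) * Real.sin x)
          + (q-p) * (K * Real.cos (3*x/2)) + (p+q) * (K * Real.cos (x/2))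
          + (p-q) * (G * Real.sin (3*x/2)) + (-(p+q)) * (G * Real.sin (x/2))
          + ((K ^ 2 - G ^ 2) * Real.cos x - 2 * K * G * Real.sin x) := by
  obtain ⟨h1, h2, h3, h4⟩ := trig_id x
  have h5 := Real.sin_sq_add_cos_sq (x/2)
  rw [hH, hF, h1, h2, h3, h4]
  generalize Real.sin (x/2) = s at *
  generalize Real.cos (x/2) = c at *
  have hs : s^2 = 1 - c^2 := by linarith
  have hs3 : s^3 = s * (1 - c^2) := by rw [← hs]; ring
  ring_nf
  simp only [hs, hs3]
  ring_nf

theorem radial_aux {p q g h y u v Rr R X EX : ℝ} (hg : 0 ≤ g) (hh : 0 ≤ h)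
    (hy : y^2 ≤ (9/4) * g * h) (hu : u^2 ≤ h * π) (hv : v^2 ≤ g * π) (hRr : |Rr| ≤ g + h)
    (hR : R = π/2 * (p+q)^2 + (q-p) * u + (p-q) * v + Rr) (hX : X = 2*π*p*q + y)
    (hEX : π * (p-q)^2 + (g+h)/4 ≤ EX) :
    |X - R| ≤ 13 * EX := by
  have hpi := Real.pi_pos
  have h1 : |y| ≤ (3/4) * (g + h) := by
    have : y^2 ≤ ((3/4) * (g+h))^2 := by nlinarith [sq_nonneg (g-h)]
    exact abs_le_of_sq_le_sq this (by positivity)
  have h2 : (u-v)^2 ≤ 2 * π * (g + h) := by nlinarith [sq_nonneg (u+v)]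
  have h3 : |(p-q) * (u-v)| ≤ (1/2) * (π * (p-q)^2 + 2 * (g+h)) := by
    have h4 : ((p-q) * (u-v))^2 ≤ ((1/2) * (π * (p-q)^2 + 2 * (g+h)))^2 := by
      rw [mul_pow]
      have : (p-q)^2 * (u-v)^2 ≤ (p-q)^2 * (2 * π * (g + h)) :=
        mul_le_mul_of_nonneg_left h2 (sq_nonneg _)
      nlinarith [sq_nonneg (π * (p-q)^2 - 2 * (g+h))]
    exact abs_le_of_sq_le_sq h4 (by positivity)
  have e : X - R = -(π/2) * (p-q)^2 + y + (p-q) * (u-v) - Rr := by rw [hR, hX]; ring
  rw [e]
  rw [abs_le] at *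
  have : 0 ≤ π * (p-q)^2 := by positivity
  constructor <;> nlinarith

/-- numerical conclusion of the circle lemma -/
theorem cal_aux {p q g h y : ℝ} (hg : 0 ≤ g) (hh : 0 ≤ h) (hy : y^2 ≤ (9/4) * g * h) :
    π * (p-q)^2 + (g + h)/4 ≤ (π * p^2 + g + (π * q^2 + h)) - (2*π*p*q + y) := by
  have h1 : y ≤ (3/4) * (g + h) := by
    have : y^2 ≤ ((3/4) * (g+h))^2 := by nlinarith [sq_nonneg (g-h)]
    exact le_of_sq_le_sq this (by positivity)
  nlinarith

theorem tangential_aux {p q g h A B u v Rr T E EX : ℝ} (hg : 0 ≤ g) (hh : 0 ≤ h)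
    (hA : 0 ≤ A) (hB : 0 ≤ B) (hu : u^2 ≤ h * A) (hv : v^2 ≤ g * B)
    (hAB : A + B = 4 * π * (p^2+q^2)) (hRr : |Rr| ≤ g + h) (hT : T = u + v + Rr)
    (hE : E = π * p^2 + g + (π * q^2 + h)) (hEX : π * (p-q)^2 + (g+h)/4 ≤ EX) :
    T^2 ≤ 40 * E * EX := by
  have hpi := Real.pi_pos
  have hM : A + B ≤ 4 * E := by rw [hAB, hE]; linarith
  have hE0 : 0 ≤ E := by rw [hE]; positivity
  have hEg : g + h ≤ E := by rw [hE]; nlinarith [mul_nonneg hpi.le (sq_nonneg p), mul_nonneg hpi.le (sq_nonneg q)]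
  have hgE : g + h ≤ 4 * EX := by nlinarith [mul_nonneg hpi.le (sq_nonneg (p-q))]
  have h1 : (u+v)^2 ≤ (g+h) * (A+B) := by
    have h2 : (u*v)^2 ≤ ((g*A + h*B)/2)^2 := by
      have : u^2 * v^2 ≤ (h*A) * (g*B) := mul_le_mul hu hv (sq_nonneg _) (by positivity)
      nlinarith [sq_nonneg (g*A - h*B)]
    have h3 : |u*v| ≤ (g*A + h*B)/2 := abs_le_of_sq_le_sq h2 (by positivity)
    have h4 := (abs_le.mp h3).2
    nlinarith
  have h5 : (u+v)^2 ≤ 16 * (E * EX) := by
    have : (g+h) * (A+B) ≤ (4*EX) * (4*E) := mul_le_mul hgE hM (by positivity) (by linarith)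
    linarith
  have h6 : Rr^2 ≤ 4 * (E * EX) := by
    have h7 : Rr^2 ≤ (g+h)^2 := by
      rw [← sq_abs]; exact pow_le_pow_left₀ (abs_nonneg _) hRr 2
    have h8 : (g+h)*(g+h) ≤ E * (4*EX) := mul_le_mul hEg hgE (by positivity) hE0
    nlinarith
  rw [hT]
  nlinarith [sq_nonneg (u + v - Rr)]

/-- **Cracktip circle lemma.** -/
theorem circle_lemma {F F1 H : ℝ → ℝ} (hF : IsPrim 0 (2*π) F F1) (hF1 : IsL2 0 (2*π) F1)
    (hH : IsL2 0 (2*π) H) (hH0 : ∫ x in (0:ℝ)..(2*π), H x = 0) :
    cX F H ≤ cE F1 H ∧ |cX F H - cR F1 H| ≤ 13 * (cE F1 H - cX F H) ∧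
    cT F1 H ^ 2 ≤ 40 * cE F1 H * (cE F1 H - cX F H) := by
  have hpi := Real.pi_pos
  have hle : (0:ℝ) ≤ 2*π := by positivity
  have hFL := hF.isL2 hle
  set p : ℝ := -(π⁻¹ * ∫ x in (0:ℝ)..(2*π), F1 x * Real.sin (x/2)) with hp
  set q : ℝ := π⁻¹ * ∫ x in (0:ℝ)..(2*π), H x * Real.cos (x/2) with hq
  set m : ℝ := (2*π)⁻¹ * ∫ x in (0:ℝ)..(2*π), F x with hm
  have Ls : IsL2 0 (2*π) (fun x => Real.sin (x/2)) := isL2_of_continuousOn (by fun_prop)
  have Lc : IsL2 0 (2*π) (fun x => Real.cos (x/2)) := isL2_of_continuousOn (by fun_prop)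
  have Ls3 : IsL2 0 (2*π) (fun x => Real.sin (3*x/2)) := isL2_of_continuousOn (by fun_prop)
  have Lc3 : IsL2 0 (2*π) (fun x => Real.cos (3*x/2)) := isL2_of_continuousOn (by fun_prop)
  have L1 : IsL2 0 (2*π) (fun _ => (1:ℝ)) := isL2_of_continuousOn (by fun_prop)
  set G : ℝ → ℝ := fun x => F1 x + p * Real.sin (x/2) with hG
  set K : ℝ → ℝ := fun x => H x - q * Real.cos (x/2) with hK
  have LG : IsL2 0 (2*π) G := hF1.add (Ls.const_mul p)
  have LK : IsL2 0 (2*π) K := hH.sub (Lc.const_mul q)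
  have ic : ∫ x in (0:ℝ)..(2*π), Real.cos (x/2) = 0 := by
    rw [int_cos_half]
    have : Real.sin (2*π/2) = 0 := by rw [show 2*π/2 = π by ring]; exact Real.sin_pi
    rw [this]; simp
  have ic2 : ∫ x in (0:ℝ)..(2*π), Real.cos (x/2) ^ 2 = π := by
    rw [int_cos_half_sq]; simp
  have is2 : ∫ x in (0:ℝ)..(2*π), Real.sin (x/2) ^ 2 = π := by
    rw [int_sin_half_sq]; simp
  have i1 : ∫ x in (0:ℝ)..(2*π), G x * Real.sin (x/2) = 0 := by
    have e : ∀ x, G x * Real.sin (x/2) = F1 x * Real.sin (x/2) + p * Real.sin (x/2)^2 :=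
      fun x => by simp only [hG]; ring
    simp_rw [e]
    rw [intervalIntegral.integral_add (hF1.mul hle Ls) ((Ls.sq hle).const_mul p),
      intervalIntegral.integral_const_mul, is2, hp]
    field_simp; ring
  have i2 : ∫ x in (0:ℝ)..(2*π), K x * Real.cos (x/2) = 0 := by
    have e : ∀ x, K x * Real.cos (x/2) = H x * Real.cos (x/2) - q * Real.cos (x/2)^2 :=
      fun x => by simp only [hK]; ring
    simp_rw [e]
    rw [intervalIntegral.integral_sub (hH.mul hle Lc) ((Lc.sq hle).const_mul q),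
      intervalIntegral.integral_const_mul, ic2, hq]
    field_simp; ring
  have i3 : ∫ x in (0:ℝ)..(2*π), K x = 0 := by
    simp only [hK]
    rw [intervalIntegral.integral_sub (hH.intervalIntegrable hle)
      ((Lc.intervalIntegrable hle).const_mul q), intervalIntegral.integral_const_mul, ic, hH0]
    ring
  -- the remainder of `F`
  set Fr : ℝ → ℝ := fun x => F x - m - 2 * p * Real.cos (x/2) with hFr
  have hFrp : IsPrim 0 (2*π) Fr G := by
    have hc : IsPrim 0 (2*π) (fun x => Real.cos (x/2)) (fun x => -(Real.sin (x/2) / 2)) := by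
      apply isPrim_of_hasDerivAt hle
      · intro x _
        have h := ((hasDerivAt_id x).div_const 2).cos
        refine h.congr_deriv ?_
        simp only [id_eq]; ring
      · fun_prop
    have hGi : IntervalIntegrable G volume 0 (2*π) := LG.intervalIntegrable hle
    refine ⟨hGi, fun x hx => ?_⟩
    have hFi : IntervalIntegrable F1 volume 0 x :=
      (hF.mono le_rfl hx.1 hx.2).1
    have hci : IntervalIntegrable (fun x => Real.sin (x/2)) volume 0 x :=
      (by fun_prop : Continuous fun x : ℝ => Real.sin (x/2)).intervalIntegrable _ _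
    have e1 : ∫ t in (0:ℝ)..x, G t = (∫ t in (0:ℝ)..x, F1 t) + p * ∫ t in (0:ℝ)..x, Real.sin (t/2) := by
      simp only [hG]
      rw [intervalIntegral.integral_add hFi (hci.const_mul p), intervalIntegral.integral_const_mul]
    have e2 := hc.2 x hx
    have e3 : ∫ t in (0:ℝ)..x, -(Real.sin (t/2) / 2) = -(1/2) * ∫ t in (0:ℝ)..x, Real.sin (t/2) := by
      rw [← intervalIntegral.integral_const_mul]
      apply intervalIntegral.integral_congr
      intro t _; simp only; ring
    rw [e3] at e2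
    simp only at e2
    simp only [hFr]
    rw [e1, hF.2 x hx]
    linarith [congrArg (fun z => 2 * p * z) e2]
  have LFr := hFrp.isL2 hle
  have i4 : ∫ x in (0:ℝ)..(2*π), Fr x = 0 := by
    simp only [hFr]
    have e0 : ∫ x in (0:ℝ)..(2*π), 2 * p * Real.cos (x/2) = 0 := by
      rw [intervalIntegral.integral_const_mul, ic, mul_zero]
    rw [intervalIntegral.integral_sub ((hFL.intervalIntegrable hle).sub intervalIntegrable_const)
      ((Lc.intervalIntegrable hle).const_mul (2*p)), e0, intervalIntegral.integral_sub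
      (hFL.intervalIntegrable hle) intervalIntegrable_const, 
      intervalIntegral.integral_const, hm]
    simp only [sub_zero, smul_eq_mul]
    field_simp; ring
  have i5 : ∫ x in (0:ℝ)..(2*π), Real.cos (x/2) * Fr x = 0 := by
    have hsp : IsPrim 0 (2*π) (fun x => 2 * Real.sin (x/2)) (fun x => Real.cos (x/2)) :=
      isPrim_of_hasDerivAt hle (fun x _ => hasDerivAt_sin_half x) (by fun_prop)
    have ib := hFrp.ibp hle hsp
    have e : ∫ x in (0:ℝ)..(2*π), (2 * Real.sin (x/2)) * G x = 0 := by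
      have : ∀ x, (2 * Real.sin (x/2)) * G x = 2 * (G x * Real.sin (x/2)) := fun x => by ring
      simp_rw [this]
      rw [intervalIntegral.integral_const_mul, i1]; ring
    rw [e] at ib
    have hsin : Real.sin (2*π/2) = 0 := by rw [show 2*π/2 = π by ring]; exact Real.sin_pi
    rw [hsin] at ib
    rw [ib]; simp
  have w := wirt_second hFrp LG i4 i5
  have cs := cs_sq hle LFr LK
  set g := ∫ x in (0:ℝ)..(2*π), G x ^ 2 with hg
  set h := ∫ x in (0:ℝ)..(2*π), K x ^ 2 with hh
  set y := ∫ x in (0:ℝ)..(2*π), Fr x * K x with hy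
  have hg0 : 0 ≤ g := intervalIntegral.integral_nonneg hle fun x _ => sq_nonneg _
  have hh0 : 0 ≤ h := intervalIntegral.integral_nonneg hle fun x _ => sq_nonneg _
  have hy2 : y^2 ≤ (9/4) * g * h := cs.trans (mul_le_mul_of_nonneg_right w hh0)
  -- E
  have hE1 : ∫ x in (0:ℝ)..(2*π), F1 x ^ 2 = π * p^2 + g := by
    have e : ∀ x, F1 x ^ 2 = G x ^ 2 - (2*p) * (G x * Real.sin (x/2)) + p^2 * Real.sin (x/2)^2 :=
      fun x => by simp only [hG]; ring
    simp_rw [e]
    rw [intervalIntegral.integral_add ((LG.sq hle).sub ((LG.mul hle Ls).const_mul _))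
      ((Ls.sq hle).const_mul _), intervalIntegral.integral_sub (LG.sq hle)
      ((LG.mul hle Ls).const_mul _), intervalIntegral.integral_const_mul,
      intervalIntegral.integral_const_mul, i1, is2]
    ring
  have hE2 : ∫ x in (0:ℝ)..(2*π), H x ^ 2 = π * q^2 + h := by
    have e : ∀ x, H x ^ 2 = K x ^ 2 + (2*q) * (K x * Real.cos (x/2)) + q^2 * Real.cos (x/2)^2 :=
      fun x => by simp only [hK]; ring
    simp_rw [e]
    rw [intervalIntegral.integral_add ((LK.sq hle).add ((LK.mul hle Lc).const_mul _))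
      ((Lc.sq hle).const_mul _), intervalIntegral.integral_add (LK.sq hle)
      ((LK.mul hle Lc).const_mul _), intervalIntegral.integral_const_mul,
      intervalIntegral.integral_const_mul, i2, ic2]
    ring
  have hEE : cE F1 H = π * p^2 + g + (π * q^2 + h) := by rw [cE, hE1, hE2]
  -- X
  have hX : cX F H = 2*π*p*q + y := by
    have e : ∀ x, F x * H x = Fr x * K x + m * H x + (2*p) * (K x * Real.cos (x/2))
        + (2*p*q) * Real.cos (x/2)^2 + q * (Real.cos (x/2) * Fr x) :=
      fun x => by simp only [hFr, hK]; ring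
    rw [cX]
    simp_rw [e]
    have j1 := LFr.mul hle LK
    have j2 := (hH.intervalIntegrable hle).const_mul m
    have j3 := (LK.mul hle Lc).const_mul (2*p)
    have j4 := (Lc.sq hle).const_mul (2*p*q)
    have j5 := (Lc.mul hle LFr).const_mul q
    rw [intervalIntegral.integral_add (((j1.add j2).add j3).add j4) j5,
      intervalIntegral.integral_add ((j1.add j2).add j3) j4,
      intervalIntegral.integral_add (j1.add j2) j3, intervalIntegral.integral_add j1 j2,
      intervalIntegral.integral_const_mul, intervalIntegral.integral_const_mul,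
      intervalIntegral.integral_const_mul, intervalIntegral.integral_const_mul, hH0, i2, ic2, i5]
    ring
  have key := cal_aux hg0 hh0 hy2 (p := p) (q := q)
  rw [← hEE, ← hX] at key
  have hpq : 0 ≤ π * (p-q)^2 := by positivity
  have hEX : π * (p-q)^2 + (g+h)/4 ≤ cE F1 H - cX F H := key
  refine ⟨by linarith, ?_, ?_⟩
  · -- radial component
    have hRrest : |∫ x in (0:ℝ)..(2*π), ((K x ^ 2 - G x ^ 2) * Real.cos x - 2 * K x * G x * Real.sin x)|
        ≤ g + h := by
      have hb : ∀ x ∈ uIoc 0 (2*π), ‖(K x ^ 2 - G x ^ 2) * Real.cos x - 2 * K x * G x * Real.sin x‖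
          ≤ G x ^ 2 + K x ^ 2 := by
        intro x _
        rw [Real.norm_eq_abs]
        exact quad_bound_R _ _ _
      have := intervalIntegral.norm_integral_le_of_norm_le hle
        (ae_of_all _ fun x hx => hb x (by rwa [uIoc_of_le hle]))
        ((LG.sq hle).add (LK.sq hle))
      rw [intervalIntegral.integral_add (LG.sq hle) (LK.sq hle)] at this
      exact this
    have LK3 := LK.mul hle Lc3
    have LG3 := LG.mul hle Ls3
    have c3 := cs_sq hle LK Lc3
    have s3 := cs_sq hle LG Ls3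
    rw [int_cos_three_half_sq] at c3
    rw [int_sin_three_half_sq] at s3
    set u := ∫ x in (0:ℝ)..(2*π), K x * Real.cos (3*x/2) with hu
    set v := ∫ x in (0:ℝ)..(2*π), G x * Real.sin (3*x/2) with hv
    have hR : cR F1 H = π/2 * (p+q)^2 + (q-p) * u + (p-q) * v +
        ∫ x in (0:ℝ)..(2*π), ((K x ^ 2 - G x ^ 2) * Real.cos x - 2 * K x * G x * Real.sin x) := by
      have e : ∀ x, (H x ^ 2 - F1 x ^ 2) * Real.cos x - 2 * H x * F1 x * Real.sin x =
          (((q * Real.cos (x/2))^2 - (-p * Real.sin (x/2))^2) * Real.cos x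
            - 2 * (q * Real.cos (x/2)) * (-p * Real.sin (x/2)) * Real.sin x)
          + (q-p) * (K x * Real.cos (3*x/2)) + (p+q) * (K x * Real.cos (x/2))
          + (p-q) * (G x * Real.sin (3*x/2)) + (-(p+q)) * (G x * Real.sin (x/2))
          + ((K x ^ 2 - G x ^ 2) * Real.cos x - 2 * K x * G x * Real.sin x) := by
        intro x
        have hHx : H x = K x + q * Real.cos (x/2) := by simp only [hK]; ring
        have hFx : F1 x = G x - p * Real.sin (x/2) := by simp only [hG]; ring
        exact pointwise_R hHx hFx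
      rw [cR]
      simp_rw [e]
      have k0 : IntervalIntegrable (fun x => (((q * Real.cos (x/2))^2 - (-p * Real.sin (x/2))^2) * Real.cos x
            - 2 * (q * Real.cos (x/2)) * (-p * Real.sin (x/2)) * Real.sin x)) volume 0 (2*π) :=
        (by fun_prop : Continuous _).intervalIntegrable _ _
      have k1 := LK3.const_mul (q-p)
      have k2 := (LK.mul hle Lc).const_mul (p+q)
      have k3 := LG3.const_mul (p-q)
      have k4 := (LG.mul hle Ls).const_mul (-(p+q))
      have k5 : IntervalIntegrable (fun x => (K x ^ 2 - G x ^ 2) * Real.cos x - 2 * K x * G x * Real.sin x)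
          volume 0 (2*π) := by
        apply IntervalIntegrable.sub
        · exact ((LK.sq hle).sub (LG.sq hle)).mul_continuousOn (by fun_prop)
        · have := ((LK.mul hle LG).const_mul 2).mul_continuousOn (g := Real.sin) (by fun_prop)
          refine this.congr ?_
          intro x _
          simp only; ring
      rw [intervalIntegral.integral_add ((((k0.add k1).add k2).add k3).add k4) k5,
        intervalIntegral.integral_add (((k0.add k1).add k2).add k3) k4,
        intervalIntegral.integral_add ((k0.add k1).add k2) k3,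
        intervalIntegral.integral_add (k0.add k1) k2, intervalIntegral.integral_add k0 k1,
        int_main_R, intervalIntegral.integral_const_mul, intervalIntegral.integral_const_mul,
        intervalIntegral.integral_const_mul, intervalIntegral.integral_const_mul, i1, i2]
      ring
    exact radial_aux hg0 hh0 hy2 c3 s3 hRrest hR hX hEX
  · -- tangential component
    have hTrest : |∫ x in (0:ℝ)..(2*π), ((K x ^ 2 - G x ^ 2) * Real.sin x + 2 * K x * G x * Real.cos x)|
        ≤ g + h := by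
      have hb : ∀ x ∈ uIoc 0 (2*π), ‖(K x ^ 2 - G x ^ 2) * Real.sin x + 2 * K x * G x * Real.cos x‖
          ≤ G x ^ 2 + K x ^ 2 := by
        intro x _
        rw [Real.norm_eq_abs]
        exact quad_bound_T _ _ _
      have := intervalIntegral.norm_integral_le_of_norm_le hle
        (ae_of_all _ fun x hx => hb x (by rwa [uIoc_of_le hle]))
        ((LG.sq hle).add (LK.sq hle))
      rw [intervalIntegral.integral_add (LG.sq hle) (LK.sq hle)] at this
      exact this
    set a : ℝ → ℝ := fun x => 2 * (q * Real.cos (x/2) * Real.sin x - p * Real.sin (x/2) * Real.cos x)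
      with ha
    set b : ℝ → ℝ := fun x => 2 * (p * Real.sin (x/2) * Real.sin x + q * Real.cos (x/2) * Real.cos x)
      with hb
    have La : IsL2 0 (2*π) a := isL2_of_continuousOn (by fun_prop)
    have Lb : IsL2 0 (2*π) b := isL2_of_continuousOn (by fun_prop)
    have ca := cs_sq hle LK La
    have cb := cs_sq hle LG Lb
    have hab : (∫ x in (0:ℝ)..(2*π), a x ^ 2) + ∫ x in (0:ℝ)..(2*π), b x ^ 2 = 4 * π * (p^2 + q^2) := by
      rw [← intervalIntegral.integral_add (La.sq hle) (Lb.sq hle)]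
      have e : ∀ x, a x ^ 2 + b x ^ 2 = 4 * q^2 * Real.cos (x/2)^2 + 4 * p^2 * Real.sin (x/2)^2 := by
        intro x
        simp only [ha, hb]
        have h5 := Real.sin_sq_add_cos_sq x
        generalize Real.sin (x/2) = s
        generalize Real.cos (x/2) = c
        have h6 : Real.sin x ^ 2 = 1 - Real.cos x ^ 2 := by linarith
        ring_nf
        simp only [h6]
        ring_nf
      simp_rw [e]
      rw [intervalIntegral.integral_add ((Lc.sq hle).const_mul _) ((Ls.sq hle).const_mul _),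
        intervalIntegral.integral_const_mul, intervalIntegral.integral_const_mul, ic2, is2]
      ring
    set u := ∫ x in (0:ℝ)..(2*π), K x * a x with hu
    set v := ∫ x in (0:ℝ)..(2*π), G x * b x with hv
    have hT : cT F1 H = u + v +
        ∫ x in (0:ℝ)..(2*π), ((K x ^ 2 - G x ^ 2) * Real.sin x + 2 * K x * G x * Real.cos x) := by
      have e : ∀ x, (H x ^ 2 - F1 x ^ 2) * Real.sin x + 2 * H x * F1 x * Real.cos x =
          (((q * Real.cos (x/2))^2 - (-p * Real.sin (x/2))^2) * Real.sin x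
            + 2 * (q * Real.cos (x/2)) * (-p * Real.sin (x/2)) * Real.cos x)
          + K x * a x + G x * b x
          + ((K x ^ 2 - G x ^ 2) * Real.sin x + 2 * K x * G x * Real.cos x) := by
        intro x
        have hHx : H x = K x + q * Real.cos (x/2) := by simp only [hK]; ring
        have hFx : F1 x = G x - p * Real.sin (x/2) := by simp only [hG]; ring
        simp only [ha, hb]
        rw [hHx, hFx]
        ring
      rw [cT]
      simp_rw [e]
      have k0 : IntervalIntegrable (fun x => (((q * Real.cos (x/2))^2 - (-p * Real.sin (x/2))^2) * Real.sin x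
            + 2 * (q * Real.cos (x/2)) * (-p * Real.sin (x/2)) * Real.cos x)) volume 0 (2*π) :=
        (by fun_prop : Continuous _).intervalIntegrable _ _
      have k1 := LK.mul hle La
      have k2 := LG.mul hle Lb
      have k5 : IntervalIntegrable (fun x => (K x ^ 2 - G x ^ 2) * Real.sin x + 2 * K x * G x * Real.cos x)
          volume 0 (2*π) := by
        apply IntervalIntegrable.add
        · exact ((LK.sq hle).sub (LG.sq hle)).mul_continuousOn (by fun_prop)
        · have := ((LK.mul hle LG).const_mul 2).mul_continuousOn (g := Real.cos) (by fun_prop)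
          refine this.congr ?_
          intro x _
          simp only; ring
      rw [intervalIntegral.integral_add ((k0.add k1).add k2) k5,
        intervalIntegral.integral_add (k0.add k1) k2, intervalIntegral.integral_add k0 k1,
        int_main_T]
      ring
    exact tangential_aux hg0 hh0 (intervalIntegral.integral_nonneg hle fun x _ => sq_nonneg _)
      (intervalIntegral.integral_nonneg hle fun x _ => sq_nonneg _) ca cb hab hTrest hT hEE hEX

end CrackAlg

end Crest.Agent.R135
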