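import Crest.Agent.R135.Wirt

/-!
# R135: ODE lemmas for the cracktip decay (helper633)
-/

set_option autoImplicit false

open MeasureTheory Set Filter Topology intervalIntegral
open scoped Real Interval

noncomputable section

namespace Crest.Agent.R135

/-- `F` is a primitive of `F1` on every `[a,b] ⊆ (0,r0]`. -/
def LocPrim (r0 : ℝ) (F F1 : ℝ → ℝ) : Prop :=
  ∀ a b : ℝ, 0 < a → a ≤ b → b ≤ r0 → IsPrim a b F F1

theorem isPrim_rpow {a b : ℝ} (ha : 0 < a) (hab : a ≤ b) (k : ℝ) :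
    IsPrim a b (fun s => s ^ k) (fun s => k * s ^ (k-1)) := by
  apply isPrim_of_hasDerivAt hab
  · intro x hx
    exact Real.hasDerivAt_rpow_const (Or.inl (ha.trans_le hx.1).ne')
  · apply ContinuousOn.mul continuousOn_const
    intro x hx
    exact (Real.continuousAt_rpow_const x (k-1) (Or.inl (ha.trans_le hx.1).ne')).continuousWithinAt

theorem IsPrim.add {a b : ℝ} {F F1 P P1 : ℝ → ℝ} (hF : IsPrim a b F F1) (hP : IsPrim a b P P1)
    (_hab : a ≤ b) : IsPrim a b (fun s => F s + P s) (fun s => F1 s + P1 s) := by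
  refine ⟨hF.1.add hP.1, fun x hx => ?_⟩
  have h1 := (hF.mono le_rfl hx.1 hx.2).1
  have h2 := (hP.mono le_rfl hx.1 hx.2).1
  simp only
  rw [intervalIntegral.integral_add h1 h2, hF.2 x hx, hP.2 x hx]
  ring

theorem IsPrim.const_mul {a b : ℝ} {F F1 : ℝ → ℝ} (hF : IsPrim a b F F1) (c : ℝ) :
    IsPrim a b (fun s => c * F s) (fun s => c * F1 s) := by
  refine ⟨hF.1.const_mul c, fun x hx => ?_⟩
  simp only
  rw [intervalIntegral.integral_const_mul, hF.2 x hx]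
  ring

theorem IsPrim.add_const {a b : ℝ} {F F1 : ℝ → ℝ} (hF : IsPrim a b F F1) (c : ℝ) :
    IsPrim a b (fun s => F s + c) F1 := by
  refine ⟨hF.1, fun x hx => ?_⟩
  simp only
  rw [hF.2 x hx]
  ring

theorem IsPrim.sub_eq {a b : ℝ} {F F1 : ℝ → ℝ} (hF : IsPrim a b F F1) (hab : a ≤ b) :
    F b - F a = ∫ s in a..b, F1 s := by
  rw [hF.2 b ⟨hab, le_rfl⟩]; ring

/-- product of primitives -/
theorem IsPrim.mul {a b : ℝ} (hab : a ≤ b) {F F1 P P1 : ℝ → ℝ} (hF : IsPrim a b F F1)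
    (hP : IsPrim a b P P1) :
    IsPrim a b (fun s => P s * F s) (fun s => P1 s * F s + P s * F1 s) := by
  have c1 := hF.continuousOn hab
  have c2 := hP.continuousOn hab
  have hu : uIcc a b = Icc a b := uIcc_of_le hab
  have i1 : IntervalIntegrable (fun s => P1 s * F s) volume a b :=
    hP.1.mul_continuousOn (by rwa [hu])
  have i2 : IntervalIntegrable (fun s => P s * F1 s) volume a b :=
    hF.1.continuousOn_mul (by rwa [hu])
  refine ⟨i1.add i2, fun x hx => ?_⟩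
  have hF' := hF.mono le_rfl hx.1 hx.2
  have hP' := hP.mono le_rfl hx.1 hx.2
  have c1' := hF'.continuousOn hx.1
  have c2' := hP'.continuousOn hx.1
  have hu' : uIcc a x = Icc a x := uIcc_of_le hx.1
  have i1' : IntervalIntegrable (fun s => P1 s * F s) volume a x :=
    hP'.1.mul_continuousOn (by rwa [hu'])
  have i2' : IntervalIntegrable (fun s => P s * F1 s) volume a x :=
    hF'.1.continuousOn_mul (by rwa [hu'])
  rw [intervalIntegral.integral_add i1' i2', hF'.ibp hx.1 hP']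
  ring

/-- Monotonicity of a primitive from an a.e. sign. -/
theorem IsPrim.le_of_ae_nonneg {a b : ℝ} {F F1 : ℝ → ℝ} (hF : IsPrim a b F F1) (hab : a ≤ b)
    (h : ∀ᵐ s, s ∈ Ioo a b → 0 ≤ F1 s) : F a ≤ F b := by
  have h1 := hF.sub_eq hab
  have h2 : 0 ≤ ∫ s in a..b, F1 s := by
    apply intervalIntegral.integral_nonneg_of_ae_restrict hab
    have e : (volume.restrict (Icc a b) : Measure ℝ) = volume.restrict (Ioo a b) :=
      (Measure.restrict_congr_set Ioo_ae_eq_Icc).symm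
    rw [e]
    exact (ae_restrict_iff' measurableSet_Ioo).2 h
  linarith

theorem IsPrim.sub {a b : ℝ} {F F1 P P1 : ℝ → ℝ} (hF : IsPrim a b F F1) (hP : IsPrim a b P P1)
    (hab : a ≤ b) : IsPrim a b (fun s => F s - P s) (fun s => F1 s - P1 s) := by
  have h := hF.add (hP.const_mul (-1)) hab
  refine ⟨?_, fun x hx => ?_⟩
  · refine h.1.congr ?_
    intro s _
    simp only
    ring
  · have := h.2 x hx
    simp only at this ⊢
    have e : (fun s => F1 s - P1 s) = (fun s => F1 s + -1 * P1 s) := by funext s; ring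
    rw [e]
    linarith

/-- Comparison of primitives. -/
theorem IsPrim.sub_le_sub {a b : ℝ} {F F1 P P1 : ℝ → ℝ} (hF : IsPrim a b F F1)
    (hP : IsPrim a b P P1) (hab : a ≤ b) (h : ∀ᵐ s, s ∈ Ioo a b → F1 s ≤ P1 s) :
    F b - F a ≤ P b - P a := by
  have h1 := (hP.sub hF hab).le_of_ae_nonneg hab (by
    filter_upwards [h] with s hs hs'
    linarith [hs hs'])
  linarith

theorem isPrim_rpow_div {a b : ℝ} (ha : 0 < a) (hab : a ≤ b) {k : ℝ} (hk : k ≠ 0) :
    IsPrim a b (fun s => s ^ k / k) (fun s => s ^ (k-1)) := by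
  apply isPrim_of_hasDerivAt hab
  · intro x hx
    have h := (Real.hasDerivAt_rpow_const (p := k) (Or.inl (ha.trans_le hx.1).ne')).div_const k
    refine h.congr_deriv ?_
    field_simp
  · intro x hx
    exact (Real.continuousAt_rpow_const x (k-1) (Or.inl (ha.trans_le hx.1).ne')).continuousWithinAt

/-- One-sided lower bound in the decay lemma. -/
theorem ode_lower {r0 C2 σ : ℝ} (hσ : 0 < σ) {D D1 : ℝ → ℝ}
    (hD : LocPrim r0 D D1) (hlim : Tendsto D (𝓝[>] 0) (𝓝 1))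
    (h1 : ∀ᵐ s, s ∈ Ioo 0 r0 → -(C2 * s ^ σ) ≤ s * D1 s) (hC2 : 0 ≤ C2) {r : ℝ}
    (hr : 0 < r) (hrr : r ≤ r0) : -(C2 / σ * r ^ σ) ≤ D r - 1 := by
  have key : ∀ a, 0 < a → a ≤ r → D a - 1 - C2 / σ * r ^ σ ≤ D r - 1 := by
    intro a ha har
    have p1 := hD a r ha har hrr
    have p2 := (isPrim_rpow_div ha har hσ.ne').const_mul (-C2)
    have h := p2.sub_le_sub p1 har (by
      filter_upwards [h1] with s hs hs'
      have hs0 : 0 < s := ha.trans hs'.1
      have h3 := hs ⟨hs0, hs'.2.trans_le hrr⟩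
      have e : s ^ (σ - 1) = s ^ σ / s := by rw [Real.rpow_sub_one hs0.ne']
      rw [e]
      rw [show -C2 * (s ^ σ / s) = (-(C2 * s ^ σ)) / s by ring]
      rw [div_le_iff₀ hs0]
      linarith)
    have h4 : 0 ≤ a ^ σ := Real.rpow_nonneg ha.le σ
    have h5 : 0 ≤ C2 * (a ^ σ / σ) := by positivity
    have e1 : C2 / σ * r ^ σ = C2 * (r ^ σ / σ) := by ring
    rw [e1]
    linarith
  have hl : Tendsto (fun a => D a - 1 - C2 / σ * r ^ σ) (𝓝[>] 0) (𝓝 (1 - 1 - C2 / σ * r ^ σ)) :=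
    (hlim.sub_const 1).sub_const _
  have h2 : 1 - 1 - C2 / σ * r ^ σ ≤ D r - 1 := by
    refine le_of_tendsto hl ?_
    have : Ioc (0:ℝ) r ∈ 𝓝[>] (0:ℝ) := Ioc_mem_nhdsGT hr
    filter_upwards [this] with a ha
    exact key a ha.1 ha.2
  linarith

/-- Power decay from `-(C s^σ) ≤ s D'` and `D - 1 ≤ C s D' + C s^σ`. -/
theorem ode_decay {r0 C1 C2 σ : ℝ} (hr01 : r0 ≤ 1) (hσ : 0 < σ) (hC2 : 0 ≤ C2)
    {D D1 : ℝ → ℝ} (hD : LocPrim r0 D D1) (hlim : Tendsto D (𝓝[>] 0) (𝓝 1))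
    (h1 : ∀ᵐ s, s ∈ Ioo 0 r0 → -(C2 * s ^ σ) ≤ s * D1 s)
    (h2 : ∀ᵐ s, s ∈ Ioo 0 r0 → D s - 1 ≤ C1 * (s * D1 s) + C2 * s ^ σ) :
    ∃ γ, 0 < γ ∧ γ ≤ σ / 2 ∧ ∃ C, 0 ≤ C ∧ ∀ r, 0 < r → r ≤ r0 → |D r - 1| ≤ C * r ^ γ := by
  -- enlarge the constant
  set M : ℝ := max C1 (2/σ) with hM
  have hMpos : 0 < M := lt_of_lt_of_le (by positivity) (le_max_right _ _)
  have hM2 : 2/σ ≤ M := le_max_right _ _
  have hM1 : C1 ≤ M := le_max_left _ _
  set k : ℝ := 1/M with hk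
  have hkpos : 0 < k := by positivity
  have hkσ : k ≤ σ/2 := by
    rw [hk, div_le_iff₀ hMpos]
    calc (1:ℝ) = σ/2 * (2/σ) := by field_simp
      _ ≤ σ/2 * M := by gcongr
  set C3 : ℝ := (2 * M + |C1| + 1) * C2 with hC3
  have hC3' : 0 ≤ C3 := by positivity
  have h3 : ∀ᵐ s, s ∈ Ioo 0 r0 → D s - 1 ≤ M * (s * D1 s) + C3 * s ^ σ := by
    filter_upwards [h1, h2] with s hs1 hs2 hs
    have a1 := hs1 hs
    have a2 := hs2 hs
    have hs0 : 0 ≤ s ^ σ := Real.rpow_nonneg hs.1.le σ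
    have a3 : 0 ≤ (M - C1) * (s * D1 s + C2 * s ^ σ) :=
      mul_nonneg (by linarith) (by linarith)
    have a4 : -|C1| ≤ C1 := neg_abs_le C1
    have a5 : 0 ≤ C2 * s ^ σ := by positivity
    have a6 : 0 ≤ (C1 + |C1|) * (C2 * s ^ σ) := mul_nonneg (by linarith) a5
    have a7 : 0 ≤ M * (C2 * s ^ σ) := by positivity
    have a8 : 0 ≤ |C1| * (C2 * s ^ σ) := by positivity
    rw [hC3]
    nlinarith
  -- upper bound
  set W : ℝ := |r0 ^ (-k) * (D r0 - 1) + k * C3 * (r0 ^ (σ-k) / (σ - k))| with hW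
  have hσk : 0 < σ - k := by linarith
  have up : ∀ r, 0 < r → r ≤ r0 → D r - 1 ≤ W * r ^ k := by
    intro r hr hrr
    have hr0 : 0 < r0 := hr.trans_le hrr
    have p1 := (isPrim_rpow hr hrr (-k))
    have p2 := ((hD r r0 hr hrr le_rfl).add_const (-1))
    have p3 := p2.mul hrr p1
    have p4 := (isPrim_rpow_div hr hrr hσk.ne').const_mul (-(k * C3))
    have h := p4.sub_le_sub p3 hrr (by
      filter_upwards [h3] with s hs hs'
      have hs0 : 0 < s := hr.trans hs'.1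
      have h4 := hs ⟨hs0, hs'.2⟩
      have e1 : s ^ (-k - 1) = s ^ (-k) / s := by rw [Real.rpow_sub_one hs0.ne']
      have e2 : s ^ (σ - k - 1) = s ^ (-k) * s ^ σ / s := by
        rw [Real.rpow_sub_one hs0.ne', ← Real.rpow_add hs0]; ring_nf
      rw [e1, e2]
      have hP : 0 < s ^ (-k) := Real.rpow_pos_of_pos hs0 _
      have h5 : 0 ≤ (s ^ (-k) / s * k) * (M * (s * D1 s) + C3 * s ^ σ - (D s - 1)) := by
        apply mul_nonneg
        · positivity
        · linarith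
      have e3 : (s ^ (-k) / s * k) * (M * (s * D1 s) + C3 * s ^ σ - (D s - 1))
          = s ^ (-k) * D1 s - (s ^ (-k) / s * k) * (D s - 1) + k * C3 * (s ^ (-k) * s ^ σ / s) := by
        have hkM : k * M = 1 := by rw [hk]; field_simp
        have : (s ^ (-k) / s * k) * (M * (s * D1 s)) = s ^ (-k) * D1 s := by
          calc (s ^ (-k) / s * k) * (M * (s * D1 s)) = (k * M) * (s ^ (-k) * D1 s) * (s / s) := by ring
            _ = s ^ (-k) * D1 s := by rw [hkM, div_self hs0.ne']; ring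
        linear_combination this
      rw [e3] at h5
      linarith [h5])
    have e4 : r ^ (-k) * (D r - 1) ≤ W := by
      have h6 : r0 ^ (-k) * (D r0 - 1) + k * C3 * (r0 ^ (σ-k) / (σ - k)) ≤ W := le_abs_self _
      have h7 : 0 ≤ k * C3 * (r ^ (σ-k) / (σ - k)) := by
        have := Real.rpow_nonneg hr.le (σ - k)
        positivity
      linarith [h]
    have e5 : D r - 1 = (r ^ (-k) * (D r - 1)) * r ^ k := by
      have : r ^ (-k) * r ^ k = 1 := by rw [← Real.rpow_add hr]; simp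
      calc D r - 1 = (D r - 1) * (r ^ (-k) * r ^ k) := by rw [this]; ring
        _ = _ := by ring
    rw [e5]
    exact mul_le_mul_of_nonneg_right e4 (Real.rpow_nonneg hr.le k)
  refine ⟨k, hkpos, hkσ, W + C2 / σ, by positivity, fun r hr hrr => ?_⟩
  have hlow := ode_lower hσ hD hlim h1 hC2 hr hrr
  have hup := up r hr hrr
  have hr1 : r ≤ 1 := hrr.trans hr01
  have hpow : r ^ σ ≤ r ^ k := Real.rpow_le_rpow_of_exponent_ge hr hr1 (by linarith)
  have hrk : 0 ≤ r ^ k := Real.rpow_nonneg hr.le k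
  have hC2σ : 0 ≤ C2 / σ := by positivity
  have hW0 : 0 ≤ W := abs_nonneg _
  rw [abs_le]
  constructor
  · have : C2 / σ * r ^ σ ≤ C2 / σ * r ^ k := mul_le_mul_of_nonneg_left hpow hC2σ
    nlinarith [mul_nonneg hW0 hrk]
  · nlinarith [mul_nonneg hC2σ hrk]

theorem IsPrim.neg {a b : ℝ} {F F1 : ℝ → ℝ} (hF : IsPrim a b F F1) :
    IsPrim a b (fun s => - F s) (fun s => - F1 s) := by
  refine ⟨hF.1.neg, fun x hx => ?_⟩
  simp only
  rw [intervalIntegral.integral_neg, hF.2 x hx]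
  ring

/-- Young's inequality in the form used for the angle. -/
theorem abs_le_half_add {p t : ℝ} (hp : 0 < p) : |t| ≤ 1/2 * (p + t^2 / p) := by
  have h : 0 ≤ (p - |t|)^2 / p := by positivity
  have h2 : (p - |t|)^2 / p = p - 2 * |t| + t^2/p := by
    have : |t|^2 = t^2 := sq_abs t
    field_simp
    nlinarith
  linarith

/-- Convergence of the polar angle from `(s θ')² ≤ C s D' + C s^σ` and decay of `D`. -/
theorem angle_decay {r0 C C1 C2 σ γ : ℝ} (hr0 : 0 < r0) (hr01 : r0 ≤ 1) (hγ : 0 < γ)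
    (hγσ : γ ≤ σ) (hC : 0 ≤ C) (hC1 : 0 ≤ C1) (hC2 : 0 ≤ C2)
    {D D1 θ θ1 : ℝ → ℝ} (hD : LocPrim r0 D D1) (hθ : LocPrim r0 θ θ1)
    (hdec : ∀ r, 0 < r → r ≤ r0 → |D r - 1| ≤ C * r ^ γ)
    (h3 : ∀ᵐ s, s ∈ Ioo 0 r0 → (s * θ1 s)^2 ≤ C1 * (s * D1 s) + C2 * s ^ σ) :
    ∃ θ0 C', 0 ≤ C' ∧ ∀ r, 0 < r → r ≤ r0 → |θ r - θ0| ≤ C' * r ^ (γ/2) := by
  set κ : ℝ := γ/2 with hκ
  have hκpos : 0 < κ := by positivity
  have hγκ : γ - κ = κ := by rw [hκ]; ring
  have hσκ : 0 < σ - κ := by linarith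
  -- the comparison function
  set A1 : ℝ := 1 + C1 * κ * C + C2 with hA1
  have hA1nn : 0 ≤ A1 := by positivity
  have key : ∀ a b, 0 < a → a ≤ b → b ≤ r0 →
      |θ b - θ a| ≤ 1/2 * ((A1/κ) * b ^ κ + 2 * C1 * C * b ^ κ) := by
    intro a b ha hab hb
    have hb0 : 0 < b := ha.trans_le hab
    have q1 := (isPrim_rpow_div ha hab hκpos.ne').const_mul A1
    have q2 := (((hD a b ha hab hb).add_const (-1)).mul hab (isPrim_rpow ha hab (-κ))).const_mul C1
    have q3 := (q1.add q2 hab).const_mul (1/2)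
    have bound : ∀ᵐ s, s ∈ Ioo a b → |θ1 s| ≤ 1/2 * (A1 * s ^ (κ - 1) +
        C1 * (-κ * s ^ (-κ - 1) * (D s + -1) + s ^ (-κ) * D1 s)) := by
      filter_upwards [h3] with s hs hs'
      have hs0 : 0 < s := ha.trans hs'.1
      have hsr : s ≤ r0 := hs'.2.le.trans hb
      have hs1 : s ≤ 1 := hsr.trans hr01
      have g1 := hs ⟨hs0, hs'.2.trans_le hb⟩
      have g2 := hdec s hs0 hsr
      have hsκ : 0 < s ^ κ := Real.rpow_pos_of_pos hs0 κ
      have hsκ' : 0 < s ^ (-κ) := Real.rpow_pos_of_pos hs0 (-κ)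
      have hpp : s ^ (-κ) * s ^ κ = 1 := by rw [← Real.rpow_add hs0]; simp
      have y := abs_le_half_add (p := s ^ κ) (t := s * θ1 s) hsκ
      have e1 : s ^ (κ - 1) = s ^ κ / s := by rw [Real.rpow_sub_one hs0.ne']
      have e2 : s ^ (-κ - 1) = s ^ (-κ) / s := by rw [Real.rpow_sub_one hs0.ne']
      have e3 : s ^ σ ≤ s ^ κ * s ^ κ := by
        rw [← Real.rpow_add hs0]
        exact Real.rpow_le_rpow_of_exponent_ge hs0 hs1 (by linarith)
      have e4 : s ^ γ = s ^ κ * s ^ κ := by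
        rw [← Real.rpow_add hs0]; congr 1; linarith
      rw [e1, e2]
      have t1 : |s * θ1 s| = s * |θ1 s| := by rw [abs_mul, abs_of_pos hs0]
      have t2 : (s * θ1 s)^2 / s ^ κ = s ^ (-κ) * (s * θ1 s)^2 := by
        rw [div_eq_iff hsκ.ne']
        calc (s * θ1 s)^2 = (s ^ (-κ) * s ^ κ) * (s * θ1 s)^2 := by rw [hpp]; ring
          _ = _ := by ring
      rw [t1, t2] at y
      -- main estimate multiplied by `s`
      have g3 : s ^ (-κ) * (s * θ1 s)^2 ≤ s ^ (-κ) * (C1 * (s * D1 s)) + C2 * s ^ κ := by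
        have h1 := mul_le_mul_of_nonneg_left g1 hsκ'.le
        have h2 : s ^ (-κ) * (C2 * s ^ σ) ≤ C2 * s ^ κ := by
          have := mul_le_mul_of_nonneg_left e3 (mul_nonneg hsκ'.le hC2)
          calc s ^ (-κ) * (C2 * s ^ σ) = s ^ (-κ) * C2 * s ^ σ := by ring
            _ ≤ s ^ (-κ) * C2 * (s ^ κ * s ^ κ) := this
            _ = (s ^ (-κ) * s ^ κ) * (C2 * s ^ κ) := by ring
            _ = C2 * s ^ κ := by rw [hpp]; ring
        calc s ^ (-κ) * (s * θ1 s)^2 ≤ s ^ (-κ) * (C1 * (s * D1 s) + C2 * s ^ σ) := h1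
          _ = s ^ (-κ) * (C1 * (s * D1 s)) + s ^ (-κ) * (C2 * s ^ σ) := by ring
          _ ≤ _ := by linarith
      have g4 : s ^ (-κ) * (D s + -1) ≤ C * s ^ κ := by
        have h1 : D s + -1 ≤ C * s ^ γ := by linarith [le_abs_self (D s - 1)]
        calc s ^ (-κ) * (D s + -1) ≤ s ^ (-κ) * (C * s ^ γ) :=
              mul_le_mul_of_nonneg_left h1 hsκ'.le
          _ = (s ^ (-κ) * s ^ κ) * (C * s ^ κ) := by rw [e4]; ring
          _ = C * s ^ κ := by rw [hpp]; ring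
      have g5 : 0 ≤ C1 * κ * (C * s ^ κ - s ^ (-κ) * (D s + -1)) := by
        apply mul_nonneg (by positivity); linarith
      have g6 : s * |θ1 s| ≤ 1/2 * (A1 * s ^ κ + C1 * (-κ * (s ^ (-κ) * (D s + -1)) +
          s ^ (-κ) * (s * D1 s))) := by
        rw [hA1]; nlinarith
      have g7 : |θ1 s| ≤ (1/2 * (A1 * s ^ κ + C1 * (-κ * (s ^ (-κ) * (D s + -1)) +
          s ^ (-κ) * (s * D1 s)))) / s := by
        rw [le_div_iff₀ hs0]; linarith
      refine g7.trans (le_of_eq ?_)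
      field_simp
    have up := (hθ a b ha hab hb).sub_le_sub q3 hab (by
      filter_upwards [bound] with s hs hs'
      exact (le_abs_self _).trans (hs hs'))
    have dn := (hθ a b ha hab hb).neg.sub_le_sub q3 hab (by
      filter_upwards [bound] with s hs hs'
      exact (neg_le_abs _).trans (hs hs'))
    have haκ : 0 ≤ a ^ κ := Real.rpow_nonneg ha.le κ
    have hbκ : 0 ≤ b ^ κ := Real.rpow_nonneg hb0.le κ
    have hab' : a ^ κ ≤ b ^ κ := Real.rpow_le_rpow ha.le hab hκpos.le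
    -- bound of the end point terms
    have ep : ∀ x, 0 < x → x ≤ b → |x ^ (-κ) * (D x + -1)| ≤ C * b ^ κ := by
      intro x hx hxb
      have hxκ' : 0 < x ^ (-κ) := Real.rpow_pos_of_pos hx (-κ)
      have e4 : x ^ γ = x ^ κ * x ^ κ := by
        rw [← Real.rpow_add hx]; congr 1; linarith
      have hpp : x ^ (-κ) * x ^ κ = 1 := by rw [← Real.rpow_add hx]; simp
      rw [abs_mul, abs_of_pos hxκ']
      have h1 : |D x + -1| ≤ C * x ^ γ := by
        have := hdec x hx (hxb.trans hb)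
        rwa [sub_eq_add_neg] at this
      have hxb' : x ^ κ ≤ b ^ κ := Real.rpow_le_rpow hx.le hxb hκpos.le
      calc x ^ (-κ) * |D x + -1| ≤ x ^ (-κ) * (C * x ^ γ) :=
            mul_le_mul_of_nonneg_left h1 hxκ'.le
        _ = (x ^ (-κ) * x ^ κ) * (C * x ^ κ) := by rw [e4]; ring
        _ = C * x ^ κ := by rw [hpp]; ring
        _ ≤ C * b ^ κ := mul_le_mul_of_nonneg_left hxb' hC
    have ea := ep a ha hab
    have eb := ep b hb0 le_rfl
    have t1 : A1 * (b ^ κ / κ) - A1 * (a ^ κ / κ) ≤ (A1/κ) * b ^ κ := by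
      have : 0 ≤ A1 * (a ^ κ / κ) := by positivity
      have e : A1 * (b ^ κ / κ) = (A1/κ) * b ^ κ := by ring
      linarith
    have t2 : C1 * (b ^ (-κ) * (D b + -1)) - C1 * (a ^ (-κ) * (D a + -1)) ≤ 2 * C1 * C * b ^ κ := by
      have h1 := (abs_le.1 ea).1
      have h2 := (abs_le.1 eb).2
      have h3 := mul_le_mul_of_nonneg_left h2 hC1
      have h4 := mul_le_mul_of_nonneg_left h1 hC1
      nlinarith
    rw [abs_le]
    constructor
    · linarith
    · linarith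
  -- Cauchy
  set C' : ℝ := 1/2 * (A1/κ + 2 * C1 * C) with hC'
  have hC'nn : 0 ≤ C' := by positivity
  have key' : ∀ a b, 0 < a → a ≤ b → b ≤ r0 → |θ b - θ a| ≤ C' * b ^ κ := by
    intro a b ha hab hb
    refine (key a b ha hab hb).trans (le_of_eq ?_)
    rw [hC']; ring
  have hlim0 : Tendsto (fun x : ℝ => C' * x ^ κ) (𝓝[>] 0) (𝓝 0) := by
    have h1 : Tendsto (fun x : ℝ => x ^ κ) (𝓝 0) (𝓝 ((0:ℝ) ^ κ)) :=
      (Real.continuousAt_rpow_const 0 κ (Or.inr hκpos.le)).tendsto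
    rw [Real.zero_rpow hκpos.ne'] at h1
    have h2 := (h1.mono_left (nhdsWithin_le_nhds (s := Ioi 0))).const_mul C'
    simpa using h2
  have hcau : Cauchy (map θ (𝓝[>] 0)) := by
    rw [Metric.cauchy_iff]
    refine ⟨inferInstance, fun ε hε => ?_⟩
    have h1 : ∀ᶠ x in 𝓝[>] (0:ℝ), C' * x ^ κ < ε/2 :=
      hlim0.eventually (gt_mem_nhds (by positivity))
    have h2 : ∀ᶠ x in 𝓝[>] (0:ℝ), x ∈ Ioc 0 r0 := Ioc_mem_nhdsGT hr0
    obtain ⟨x, hx1, hx2⟩ := (h1.and h2).exists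
    refine ⟨θ '' Ioc 0 x, ?_, ?_⟩
    · exact image_mem_map (Ioc_mem_nhdsGT hx2.1)
    · rintro _ ⟨y, hy, rfl⟩ _ ⟨z, hz, rfl⟩
      have g1 := key' y x hy.1 hy.2 hx2.2
      have g2 := key' z x hz.1 hz.2 hx2.2
      rw [Real.dist_eq]
      calc |θ y - θ z| = |(θ x - θ z) - (θ x - θ y)| := by ring_nf
        _ ≤ |θ x - θ z| + |θ x - θ y| := abs_sub _ _
        _ < ε := by linarith
  obtain ⟨θ0, hθ0⟩ := cauchy_map_iff_exists_tendsto.1 hcau
  refine ⟨θ0, C', hC'nn, fun r hr hrr => ?_⟩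
  have hl : Tendsto (fun a => |θ r - θ a|) (𝓝[>] 0) (𝓝 |θ r - θ0|) :=
    (tendsto_const_nhds.sub hθ0).abs
  refine le_of_tendsto hl ?_
  filter_upwards [Ioc_mem_nhdsGT hr] with a ha
  exact key' a r ha.1 ha.2 hrr

end Crest.Agent.R135
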