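import Crest.Agent.R135.CrackAlg
import Crest.Agent.R135.CrackODE

/-!
# R135: the perturbed circle lemma and the decay theorem for the polar angle (helper633)
-/

set_option autoImplicit false

open MeasureTheory Set Filter Topology intervalIntegral
open scoped Real Interval

noncomputable section

namespace Crest.Agent.R135

open CrackAlg

theorem isL2_const {a b : ℝ} (c : ℝ) : IsL2 a b (fun _ => c) :=
  isL2_of_continuousOn continuousOn_const

/-- removing the mean of the flux -/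
theorem cX_sub_const {F F1 H : ℝ → ℝ} (hF : IsPrim 0 (2*π) F F1) (hH : IsL2 0 (2*π) H) (h : ℝ) :
    cX F (fun x => H x - h) = cX F H - h * ∫ x in (0:ℝ)..(2*π), F x := by
  have hle : (0:ℝ) ≤ 2*π := by positivity
  have hFL := hF.isL2 hle
  have i1 := hFL.mul hle hH
  have i2 := hFL.intervalIntegrable hle
  unfold cX
  rw [show (fun x => F x * (H x - h)) = fun x => F x * H x - h * F x by funext x; ring]
  rw [intervalIntegral.integral_sub i1 (i2.const_mul h), intervalIntegral.integral_const_mul]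

theorem cE_sub_const {F1 H : ℝ → ℝ} (hH : IsL2 0 (2*π) H) (h : ℝ)
    (hm : ∫ x in (0:ℝ)..(2*π), H x = 2*π*h) :
    cE F1 (fun x => H x - h) = cE F1 H - 2*π*h^2 := by
  have hle : (0:ℝ) ≤ 2*π := by positivity
  have i1 := hH.sq hle
  have i2 := hH.intervalIntegrable hle
  unfold cE
  rw [show (fun x => (H x - h)^2) = fun x => (H x ^2 - 2*h * H x) + h^2 by funext x; ring]
  rw [intervalIntegral.integral_add (i1.sub (i2.const_mul _)) intervalIntegrable_const,
    intervalIntegral.integral_sub i1 (i2.const_mul _), intervalIntegral.integral_const_mul, hm]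
  simp only [intervalIntegral.integral_const, smul_eq_mul]
  ring

/-- a quantitative version of the change of `cR`, `cT` by removing a constant -/
theorem cR_sub_const {F1 H : ℝ → ℝ} (hF1 : IsL2 0 (2*π) F1) (hH : IsL2 0 (2*π) H) (h : ℝ) :
    |cR F1 (fun x => H x - h) - cR F1 H| ≤ |h| * (4*π + 2*π*|h| + cE F1 (fun x => H x - h)) ∧
    |cT F1 (fun x => H x - h) - cT F1 H| ≤ |h| * (4*π + 2*π*|h| + cE F1 (fun x => H x - h)) := by
  have hle : (0:ℝ) ≤ 2*π := by positivity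
  set K : ℝ → ℝ := fun x => H x - h with hK
  have hKL : IsL2 0 (2*π) K := hH.sub (isL2_const h)
  have iK2 := hKL.sq hle
  have iH2 := hH.sq hle
  have iF2 := hF1.sq hle
  have iKF := hKL.mul hle hF1
  have iHF := hH.mul hle hF1
  have cc : ContinuousOn Real.cos (uIcc 0 (2*π)) := Real.continuous_cos.continuousOn
  have cs : ContinuousOn Real.sin (uIcc 0 (2*π)) := Real.continuous_sin.continuousOn
  have iRK : IntervalIntegrable (fun x => (K x ^ 2 - F1 x ^ 2) * Real.cos x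
      - 2 * K x * F1 x * Real.sin x) volume 0 (2*π) := by
    have a1 := (iK2.sub iF2).mul_continuousOn cc
    have a2 := (iKF.const_mul 2).mul_continuousOn cs
    refine (a1.sub a2).congr ?_
    intro x _
    simp only
    ring
  have iRH : IntervalIntegrable (fun x => (H x ^ 2 - F1 x ^ 2) * Real.cos x
      - 2 * H x * F1 x * Real.sin x) volume 0 (2*π) := by
    have a1 := (iH2.sub iF2).mul_continuousOn cc
    have a2 := (iHF.const_mul 2).mul_continuousOn cs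
    refine (a1.sub a2).congr ?_
    intro x _
    simp only
    ring
  have iTK : IntervalIntegrable (fun x => (K x ^ 2 - F1 x ^ 2) * Real.sin x
      + 2 * K x * F1 x * Real.cos x) volume 0 (2*π) := by
    have a1 := (iK2.sub iF2).mul_continuousOn cs
    have a2 := (iKF.const_mul 2).mul_continuousOn cc
    refine (a1.add a2).congr ?_
    intro x _
    simp only
    ring
  have iTH : IntervalIntegrable (fun x => (H x ^ 2 - F1 x ^ 2) * Real.sin x
      + 2 * H x * F1 x * Real.cos x) volume 0 (2*π) := by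
    have a1 := (iH2.sub iF2).mul_continuousOn cs
    have a2 := (iHF.const_mul 2).mul_continuousOn cc
    refine (a1.add a2).congr ?_
    intro x _
    simp only
    ring
  have iB : IntervalIntegrable (fun x => |h| * ((2 + |h|) + (F1 x ^ 2 + K x ^ 2))) volume 0 (2*π) :=
    (intervalIntegrable_const.add (iF2.add iK2)).const_mul _
  have vB : ∫ x in (0:ℝ)..(2*π), |h| * ((2 + |h|) + (F1 x ^ 2 + K x ^ 2)) =
      |h| * (4*π + 2*π*|h| + cE F1 K) := by
    rw [intervalIntegral.integral_const_mul,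
      intervalIntegral.integral_add intervalIntegrable_const (iF2.add iK2),
      intervalIntegral.integral_add iF2 iK2]
    unfold cE
    simp only [intervalIntegral.integral_const, smul_eq_mul]
    ring
  have pt : ∀ k g a b : ℝ, |a| ≤ 1 → |b| ≤ 1 →
      |(h^2 + 2 * h * k) * a + 2 * h * g * b| ≤ |h| * ((2 + |h|) + (g^2 + k^2)) := by
    intro k g a b ha hb
    have h1 : |(h^2 + 2 * h * k) * a| ≤ |h| * (|h| + 2 * |k|) := by
      rw [abs_mul]
      have : |h^2 + 2*h*k| ≤ |h| * (|h| + 2 * |k|) := by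
        calc |h^2 + 2*h*k| ≤ |h^2| + |2*h*k| := abs_add_le _ _
          _ = |h| * (|h| + 2 * |k|) := by
            rw [abs_mul, abs_mul, abs_pow, abs_two]; ring
      calc |h^2 + 2*h*k| * |a| ≤ (|h| * (|h| + 2 * |k|)) * 1 := by
            gcongr
        _ = _ := by ring
    have h2 : |2 * h * g * b| ≤ |h| * (2 * |g|) := by
      rw [abs_mul]
      have : |2*h*g| = |h| * (2 * |g|) := by
        rw [abs_mul, abs_mul]; simp; ring
      rw [this]
      calc |h| * (2 * |g|) * |b| ≤ |h| * (2 * |g|) * 1 := by gcongr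
        _ = _ := by ring
    have h3 : 2 * |k| ≤ 1 + k^2 := by nlinarith [sq_nonneg (|k| - 1), sq_abs k]
    have h4 : 2 * |g| ≤ 1 + g^2 := by nlinarith [sq_nonneg (|g| - 1), sq_abs g]
    calc |(h^2 + 2 * h * k) * a + 2 * h * g * b| ≤ _ := abs_add_le _ _
      _ ≤ |h| * (|h| + 2 * |k|) + |h| * (2 * |g|) := add_le_add h1 h2
      _ = |h| * (|h| + 2 * |k| + 2 * |g|) := by ring
      _ ≤ |h| * ((2 + |h|) + (g^2 + k^2)) := by
        apply mul_le_mul_of_nonneg_left _ (abs_nonneg h)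
        linarith
  constructor
  · unfold cR
    rw [← intervalIntegral.integral_sub iRK iRH, ← vB]
    refine (intervalIntegral.abs_integral_le_integral_abs hle).trans ?_
    apply intervalIntegral.integral_mono_on hle (iRK.sub iRH).abs iB
    intro x _
    have := pt (K x) (F1 x) (- Real.cos x) (Real.sin x) (by rw [abs_neg]; exact Real.abs_cos_le_one x)
      (Real.abs_sin_le_one x)
    have e : H x = K x + h := by simp [hK]
    rw [e]
    refine (le_of_eq ?_).trans this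
    congr 1
    ring
  · unfold cT
    rw [← intervalIntegral.integral_sub iTK iTH, ← vB]
    refine (intervalIntegral.abs_integral_le_integral_abs hle).trans ?_
    apply intervalIntegral.integral_mono_on hle (iTK.sub iTH).abs iB
    intro x _
    have := pt (K x) (F1 x) (- Real.sin x) (-Real.cos x)
      (by rw [abs_neg]; exact Real.abs_sin_le_one x)
      (by rw [abs_neg]; exact Real.abs_cos_le_one x)
    have e : H x = K x + h := by simp [hK]
    rw [e]
    refine (le_of_eq ?_).trans this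
    congr 1
    ring

theorem sq_add4_le (a b c d : ℝ) : (a + b + c + d)^2 ≤ 4 * (a^2 + b^2 + c^2 + d^2) := by
  nlinarith [sq_nonneg (a - b), sq_nonneg (a - c), sq_nonneg (b - c), sq_nonneg (a - d),
    sq_nonneg (b - d), sq_nonneg (c - d)]

theorem circle_pert_t {M N Q s t T Tt Et q ε : ℝ} (hM : 0 ≤ M) (hN : 0 ≤ N) (hs : 0 < s)
    (hs1 : s ≤ 1) (_hQ : 0 ≤ Q) (g1 : |Tt - T| ≤ Q * s + M * q) (hT : |T - t| ≤ M * s + ε)
    (hε : 0 ≤ ε)
    (hq0 : 0 ≤ q) (c2 : Tt^2 ≤ 40 * Et * q) (e2 : Et ≤ q + M + N) (ht : t^2 ≤ 1)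
    (_hEt0 : 0 ≤ Et) :
    t^2 ≤ (1 + 160 * (1 + M + N) + 4*M^2) * q + (4*(M + Q)^2) * s + 4 * ε := by
  have hpos1 : 0 ≤ (160 * (1 + M + N) + 4*M^2) * q := by positivity
  have hpos2 : 0 ≤ (4*(M + Q)^2) * s := by positivity
  have e : (1 + 160 * (1 + M + N) + 4*M^2) * q = (160 * (1 + M + N) + 4*M^2) * q + q := by
    ring
  rcases le_total q 1 with hq1 | hq1
  · rcases le_total ε 1 with hε1 | hε1
    · have h1 : |t| ≤ |Tt| + (Q * s + M * q) + (M * s + ε) := by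
        have g2 : |t| ≤ |Tt| + |Tt - T| + |T - t| := by
          have : t = Tt - (Tt - T) - (T - t) := by ring
          calc |t| = |Tt - (Tt - T) - (T - t)| := by rw [← this]
            _ ≤ |Tt - (Tt - T)| + |T - t| := abs_sub _ _
            _ ≤ |Tt| + |Tt - T| + |T - t| := by
              have := abs_sub Tt (Tt - T)
              linarith
        linarith
      have h2 : t^2 ≤ (|Tt| + M * q + (M + Q) * s + ε)^2 := by
        rw [← sq_abs t]
        apply pow_le_pow_left₀ (abs_nonneg t)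
        have e : |Tt| + M * q + (M + Q) * s + ε = |Tt| + (Q * s + M * q) + (M * s + ε) := by ring
        rw [e]
        exact h1
      have h3 : (|Tt| + M * q + (M + Q) * s + ε)^2
          ≤ 4 * (|Tt|^2 + (M*q)^2 + ((M+Q)*s)^2 + ε^2) :=
        sq_add4_le _ _ _ _
      have h4 : |Tt|^2 ≤ 40 * (1 + M + N) * q := by
        rw [sq_abs]
        calc Tt^2 ≤ 40 * Et * q := c2
          _ ≤ 40 * (1 + M + N) * q := by
            apply mul_le_mul_of_nonneg_right _ hq0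
            linarith
      have h5 : (M*q)^2 ≤ M^2 * q := by
        have : q^2 ≤ q := by
          calc q^2 = q * q := by ring
            _ ≤ q * 1 := mul_le_mul_of_nonneg_left hq1 hq0
            _ = q := by ring
        calc (M*q)^2 = M^2 * q^2 := by ring
          _ ≤ M^2 * q := mul_le_mul_of_nonneg_left this (sq_nonneg M)
      have h6 : ((M+Q)*s)^2 ≤ (M+Q)^2 * s := by
        have : s^2 ≤ s := by
          calc s^2 = s * s := by ring
            _ ≤ s * 1 := mul_le_mul_of_nonneg_left hs1 hs.le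
            _ = s := by ring
        calc ((M+Q)*s)^2 = (M+Q)^2 * s^2 := by ring
          _ ≤ _ := mul_le_mul_of_nonneg_left this (sq_nonneg _)
      have h7 : ε^2 ≤ ε := by
        calc ε^2 = ε * ε := by ring
          _ ≤ ε * 1 := mul_le_mul_of_nonneg_left hε1 hε
          _ = ε := by ring
      calc t^2 ≤ 4 * (|Tt|^2 + (M*q)^2 + ((M+Q)*s)^2 + ε^2) := h2.trans h3
        _ ≤ 4 * (40 * (1 + M + N) * q + M^2 * q + (M+Q)^2 * s + ε) := by linarith
        _ = (160 * (1 + M + N) + 4*M^2) * q + (4*(M + Q)^2) * s + 4 * ε := by ring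
        _ ≤ _ := by
          rw [e]; linarith
    · rw [e]; linarith
  · rw [e]; linarith

/-- numerical part of `circle_pert` -/
theorem circle_pert_num {M N s D c t E X R T Et Rt Tt Xt q h ε : ℝ} (hM : 0 ≤ M)
    (hN : N = M + M^2) (hs : 0 < s) (hs1 : s ≤ 1) (hε : 0 ≤ ε)
    (hh : |h| ≤ M * s) (hh1 : |h| ≤ M)
    (hX : |X - D| ≤ M * s) (hR : |R - c| ≤ M * s + ε) (hT : |T - t| ≤ M * s + ε)
    (hXt : |Xt - X| ≤ M^2 * s) (hEt : Et ≤ E)
    (hRt : |Rt - R| ≤ |h| * (4*π + 2*π*|h| + Et))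
    (hTt : |Tt - T| ≤ |h| * (4*π + 2*π*|h| + Et))
    (hq : q = Et - Xt) (hq0 : 0 ≤ q) (c1 : |Xt - Rt| ≤ 13 * q) (c2 : Tt^2 ≤ 40 * Et * q)
    (hD : D ≤ M) (hc : c ≤ 1) (ht : t^2 ≤ 1) (hEt0 : 0 ≤ Et) :
    q ≤ E - D + N * s ∧
    D - 1 ≤ (13 + M) * q + (2*N + M * (14 + 7*M + M + N)) * s + ε ∧
    t^2 ≤ (1 + 160 * (1 + M + N) + 4*M^2) * q + (4*(M + M*(14 + 7*M + M + N))^2) * s + 4 * ε := by
  have hpi4 : π < 3.15 := Real.pi_lt_d2
  have hpi := Real.pi_pos
  have hNnn : 0 ≤ N := by rw [hN]; positivity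
  -- control of Et
  have e1 : Et ≤ q + M + N * s := by
    have h1 := (abs_le.1 hX).2
    have h2 := (abs_le.1 hXt).2
    rw [hN]
    nlinarith
  have e2 : Et ≤ q + M + N := by nlinarith
  -- perturbation
  have hL : |h| * (4*π + 2*π*|h| + Et) ≤ M * (14 + 7*M + M + N) * s + M * q := by
    have g1 : 4*π + 2*π*|h| + Et ≤ (14 + 7*M + M + N) + q := by
      have : 2*π*|h| ≤ 7 * M := by nlinarith [abs_nonneg h]
      linarith
    have g2 : 0 ≤ 4*π + 2*π*|h| + Et := by positivity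
    calc |h| * (4*π + 2*π*|h| + Et) ≤ (M*s) * ((14 + 7*M + M + N) + q) := by gcongr
      _ = M * (14 + 7*M + M + N) * s + M * (s * q) := by ring
      _ ≤ M * (14 + 7*M + M + N) * s + M * q := by
        have : s * q ≤ 1 * q := mul_le_mul_of_nonneg_right hs1 hq0
        have := mul_le_mul_of_nonneg_left this hM
        linarith
  set Q : ℝ := M * (14 + 7*M + M + N) with hQ
  have hQ0 : 0 ≤ Q := by positivity
  refine ⟨?_, ?_, ?_⟩
  · have h1 := (abs_le.1 hX).1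
    have h2 := (abs_le.1 hXt).1
    rw [hq, hN]; nlinarith
  · have h1 := (abs_le.1 hX).1
    have h2 := (abs_le.1 hXt).1
    have h3 := (abs_le.1 c1).2
    have h4 := (abs_le.1 (hRt.trans hL)).2
    have h5 := (abs_le.1 hR).2
    have h6 : M * s + M^2 * s = N * s := by rw [hN]; ring
    have h7 : M * s ≤ N * s := by
      apply mul_le_mul_of_nonneg_right _ hs.le
      rw [hN]; nlinarith [sq_nonneg M]
    have h8 : (13 + M) * q + (2*N + Q) * s + ε = 13 * q + (Q * s + M * q) + N*s + N*s + ε := by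
      ring
    rw [h8]
    linarith
  · exact circle_pert_t hM hNnn hs hs1 hQ0 (hTt.trans hL) hT hε hq0 c2 e2 ht hEt0

/-- **Perturbed circle lemma.** -/
theorem circle_pert {M : ℝ} (hM : 0 ≤ M) : ∃ C1 C2 : ℝ, 0 ≤ C1 ∧ 0 ≤ C2 ∧
    ∀ (s D c t ε : ℝ) (F F1 H : ℝ → ℝ), 0 < s → s ≤ 1 → 0 ≤ ε →
      IsPrim 0 (2*π) F F1 → IsL2 0 (2*π) F1 → IsL2 0 (2*π) H →
      |∫ x in (0:ℝ)..(2*π), H x| ≤ M * s * Real.sqrt s →
      |∫ x in (0:ℝ)..(2*π), F x| * Real.sqrt s ≤ M →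
      |cX F H - D| ≤ M * s → |cR F1 H - c| ≤ M * s + ε → |cT F1 H - t| ≤ M * s + ε →
      D ≤ M → c ≤ 1 → t^2 ≤ 1 →
      -(C2 * s) ≤ cE F1 H - D ∧ D - 1 ≤ C1 * (cE F1 H - D) + C2 * (s + ε) ∧
        t^2 ≤ C1 * (cE F1 H - D) + C2 * (s + ε) := by
  set N : ℝ := M + M^2 with hN
  have hNnn : 0 ≤ N := by positivity
  set a1 : ℝ := 13 + M
  set b1 : ℝ := 2*N + M * (14 + 7*M + M + N)
  set a2 : ℝ := 1 + 160 * (1 + M + N) + 4*M^2
  set b2 : ℝ := 4*(M + M*(14 + 7*M + M + N))^2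
  have ha1 : 0 ≤ a1 := by positivity
  have hb1 : 0 ≤ b1 := by positivity
  have ha2 : 0 ≤ a2 := by positivity
  have hb2 : 0 ≤ b2 := by positivity
  refine ⟨a1 + a2, (a1 + a2 + 1) * N + b1 + b2 + 4, by positivity, by positivity, ?_⟩
  intro s D c t ε F F1 H hs hs1 hε hF hF1 hH hflux hmean hX hR hT hD hc ht
  have hpi := Real.pi_pos
  have hle : (0:ℝ) ≤ 2*π := by positivity
  set h : ℝ := (∫ x in (0:ℝ)..(2*π), H x) / (2*π) with hh
  have hm : ∫ x in (0:ℝ)..(2*π), H x = 2*π*h := by rw [hh]; field_simp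
  have hsq1 : Real.sqrt s ≤ 1 := by
    rw [Real.sqrt_le_one]; exact hs1
  have hsq0 : 0 ≤ Real.sqrt s := Real.sqrt_nonneg s
  have hpi3 : 3 < π := Real.pi_gt_three
  have h1 : |h| * (2*π) ≤ M * s * Real.sqrt s := by
    rw [hm, abs_mul, abs_of_pos (by positivity : 0 < 2*π)] at hflux
    linarith
  have h1' : |h| ≤ M * s * Real.sqrt s := by
    have : |h| * 1 ≤ |h| * (2*π) := mul_le_mul_of_nonneg_left (by linarith) (abs_nonneg h)
    linarith
  have h2 : |h| ≤ M * s := by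
    refine h1'.trans ?_
    calc M * s * Real.sqrt s ≤ M * s * 1 := by gcongr
      _ = _ := by ring
  have h3 : |h| ≤ M := h2.trans (by nlinarith)
  set K : ℝ → ℝ := fun x => H x - h with hK
  have hKL : IsL2 0 (2*π) K := hH.sub (isL2_const h)
  have hK0 : ∫ x in (0:ℝ)..(2*π), K x = 0 := by
    rw [hK, intervalIntegral.integral_sub (hH.intervalIntegrable hle) intervalIntegrable_const, hm]
    simp
  obtain ⟨c0, c1, c2⟩ := circle_lemma hF hF1 hKL hK0
  have hXt : |cX F K - cX F H| ≤ M^2 * s := by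
    rw [hK, cX_sub_const hF hH h]
    have : cX F H - h * (∫ x in (0:ℝ)..(2*π), F x) - cX F H = -(h * ∫ x in (0:ℝ)..(2*π), F x) := by ring
    rw [this, abs_neg, abs_mul]
    calc |h| * |∫ x in (0:ℝ)..(2*π), F x| ≤ (M * s * Real.sqrt s) * |∫ x in (0:ℝ)..(2*π), F x| :=
          mul_le_mul_of_nonneg_right h1' (abs_nonneg _)
      _ = (M * s) * (|∫ x in (0:ℝ)..(2*π), F x| * Real.sqrt s) := by ring
      _ ≤ (M * s) * M := by gcongr
      _ = M^2 * s := by ring
  have hEt : cE F1 K ≤ cE F1 H := by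
    rw [hK, cE_sub_const hH h hm]
    have : 0 ≤ 2*π*h^2 := by positivity
    linarith
  obtain ⟨hRt, hTt⟩ := cR_sub_const hF1 hH h
  have hEt0 : 0 ≤ cE F1 K := by
    unfold cE
    have t1 : 0 ≤ ∫ x in (0:ℝ)..(2*π), F1 x ^ 2 :=
      intervalIntegral.integral_nonneg hle (fun x _ => sq_nonneg _)
    have t2 : 0 ≤ ∫ x in (0:ℝ)..(2*π), K x ^ 2 :=
      intervalIntegral.integral_nonneg hle (fun x _ => sq_nonneg _)
    linarith
  obtain ⟨r1, r2, r3⟩ := circle_pert_num (q := cE F1 K - cX F K) hM hN hs hs1 hε h2 h3 hX hR hT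
    hXt hEt hRt hTt rfl (by linarith) c1 c2 hD hc ht hEt0
  have hq0 : 0 ≤ cE F1 K - cX F K := by linarith
  set q := cE F1 K - cX F K
  have hCε : 0 ≤ ((a1 + a2 + 1) * N + b1 + b2) * ε := by positivity
  have hCε' : ((a1 + a2 + 1) * N + b1 + b2 + 4) * (s + ε) =
      ((a1 + a2 + 1) * N + b1 + b2) * s + 4 * s + ((a1 + a2 + 1) * N + b1 + b2) * ε + 4 * ε := by
    ring
  refine ⟨?_, ?_, ?_⟩
  · have g1 : 0 ≤ ((a1 + a2) * N + b1 + b2 + 4) * s := by positivity
    have g2 : ((a1 + a2 + 1) * N + b1 + b2 + 4) * s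
      = ((a1 + a2) * N + b1 + b2 + 4) * s + N * s := by ring
    rw [g2]
    linarith
  · have g1 : a1 * q ≤ (a1 + a2) * (cE F1 H - D + N * s) := by
      calc a1 * q ≤ (a1 + a2) * q := mul_le_mul_of_nonneg_right (by linarith) hq0
        _ ≤ _ := mul_le_mul_of_nonneg_left r1 (by positivity)
    have g2 : 0 ≤ (N + b2) * s := by positivity
    have g3 : (a1 + a2) * (cE F1 H - D) + ((a1 + a2 + 1) * N + b1 + b2) * s =
      (a1 + a2) * (cE F1 H - D + N * s) + (N + b2) * s + b1 * s := by ring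
    rw [hCε']
    linarith
  · have g1 : a2 * q ≤ (a1 + a2) * (cE F1 H - D + N * s) := by
      calc a2 * q ≤ (a1 + a2) * q := mul_le_mul_of_nonneg_right (by linarith) hq0
        _ ≤ _ := mul_le_mul_of_nonneg_left r1 (by positivity)
    have g2 : 0 ≤ (N + b1) * s := by positivity
    have g3 : (a1 + a2) * (cE F1 H - D) + ((a1 + a2 + 1) * N + b1 + b2) * s =
      (a1 + a2) * (cE F1 H - D + N * s) + (N + b1) * s + b2 * s := by ring
    rw [hCε']
    linarith

/-- the data on almost every circle around a crack tip: `F = u/√s`, `F1 = ∂_φ F`, `H = √s u_ν` in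
polar coordinates with `φ = 0` at the crack point, `D = A(s)/s`, `w = tan β = s θ'(s)`, `ε` = error in
the force balance. -/
structure TipCircle (M s D w ε : ℝ) (F F1 H : ℝ → ℝ) : Prop where
  prim : IsPrim 0 (2*π) F F1
  l2F1 : IsL2 0 (2*π) F1
  l2H : IsL2 0 (2*π) H
  flux : |∫ x in (0:ℝ)..(2*π), H x| ≤ M * s * Real.sqrt s
  mean : |∫ x in (0:ℝ)..(2*π), F x| * Real.sqrt s ≤ M
  energy : |cX F H - D| ≤ M * s
  radial : |cR F1 H - 1 / Real.sqrt (1 + w^2)| ≤ M * s + ε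
  tangential : |cT F1 H - w / Real.sqrt (1 + w^2)| ≤ M * s + ε
  bdD : D ≤ M
  bdw : |w| ≤ M

theorem inv_div_comb (s a b : ℝ) (hs : s ≠ 0) :
    s * (-1 * s ^ ((-1:ℝ) - 1) * a + s ^ (-1:ℝ) * b) = b - s ^ (-1:ℝ) * a := by
  rw [Real.rpow_sub_one hs, Real.rpow_neg_one]
  field_simp
  ring

theorem add_comb (s a b c : ℝ) (hs : s ≠ 0) : s * (a + b * (c / s)) = s * a + b * c := by
  field_simp

/-- **Cracktip decay theorem** (analytic core). `e` is the error in the force balance, it is only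
assumed to be small in the average: `P s = ∫_0^s e(t)/t dt ≤ M s^{1/2}`. -/
theorem crack_decay {r0 M : ℝ} (hr0 : 0 < r0) (hr01 : r0 ≤ 1) (hM : 0 ≤ M)
    {A θ θ1 e P : ℝ → ℝ} {F F1 H : ℝ → ℝ → ℝ}
    (hA : LocPrim r0 A (fun s => cE (F1 s) (H s)))
    (hlim : Tendsto (fun s => s ^ (-1:ℝ) * A s) (𝓝[>] 0) (𝓝 1))
    (hθ : LocPrim r0 θ θ1) (hP : LocPrim r0 P (fun s => e s / s)) (he : ∀ s, 0 ≤ e s)
    (hP0 : ∀ s, 0 < s → s ≤ r0 → 0 ≤ P s)
    (hP1 : ∀ s, 0 < s → s ≤ r0 → P s ≤ M * s ^ (1/2 : ℝ))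
    (hc : ∀ᵐ s, s ∈ Ioo 0 r0 →
      TipCircle M s (s ^ (-1:ℝ) * A s) (s * θ1 s) (e s) (F s) (F1 s) (H s)) :
    ∃ γ θ0 C : ℝ, 0 < γ ∧ 0 ≤ C ∧ (∀ r, 0 < r → r ≤ r0 → |θ r - θ0| ≤ C * r ^ γ) ∧
      ∀ r, 0 < r → r ≤ r0 → |r ^ (-1:ℝ) * A r - 1| ≤ C * r ^ γ := by
  obtain ⟨C1, C2, hC1, hC2, hcirc⟩ := circle_pert hM
  set D : ℝ → ℝ := fun s => s ^ (-1:ℝ) * A s with hD
  set D1 : ℝ → ℝ := fun s => -1 * s ^ ((-1:ℝ) - 1) * A s + s ^ (-1:ℝ) * cE (F1 s) (H s) with hD1
  have hDD : LocPrim r0 D D1 := by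
    intro a b ha hab hb
    exact (hA a b ha hab hb).mul hab (isPrim_rpow ha hab (-1))
  have all : ∀ᵐ s, s ∈ Ioo 0 r0 → -(C2 * s) ≤ s * D1 s ∧
      D s - 1 ≤ C1 * (s * D1 s) + C2 * (s + e s) ∧
      (s * θ1 s)^2 ≤ (1 + M^2) * (C1 * (s * D1 s) + C2 * (s + e s)) := by
    filter_upwards [hc] with s hs hs'
    have T := hs hs'
    have hs0 : 0 < s := hs'.1
    have e : s * D1 s = cE (F1 s) (H s) - D s := inv_div_comb s (A s) _ hs0.ne'
    set w := s * θ1 s with hw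
    have hroot : 0 < Real.sqrt (1 + w^2) := Real.sqrt_pos.2 (by positivity)
    have hroot2 : Real.sqrt (1 + w^2) ^ 2 = 1 + w^2 := Real.sq_sqrt (by positivity)
    have c1 : 1 / Real.sqrt (1 + w^2) ≤ 1 := by
      rw [div_le_one hroot]
      exact Real.one_le_sqrt.2 (by nlinarith [sq_nonneg w])
    have t1 : (w / Real.sqrt (1 + w^2))^2 ≤ 1 := by
      rw [div_pow, hroot2, div_le_one (by positivity)]
      linarith
    obtain ⟨g1, g2, g3⟩ := hcirc s (D s) _ _ _ (F s) (F1 s) (H s) hs0 (hs'.2.le.trans hr01)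
      (he s) T.prim T.l2F1
      T.l2H T.flux T.mean T.energy T.radial T.tangential T.bdD c1 t1
    rw [e]
    refine ⟨g1, g2, ?_⟩
    have hw2 : w^2 ≤ M^2 := by
      rw [← sq_abs w]
      exact pow_le_pow_left₀ (abs_nonneg w) T.bdw 2
    have e2 : w^2 = (1 + w^2) * (w / Real.sqrt (1 + w^2))^2 := by
      rw [div_pow, hroot2]
      field_simp
    calc w^2 = (1 + w^2) * (w / Real.sqrt (1 + w^2))^2 := e2
      _ ≤ (1 + M^2) * (w / Real.sqrt (1 + w^2))^2 := by
        apply mul_le_mul_of_nonneg_right _ (sq_nonneg _)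
        linarith
      _ ≤ _ := mul_le_mul_of_nonneg_left g3 (by positivity)
  -- pass to `D + C3 P`, using a constant `K1 > 0` instead of `C1`
  set K1 : ℝ := C1 + 1 with hK1
  have hK1pos : 0 < K1 := by positivity
  set C3 : ℝ := 2 * C2 with hC3
  have hC3nn : 0 ≤ C3 := by positivity
  set Dt : ℝ → ℝ := fun s => D s + C3 * P s with hDt
  set Dt1 : ℝ → ℝ := fun s => D1 s + C3 * (e s / s) with hDt1
  have hDtt : LocPrim r0 Dt Dt1 := by
    intro a b ha hab hb
    exact (hDD a b ha hab hb).add ((hP a b ha hab hb).const_mul C3) hab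
  have hPlim : Tendsto P (𝓝[>] 0) (𝓝 0) := by
    have h1 : Tendsto (fun x : ℝ => x ^ (1/2 : ℝ)) (𝓝 0) (𝓝 ((0:ℝ) ^ (1/2 : ℝ))) :=
      (Real.continuousAt_rpow_const 0 (1/2) (Or.inr (by norm_num))).tendsto
    rw [Real.zero_rpow (by norm_num)] at h1
    have h2 : Tendsto (fun x : ℝ => M * x ^ (1/2 : ℝ)) (𝓝[>] 0) (𝓝 0) := by
      simpa using (h1.mono_left (nhdsWithin_le_nhds (s := Ioi 0))).const_mul M
    have h3 : ∀ᶠ x in 𝓝[>] (0:ℝ), x ∈ Ioc 0 r0 := Ioc_mem_nhdsGT hr0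
    refine tendsto_of_tendsto_of_tendsto_of_le_of_le' tendsto_const_nhds h2 ?_ ?_
    · filter_upwards [h3] with x hx
      exact hP0 x hx.1 hx.2
    · filter_upwards [h3] with x hx
      exact hP1 x hx.1 hx.2
  have hDtlim : Tendsto Dt (𝓝[>] 0) (𝓝 1) := by
    have := hlim.add (hPlim.const_mul C3)
    simpa using this
  set C4 : ℝ := C2 + C2 * (1 + C1) + C3 * M with hC4
  have hC4nn : 0 ≤ C4 := by positivity
  have hpow : ∀ s : ℝ, 0 < s → s ≤ 1 → s ≤ s ^ (1/2 : ℝ) := by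
    intro s hs hs1
    calc s = s ^ (1:ℝ) := (Real.rpow_one s).symm
      _ ≤ s ^ (1/2 : ℝ) := Real.rpow_le_rpow_of_exponent_ge hs hs1 (by norm_num)
  have h1 : ∀ᵐ s, s ∈ Ioo 0 r0 → -(C4 * s ^ (1/2 : ℝ)) ≤ s * Dt1 s := by
    filter_upwards [all] with s hs hs'
    have g := (hs hs').1
    have p := hpow s hs'.1 (hs'.2.le.trans hr01)
    have hsp : 0 ≤ s ^ (1/2 : ℝ) := Real.rpow_nonneg hs'.1.le _
    rw [hDt1]
    simp only
    rw [add_comb s _ _ _ hs'.1.ne']
    have g2 : 0 ≤ C3 * e s := mul_nonneg hC3nn (he s)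
    have g3 : C2 * s ≤ C2 * s ^ (1/2:ℝ) := mul_le_mul_of_nonneg_left p hC2
    have g4 : 0 ≤ (C2 * (1 + C1) + C3 * M) * s ^ (1/2:ℝ) := by positivity
    have g5 : C4 * s ^ (1/2:ℝ) = C2 * s ^ (1/2:ℝ) + (C2 * (1 + C1) + C3 * M) * s ^ (1/2:ℝ) := by
      rw [hC4]; ring
    rw [g5]
    linarith
  have key : ∀ s X E' : ℝ, 0 ≤ E' → 0 ≤ s → -(C2 * s) ≤ X →
      C1 * X + C2 * (s + E') ≤ K1 * (X + C3 * E') + (C2 + C2) * s := by
    intro s X E' hE' hs0 hX
    have g1 : K1 * (X + C3 * E') = C1 * X + X + (C1 + 1) * (2 * C2 * E') := by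
      rw [hK1, hC3]; ring
    have g2 : 0 ≤ C1 * (2 * C2 * E') := by positivity
    have g3 : 0 ≤ C2 * E' := by positivity
    rw [g1]
    linarith
  have h2 : ∀ᵐ s, s ∈ Ioo 0 r0 → Dt s - 1 ≤ K1 * (s * Dt1 s) + (2 * C4) * s ^ (1/2 : ℝ) := by
    filter_upwards [all] with s hs hs'
    have g := (hs hs').2.1
    have g0 := (hs hs').1
    have p := hpow s hs'.1 (hs'.2.le.trans hr01)
    have hsp : 0 ≤ s ^ (1/2 : ℝ) := Real.rpow_nonneg hs'.1.le _
    have k := key s (s * D1 s) (e s) (he s) hs'.1.le g0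
    rw [hDt1, hDt]
    simp only
    rw [add_comb s _ _ _ hs'.1.ne']
    have q1 : C3 * P s ≤ C3 * (M * s ^ (1/2:ℝ)) :=
      mul_le_mul_of_nonneg_left (hP1 s hs'.1 hs'.2.le) hC3nn
    have q2 : (C2 + C2) * s ≤ (C2 + C2) * s ^ (1/2:ℝ) := mul_le_mul_of_nonneg_left p (by positivity)
    have q3 : 2 * C4 * s ^ (1/2:ℝ) = (C2 + C2) * s ^ (1/2:ℝ) + C3 * (M * s ^ (1/2:ℝ))
      + (2 * C2 * (1 + C1) + C3 * M) * s ^ (1/2:ℝ) := by rw [hC4]; ring
    have q4 : 0 ≤ (2 * C2 * (1 + C1) + C3 * M) * s ^ (1/2:ℝ) := by positivity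
    rw [q3]
    linarith
  have h3 : ∀ᵐ s, s ∈ Ioo 0 r0 → (s * θ1 s)^2 ≤
      ((1 + M^2) * K1) * (s * Dt1 s) + ((1 + M^2) * (2 * C4)) * s ^ (1/2 : ℝ) := by
    filter_upwards [all] with s hs hs'
    have g := (hs hs').2.2
    have g0 := (hs hs').1
    have p := hpow s hs'.1 (hs'.2.le.trans hr01)
    have hsp : 0 ≤ s ^ (1/2 : ℝ) := Real.rpow_nonneg hs'.1.le _
    have k := key s (s * D1 s) (e s) (he s) hs'.1.le g0
    have q2 : (C2 + C2) * s ≤ (C2 + C2) * s ^ (1/2:ℝ) := mul_le_mul_of_nonneg_left p (by positivity)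
    have q3 : 2 * C4 * s ^ (1/2:ℝ) = (C2 + C2) * s ^ (1/2:ℝ)
      + (2 * C2 * (1 + C1) + 2 * (C3 * M)) * s ^ (1/2:ℝ) := by rw [hC4]; ring
    have q4 : 0 ≤ (2 * C2 * (1 + C1) + 2 * (C3 * M)) * s ^ (1/2:ℝ) := by positivity
    have q5 : C1 * (s * D1 s) + C2 * (s + e s) ≤ K1 * (s * Dt1 s) + 2 * C4 * s ^ (1/2:ℝ) := by
      rw [hDt1]
      simp only
      rw [add_comb s _ _ _ hs'.1.ne', q3]
      linarith
    calc (s * θ1 s)^2 ≤ (1 + M^2) * (C1 * (s * D1 s) + C2 * (s + e s)) := g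
      _ ≤ (1 + M^2) * (K1 * (s * Dt1 s) + 2 * C4 * s ^ (1/2:ℝ)) :=
        mul_le_mul_of_nonneg_left q5 (by positivity)
      _ = _ := by ring
  have h1' : ∀ᵐ s, s ∈ Ioo 0 r0 → -((2 * C4) * s ^ (1/2 : ℝ)) ≤ s * Dt1 s := by
    filter_upwards [h1] with s hs hs'
    have g := hs hs'
    have hsp : 0 ≤ C4 * s ^ (1/2 : ℝ) := mul_nonneg hC4nn (Real.rpow_nonneg hs'.1.le _)
    linarith
  obtain ⟨γ, hγ, hγ1, C, hC, hdec⟩ := ode_decay hr01 (by norm_num : (0:ℝ) < 1/2) (by positivity)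
    hDtt hDtlim h1' h2
  obtain ⟨θ0, C', hC', hang⟩ := angle_decay hr0 hr01 hγ (by linarith) hC (by positivity)
    (by positivity) hDtt hθ hdec h3
  refine ⟨γ/2, θ0, C + C' + C3 * M, by positivity, by positivity, ?_, ?_⟩
  · intro r hr hrr
    have h := hang r hr hrr
    have hp : 0 ≤ r ^ (γ/2) := Real.rpow_nonneg hr.le _
    have g1 : (C + C' + C3 * M) * r ^ (γ/2) = C * r ^ (γ/2) + C' * r ^ (γ/2)
      + C3 * M * r ^ (γ/2) := by ring
    rw [g1]
    have g2 : 0 ≤ C * r ^ (γ/2) := by positivity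
    have g3 : 0 ≤ C3 * M * r ^ (γ/2) := by positivity
    linarith
  · intro r hr hrr
    have h := hdec r hr hrr
    have hp : 0 ≤ r ^ (γ/2) := Real.rpow_nonneg hr.le _
    have hr1 : r ≤ 1 := hrr.trans hr01
    have hle : r ^ γ ≤ r ^ (γ/2) :=
      Real.rpow_le_rpow_of_exponent_ge hr hr1 (by linarith)
    have hle2 : r ^ (1/2:ℝ) ≤ r ^ (γ/2) :=
      Real.rpow_le_rpow_of_exponent_ge hr hr1 (by linarith)
    have g1 : |D r - 1| ≤ |Dt r - 1| + C3 * P r := by
      have e1 : D r - 1 = (Dt r - 1) - C3 * P r := by rw [hDt]; ring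
      rw [e1]
      refine (abs_sub _ _).trans ?_
      rw [abs_of_nonneg (mul_nonneg hC3nn (hP0 r hr hrr))]
    have g2 : C3 * P r ≤ C3 * (M * r ^ (γ/2)) := by
      apply mul_le_mul_of_nonneg_left _ hC3nn
      exact (hP1 r hr hrr).trans (mul_le_mul_of_nonneg_left hle2 hM)
    have g3 : C * r ^ γ ≤ C * r ^ (γ/2) := mul_le_mul_of_nonneg_left hle hC
    have g4 : (C + C' + C3 * M) * r ^ (γ/2) = C * r ^ (γ/2) + C' * r ^ (γ/2)
      + C3 * (M * r ^ (γ/2)) := by ring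
    have g5 : 0 ≤ C' * r ^ (γ/2) := by positivity
    rw [g4]
    linarith

end Crest.Agent.R135
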