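import Crest.Agent.R135.FV4
import Crest.Agent.R135.RadComp
import Crest.Agent.R135.IFDefs

/-!
# R135 (DLB): periodic Wirtinger inequality, circles without crack points
-/

set_option autoImplicit false
open MeasureTheory Set Metric Filter Topology
open scoped Real ContDiff ENNReal NNReal RealInnerProductSpace Gradient

namespace Crest.Agent.R135.Gl

/-- the mean minimizes the quadratic deviation -/
theorem mean_min {f : ℝ → ℝ} (hf : Continuous f) (κ : ℝ) :
    ∫ x in (-π)..π, (f x - (1 / (2 * π)) * ∫ t in (-π)..π, f t) ^ 2 ≤ ∫ x in (-π)..π, (f x - κ) ^ 2 := by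
  set m := (1 / (2 * π)) * ∫ t in (-π)..π, f t with hm
  have hm' : ∫ t in (-π)..π, f t = 2 * π * m := by rw [hm]; field_simp
  have e : ∀ c : ℝ, ∫ x in (-π)..π, (f x - c) ^ 2
      = (∫ x in (-π)..π, f x ^ 2) - 2 * c * (2 * π * m) + 2 * π * c ^ 2 := by
    intro c
    have e1 : ∀ x, (f x - c) ^ 2 = f x ^ 2 - 2 * c * f x + c ^ 2 := fun x => by ring
    simp only [e1]
    rw [intervalIntegral.integral_add, intervalIntegral.integral_sub,
      intervalIntegral.integral_const_mul, intervalIntegral.integral_const, hm']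
    · simp only [smul_eq_mul]; ring
    · exact (hf.pow 2).intervalIntegrable _ _
    · exact (continuous_const.mul hf).intervalIntegrable _ _
    · exact ((hf.pow 2).sub (continuous_const.mul hf)).intervalIntegrable _ _
    · exact continuous_const.intervalIntegrable _ _
  rw [e m, e κ]
  have : 0 ≤ 2 * π * (m - κ) ^ 2 := by positivity
  nlinarith [this]

/-- **Wirtinger inequality for `2π`-periodic functions** -/
theorem wirt_periodic {f f' : ℝ → ℝ} (hf : ∀ x, HasDerivAt f (f' x) x) (hc : Continuous f')
    (hp : ∀ x, f (x + 2 * π) = f x) :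
    ∫ x in (-π)..π, (f x - (1 / (2 * π)) * ∫ t in (-π)..π, f t) ^ 2 ≤ ∫ x in (-π)..π, f' x ^ 2 := by
  have hfc : Continuous f := continuous_iff_continuousAt.2 fun x => (hf x).continuousAt
  have hp' : ∀ x, f' (x + 2 * π) = f' x := by
    intro x
    have h1 : HasDerivAt (fun y => f (y + 2 * π)) (f' (x + 2 * π)) x :=
      (hf (x + 2 * π)).comp_add_const x (2 * π)
    have h2 : (fun y => f (y + 2 * π)) = f := funext hp
    rw [h2] at h1
    exact h1.unique (hf x)
  -- a point with `f (a + π) = f a`
  obtain ⟨a, -, ha⟩ : ∃ a ∈ Icc (0:ℝ) π, f (a + π) - f a = 0 := by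
    have hcont : ContinuousOn (fun x => f (x + π) - f x) (Icc 0 π) :=
      ((hfc.comp (continuous_id.add continuous_const)).sub hfc).continuousOn
    have h0 : f (π + π) - f π = - (f (0 + π) - f 0) := by
      have := hp 0
      rw [zero_add] at this ⊢
      have e : π + π = 2 * π := by ring
      rw [e, this]; ring
    rcases le_total (f (0 + π) - f 0) 0 with h | h
    · have := intermediate_value_Icc Real.pi_pos.le hcont
      obtain ⟨x, hx, hx2⟩ := this ⟨h, by rw [h0]; linarith⟩
      exact ⟨x, hx, hx2⟩
    · have := intermediate_value_Icc' Real.pi_pos.le hcont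
      obtain ⟨x, hx, hx2⟩ := this ⟨by rw [h0]; linarith, h⟩
      exact ⟨x, hx, hx2⟩
  have hpi := Real.pi_pos
  have hQ : ∀ x, HasDerivAt (fun x => f x - f a) (f' x) x := fun x => (hf x).sub_const _
  have w1 := wirt_dirichlet (a := a) (b := a + π) (by linarith) (P := fun x => f x - f a) (P1 := f')
    (fun x _ => hQ x) hc.continuousOn (by simp) (by simpa using ha)
  have w2 := wirt_dirichlet (a := a + π) (b := a + π + π) (by linarith)
    (P := fun x => f x - f a) (P1 := f')
    (fun x _ => hQ x) hc.continuousOn (by simpa using ha) (by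
      have e : a + π + π = a + 2 * π := by ring
      rw [e, hp a, sub_self])
  have e1 : (a + π - a) / π = 1 := by field_simp; ring
  have e2 : (a + π + π - (a + π)) / π = 1 := by field_simp; ring
  rw [e1, one_pow, one_mul] at w1
  rw [e2, one_pow, one_mul] at w2
  have hint1 : ∀ c d : ℝ, IntervalIntegrable (fun x => (f x - f a) ^ 2) volume c d := fun c d =>
    ((hfc.sub continuous_const).pow 2).intervalIntegrable _ _
  have hint2 : ∀ c d : ℝ, IntervalIntegrable (fun x => f' x ^ 2) volume c d := fun c d =>
    (hc.pow 2).intervalIntegrable _ _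
  have w3 : ∫ x in a..(a + 2 * π), (f x - f a) ^ 2 ≤ ∫ x in a..(a + 2 * π), f' x ^ 2 := by
    have e : a + 2 * π = a + π + π := by ring
    rw [e, ← intervalIntegral.integral_add_adjacent_intervals (hint1 a (a + π)) (hint1 _ _),
      ← intervalIntegral.integral_add_adjacent_intervals (hint2 a (a + π)) (hint2 _ _)]
    linarith
  have p1 : Function.Periodic (fun x => (f x - f a) ^ 2) (2 * π) := fun x => by
    simp only [hp x]
  have p2 : Function.Periodic (fun x => f' x ^ 2) (2 * π) := fun x => by
    simp only [hp' x]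
  have s1 := p1.intervalIntegral_add_eq (-π) a
  have s2 := p2.intervalIntegral_add_eq (-π) a
  have e3 : -π + 2 * π = π := by ring
  rw [e3] at s1 s2
  calc _ ≤ ∫ x in (-π)..π, (f x - f a) ^ 2 := mean_min hfc _
    _ = ∫ x in a..(a + 2 * π), (f x - f a) ^ 2 := s1
    _ ≤ ∫ x in a..(a + 2 * π), f' x ^ 2 := w3
    _ = ∫ x in (-π)..π, f' x ^ 2 := s2.symm

/-- Bonnet's inequality on a whole circle: `f = u|circle`, `f' = s u_τ`, `H = u_ν`. -/
theorem circle_full {f f' H : ℝ → ℝ} {s : ℝ} (hf : ∀ x, HasDerivAt f (f' x) x)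
    (hc : Continuous f') (hp : ∀ x, f (x + 2 * π) = f x) (hH : Continuous H) :
    s * ∫ x in (-π)..π, (f x - (1 / (2 * π)) * ∫ t in (-π)..π, f t) * H x
      ≤ (1 / 2) * ((∫ x in (-π)..π, f' x ^ 2) + s ^ 2 * ∫ x in (-π)..π, H x ^ 2) := by
  have hfc : Continuous f := continuous_iff_continuousAt.2 fun x => (hf x).continuousAt
  have hpi := Real.pi_pos
  set m := (1 / (2 * π)) * ∫ t in (-π)..π, f t with hm
  have w := wirt_periodic hf hc hp
  have h1 : ∫ x in (-π)..π, s * ((f x - m) * H x)
      ≤ ∫ x in (-π)..π, ((1 / 2) * (f x - m) ^ 2 + (1 / 2) * (s ^ 2 * H x ^ 2)) := by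
    refine intervalIntegral.integral_mono_on (by linarith) ?_ ?_ ?_
    · exact (continuous_const.mul ((hfc.sub continuous_const).mul hH)).intervalIntegrable _ _
    · exact ((continuous_const.mul ((hfc.sub continuous_const).pow 2)).add
        (continuous_const.mul (continuous_const.mul (hH.pow 2)))).intervalIntegrable _ _
    · intro x _
      nlinarith [sq_nonneg ((f x - m) - s * H x)]
  rw [intervalIntegral.integral_const_mul, intervalIntegral.integral_add,
    intervalIntegral.integral_const_mul, intervalIntegral.integral_const_mul,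
    intervalIntegral.integral_const_mul] at h1
  · nlinarith [h1, w]
  · exact (continuous_const.mul ((hfc.sub continuous_const).pow 2)).intervalIntegrable _ _
  · exact (continuous_const.mul (continuous_const.mul (hH.pow 2))).intervalIntegrable _ _

/-- oscillation on the circle -/
theorem osc_full {f f' : ℝ → ℝ} (hf : ∀ x, HasDerivAt f (f' x) x) (hc : Continuous f')
    (hp : ∀ x, f (x + 2 * π) = f x) (x y : ℝ) :
    |f x - f y| ≤ π + (1 / 2) * ∫ t in (-π)..π, f' t ^ 2 := by
  have hpi := Real.pi_pos
  have hp' : ∀ x, f' (x + 2 * π) = f' x := by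
    intro x
    have h1 : HasDerivAt (fun y => f (y + 2 * π)) (f' (x + 2 * π)) x :=
      (hf (x + 2 * π)).comp_add_const x (2 * π)
    have h2 : (fun y => f (y + 2 * π)) = f := funext hp
    rw [h2] at h1
    exact h1.unique (hf x)
  -- move `x` to `[y, y + 2π)`
  have hper : Function.Periodic f (2 * π) := hp
  obtain ⟨z, hz, hzx⟩ : ∃ z ∈ Ico y (y + 2 * π), f x = f z :=
    hper.exists_mem_Ico (by positivity) x y
  rw [hzx]
  have h1 : f z - f y = ∫ t in y..z, f' t :=
    (intervalIntegral.integral_eq_sub_of_hasDerivAt (fun t _ => hf t)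
      (hc.intervalIntegrable _ _)).symm
  rw [h1]
  have p2 : Function.Periodic (fun x => f' x ^ 2) (2 * π) := fun x => by
    simp only [hp' x]
  have s2 := p2.intervalIntegral_add_eq (-π) y
  have e3 : -π + 2 * π = π := by ring
  rw [e3] at s2
  calc |∫ t in y..z, f' t| ≤ ∫ t in y..z, |f' t| :=
        intervalIntegral.abs_integral_le_integral_abs hz.1
    _ ≤ ∫ t in y..(y + 2 * π), |f' t| := by
        refine intervalIntegral.integral_mono_interval le_rfl hz.1 hz.2.le
          (Eventually.of_forall fun t => abs_nonneg _) (hc.abs.intervalIntegrable _ _)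
    _ ≤ ∫ t in y..(y + 2 * π), (1 / 2 + (1 / 2) * f' t ^ 2) := by
        refine intervalIntegral.integral_mono_on (by linarith) (hc.abs.intervalIntegrable _ _)
          ((continuous_const.add (continuous_const.mul (hc.pow 2))).intervalIntegrable _ _) ?_
        intro t _
        nlinarith [sq_nonneg (|f' t| - 1), sq_abs (f' t)]
    _ = π + (1 / 2) * ∫ t in (-π)..π, f' t ^ 2 := by
        have i2 : IntervalIntegrable (fun t => (1 / 2) * f' t ^ 2) volume y (y + 2 * π) :=
          (continuous_const.mul (hc.pow 2)).intervalIntegrable _ _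
        rw [intervalIntegral.integral_add (continuous_const.intervalIntegrable _ _) i2,
          intervalIntegral.integral_const, intervalIntegral.integral_const_mul, s2]
        simp only [smul_eq_mul]
        ring

end Crest.Agent.R135.Gl
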