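import Crest.Agent.R135.DLB1

/-!
# R135 (DLB): truncation, Bonnet inequality on circles without crack points (u unbounded allowed)
-/

set_option autoImplicit false
open MeasureTheory Set Metric Filter Topology
open scoped Real ContDiff ENNReal NNReal RealInnerProductSpace Gradient

namespace Crest.Agent.R135.Gl

/-- truncation of `u` between the levels `a ≤ b` -/
noncomputable def clip (a b : ℝ) (u : P → ℝ) (x : P) : ℝ := max a (min (u x) b)

theorem clip_of_mem {a b : ℝ} {u : P → ℝ} {x : P} (h1 : a ≤ u x) (h2 : u x ≤ b) :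
    clip a b u x = u x := by
  unfold clip; rw [min_eq_left h2, max_eq_right h1]

theorem le_clip (a b : ℝ) (u : P → ℝ) (x : P) : a ≤ clip a b u x := le_max_left _ _

theorem clip_le {a b : ℝ} (hab : a ≤ b) (u : P → ℝ) (x : P) : clip a b u x ≤ b :=
  max_le hab (min_le_right _ _)

theorem abs_clip_le {a b : ℝ} (hab : a ≤ b) (u : P → ℝ) (x : P) :
    |clip a b u x| ≤ max |a| |b| := abs_le_max_abs_abs (le_clip a b u x) (clip_le hab u x)

theorem clip_grad {a b : ℝ} (hab : a ≤ b) {u : P → ℝ} {x : P} (hx : ContinuousAt u x) :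
    ∇ (clip a b u) x = ∇ u x ∨ ∇ (clip a b u) x = 0 := by
  rcases lt_trichotomy (u x) a with h | h | h
  · right
    have h1 : clip a b u =ᶠ[𝓝 x] fun _ => a := by
      filter_upwards [hx.eventually_lt_const h] with y hy
      unfold clip
      exact max_eq_left ((min_le_left _ _).trans hy.le)
    rw [gradient_congr_of_eventuallyEq h1]
    unfold gradient; simp
  · right
    have h1 : IsLocalMin (clip a b u) x := by
      refine Eventually.of_forall fun y => ?_
      have : clip a b u x = a := by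
        unfold clip; rw [h]; exact max_eq_left (min_le_left _ _)
      rw [this]
      exact le_clip a b u y
    unfold gradient
    rw [h1.fderiv_eq_zero]
    simp
  · rcases lt_trichotomy (u x) b with h' | h' | h'
    · left
      refine gradient_congr_of_eventuallyEq ?_
      filter_upwards [hx.eventually_lt_const h', hx.eventually_const_lt h] with y hy1 hy2
      exact clip_of_mem hy2.le hy1.le
    · right
      have h1 : IsLocalMax (clip a b u) x := by
        refine Eventually.of_forall fun y => ?_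
        have : clip a b u x = b := by
          unfold clip; rw [h', min_self]; exact max_eq_right hab
        rw [this]
        exact clip_le hab u y
      unfold gradient
      rw [h1.fderiv_eq_zero]
      simp
    · right
      have h1 : clip a b u =ᶠ[𝓝 x] fun _ => b := by
        filter_upwards [hx.eventually_const_lt h'] with y hy
        unfold clip
        rw [min_eq_right hy.le]
        exact max_eq_right hab
      rw [gradient_congr_of_eventuallyEq h1]
      unfold gradient; simp

theorem clip_grad_le {a b : ℝ} (hab : a ≤ b) {u : P → ℝ} {x : P} (hx : ContinuousAt u x) :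
    ‖∇ (clip a b u) x‖ ≤ ‖∇ u x‖ := by
  rcases clip_grad hab hx with h | h
  · rw [h]
  · rw [h, norm_zero]; exact norm_nonneg _

theorem clip_inner {a b : ℝ} (hab : a ≤ b) {u : P → ℝ} {x : P} (hx : ContinuousAt u x) :
    ⟪∇ u x, ∇ (clip a b u) x⟫ = ‖∇ (clip a b u) x‖ ^ 2 := by
  rcases clip_grad hab hx with h | h
  · rw [h, real_inner_self_eq_norm_sq]
  · rw [h, inner_zero_right, norm_zero]; ring

theorem lipschitz_clip {a b : ℝ} : LipschitzWith 1 (fun t : ℝ => max a (min t b)) :=
  (LipschitzWith.id.min_const b).const_max a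

theorem clip_locLip {a b : ℝ} {u : P → ℝ} {V : Set P} (h : LocallyLipschitzOn V u) :
    LocallyLipschitzOn V (clip a b u) := by
  intro x hx
  obtain ⟨C, t, ht, hC⟩ := h hx
  exact ⟨1 * C, t, ht, lipschitz_clip.comp_lipschitzOnWith hC⟩

section
variable {U K : Set P} {lam : ℝ} {u : P → ℝ}

theorem qm_contDiffAt (h : IsQM U lam u K) {x : P} (hx : x ∈ U \ K) : ContDiffAt ℝ 1 u x :=
  h.c1.contDiffAt ((qm_isOpen h).mem_nhds hx)

theorem qm_locLip (h : IsQM U lam u K) : LocallyLipschitzOn (U \ K) u := by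
  intro x hx
  obtain ⟨C, t, ht, hC⟩ := (qm_contDiffAt h hx).exists_lipschitzOnWith
  exact ⟨C, t, mem_nhdsWithin_of_mem_nhds ht, hC⟩

theorem qm_continuousAt (h : IsQM U lam u K) {x : P} (hx : x ∈ U \ K) : ContinuousAt u x :=
  (qm_contDiffAt h hx).continuousAt

theorem qm_grad_cont (h : IsQM U lam u K) : ContinuousOn (fun x => ∇ u x) (U \ K) := by
  unfold gradient
  exact (InnerProductSpace.toDual ℝ P).symm.continuous.comp_continuousOn
    (h.c1.continuousOn_fderiv_of_isOpen (qm_isOpen h) (by norm_num))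


variable {x₀ : P} {s : ℝ}

theorem cpt_off (hs : 0 < s) (hB : closedBall x₀ s ⊆ U) (h0 : K ∩ sphere x₀ s = ∅) (θ : ℝ) :
    cpt x₀ s θ ∈ U \ K := by
  have h1 : cpt x₀ s θ ∈ sphere x₀ s := cpt_mem_sphere hs.le
  refine ⟨hB (sphere_subset_closedBall h1), fun h => ?_⟩
  have h2 : cpt x₀ s θ ∈ K ∩ sphere x₀ s := ⟨h, h1⟩
  rw [h0] at h2
  exact h2

theorem continuous_cpt' (x₀ : P) (s : ℝ) : Continuous (cpt x₀ s) :=
  (continuous_cpt x₀).comp (Continuous.prodMk continuous_const continuous_id)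

theorem circ_der (h : IsQM U lam u K) (hs : 0 < s) (hB : closedBall x₀ s ⊆ U)
    (h0 : K ∩ sphere x₀ s = ∅) (θ : ℝ) :
    HasDerivAt (fun θ => u (cpt x₀ s θ)) (s * ⟪∇ u (cpt x₀ s θ), tau θ⟫) θ :=
  hasDerivAt_circle
    (((qm_contDiffAt h (cpt_off hs hB h0 θ)).differentiableAt (by norm_num)).hasGradientAt)

theorem circ_cont (h : IsQM U lam u K) (hs : 0 < s) (hB : closedBall x₀ s ⊆ U)
    (h0 : K ∩ sphere x₀ s = ∅) : Continuous (fun θ => ∇ u (cpt x₀ s θ)) :=
  (qm_grad_cont h).comp_continuous (continuous_cpt' x₀ s) (fun θ => cpt_off hs hB h0 θ)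

theorem circ_split (h : IsQM U lam u K) (hs : 0 < s) (hB : closedBall x₀ s ⊆ U)
    (h0 : K ∩ sphere x₀ s = ∅) :
    (∫ θ in (-π)..π, (s * ⟪∇ u (cpt x₀ s θ), tau θ⟫) ^ 2)
      + s ^ 2 * (∫ θ in (-π)..π, ⟪∇ u (cpt x₀ s θ), dir θ⟫ ^ 2) = s * cirE u x₀ s := by
  have hc := circ_cont h hs hB h0
  unfold cirE circI
  have e1 : ∀ θ, ‖∇ u (cpt x₀ s θ)‖ ^ 2
      = ⟪∇ u (cpt x₀ s θ), tau θ⟫ ^ 2 + ⟪∇ u (cpt x₀ s θ), dir θ⟫ ^ 2 := fun θ => by
    rw [norm_sq_frame _ θ]; ring
  simp only [e1, mul_pow]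
  rw [intervalIntegral.integral_add, intervalIntegral.integral_const_mul]
  · ring
  · exact ((hc.inner continuous_tau).pow 2).intervalIntegrable _ _
  · exact ((hc.inner continuous_dir).pow 2).intervalIntegrable _ _

theorem circ_per (x₀ : P) (s : ℝ) (θ : ℝ) : u (cpt x₀ s (θ + 2 * π)) = u (cpt x₀ s θ) := by
  rw [cpt_periodic x₀ s θ]

theorem cirE_nonneg (hs : 0 ≤ s) : 0 ≤ cirE u x₀ s := by
  unfold cirE circI
  refine mul_nonneg hs (intervalIntegral.integral_nonneg (by linarith [Real.pi_pos]) fun θ _ => ?_)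
  positivity

theorem circ_osc (h : IsQM U lam u K) (hs : 0 < s) (hB : closedBall x₀ s ⊆ U)
    (h0 : K ∩ sphere x₀ s = ∅) (θ θ' : ℝ) :
    |u (cpt x₀ s θ) - u (cpt x₀ s θ')| ≤ π + (1 / 2) * (s * cirE u x₀ s) := by
  have hc := circ_cont h hs hB h0
  refine (osc_full (circ_der h hs hB h0) (continuous_const.mul (hc.inner continuous_tau))
    (circ_per x₀ s) θ θ').trans ?_
  have h1 := circ_split h hs hB h0
  have h2 : 0 ≤ s ^ 2 * (∫ θ in (-π)..π, ⟪∇ u (cpt x₀ s θ), dir θ⟫ ^ 2) :=
    mul_nonneg (sq_nonneg _) (intervalIntegral.integral_nonneg (by linarith [Real.pi_pos])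
      fun θ _ => sq_nonneg _)
  linarith

/-- competitor by truncation -/
theorem clip_comp (h : IsQM U lam u K) (hs : 0 < s) (hB : closedBall x₀ s ⊆ U)
    {a b : ℝ} (hS : ∀ x ∈ sphere x₀ s \ K, a ≤ u x ∧ u x ≤ b) :
    dirE u K (closedBall x₀ s) ≤ dirE (clip a b u) K (ball x₀ s) + ENNReal.ofReal (lam * s ^ 2) := by
  classical
  set w : P → ℝ := fun x => if x ∈ closedBall x₀ s then clip a b u x else u x with hw
  have hO := qm_isOpen h
  have hcomp : IsComp U u K x₀ s w K := by
    refine ⟨h.sub, h.closed, h.len_fin x₀ s hB, rfl, ?_, ?_, ?_⟩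
    · refine locallyLipschitzOn_of_closed_cover (u := u) (w := clip a b u)
        (A1 := (ball x₀ s)ᶜ) (A2 := closedBall x₀ s) hO isOpen_ball.isClosed_compl
        isClosed_closedBall ?_ ?_ ?_ ?_ ?_
      · intro x _
        by_cases hx : x ∈ ball x₀ s
        · exact Or.inr (ball_subset_closedBall hx)
        · exact Or.inl hx
      · rintro x ⟨hx, hx2⟩
        simp only [hw]
        split_ifs with h3
        · have h4 : x ∈ sphere x₀ s := by
            rw [← closedBall_sdiff_ball]; exact ⟨h3, hx2⟩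
          have h5 := hS x ⟨h4, hx.2⟩
          exact clip_of_mem h5.1 h5.2
        · rfl
      · rintro x ⟨hx, hx2⟩
        simp only [hw, if_pos hx2]
      · rintro x ⟨hx, -⟩
        obtain ⟨C, t, ht, hC⟩ := (qm_contDiffAt h hx).exists_lipschitzOnWith
        exact ⟨C, t, ht, hC.mono inter_subset_left⟩
      · rintro x ⟨hx, -⟩
        obtain ⟨C, t, ht, hC⟩ := (qm_contDiffAt h hx).exists_lipschitzOnWith
        exact ⟨1 * C, t, ht, (lipschitz_clip.comp_lipschitzOnWith hC).mono inter_subset_left⟩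
    · rintro y ⟨_, hy⟩
      simp only [hw]
      rw [if_neg (fun h => hy (Or.inr h))]
    · intro c hc
      exact ⟨c, hc, fun _ _ => rfl⟩
  have hm := h.min x₀ s hs hB w K hcomp
  unfold enE at hm
  have hfin : len (K ∩ closedBall x₀ s) ≠ ⊤ := (h.len_fin x₀ s hB).ne
  rw [add_right_comm] at hm
  have hm2 := (ENNReal.add_le_add_iff_right hfin).1 hm
  refine hm2.trans (add_le_add (le_of_eq ?_) le_rfl)
  -- `dirE w K (closedBall) = dirE clip K (ball)`
  have hsph : (closedBall x₀ s \ K : Set P) =ᵐ[volume] (ball x₀ s \ K : Set P) := by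
    have h1 : volume (sphere x₀ s) = 0 := Measure.addHaar_sphere volume x₀ s
    have h2 : (closedBall x₀ s : Set P) =ᵐ[volume] ball x₀ s := by
      rw [← ball_union_sphere]
      exact union_ae_eq_left_of_ae_eq_empty (ae_eq_empty.2 h1)
    exact h2.diff (ae_eq_refl _)
  unfold dirE
  rw [setLIntegral_congr hsph]
  refine setLIntegral_congr_fun (measurableSet_ball.diff (qm_measK h)) fun x hx => ?_
  have h3 : w =ᶠ[𝓝 x] clip a b u := by
    filter_upwards [isOpen_ball.mem_nhds hx.1] with y hy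
    simp only [hw, if_pos (ball_subset_closedBall hy)]
  have h4 := gradient_congr_of_eventuallyEq h3
  simp only [h4]

end
end Crest.Agent.R135.Gl
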