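import Crest.Agent.R135.DLB2

/-!
# R135 (DLB): Bonnet inequality with truncation; radial competitor; circles without crack points
-/

set_option autoImplicit false
open MeasureTheory Set Metric Filter Topology
open scoped Real ContDiff ENNReal NNReal RealInnerProductSpace Gradient

namespace Crest.Agent.R135.Gl

section
variable {U K : Set P} {lam : ℝ} {u : P → ℝ} {x₀ : P} {s : ℝ}

theorem dirE_ball_eq {φ : P → ℝ} {x₀ : P} {R : ℝ} (h0 : volume (K ∩ closedBall x₀ R) = 0)
    (hd : MemLp (fun y => ∇ φ y) 2 (volume.restrict (ball x₀ R))) :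
    dirE φ K (ball x₀ R) = ENNReal.ofReal (∫ y in ball x₀ R, ‖∇ φ y‖ ^ 2) := by
  unfold dirE
  rw [ball_sdiff_ae h0]
  exact lintegral_sq_eq hd

theorem qm_Dr_eq (h : IsQM U lam u K) {R : ℝ} (hB : closedBall x₀ R ⊆ U) :
    Dr u K x₀ R = ∫ y in ball x₀ R, ‖∇ u y‖ ^ 2 := by
  unfold Dr
  rw [dirE_ball_eq (qm_vol h hB) (qm_memLp_grad h hB), ENNReal.toReal_ofReal]
  exact integral_nonneg fun y => by positivity

theorem clip_dirE_lt (h : IsQM U lam u K) {R : ℝ} (hB : closedBall x₀ R ⊆ U) {a b : ℝ}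
    (hab : a ≤ b) : dirE (clip a b u) K (ball x₀ R) < ⊤ := by
  refine lt_of_le_of_lt ?_ ((lintegral_mono_set (sdiff_subset_sdiff_left
    ball_subset_closedBall)).trans_lt (h.dir_fin x₀ R hB))
  refine setLIntegral_mono' (measurableSet_ball.diff (qm_measK h)) fun y hy => ?_
  have h1 := clip_grad_le hab (qm_continuousAt h
    ⟨hB (ball_subset_closedBall hy.1), hy.2⟩)
  have h2 : ‖∇ (clip a b u) y‖ₑ ≤ ‖∇ u y‖ₑ := by
    rw [← ofReal_norm, ← ofReal_norm]
    exact ENNReal.ofReal_le_ofReal h1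
  exact pow_le_pow_left₀ (zero_le) h2 2

/-- **Bonnet inequality with truncation** for circles without crack points -/
theorem bonnet_trunc (h : IsQM U lam u K) {R : ℝ} (hR : 0 < R) (hB : closedBall x₀ R ⊆ U) :
    ∀ᵐ s ∂(volume.restrict (Ioo (0:ℝ) R)), K ∩ sphere x₀ s = ∅ →
      Dr u K x₀ s ≤ (1 / 2) * (s * cirE u x₀ s) + lam * s ^ 2
        + lam * (π * s ^ 2) * (2 * (π + (1 / 2) * (s * cirE u x₀ s)) + 2) := by
  obtain ⟨f, hfm, hfb, hel⟩ := h.el
  have hall : ∀ᵐ s ∂(volume.restrict (Ioo (0:ℝ) R)), ∀ a b : ℤ, a ≤ b →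
      s * circI (fun y => clip a b u y * ⟪∇ u y, nrm x₀ y⟫) x₀ s
        = ∫ y in ball x₀ s, (⟪∇ u y, ∇ (clip a b u) y⟫ + f y * clip a b u y) := by
    rw [ae_all_iff]; intro a
    rw [ae_all_iff]; intro b
    by_cases hab : a ≤ b
    · have hab' : (a : ℝ) ≤ b := by exact_mod_cast hab
      have := qm_radial h hfm hfb hel hR hB (clip_locLip (a := (a : ℝ)) (b := (b : ℝ)) (qm_locLip h))
        (abs_clip_le hab' u) (clip_dirE_lt h hB hab')
      filter_upwards [this] with s hs _
      exact hs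
    · exact Eventually.of_forall fun s hab2 => absurd hab2 hab
  filter_upwards [hall, ae_restrict_mem measurableSet_Ioo] with s hs hsm h0
  have hs0 : 0 < s := hsm.1
  have hBs : closedBall x₀ s ⊆ U := (closedBall_subset_closedBall hsm.2.le).trans hB
  have hpi := Real.pi_pos
  set B₀ : ℝ := π + (1 / 2) * (s * cirE u x₀ s) with hB₀
  have hcE : 0 ≤ s * cirE u x₀ s := mul_nonneg hs0.le (cirE_nonneg hs0.le)
  have hB₀0 : 0 < B₀ := by rw [hB₀]; linarith
  set a : ℤ := ⌊u (cpt x₀ s 0) - B₀⌋ with ha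
  set b : ℤ := ⌈u (cpt x₀ s 0) + B₀⌉ with hb
  have ha1 : (a : ℝ) ≤ u (cpt x₀ s 0) - B₀ := Int.floor_le _
  have ha2 : u (cpt x₀ s 0) - B₀ < a + 1 := Int.lt_floor_add_one _
  have hb1 : u (cpt x₀ s 0) + B₀ ≤ b := Int.le_ceil _
  have hb2 : (b : ℝ) < u (cpt x₀ s 0) + B₀ + 1 := Int.ceil_lt_add_one _
  have habR : (a : ℝ) ≤ b := by linarith
  have hab : a ≤ b := by exact_mod_cast habR
  have hosc : ∀ θ, (a : ℝ) ≤ u (cpt x₀ s θ) ∧ u (cpt x₀ s θ) ≤ b := by
    intro θ
    have h1 := abs_le.1 (circ_osc h hs0 hBs h0 θ 0)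
    rw [← hB₀] at h1
    exact ⟨by linarith [h1.1], by linarith [h1.2]⟩
  have id1 := hs a b hab
  have id2 := hs 1 1 le_rfl
  -- the constant test function
  have hclip1 : (clip ((1 : ℤ) : ℝ) ((1 : ℤ) : ℝ) u) = fun _ => (1 : ℝ) := by
    ext y
    unfold clip
    push_cast
    exact max_eq_left (min_le_right _ _)
  rw [hclip1] at id2
  have hg1 : ∀ y : P, ∇ (fun _ : P => (1 : ℝ)) y = 0 := fun y => by unfold gradient; simp
  simp only [hg1, inner_zero_right, zero_add, one_mul, mul_one] at id2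
  set m : ℝ := (1 / (2 * π)) * ∫ t in (-π)..π, u (cpt x₀ s t) with hm
  have hc := circ_cont h hs0 hBs h0
  have hfcont : Continuous (fun θ => u (cpt x₀ s θ)) :=
    continuous_iff_continuousAt.2 fun θ => (circ_der h hs0 hBs h0 θ).continuousAt
  -- `m` lies between the levels
  have hm1 : (a : ℝ) ≤ m ∧ m ≤ b := by
    have e1 : ∫ t in (-π)..π, (a : ℝ) ≤ ∫ t in (-π)..π, u (cpt x₀ s t) :=
      intervalIntegral.integral_mono_on (by linarith) (continuous_const.intervalIntegrable _ _)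
        (hfcont.intervalIntegrable _ _) fun t _ => (hosc t).1
    have e2 : ∫ t in (-π)..π, u (cpt x₀ s t) ≤ ∫ t in (-π)..π, (b : ℝ) :=
      intervalIntegral.integral_mono_on (by linarith) (hfcont.intervalIntegrable _ _)
        (continuous_const.intervalIntegrable _ _) fun t _ => (hosc t).2
    rw [intervalIntegral.integral_const, smul_eq_mul] at e1 e2
    have e3 : ∫ t in (-π)..π, u (cpt x₀ s t) = 2 * π * m := by rw [hm]; field_simp
    rw [e3] at e1 e2
    constructor
    · have : 2 * π * a ≤ 2 * π * m := by linarith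
      exact le_of_mul_le_mul_left this (by positivity)
    · have : 2 * π * m ≤ 2 * π * b := by linarith
      exact le_of_mul_le_mul_left this (by positivity)
  -- circle integrals
  have c1 : circI (fun y => clip a b u y * ⟪∇ u y, nrm x₀ y⟫) x₀ s
      = ∫ θ in (-π)..π, u (cpt x₀ s θ) * ⟪∇ u (cpt x₀ s θ), dir θ⟫ := by
    unfold circI
    refine intervalIntegral.integral_congr fun θ _ => ?_
    simp only [nrm_cpt x₀ hs0, clip_of_mem (hosc θ).1 (hosc θ).2]
  have c2 : circI (fun y => ⟪∇ u y, nrm x₀ y⟫) x₀ s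
      = ∫ θ in (-π)..π, ⟪∇ u (cpt x₀ s θ), dir θ⟫ := by
    unfold circI
    refine intervalIntegral.integral_congr fun θ _ => ?_
    simp only [nrm_cpt x₀ hs0]
  rw [c1] at id1
  rw [c2] at id2
  have hHc : Continuous (fun θ => ⟪∇ u (cpt x₀ s θ), dir θ⟫) := hc.inner continuous_dir
  have c3 : ∫ θ in (-π)..π, (u (cpt x₀ s θ) - m) * ⟪∇ u (cpt x₀ s θ), dir θ⟫
      = (∫ θ in (-π)..π, u (cpt x₀ s θ) * ⟪∇ u (cpt x₀ s θ), dir θ⟫)
        - m * ∫ θ in (-π)..π, ⟪∇ u (cpt x₀ s θ), dir θ⟫ := by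
    rw [← intervalIntegral.integral_const_mul, ← intervalIntegral.integral_sub]
    · refine intervalIntegral.integral_congr fun θ _ => ?_
      ring
    · exact (hfcont.mul hHc).intervalIntegrable _ _
    · exact (continuous_const.mul hHc).intervalIntegrable _ _
  have hbon := circle_full (s := s) (circ_der h hs0 hBs h0)
    (continuous_const.mul (hc.inner continuous_tau)) (circ_per x₀ s) hHc
  rw [← hm, circ_split h hs0 hBs h0, c3] at hbon
  -- ball integrals
  have hv := qm_vol h hBs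
  have hclipL := memLp_grad (K := K) hv (clip_dirE_lt h hBs habR)
  have hclip2 := memLp_bdd (aesm_locLip h hBs (clip_locLip (a := (a:ℝ)) (b := (b:ℝ)) (qm_locLip h)))
    (abs_clip_le habR u)
  have hf2 : MemLp f 2 (volume.restrict (ball x₀ s)) := memLp_bdd hfm.aestronglyMeasurable hfb
  have hG := qm_memLp_grad h hBs
  have e1 : ∫ y in ball x₀ s, (⟪∇ u y, ∇ (clip a b u) y⟫ + f y * clip a b u y)
      = (∫ y in ball x₀ s, ‖∇ (clip a b u) y‖ ^ 2) + ∫ y in ball x₀ s, f y * clip a b u y := by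
    have i2 : Integrable (fun y => f y * clip a b u y) (volume.restrict (ball x₀ s)) :=
      hf2.integrable_mul hclip2
    rw [integral_add (integrable_inner2 hG hclipL) i2]
    congr 1
    rw [← ball_sdiff_ae hv]
    refine setIntegral_congr_fun (measurableSet_ball.diff (qm_measK h)) fun y hy => ?_
    exact clip_inner habR (qm_continuousAt h ⟨hBs (ball_subset_closedBall hy.1), hy.2⟩)
  rw [e1] at id1
  have hfint : IntegrableOn f (ball x₀ s) := by
    have : IsFiniteMeasure (volume.restrict (ball x₀ s)) :=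
      ⟨by rw [Measure.restrict_apply_univ]; exact measure_ball_lt_top⟩
    exact hf2.integrable (by norm_num)
  have e2 : (∫ y in ball x₀ s, f y * clip a b u y) - m * ∫ y in ball x₀ s, f y
      = ∫ y in ball x₀ s, f y * (clip a b u y - m) := by
    rw [← integral_const_mul, ← integral_sub]
    · refine integral_congr_ae (Eventually.of_forall fun y => ?_)
      simp only; ring
    · exact hf2.integrable_mul hclip2
    · exact hfint.const_mul m
  have e3 : |∫ y in ball x₀ s, f y * (clip a b u y - m)| ≤ lam * ((b:ℝ) - a) * (π * s ^ 2) := by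
    have h1 : ∀ y ∈ ball x₀ s, ‖f y * (clip a b u y - m)‖ ≤ lam * ((b:ℝ) - a) := by
      intro y _
      rw [Real.norm_eq_abs, abs_mul]
      refine mul_le_mul (hfb y) ?_ (abs_nonneg _) h.lam_nonneg
      rw [abs_le]
      have h2 := le_clip (a:ℝ) b u y
      have h3 := clip_le habR u y
      constructor <;> linarith [hm1.1, hm1.2]
    have h2 := norm_setIntegral_le_of_norm_le_const (μ := volume) (s := ball x₀ s)
      measure_ball_lt_top h1
    rw [Real.norm_eq_abs] at h2
    refine h2.trans (le_of_eq ?_)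
    congr 1
    rw [measureReal_def, EuclideanSpace.volume_ball_fin_two, ENNReal.toReal_mul, ENNReal.toReal_pow,
      ENNReal.toReal_ofReal hs0.le, ENNReal.toReal_ofReal Real.pi_pos.le, mul_comm]
  have hmin := clip_comp h hs0 hBs (a := (a:ℝ)) (b := (b:ℝ)) (fun x hx => by
    obtain ⟨θ, -, hθ⟩ := exists_cpt_eq hs0 hx.1 0
    rw [← hθ]; exact hosc θ)
  rw [dirE_ball_eq hv hclipL, ← ENNReal.ofReal_add (integral_nonneg fun y => by positivity)
    (mul_nonneg h.lam_nonneg (sq_nonneg _))] at hmin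
  have hDr : Dr u K x₀ s ≤ (∫ y in ball x₀ s, ‖∇ (clip a b u) y‖ ^ 2) + lam * s ^ 2 := by
    unfold Dr
    refine ENNReal.toReal_le_of_le_ofReal (add_nonneg (integral_nonneg fun y => by positivity)
      (mul_nonneg h.lam_nonneg (sq_nonneg _))) (le_trans ?_ hmin)
    exact lintegral_mono_set (sdiff_subset_sdiff_left ball_subset_closedBall)
  have hba : (b:ℝ) - a ≤ 2 * B₀ + 2 := by linarith
  have e4 : lam * ((b:ℝ) - a) * (π * s ^ 2) ≤ lam * (π * s ^ 2) * (2 * B₀ + 2) := by
    have : 0 ≤ lam * (π * s ^ 2) := mul_nonneg h.lam_nonneg (by positivity)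
    nlinarith
  have e5 := abs_le.1 e3
  rw [mul_sub, id1, ← mul_assoc, mul_comm s m, mul_assoc, id2] at hbon
  linarith [hDr, e2, hbon, e4, e5.1, e5.2]

end
end Crest.Agent.R135.Gl
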