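import Crest.Agent.R135.DLB3

/-!
# R135 (DLB): radial competitor on circles without crack points; growth of the energy
-/

set_option autoImplicit false
open MeasureTheory Set Metric Filter Topology
open scoped Real ContDiff ENNReal NNReal RealInnerProductSpace Gradient

namespace Crest.Agent.R135.Gl

theorem lint_circ {F : Type*} [NormedAddCommGroup F] {g : ℝ → F} (hg : Continuous g) :
    ∫⁻ θ in Ioo (-π) π, ‖g θ‖ₑ ^ 2 = ENNReal.ofReal (∫ θ in (-π)..π, ‖g θ‖ ^ 2) := by
  rw [intervalIntegral.integral_of_le (by linarith [Real.pi_pos]), integral_Ioc_eq_integral_Ioo,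
    ofReal_integral_eq_lintegral_ofReal]
  · refine lintegral_congr fun x => ?_
    rw [ENNReal.ofReal_pow (norm_nonneg _), ofReal_norm]
  · exact (hg.norm.pow 2).continuousOn.integrableOn_Icc.mono_set Ioo_subset_Icc_self
  · exact Eventually.of_forall fun x => by positivity

section
variable {U K : Set P} {lam : ℝ} {u : P → ℝ} {x₀ : P} {s : ℝ}

theorem keeps_empty (hs : 0 < s) (hB : closedBall x₀ s ⊆ U) (h0 : K ∩ sphere x₀ s = ∅) :
    Keeps U K (K \ ball x₀ s) (closedBall x₀ s) := by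
  classical
  intro c hc
  have hoff : ∀ y ∈ sphere x₀ s, y ∈ U \ K := by
    intro y hy
    refine ⟨hB (sphere_subset_closedBall hy), fun hK => ?_⟩
    have h1 : y ∈ K ∩ sphere x₀ s := ⟨hK, hy⟩
    rw [h0] at h1
    exact h1
  -- `c` is constant on the circle
  have hconst : ∀ θ : ℝ, c (cpt x₀ s θ) = c (cpt x₀ s 0) := by
    have hloc : IsLocallyConstant (fun θ : ℝ => c (cpt x₀ s θ)) := by
      rw [IsLocallyConstant.iff_eventually_eq]
      intro θ
      exact (continuous_cpt' x₀ s).continuousAt.eventually (hc _ (cpt_off hs hB h0 θ))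
    exact fun θ => hloc.apply_eq_of_preconnectedSpace θ 0
  have hconst2 : ∀ y ∈ sphere x₀ s, c y = c (cpt x₀ s 0) := by
    intro y hy
    obtain ⟨θ, -, hθ⟩ := exists_cpt_eq hs hy 0
    rw [← hθ]; exact hconst θ
  refine ⟨fun z => if dist z x₀ < s then c (cpt x₀ s 0) else c z, ?_, ?_⟩
  · rintro x ⟨hxU, hxL⟩
    rcases lt_trichotomy (dist x x₀) s with hlt | heq | hgt
    · have h1 : ∀ᶠ z in 𝓝 x, dist z x₀ < s := isOpen_ball.mem_nhds hlt
      filter_upwards [h1] with z hz
      rw [if_pos hz, if_pos hlt]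
    · have hx := hoff x heq
      filter_upwards [hc x hx] with z hz
      have h2 : c z = c (cpt x₀ s 0) := by rw [hz]; exact hconst2 x heq
      rw [if_neg (not_lt.2 heq.ge), hconst2 x heq]
      split_ifs
      · rfl
      · exact h2
    · have h1 : ∀ᶠ z in 𝓝 x, s < dist z x₀ :=
        (continuous_id.dist continuous_const).continuousAt.eventually (eventually_gt_nhds hgt)
      have hxK : x ∈ U \ K := ⟨hxU, fun h => hxL ⟨h, by rw [mem_ball, not_lt]; exact hgt.le⟩⟩
      filter_upwards [h1, hc x hxK] with z hz hz2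
      rw [if_neg (not_lt.2 hz.le), if_neg (not_lt.2 hgt.le), hz2]
  · rintro y ⟨_, hy⟩
    have h1 : ¬ dist y x₀ < s := fun hlt => hy (Or.inr (mem_closedBall.2 hlt.le))
    simp only [if_neg h1]

theorem radL_empty (hs : 0 < s) (h0 : K ∩ sphere x₀ s = ∅) :
    radL K x₀ s (1 / 2) = K \ ball x₀ s := by
  unfold radL
  have : {x : E2 | (1 - 1 / 2) * s ≤ dist x x₀ ∧ dist x x₀ ≤ s ∧ radProj x₀ s x ∈ K} = ∅ := by
    ext x
    simp only [mem_ofPred_eq, mem_empty_iff_false, iff_false]
    rintro ⟨h1, h2, h3⟩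
    have hx : x ≠ x₀ := by
      rintro rfl
      rw [dist_self] at h1
      linarith
    have h4 : radProj x₀ s x ∈ K ∩ sphere x₀ s := ⟨h3, radProj_mem_sphere hs.le hx⟩
    rw [h0] at h4
    exact h4
  rw [this, union_empty]

/-- energy comparison on a circle without crack points -/
theorem enE_empty (h : IsQM U lam u K) (hs : 0 < s) (hB : closedBall x₀ s ⊆ U)
    (h0 : K ∩ sphere x₀ s = ∅) :
    enE u K (closedBall x₀ s) ≤ ENNReal.ofReal (3 * (s * cirE u x₀ s) + lam * s ^ 2) := by
  set m : ℝ := (1 / (2 * π)) * ∫ t in (-π)..π, u (cpt x₀ s t) with hm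
  have hrL := radL_empty hs h0
  have hLopen : IsOpen (U \ radL K x₀ s (1 / 2)) :=
    isOpen_diff_radL h.isOpen h.closed hs (by norm_num) hB
  have hcl := closure_radL_inter (h := 1 / 2) h.closed hs (by norm_num) hB
  have hlip := locallyLipschitzOn_radW (c := m) (h := 1 / 2) hs (by norm_num) (by norm_num) hB
    (fun x hx => qm_contDiffAt h hx) hLopen
  rw [hrL] at hLopen hcl hlip
  have hempty : (K \ ball x₀ s) ∩ closedBall x₀ s = ∅ := by
    ext x
    simp only [mem_inter_iff, Set.mem_sdiff, mem_empty_iff_false, iff_false]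
    rintro ⟨⟨h1, h2⟩, h3⟩
    have h4 : x ∈ K ∩ sphere x₀ s := ⟨h1, by rw [← closedBall_sdiff_ball]; exact ⟨h3, h2⟩⟩
    rw [h0] at h4
    exact h4
  have hcomp : IsComp U u K x₀ s (radW u x₀ s (1 / 2) m) (K \ ball x₀ s) := by
    refine ⟨sdiff_subset.trans h.sub, hcl, ?_, ?_, hlip, ?_, keeps_empty hs hB h0⟩
    · rw [hempty]; unfold len; simp
    · ext x
      constructor
      · rintro ⟨hx, hxb⟩; exact ⟨hx.1, hxb⟩
      · rintro ⟨hx, hxb⟩
        exact ⟨⟨hx, fun hc => hxb (ball_subset_closedBall hc)⟩, hxb⟩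
    · rintro z ⟨_, hz⟩
      apply radW_of_le
      by_contra hlt
      exact hz (Or.inr (mem_closedBall.2 (not_le.1 hlt).le))
  have hc := circ_cont h hs hB h0
  have hfcont : Continuous (fun θ => u (cpt x₀ s θ)) :=
    continuous_iff_continuousAt.2 fun θ => (circ_der h hs hB h0 θ).continuousAt
  have hcE : 0 ≤ s * cirE u x₀ s := mul_nonneg hs.le (cirE_nonneg hs.le)
  refine (h.min x₀ s hs hB _ _ hcomp).trans ?_
  unfold enE
  rw [hempty, ENNReal.ofReal_add (by positivity) (mul_nonneg h.lam_nonneg (sq_nonneg _))]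
  refine add_le_add ?_ le_rfl
  have hl0 : len (∅ : Set P) = 0 := by unfold len; simp
  rw [hl0, add_zero]
  unfold dirE
  refine (lintegral_mono_set sdiff_subset).trans ?_
  have hsph : (closedBall x₀ s : Set E2) =ᵐ[volume] ball x₀ s := by
    have h1 : volume (sphere x₀ s) = 0 := Measure.addHaar_sphere volume x₀ s
    rw [← ball_union_sphere]
    exact union_ae_eq_left_of_ae_eq_empty (ae_eq_empty.2 h1)
  rw [setLIntegral_congr hsph]
  refine (lintegral_radW_le hs (by norm_num) (by norm_num)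
    (Eventually.of_forall fun θ => qm_contDiffAt h (cpt_off hs hB h0 θ))).trans ?_
  have e1 := lint_circ (g := fun θ => u (cpt x₀ s θ) - m) (hfcont.sub continuous_const)
  have e2 := lint_circ hc
  rw [e1, e2, ← ENNReal.ofReal_mul (by norm_num), ← ENNReal.ofReal_mul (by positivity),
    ← ENNReal.ofReal_add]
  · refine ENNReal.ofReal_le_ofReal ?_
    have w := wirt_periodic (circ_der h hs hB h0)
      (continuous_const.mul (hc.inner continuous_tau)) (circ_per x₀ s)
    rw [← hm] at w
    have sp := circ_split h hs hB h0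
    have h2 : 0 ≤ s ^ 2 * (∫ θ in (-π)..π, ⟪∇ u (cpt x₀ s θ), dir θ⟫ ^ 2) :=
      mul_nonneg (sq_nonneg _) (intervalIntegral.integral_nonneg (by linarith [Real.pi_pos])
        fun θ _ => sq_nonneg _)
    have e3 : ∫ θ in (-π)..π, ‖u (cpt x₀ s θ) - m‖ ^ 2 = ∫ θ in (-π)..π, (u (cpt x₀ s θ) - m) ^ 2 := by
      refine intervalIntegral.integral_congr fun θ _ => ?_
      simp only [Real.norm_eq_abs, sq_abs]
    have e4 : s * cirE u x₀ s = s ^ 2 * ∫ θ in (-π)..π, ‖∇ u (cpt x₀ s θ)‖ ^ 2 := by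
      unfold cirE circI; ring
    rw [e3]
    have e5 : 1 / 2 * s ^ 2 / (1 - 1 / 2) * ∫ θ in (-π)..π, ‖∇ u (cpt x₀ s θ)‖ ^ 2
        = s * cirE u x₀ s := by rw [e4]; ring
    rw [e5]
    linarith
  · exact mul_nonneg (by norm_num) (intervalIntegral.integral_nonneg (by linarith [Real.pi_pos])
      fun θ _ => by positivity)
  · exact mul_nonneg (by positivity) (intervalIntegral.integral_nonneg (by linarith [Real.pi_pos])
      fun θ _ => by positivity)

end
end Crest.Agent.R135.Gl
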