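import Crest.Agent.R135.DLB4

/-!
# R135 (DLB): one step of the iteration
-/

set_option autoImplicit false
open MeasureTheory Set Metric Filter Topology
open scoped Real ContDiff ENNReal NNReal RealInnerProductSpace Gradient

namespace Crest.Agent.R135.Gl

section
variable {U K : Set P} {lam : ℝ} {u : P → ℝ} {x₀ : P} {s : ℝ}

theorem qm_int_sq (h : IsQM U lam u K) {R : ℝ} (hB : closedBall x₀ R ⊆ U) :
    IntegrableOn (fun y => ‖∇ u y‖ ^ 2) (ball x₀ R) := integrable_normsq (qm_memLp_grad h hB)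

theorem Dr_nonneg : 0 ≤ Dr u K x₀ s := ENNReal.toReal_nonneg

theorem Dr_mono (h : IsQM U lam u K) {r R : ℝ} (hrR : r ≤ R) (hB : closedBall x₀ R ⊆ U) :
    Dr u K x₀ r ≤ Dr u K x₀ R := by
  unfold Dr
  refine ENNReal.toReal_mono ?_ (lintegral_mono_set (sdiff_subset_sdiff_left
    (ball_subset_ball hrR)))
  exact ((lintegral_mono_set (sdiff_subset_sdiff_left
    ball_subset_closedBall)).trans_lt (h.dir_fin x₀ R hB)).ne

theorem Dr_sub (h : IsQM U lam u K) {r R : ℝ} (hr : 0 ≤ r) (hrR : r ≤ R)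
    (hB : closedBall x₀ R ⊆ U) :
    Dr u K x₀ R - Dr u K x₀ r = ∫ t in r..R, cirE u x₀ t := by
  rw [qm_Dr_eq h hB, qm_Dr_eq h ((closedBall_subset_closedBall hrR).trans hB)]
  exact ball_integral_sub x₀ hr hrR le_rfl (qm_int_sq h hB)

theorem cirE_int (h : IsQM U lam u K) {R : ℝ} (hR : 0 ≤ R)
    (hB : closedBall x₀ R ⊆ U) : IntervalIntegrable (fun t => cirE u x₀ t) volume 0 R :=
  intervalIntegrable_radial x₀ hR (qm_int_sq h hB)

/-- a large measurable set of radii without crack points -/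
theorem good_radii {r η : ℝ}
    (hK : len (K ∩ ball x₀ r) ≤ ENNReal.ofReal (η * r)) :
    ∃ N : Set ℝ, MeasurableSet N ∧ volume N ≤ ENNReal.ofReal (η * r) ∧
      ∀ s ∈ Ioo (r / 2) r \ N, K ∩ sphere x₀ s = ∅ := by
  refine ⟨toMeasurable volume {t ∈ Iio r | (K ∩ sphere x₀ t).Nonempty},
    measurableSet_toMeasurable _ _, ?_, ?_⟩
  · rw [measure_toMeasurable]
    exact (volume_radii_meet_le K x₀ r).trans hK
  · rintro s ⟨hs, hsN⟩
    by_contra hne
    exact hsN (subset_toMeasurable _ _ ⟨hs.2, nonempty_iff_ne_empty.2 hne⟩)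

theorem step_D (h : IsQM U lam u K) {r : ℝ} (hr : 0 < r) (hB : closedBall x₀ r ⊆ U)
    (hlam : lam * π * r ^ 2 ≤ 1 / 100)
    (hK : len (K ∩ ball x₀ r) ≤ ENNReal.ofReal (1 / 100 * r)) :
    Dr u K x₀ (r / 2) * (23 / 10) ≤ Dr u K x₀ r + 28 * lam * r ^ 2 := by
  obtain ⟨N, hNm, hNv, hN⟩ := good_radii hK
  have hpi := Real.pi_pos
  have hlam0 := h.lam_nonneg
  set T : Set ℝ := Ioo (r / 2) r \ N with hT
  have hTm : MeasurableSet T := measurableSet_Ioo.diff hNm
  have hTsub : T ⊆ Ioo (r / 2) r := sdiff_subset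
  have hci : IntegrableOn (fun t => cirE u x₀ t) (Ioo (r / 2) r) := by
    have := cirE_int h hr.le hB
    rw [intervalIntegrable_iff_integrableOn_Ioo_of_le hr.le] at this
    exact this.mono_set (Ioo_subset_Ioo_left (by linarith))
  have hae : ∀ᵐ s ∂(volume.restrict T),
      (50 / 51) * (2 * (Dr u K x₀ (r / 2) * s⁻¹ - 28 * lam * s)) ≤ cirE u x₀ s := by
    have h1 := bonnet_trunc h hr hB
    have h2 : ∀ᵐ s ∂(volume.restrict T), _ :=
      ae_mono (Measure.restrict_mono (hTsub.trans (Ioo_subset_Ioo_left (by linarith))) le_rfl) h1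
    filter_upwards [h2, ae_restrict_mem hTm] with s hs hsT
    have hs0 : 0 < s := by linarith [(hTsub hsT).1]
    have hsr : s < r := (hTsub hsT).2
    have h3 := hs (hN s hsT)
    have hBs : closedBall x₀ s ⊆ U := (closedBall_subset_closedBall hsr.le).trans hB
    have h4 : Dr u K x₀ (r / 2) ≤ Dr u K x₀ s := Dr_mono h (hTsub hsT).1.le hBs
    have hc0 : 0 ≤ cirE u x₀ s := cirE_nonneg hs0.le
    have hp1 : π < 3.15 := Real.pi_lt_d2
    have h5 : lam * π * s ^ 2 ≤ 1 / 100 := by
      refine le_trans ?_ hlam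
      have : s ^ 2 ≤ r ^ 2 := pow_le_pow_left₀ hs0.le hsr.le 2
      exact mul_le_mul_of_nonneg_left this (by positivity)
    have h6 : lam * (π * s ^ 2) * (2 * (π + (1 / 2) * (s * cirE u x₀ s)) + 2)
        ≤ (1 / 100) * (s * cirE u x₀ s) + 27 * (lam * s ^ 2) := by
      have e1 : lam * (π * s ^ 2) * (2 * (π + (1 / 2) * (s * cirE u x₀ s)) + 2)
          = (lam * π * s ^ 2) * (s * cirE u x₀ s) + (lam * s ^ 2) * (π * (2 * π + 2)) := by ring
      rw [e1]
      have e2 : π * (2 * π + 2) ≤ 27 := by nlinarith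
      have e3 : 0 ≤ lam * s ^ 2 := by positivity
      have e4 : 0 ≤ s * cirE u x₀ s := by positivity
      nlinarith
    have h7 : Dr u K x₀ (r / 2) ≤ (51 / 100) * (s * cirE u x₀ s) + 28 * (lam * s ^ 2) := by
      linarith
    have e5 : s⁻¹ * s = 1 := inv_mul_cancel₀ hs0.ne'
    have h8 : Dr u K x₀ (r / 2) * s⁻¹ ≤ (51 / 100) * cirE u x₀ s + 28 * lam * s := by
      have := mul_le_mul_of_nonneg_right h7 (inv_nonneg.2 hs0.le)
      refine this.trans (le_of_eq ?_)
      field_simp
    linarith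
  -- integrate
  have hinv : IntegrableOn (fun s : ℝ => s⁻¹) (Ioo (r / 2) r) := by
    have h1 : ContinuousOn (fun s : ℝ => s⁻¹) (Icc (r / 2) r) :=
      continuousOn_inv₀.mono fun s hs => by
        have : 0 < s := by linarith [hs.1]
        exact this.ne'
    exact h1.integrableOn_Icc.mono_set Ioo_subset_Icc_self
  have hid : IntegrableOn (fun s : ℝ => s) (Ioo (r / 2) r) :=
    continuousOn_id.integrableOn_Icc.mono_set Ioo_subset_Icc_self
  have i1 : ∫ s in T, (50 / 51) * (2 * (Dr u K x₀ (r / 2) * s⁻¹ - 28 * lam * s))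
      ≤ ∫ s in T, cirE u x₀ s := by
    refine integral_mono_ae ?_ (hci.mono_set hTsub) hae
    exact ((((hinv.mono_set hTsub).const_mul _).sub ((hid.mono_set hTsub).const_mul _)).const_mul
      2).const_mul _
  have i2 : ∫ s in T, cirE u x₀ s ≤ ∫ s in Ioo (r / 2) r, cirE u x₀ s := by
    refine setIntegral_mono_set hci ?_ hTsub.eventuallyLE
    rw [EventuallyLE, ae_restrict_iff' measurableSet_Ioo]
    refine Eventually.of_forall fun s hs => cirE_nonneg (by linarith [hs.1])
  have i3 : ∫ s in Ioo (r / 2) r, cirE u x₀ s = Dr u K x₀ r - Dr u K x₀ (r / 2) := by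
    rw [Dr_sub h (by linarith) (by linarith) hB, intervalIntegral.integral_of_le (by linarith),
      integral_Ioc_eq_integral_Ioo]
  have i4 : ∫ s in T, (50 / 51) * (2 * (Dr u K x₀ (r / 2) * s⁻¹ - 28 * lam * s))
      = (100 / 51) * (Dr u K x₀ (r / 2) * (∫ s in T, s⁻¹) - 28 * lam * ∫ s in T, s) := by
    rw [integral_const_mul, integral_const_mul, integral_sub, integral_const_mul,
      integral_const_mul]
    · ring
    · exact (hinv.mono_set hTsub).const_mul _
    · exact (hid.mono_set hTsub).const_mul _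
  have i5 : ∫ s in T, s ≤ r * (r / 2) := by
    have h1 : ∀ s ∈ T, ‖s‖ ≤ r := by
      intro s hs
      have := hTsub hs
      rw [Real.norm_eq_abs, abs_of_pos (by linarith [this.1])]
      exact this.2.le
    have hTfin : volume T < ⊤ := (measure_mono hTsub).trans_lt (by simp)
    have h2 := norm_setIntegral_le_of_norm_le_const (μ := volume) hTfin h1
    have h3 : volume.real T ≤ r / 2 := by
      refine (measureReal_mono hTsub (by simp)).trans ?_
      rw [measureReal_def, Real.volume_Ioo, ENNReal.toReal_ofReal (by linarith)]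
      linarith
    calc ∫ s in T, s ≤ ‖∫ s in T, s‖ := le_abs_self _
      _ ≤ r * volume.real T := h2
      _ ≤ r * (r / 2) := mul_le_mul_of_nonneg_left h3 hr.le
  have i6 : Real.log 2 - 1 / 50 ≤ ∫ s in T, s⁻¹ := by
    have h1 := integral_inter_add_sdiff (μ := volume) (s := Ioo (r / 2) r) hNm hinv
    have h2 : ∫ s in Ioo (r / 2) r, s⁻¹ = Real.log 2 := by
      rw [← integral_Ioc_eq_integral_Ioo, ← intervalIntegral.integral_of_le (by linarith),
        integral_inv_of_pos (by linarith) hr]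
      congr 1
      field_simp
    have h3 : ∫ s in Ioo (r / 2) r ∩ N, s⁻¹ ≤ 1 / 50 := by
      have h4 : ∀ s ∈ Ioo (r / 2) r ∩ N, ‖s⁻¹‖ ≤ 2 / r := by
        rintro s ⟨hs, -⟩
        have hs0 : 0 < s := by linarith [hs.1]
        rw [Real.norm_eq_abs, abs_of_pos (inv_pos.2 hs0), inv_eq_one_div,
          div_le_div_iff₀ hs0 hr]
        linarith [hs.1]
      have h5 := norm_setIntegral_le_of_norm_le_const (μ := volume)
        ((measure_mono inter_subset_left).trans_lt (by simp) :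
          volume (Ioo (r / 2) r ∩ N) < ⊤) h4
      have h6 : volume.real (Ioo (r / 2) r ∩ N) ≤ 1 / 100 * r := by
        rw [measureReal_def]
        refine ENNReal.toReal_le_of_le_ofReal (by positivity) ?_
        exact (measure_mono inter_subset_right).trans hNv
      calc ∫ s in Ioo (r / 2) r ∩ N, s⁻¹ ≤ ‖∫ s in Ioo (r / 2) r ∩ N, s⁻¹‖ := le_abs_self _
        _ ≤ 2 / r * volume.real (Ioo (r / 2) r ∩ N) := h5
        _ ≤ 2 / r * (1 / 100 * r) := mul_le_mul_of_nonneg_left h6 (by positivity)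
        _ = 1 / 50 := by field_simp; norm_num
    rw [h2] at h1
    linarith
  have hlog : 0.6931471803 < Real.log 2 := Real.log_two_gt_d9
  have hD0 : 0 ≤ Dr u K x₀ (r / 2) := Dr_nonneg
  have i7 : Dr u K x₀ (r / 2) * (673 / 1000) ≤ Dr u K x₀ (r / 2) * ∫ s in T, s⁻¹ :=
    mul_le_mul_of_nonneg_left (by linarith) hD0
  have i8 : 28 * lam * ∫ s in T, s ≤ 28 * lam * (r * (r / 2)) :=
    mul_le_mul_of_nonneg_left i5 (by positivity)
  have i9 : 0 ≤ lam * r ^ 2 := by positivity
  nlinarith [i1, i2, i3, i4, i7, i8, i9]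

theorem step_L (h : IsQM U lam u K) {r : ℝ} (hr : 0 < r) (hB : closedBall x₀ r ⊆ U)
    (hK : len (K ∩ ball x₀ r) ≤ ENNReal.ofReal (1 / 100 * r)) :
    len (K ∩ closedBall x₀ (r / 2)) ≤ ENNReal.ofReal (12 * Dr u K x₀ r + lam * r ^ 2) := by
  obtain ⟨N, hNm, hNv, hN⟩ := good_radii hK
  have hlam0 := h.lam_nonneg
  set T : Set ℝ := Ioo (r / 2) r \ N with hT
  have hTm : MeasurableSet T := measurableSet_Ioo.diff hNm
  have hTsub : T ⊆ Ioo (r / 2) r := sdiff_subset
  have hTfin : volume T < ⊤ := (measure_mono hTsub).trans_lt (by simp)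
  have hTv : r / 4 ≤ (volume T).toReal := by
    have h1 : volume (Ioo (r / 2) r) ≤ volume T + volume N := by
      refine (measure_mono (t := T ∪ N) ?_).trans (measure_union_le _ _)
      intro s hs
      by_cases hsN : s ∈ N
      · exact Or.inr hsN
      · exact Or.inl ⟨hs, hsN⟩
    rw [Real.volume_Ioo] at h1
    have h2 : ENNReal.ofReal (r - r / 2) ≤ ENNReal.ofReal ((volume T).toReal + 1 / 100 * r) := by
      rw [ENNReal.ofReal_add ENNReal.toReal_nonneg (by positivity),
        ENNReal.ofReal_toReal hTfin.ne]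
      exact h1.trans (add_le_add le_rfl hNv)
    have h3 := (ENNReal.ofReal_le_ofReal_iff (by positivity)).1 h2
    linarith
  have hTpos : 0 < volume T := by
    rw [pos_iff_ne_zero]
    intro h0
    rw [h0] at hTv
    simp only [ENNReal.toReal_zero] at hTv
    linarith
  obtain ⟨t, htT, -, ht⟩ := exists_radius_le x₀ hr.le (f := fun y => ‖∇ u y‖ ^ 2)
    (fun y => by positivity) (qm_int_sq h hB) hTm.nullMeasurableSet
    (hTsub.trans (Ioo_subset_Ioo_left (by linarith))) hTpos (P := fun _ => True)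
    (Eventually.of_forall fun _ => trivial)
  rw [← qm_Dr_eq h hB] at ht
  have ht0 : 0 < t := by linarith [(hTsub htT).1]
  have htr : t < r := (hTsub htT).2
  have hc0 : 0 ≤ cirE u x₀ t := cirE_nonneg ht0.le
  have h5 : t * circI (fun y => ‖∇ u y‖ ^ 2) x₀ t = cirE u x₀ t := rfl
  rw [h5] at ht
  have h6 : cirE u x₀ t * (r / 4) ≤ Dr u K x₀ r :=
    (mul_le_mul_of_nonneg_left hTv hc0).trans ht
  have h7 := enE_empty h ht0 ((closedBall_subset_closedBall htr.le).trans hB) (hN t htT)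
  have h8 : len (K ∩ closedBall x₀ (r / 2)) ≤ len (K ∩ closedBall x₀ t) :=
    measure_mono (inter_subset_inter_right _ (closedBall_subset_closedBall (hTsub htT).1.le))
  refine h8.trans ((le_add_left le_rfl).trans (h7.trans (ENNReal.ofReal_le_ofReal ?_)))
  have h9 : t * cirE u x₀ t ≤ 4 * Dr u K x₀ r := by nlinarith
  have h10 : lam * t ^ 2 ≤ lam * r ^ 2 :=
    mul_le_mul_of_nonneg_left (pow_le_pow_left₀ ht0.le htr.le 2) hlam0
  linarith

end
end Crest.Agent.R135.Gl
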