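import Crest.Agent.R135.DLB5
import Crest.Agent.R135.QMBasic
import Crest.Agent.R135.Scal2
import Crest.Agent.R135.GMT2

/-!
# R135 (DLB): density lower bound
-/

set_option autoImplicit false
open MeasureTheory Set Metric Filter Topology
open scoped Real ContDiff ENNReal NNReal RealInnerProductSpace Gradient

namespace Crest.Agent.R135.Gl

section
variable {U K : Set P} {lam : ℝ} {u : P → ℝ}

theorem iter_small (h : IsQM U lam u K) {y : P} {r : ℝ} (hr : 0 < r) (hB : closedBall y r ⊆ U)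
    (hlam : lam * r ≤ 1 / 10 ^ 7) (hlam2 : lam * π * r ^ 2 ≤ 1 / 100)
    (hD : Dr u K y r ≤ 8 * r)
    (hL : len (K ∩ closedBall y r) ≤ ENNReal.ofReal (1 / 100 * (r / 2 ^ 100))) (k : ℕ) :
    len (K ∩ closedBall y (r / 2 ^ k)) ≤ ENNReal.ofReal (1 / 100 * (r / 2 ^ k)) ∧
      Dr u K y (r / 2 ^ k) ≤ (8 * (87 / 100) ^ k + 1 / 50000) * (r / 2 ^ k) := by
  have hlam0 := h.lam_nonneg
  -- scales
  have hρ : ∀ k : ℕ, 0 < r / 2 ^ k := fun k => by positivity
  have hρr : ∀ k : ℕ, r / 2 ^ k ≤ r := fun k => div_le_self hr.le (one_le_pow₀ (by norm_num))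
  have hhalf : ∀ k : ℕ, r / 2 ^ (k + 1) = (r / 2 ^ k) / 2 := fun k => by
    rw [pow_succ]; field_simp
  have hBk : ∀ k : ℕ, closedBall y (r / 2 ^ k) ⊆ U := fun k =>
    (closedBall_subset_closedBall (hρr k)).trans hB
  have hmonoL : ∀ k : ℕ, k ≤ 100 →
      len (K ∩ closedBall y (r / 2 ^ k)) ≤ ENNReal.ofReal (1 / 100 * (r / 2 ^ k)) := by
    intro k hk
    refine (measure_mono (inter_subset_inter_right _ (closedBall_subset_closedBall (hρr k)))).trans
      (hL.trans (ENNReal.ofReal_le_ofReal ?_))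
    have h1 : r / 2 ^ 100 ≤ r / 2 ^ k :=
      div_le_div_of_nonneg_left hr.le (by positivity) (pow_le_pow_right₀ (by norm_num) hk)
    linarith
  have hpos87 : ∀ k : ℕ, (0:ℝ) < (87 / 100) ^ k := fun k => by positivity
  induction k with
  | zero =>
    refine ⟨hmonoL 0 (by norm_num), ?_⟩
    simp only [pow_zero, div_one, mul_one]
    linarith
  | succ k ih =>
    obtain ⟨ihL, ihD⟩ := ih
    set ρ := r / 2 ^ k with hρd
    have hρ0 : 0 < ρ := hρ k
    have hρle : ρ ≤ r := hρr k
    have hlr : lam * ρ ≤ 1 / 10 ^ 7 := (mul_le_mul_of_nonneg_left hρle hlam0).trans hlam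
    have hcond : lam * π * ρ ^ 2 ≤ 1 / 100 := by
      refine le_trans ?_ hlam2
      exact mul_le_mul_of_nonneg_left (pow_le_pow_left₀ hρ0.le hρle 2)
        (mul_nonneg hlam0 Real.pi_pos.le)
    have hKb : len (K ∩ ball y ρ) ≤ ENNReal.ofReal (1 / 100 * ρ) :=
      (measure_mono (inter_subset_inter_right _ ball_subset_closedBall)).trans ihL
    have sD := step_D h hρ0 (hBk k) hcond hKb
    have sL := step_L h hρ0 (hBk k) hKb
    rw [hhalf k, ← hρd]
    have h1 : 28 * lam * ρ ^ 2 ≤ 28 / 10 ^ 7 * ρ := by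
      have := mul_le_mul_of_nonneg_right hlr hρ0.le
      nlinarith
    have hp := hpos87 k
    refine ⟨?_, ?_⟩
    · by_cases hk : k + 1 ≤ 100
      · have := hmonoL (k + 1) hk
        rwa [hhalf k, ← hρd] at this
      · refine sL.trans (ENNReal.ofReal_le_ofReal ?_)
        have hk' : 100 ≤ k := by omega
        have h2 : ((87:ℝ) / 100) ^ k ≤ (87 / 100) ^ 100 :=
          pow_le_pow_of_le_one (by norm_num) (by norm_num) hk'
        have h3 : ((87:ℝ) / 100) ^ 100 ≤ 1 / 10 ^ 6 := by norm_num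
        have h4 : lam * ρ ^ 2 ≤ 1 / 10 ^ 7 * ρ := by nlinarith
        have h5 : Dr u K y ρ ≤ (8 * (1 / 10 ^ 6) + 1 / 50000) * ρ :=
          ihD.trans (mul_le_mul_of_nonneg_right (by linarith) hρ0.le)
        nlinarith
    · have e1 : Dr u K y (ρ / 2) ≤ (10 / 23) * (Dr u K y ρ + 28 * lam * ρ ^ 2) := by linarith
      have e2 : (10 / 23) * (Dr u K y ρ + 28 * lam * ρ ^ 2)
          ≤ (10 / 23) * ((8 * (87 / 100) ^ k + 1 / 50000) * ρ + 28 / 10 ^ 7 * ρ) := by linarith
      refine e1.trans (e2.trans ?_)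
      have e4 : ((87:ℝ) / 100) ^ (k + 1) = (87 / 100) ^ k * (87 / 100) := pow_succ _ _
      rw [e4]
      have e3 : (10 / 23) * ((8 * (87 / 100) ^ k + 1 / 50000) * ρ + 28 / 10 ^ 7 * ρ)
          = (((160 / 23) * (87 / 100) ^ k) + (20 / 23) * (1 / 50000 + 28 / 10 ^ 7)) * (ρ / 2) := by
        ring
      rw [e3]
      refine mul_le_mul_of_nonneg_right ?_ (by positivity)
      nlinarith

/-- the crack cannot have small length in a ball centred on it (small scales) -/
theorem density_aux (h : IsQM U lam u K) {x : P} (hx : x ∈ K) {r : ℝ} (hr : 0 < r)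
    (hB : closedBall x r ⊆ U) (hlam : lam * r ≤ 1 / 10 ^ 7) (hlam2 : lam * π * r ^ 2 ≤ 1 / 100) :
    ENNReal.ofReal (1 / 200 / 2 ^ 100 * r) ≤ len (K ∩ closedBall x r) := by
  by_contra hcon
  rw [not_le] at hcon
  have hlam0 := h.lam_nonneg
  have hpi := Real.pi_pos
  have hsmall : ∀ y ∈ K ∩ ball x (r / 2), ∀ k : ℕ,
      len (K ∩ closedBall y (r / 2 / 2 ^ k)) ≤ ENNReal.ofReal (1 / 100 * (r / 2 / 2 ^ k)) := by
    intro y hy k
    have hsub : closedBall y (r / 2) ⊆ closedBall x r := by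
      refine closedBall_subset_closedBall' ?_
      have := mem_ball.1 hy.2
      linarith
    have hBy : closedBall y (r / 2) ⊆ U := hsub.trans hB
    refine (iter_small h (by positivity) hBy ?_ ?_ ?_ ?_ k).1
    · nlinarith
    · have : (r / 2) ^ 2 ≤ r ^ 2 := by nlinarith
      exact (mul_le_mul_of_nonneg_left this (by positivity)).trans hlam2
    · have h1 := h.energy_le (show 0 < r / 2 by positivity) hBy
      have h2 : Dr u K y (r / 2) ≤ 2 * π * (r / 2) + lam * (r / 2) ^ 2 := by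
        unfold Dr
        refine ENNReal.toReal_le_of_le_ofReal (by positivity) (le_trans ?_ h1)
        refine le_trans ?_ (le_add_right le_rfl)
        exact lintegral_mono_set (sdiff_subset_sdiff_left ball_subset_closedBall)
      have hp1 : π < 3.15 := Real.pi_lt_d2
      nlinarith
    · refine (measure_mono (inter_subset_inter_right _ hsub)).trans (hcon.le.trans ?_)
      refine ENNReal.ofReal_le_ofReal (le_of_eq ?_)
      ring
  have hzero : len (K ∩ ball x (r / 2)) = 0 := by
    unfold len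
    refine hausdorff_zero_of_small_density K (K ∩ ball x (r / 2)) inter_subset_left ?_
      (1 / 50 : ℝ≥0) (by norm_num) ?_
    · exact ((measure_mono (inter_subset_inter_right _ ((ball_subset_closedBall).trans
        (closedBall_subset_closedBall (by linarith))))).trans_lt (h.len_fin x r hB)).ne
    · intro y hy
      refine ⟨r / 2, by positivity, fun t ht htr => ?_⟩
      obtain ⟨k, hk1, hk2⟩ := exists_nat_pow_near (x := r / 2 / t) (y := 2)
        ((one_le_div ht).2 htr) (by norm_num)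
      have h2k : (0:ℝ) < 2 ^ k := by positivity
      have e1 : t ≤ r / 2 / 2 ^ k := by
        rw [le_div_iff₀ h2k]
        rw [le_div_iff₀ ht] at hk1
        linarith
      have e2 : r / 2 / 2 ^ k ≤ 2 * t := by
        rw [div_le_iff₀ h2k]
        rw [div_lt_iff₀ ht, pow_succ] at hk2
        linarith
      refine (measure_mono (inter_subset_inter_right _
        (closedBall_subset_closedBall e1))).trans ((hsmall y hy k).trans ?_)
      have e3 : ((1 / 50 : ℝ≥0) : ℝ≥0∞) = ENNReal.ofReal (1 / 50) := by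
        rw [ENNReal.ofReal]
        congr 1
        rw [Real.toNNReal_div (by norm_num)]
        simp
      rw [e3, ← ENNReal.ofReal_mul (by norm_num)]
      refine ENNReal.ofReal_le_ofReal ?_
      linarith
  exact absurd hzero (h.red x hx (r / 2) (by positivity)).ne'

/-- **Density lower bound**, universal constant. -/
theorem density_lower_gen : ∃ c₀ : ℝ, 0 < c₀ ∧ ∀ {U : Set P} {lam : ℝ} {u : P → ℝ} {K : Set P},
    IsQM U lam u K → ∀ x ∈ K, ∀ r : ℝ, 0 < r → closedBall x r ⊆ U → lam * r ≤ 1 →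
      lam * (r * √r) ≤ 1 → ENNReal.ofReal (c₀ * r) ≤ len (K ∩ closedBall x r) := by
  refine ⟨1 / 200 / 2 ^ 100 * (1 / 10 ^ 7), by positivity, ?_⟩
  intro U lam u K h x hx r hr hB h1 h2
  have h' : IsQM (rescK U x r) 1 (rescF u x r) (rescK K x r) :=
    h.resc' x hr (lam' := 1) (by linarith) (by linarith)
  have hball : closedBall (0 : P) 1 ⊆ rescK U x r := by
    intro y hy
    rw [mem_rescK]
    apply hB
    rw [mem_closedBall, dist_eq_norm, add_sub_cancel_left, norm_smul, Real.norm_eq_abs,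
      abs_of_pos hr]
    rw [mem_closedBall, dist_zero_right] at hy
    nlinarith
  have hsub : closedBall (0 : P) (1 / 10 ^ 7) ⊆ closedBall (0 : P) 1 :=
    closedBall_subset_closedBall (by norm_num)
  have h0 : (0 : P) ∈ rescK K x r := by
    rw [mem_rescK, smul_zero, add_zero]; exact hx
  have hp1 : π < 3.15 := Real.pi_lt_d2
  have key := density_aux h' h0 (r := 1 / 10 ^ 7) (by positivity) (hsub.trans hball)
    (by norm_num) (by nlinarith)
  have e1 : len (rescK K x r ∩ closedBall 0 1) = ENNReal.ofReal r⁻¹ * len (K ∩ closedBall x r) := by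
    have e2 : closedBall (0 : P) 1 = rescK (closedBall x r) x r := by
      ext y
      rw [mem_rescK, mem_closedBall, mem_closedBall, dist_zero_right, dist_eq_norm,
        add_sub_cancel_left, norm_smul, Real.norm_eq_abs, abs_of_pos hr]
      constructor
      · intro hy; nlinarith
      · intro hy; exact le_of_mul_le_mul_left (by linarith) hr
    rw [e2, ← rescK_inter, len_rescK _ x hr]
  have key2 : ENNReal.ofReal (1 / 200 / 2 ^ 100 * (1 / 10 ^ 7))
      ≤ ENNReal.ofReal r⁻¹ * len (K ∩ closedBall x r) := by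
    rw [← e1]
    exact key.trans (measure_mono (inter_subset_inter_right _ hsub))
  have e3 : ENNReal.ofReal r * (ENNReal.ofReal r⁻¹ * len (K ∩ closedBall x r))
      = len (K ∩ closedBall x r) := by
    rw [← mul_assoc, ← ENNReal.ofReal_mul hr.le, mul_inv_cancel₀ hr.ne', ENNReal.ofReal_one,
      one_mul]
  rw [mul_comm (1 / 200 / 2 ^ 100 * (1 / 10 ^ 7)) r, ENNReal.ofReal_mul hr.le]
  calc _ ≤ ENNReal.ofReal r * (ENNReal.ofReal r⁻¹ * len (K ∩ closedBall x r)) := by gcongr
    _ = _ := e3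

/-- density lower bound, radii at most `1` -/
theorem density_lower_le_one : ∃ c₀ : ℝ, 0 < c₀ ∧ ∀ {U : Set P} {lam : ℝ} {u : P → ℝ} {K : Set P},
    IsQM U lam u K → ∀ x ∈ K, ∀ r : ℝ, 0 < r → r ≤ 1 → closedBall x r ⊆ U → lam * r ≤ 1 →
      ENNReal.ofReal (c₀ * r) ≤ len (K ∩ closedBall x r) := by
  obtain ⟨c₀, hc, H⟩ := density_lower_gen
  refine ⟨c₀, hc, ?_⟩
  intro U lam u K h x hx r hr hr1 hB h1
  refine H h x hx r hr hB h1 ?_
  have h2 : √r ≤ 1 := Real.sqrt_le_one.2 hr1
  have h3 : r * √r ≤ r := mul_le_of_le_one_right hr.le h2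
  exact (mul_le_mul_of_nonneg_left h3 h.lam_nonneg).trans h1

/-- density lower bound, global minimizers, all radii -/
theorem density_lower_zero : ∃ c₀ : ℝ, 0 < c₀ ∧ ∀ {U : Set P} {u : P → ℝ} {K : Set P},
    IsQM U 0 u K → ∀ x ∈ K, ∀ r : ℝ, 0 < r → closedBall x r ⊆ U →
      ENNReal.ofReal (c₀ * r) ≤ len (K ∩ closedBall x r) := by
  obtain ⟨c₀, hc, H⟩ := density_lower_gen
  refine ⟨c₀, hc, ?_⟩
  intro U u K h x hx r hr hB
  exact H h x hx r hr hB (by simp) (by simp)

end
end Crest.Agent.R135.Gl
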