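import Mathlib
import Crest.Agent.R135.PolarG
import Crest.Agent.R135.IFDefs

/-!
# R135, DECAY block (helper427): phases on a circle

A function `c`, locally constant off `K`, takes `m ≥ 2` distinct values on a circle. Then the circle
meets `K` in at least `m` points, and if there are exactly `m` points then the flux through each arc
is the flux of `1_{c = v k}` for some `k`.
-/

set_option autoImplicit false

open MeasureTheory Set Filter Topology Metric
open scoped ENNReal NNReal ContDiff Gradient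

namespace Crest.Agent.R135.Dcy

/-- a locally constant function is constant along an arc -/
theorem locConst_arc {B K : Set E2} {c : E2 → ℝ} (hc : LocConstOn (B \ K) c) {z : E2} {t a b : ℝ}
    (hB : ∀ θ : ℝ, cpt z t θ ∈ B) (hK : ∀ θ ∈ Ioo a b, cpt z t θ ∉ K) {p q : ℝ}
    (hp : p ∈ Ioo a b) (hq : q ∈ Ioo a b) : c (cpt z t p) = c (cpt z t q) := by
  have key : ∀ θ ∈ Ioo a b, HasDerivAt (fun θ => c (cpt z t θ)) 0 θ := by
    intro θ hθ
    have h1 := hc (cpt z t θ) ⟨hB θ, hK θ hθ⟩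
    have h2 : ∀ᶠ φ in 𝓝 θ, c (cpt z t φ) = c (cpt z t θ) :=
      (hasDerivAt_cpt z t θ).continuousAt.eventually h1
    exact (hasDerivAt_const θ (c (cpt z t θ))).congr_of_eventuallyEq h2
  refine isOpen_Ioo.is_const_of_deriv_eq_zero isPreconnected_Ioo
    (fun θ hθ => (key θ hθ).differentiableAt.differentiableWithinAt) ?_ hp hq
  intro θ hθ
  exact (key θ hθ).deriv

theorem exists_idx {θ : ℕ → ℝ} {x : ℝ} (n : ℕ) (h0 : θ 0 ≤ x) (hn : x < θ n) :
    ∃ i < n, θ i ≤ x ∧ x < θ (i + 1) := by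
  induction n with
  | zero => exact absurd hn (not_lt.2 h0)
  | succ n ih =>
    by_cases h : x < θ n
    · obtain ⟨i, hi, h1, h2⟩ := ih h
      exact ⟨i, by omega, h1, h2⟩
    · exact ⟨n, by omega, not_lt.1 h, hn⟩

/-- shift an angle into a window -/
theorem exists_shift (a φ : ℝ) : ∃ j : ℤ, φ + 2 * Real.pi * j ∈ Ico a (a + 2 * Real.pi) := by
  refine ⟨-(toIcoDiv Real.two_pi_pos a φ), ?_⟩
  have h := toIcoMod_mem_Ico Real.two_pi_pos a φ
  have h1 : toIcoMod Real.two_pi_pos a φ = φ - toIcoDiv Real.two_pi_pos a φ • (2 * Real.pi) := rfl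
  rw [h1, zsmul_eq_mul] at h
  have h2 : φ + 2 * Real.pi * ((-(toIcoDiv Real.two_pi_pos a φ) : ℤ) : ℝ) =
      φ - (toIcoDiv Real.two_pi_pos a φ : ℝ) * (2 * Real.pi) := by push_cast; ring
  rw [h2]; exact h

theorem cpt_shift (z : E2) (t φ : ℝ) (j : ℤ) : cpt z t (φ + 2 * Real.pi * j) = cpt z t φ := by
  have h := (cpt_periodic z t).int_mul j φ
  rw [mul_comm (j : ℝ)] at h
  exact h

/-- the situation on a circle: `c` takes the distinct values `v k` -/
structure Vals (B K : Set E2) (c : E2 → ℝ) (z : E2) (t : ℝ) (m : ℕ) (v φ : Fin m → ℝ) : Prop where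
  pos : 0 < t
  loc : LocConstOn (B \ K) c
  sub : ∀ θ : ℝ, cpt z t θ ∈ B
  inj : Function.Injective v
  off : ∀ k, cpt z t (φ k) ∉ K
  val : ∀ k, c (cpt z t (φ k)) = v k

variable {B K : Set E2} {c : E2 → ℝ} {z : E2} {t : ℝ} {m : ℕ} {v φ : Fin m → ℝ}

theorem Vals.nonempty (h : Vals B K c z t m v φ) (hm : 2 ≤ m) : (K ∩ sphere z t).Nonempty := by
  by_contra hne
  rw [not_nonempty_iff_eq_empty] at hne
  have hoff : ∀ θ : ℝ, cpt z t θ ∉ K := by
    intro θ hθ
    have : cpt z t θ ∈ K ∩ sphere z t := ⟨hθ, cpt_mem_sphere h.pos.le⟩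
    rw [hne] at this
    exact this
  have h0 : (0 : ℕ) < m := by omega
  have h1 : (1 : ℕ) < m := by omega
  set a := min (φ ⟨0, h0⟩) (φ ⟨1, h1⟩) - 1
  set b := max (φ ⟨0, h0⟩) (φ ⟨1, h1⟩) + 1
  have e := locConst_arc h.loc (a := a) (b := b) h.sub (fun θ _ => hoff θ)
    (p := φ ⟨0, h0⟩) (q := φ ⟨1, h1⟩)
    ⟨by have := min_le_left (φ ⟨0, h0⟩) (φ ⟨1, h1⟩); simp only [a]; linarith,
     by have := le_max_left (φ ⟨0, h0⟩) (φ ⟨1, h1⟩); simp only [b]; linarith⟩
    ⟨by have := min_le_right (φ ⟨0, h0⟩) (φ ⟨1, h1⟩); simp only [a]; linarith,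
     by have := le_max_right (φ ⟨0, h0⟩) (φ ⟨1, h1⟩); simp only [b]; linarith⟩
  rw [h.val, h.val] at e
  have := h.inj e
  simp at this

/-- each phase point lies in one of the arcs -/
theorem Vals.exists_arc (h : Vals B K c z t m v φ) {n : ℕ} {θ : ℕ → ℝ}
    (hθn : θ n = θ 0 + 2 * Real.pi) (hθK : ∀ i ≤ n, cpt z t (θ i) ∈ K) (k : Fin m) :
    ∃ i < n, ∃ ψ ∈ Ioo (θ i) (θ (i + 1)), cpt z t ψ = cpt z t (φ k) := by
  obtain ⟨j, hj⟩ := exists_shift (θ 0) (φ k)
  obtain ⟨i, hi, h1, h2⟩ := exists_idx (θ := θ) n hj.1 (by rw [hθn]; exact hj.2)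
  refine ⟨i, hi, _, ⟨lt_of_le_of_ne h1 ?_, h2⟩, cpt_shift z t (φ k) j⟩
  intro he
  have h3 := hθK i hi.le
  rw [he, cpt_shift] at h3
  exact h.off k h3

theorem Vals.card_le (h : Vals B K c z t m v φ) (hm : 2 ≤ m) :
    (m : ℕ∞) ≤ (K ∩ sphere z t).encard := by
  by_cases hfin : (K ∩ sphere z t).Finite
  swap
  · have h0 : (K ∩ sphere z t).encard = ⊤ := Set.encard_eq_top_iff.2 hfin
    rw [h0]; exact le_top
  obtain ⟨n, θ, hn0, hn, hlt, hθn, hI, hθK, hoff, hall⟩ := exists_arcs h.pos hfin (h.nonempty hm)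
  choose i hi ψ hψ hcpt using fun k => h.exists_arc hθn hθK k
  have hinj : Function.Injective (fun k : Fin m => (⟨i k, hi k⟩ : Fin n)) := by
    intro k l hkl
    have hkl' : i k = i l := by simpa using hkl
    apply h.inj
    rw [← h.val k, ← h.val l, ← hcpt k, ← hcpt l]
    refine locConst_arc h.loc h.sub (hoff (i k) (hi k)) (hψ k) ?_
    rw [hkl']; exact hψ l
  have hcard := Fintype.card_le_of_injective _ hinj
  simp only [Fintype.card_fin] at hcard
  rw [← hfin.cast_ncard_eq, ← hn]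
  exact_mod_cast hcard

/-- every arc of the circle is one of the arcs of the decomposition, up to a shift -/
theorem arc_eq {n : ℕ} {θ : ℕ → ℝ} (ht : 0 < t) (hlt : ∀ i < n, θ i < θ (i + 1))
    (hθK : ∀ i ≤ n, cpt z t (θ i) ∈ K)
    (hoff : ∀ i < n, ∀ φ ∈ Ioo (θ i) (θ (i + 1)), cpt z t φ ∉ K)
    (hall : ∀ y ∈ K ∩ sphere z t, ∃ i < n, cpt z t (θ i) = y) {a b : ℝ}
    (hab : IsArc K z t a b) :
    ∃ i < n, ∃ j : ℤ, a = θ i + 2 * Real.pi * j ∧ b = θ (i + 1) + 2 * Real.pi * j := by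
  obtain ⟨h1, h2, h3, h4, h5⟩ := hab
  obtain ⟨i, hi, he⟩ := hall (cpt z t a) ⟨h3, cpt_mem_sphere ht.le⟩
  have hd : dir (θ i) = dir a := by
    have h6 : t • dir (θ i) = t • dir a := by simpa [cpt] using he
    exact smul_right_injective E2 ht.ne' h6
  obtain ⟨j, hj⟩ := dir_eq_dir_iff.1 hd
  have ha : a = θ i + 2 * Real.pi * ((-j : ℤ) : ℝ) := by push_cast; linarith
  refine ⟨i, hi, -j, ha, ?_⟩
  set s : ℝ := 2 * Real.pi * ((-j : ℤ) : ℝ) with hs
  rcases lt_trichotomy b (θ (i + 1) + s) with hb | hb | hb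
  · exfalso
    have h6 := hoff i hi (b + 2 * Real.pi * ((j : ℤ) : ℝ)) ⟨by
      have : s = -(2 * Real.pi * (j : ℝ)) := by rw [hs]; push_cast; ring
      linarith, by
      have : s = -(2 * Real.pi * (j : ℝ)) := by rw [hs]; push_cast; ring
      linarith⟩
    rw [cpt_shift] at h6
    exact h6 h4
  · exact hb
  · exfalso
    refine h5 (θ (i + 1) + s) ⟨?_, hb⟩ ?_
    · have := hlt i hi; linarith
    · rw [hs, cpt_shift]
      exact hθK (i + 1) (by omega)

/-- if there are exactly `m` crack points, the flux through each arc is the total flux of the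
indicator of one of the phases. -/
theorem Vals.flux_eq (h : Vals B K c z t m v φ) (hm : 2 ≤ m) {u : E2 → ℝ}
    (hg : GoodCirc K (gradient u) z t) (hcard : (K ∩ sphere z t).ncard = m) {a b : ℝ}
    (hab : IsArc K z t a b) :
    ∃ k : Fin m, flux u z t a b = t * ∫ θ in (-Real.pi)..Real.pi,
      (if c (cpt z t θ) = v k then (1 : ℝ) else 0) *
        inner ℝ (gradient u (cpt z t θ)) (dir θ) := by
  classical
  obtain ⟨n, θ, hn0, hn, hlt, hθn, hI, hθK, hoff, hall⟩ :=
    exists_arcs h.pos hg.fin (h.nonempty hm)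
  choose i hi ψ hψ hcpt using fun k => h.exists_arc hθn hθK k
  have hinj : Function.Injective (fun k : Fin m => (⟨i k, hi k⟩ : Fin n)) := by
    intro k l hkl
    have hkl' : i k = i l := by simpa using hkl
    apply h.inj
    rw [← h.val k, ← h.val l, ← hcpt k, ← hcpt l]
    refine locConst_arc h.loc h.sub (hoff (i k) (hi k)) (hψ k) ?_
    rw [hkl']; exact hψ l
  have hmn : m = n := by rw [hn, hcard]
  have hbij : Function.Bijective (fun k : Fin m => (⟨i k, hi k⟩ : Fin n)) := by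
    rw [Fintype.bijective_iff_injective_and_card]
    exact ⟨hinj, by simp [hmn]⟩
  -- value on the arcs
  have hval : ∀ k, ∀ θ' ∈ Ioo (θ (i k)) (θ (i k + 1)), c (cpt z t θ') = v k := by
    intro k θ' hθ'
    rw [← h.val k, ← hcpt k]
    exact locConst_arc h.loc h.sub (hoff (i k) (hi k)) hθ' (hψ k)
  obtain ⟨i0, hi0, j, ha, hb⟩ := arc_eq h.pos hlt hθK hoff hall hab
  obtain ⟨k, hk⟩ := hbij.2 ⟨i0, hi0⟩
  have hk' : i k = i0 := by simpa using hk
  refine ⟨k, ?_⟩
  rw [flux]
  congr 1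
  set g : ℝ → ℝ := fun θ => inner ℝ (gradient u (cpt z t θ)) (dir θ) with hgdef
  set F : ℝ → ℝ := fun θ => (if c (cpt z t θ) = v k then (1 : ℝ) else 0) * g θ with hF
  have hgper : Function.Periodic g (2 * Real.pi) := by
    intro θ
    simp only [hgdef, cpt_periodic z t θ, dir_periodic θ]
  have hFper : Function.Periodic F (2 * Real.pi) := by
    intro θ
    simp only [hF, cpt_periodic z t θ, hgper θ]
  -- value of `F` on the arcs
  have harc : ∀ l < n, ∀ θ' ∈ Ioo (θ l) (θ (l + 1)), F θ' = if l = i0 then g θ' else 0 := by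
    intro l hl θ' hθ'
    obtain ⟨k', hk2⟩ := hbij.2 ⟨l, hl⟩
    have hk2' : i k' = l := by simpa using hk2
    have h1 : c (cpt z t θ') = v k' := hval k' θ' (by rw [hk2']; exact hθ')
    simp only [hF, h1]
    by_cases hll : l = i0
    · have : k' = k := by
        apply hinj
        simp only [Fin.mk.injEq]
        rw [hk2', hll, hk']
      simp [this, hll]
    · have : k' ≠ k := by
        rintro rfl
        exact hll (by rw [← hk2', hk'])
      have h2 : v k' ≠ v k := fun he => this (h.inj he)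
      simp [h2, hll]
  have hgint : ∀ a b : ℝ, IntervalIntegrable g volume a b := fun a b =>
    hg.intervalIntegrable_dir a b
  have hcongr : ∀ l < n, ∫ θ' in θ l..θ (l + 1), F θ' =
      ∫ θ' in θ l..θ (l + 1), (if l = i0 then g θ' else 0) := by
    intro l hl
    refine intervalIntegral.integral_congr_ae ?_
    rw [uIoc_of_le (hlt l hl).le]
    have : ∀ᵐ x : ℝ, x ≠ θ (l + 1) := by
      simp [ae_iff]
    filter_upwards [this] with x hx hx'
    exact harc l hl x ⟨hx'.1, lt_of_le_of_ne hx'.2 hx⟩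
  have hFint : ∀ l < n, IntervalIntegrable F volume (θ l) (θ (l + 1)) := by
    intro l hl
    have h1 : IntervalIntegrable (fun θ' => if l = i0 then g θ' else 0) volume (θ l)
        (θ (l + 1)) := by
      by_cases hll : l = i0
      · simpa [hll] using hgint _ _
      · simp [hll]
    refine h1.congr_ae ?_
    rw [uIoc_of_le (hlt l hl).le]
    have h2 : ∀ᵐ x ∂(volume.restrict (Ioc (θ l) (θ (l + 1)))), x ≠ θ (l + 1) := by
      refine ae_restrict_of_ae ?_
      simp [ae_iff]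
    filter_upwards [h2, ae_restrict_mem measurableSet_Ioc] with x hx hx'
    exact (harc l hl x ⟨hx'.1, lt_of_le_of_ne hx'.2 hx⟩).symm
  have htot : ∫ θ' in (-Real.pi)..Real.pi, F θ' = ∫ θ' in θ 0..θ n, F θ' := by
    rw [hθn, hFper.intervalIntegral_add_eq (θ 0) (-Real.pi)]
    congr 1
    ring
  rw [htot, ← intervalIntegral.sum_integral_adjacent_intervals hFint,
    Finset.sum_congr rfl (fun l hl => hcongr l (Finset.mem_range.1 hl))]
  rw [Finset.sum_eq_single i0]
  · simp only [if_true]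
    rw [ha, hb]
    have h3 : ∫ θ' in (θ i0 + 2 * Real.pi * j)..(θ (i0 + 1) + 2 * Real.pi * j), g θ' =
        ∫ θ' in (θ i0)..(θ (i0 + 1)), g (θ' + 2 * Real.pi * j) := by
      rw [intervalIntegral.integral_comp_add_right]
    rw [h3]
    refine intervalIntegral.integral_congr fun θ' _ => ?_
    have := hgper.int_mul j θ'
    rw [mul_comm (j : ℝ)] at this
    exact this
  · intro l _ hl
    simp [hl]
  · intro hni
    exact absurd (Finset.mem_range.2 hi0) hni

end Crest.Agent.R135.Dcy
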