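import Mathlib

/-!
# R135, DECAY block (helper427): integration of the differential inequality

`a` is nondecreasing, at good radii `a s ≤ θ s a'(s) + C s²`, the bad radii of `(ρ/2, ρ)` have
measure `≤ η ρ`. Then `a` decays like `ρ^(1+γ)`.
-/

set_option autoImplicit false

open MeasureTheory Set Filter Topology
open scoped ENNReal

namespace Crest.Agent.R135.Dcy

/-- one dyadic step. -/
theorem ode_step {a d : ℝ → ℝ} {θ η C ρ : ℝ} (hρ : 0 < ρ) (hθ : 0 < θ) (hC : 0 ≤ C)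
    (hη : 0 ≤ η) (ha : 0 ≤ a ρ) (hmono : MonotoneOn a (Icc (ρ / 2) ρ)) {G : Set ℝ}
    (hG : ∀ᵐ s ∂(volume.restrict (Ioo (ρ / 2) ρ)), s ∈ G →
      HasDerivAt a (d s) s ∧ a s ≤ θ * s * d s + C * s ^ 2)
    (hbad : volume (Ioo (ρ / 2) ρ \ G) ≤ ENNReal.ofReal (η * ρ)) :
    a (ρ / 2) ≤ Real.exp (-((Real.log 2 - 2 * η) / θ)) * a ρ + C * ρ ^ 2 := by
  have hρ2 : ρ / 2 < ρ := by linarith
  by_cases h0 : a (ρ / 2) ≤ C * ρ ^ 2
  · have := mul_nonneg (Real.exp_pos (-((Real.log 2 - 2 * η) / θ))).le ha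
    linarith
  push Not at h0
  set h : ℝ → ℝ := fun s => a s - C * ρ ^ 2 with hh
  have hpos : ∀ s ∈ Icc (ρ / 2) ρ, 0 < h s := by
    intro s hs
    have := hmono (left_mem_Icc.2 hρ2.le) hs hs.1
    simp only [hh]; linarith
  set g : ℝ → ℝ := fun s => Real.log (h s) with hg
  have hgm : MonotoneOn g (Icc (ρ / 2) ρ) := by
    intro s hs t ht hst
    exact Real.log_le_log (hpos s hs) (by simp only [hh]; linarith [hmono hs ht hst])
  have hgm' : MonotoneOn g (uIcc (ρ / 2) ρ) := by rwa [uIcc_of_le hρ2.le]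
  have hint := hgm'.intervalIntegrable_deriv
  have hle := hgm'.intervalIntegral_deriv_mem_uIcc
  have hgg : g (ρ / 2) ≤ g ρ := hgm (left_mem_Icc.2 hρ2.le) (right_mem_Icc.2 hρ2.le) hρ2.le
  rw [uIcc_of_le (by linarith)] at hle
  -- the bad set
  set B : Set ℝ := toMeasurable volume (Ioo (ρ / 2) ρ \ G) ∩ Ioo (ρ / 2) ρ with hB
  have hBm : MeasurableSet B := (measurableSet_toMeasurable _ _).inter measurableSet_Ioo
  have hBv : volume B ≤ ENNReal.ofReal (η * ρ) :=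
    (measure_mono inter_subset_left).trans (by rw [measure_toMeasurable]; exact hbad)
  have hGB : ∀ s ∈ Ioo (ρ / 2) ρ, s ∉ B → s ∈ G := by
    intro s hs hsB
    by_contra hsG
    exact hsB ⟨subset_toMeasurable _ _ ⟨hs, hsG⟩, hs⟩
  -- pointwise lower bound of the derivative
  have hlow : ∀ᵐ s ∂(volume.restrict (Ioo (ρ / 2) ρ)),
      (θ * s)⁻¹ - B.indicator (fun s => (θ * s)⁻¹) s ≤ deriv g s := by
    filter_upwards [hG, ae_restrict_mem measurableSet_Ioo] with s hs hsI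
    have hsI' : s ∈ Icc (ρ / 2) ρ := ⟨hsI.1.le, hsI.2.le⟩
    have hs0 : 0 < s := by have := hsI.1; linarith
    by_cases hsB : s ∈ B
    · rw [indicator_of_mem hsB, sub_self]
      rw [← derivWithin_of_mem_nhds (Icc_mem_nhds hsI.1 hsI.2)]
      exact hgm.derivWithin_nonneg
    · rw [indicator_of_notMem hsB, sub_zero]
      obtain ⟨hd, hle'⟩ := hs (hGB s hsI hsB)
      have hdh : HasDerivAt h (d s) s := by simpa [hh] using hd.sub_const (C * ρ ^ 2)
      have hdg : HasDerivAt g (d s / h s) s := hdh.log (hpos s hsI').ne'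
      rw [hdg.deriv, le_div_iff₀ (hpos s hsI'), inv_mul_le_iff₀ (by positivity)]
      have h2 : C * s ^ 2 ≤ C * ρ ^ 2 := by
        have : s ^ 2 ≤ ρ ^ 2 := pow_le_pow_left₀ hs0.le hsI.2.le 2
        exact mul_le_mul_of_nonneg_left this hC
      simp only [hh]; linarith
  -- integrate
  have hcont : ContinuousOn (fun s : ℝ => (θ * s)⁻¹) (uIcc (ρ / 2) ρ) := by
    apply ContinuousOn.inv₀ (by fun_prop)
    intro s hs
    rw [uIcc_of_le hρ2.le] at hs
    have : 0 < s := by have := hs.1; linarith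
    positivity
  have hi1 : IntervalIntegrable (fun s : ℝ => (θ * s)⁻¹) volume (ρ / 2) ρ :=
    hcont.intervalIntegrable
  have hi2 : IntervalIntegrable (B.indicator (fun s : ℝ => (θ * s)⁻¹)) volume (ρ / 2) ρ := by
    rw [intervalIntegrable_iff_integrableOn_Ioc_of_le hρ2.le] at hi1 ⊢
    exact hi1.indicator hBm
  have hint1 : ∫ s in (ρ / 2)..ρ, (θ * s)⁻¹ = Real.log 2 / θ := by
    have : ∀ s : ℝ, (θ * s)⁻¹ = θ⁻¹ * s⁻¹ := fun s => by rw [mul_inv]
    simp only [this]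
    rw [intervalIntegral.integral_const_mul, integral_inv_of_pos (by positivity) hρ]
    have : ρ / (ρ / 2) = 2 := by field_simp
    rw [this]; ring
  have hint2 : ∫ s in (ρ / 2)..ρ, B.indicator (fun s : ℝ => (θ * s)⁻¹) s ≤ 2 * η / θ := by
    rw [intervalIntegral.integral_of_le hρ2.le, setIntegral_indicator hBm]
    have hfin : volume (Ioc (ρ / 2) ρ ∩ B) < ⊤ := by
      refine (measure_mono inter_subset_right).trans_lt (hBv.trans_lt ENNReal.ofReal_lt_top)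
    have h1 : ∫ s in Ioc (ρ / 2) ρ ∩ B, (θ * s)⁻¹ ≤ ∫ s in Ioc (ρ / 2) ρ ∩ B, 2 / (θ * ρ) := by
      refine setIntegral_mono_on ?_ ?_ (measurableSet_Ioc.inter hBm) ?_
      · rw [intervalIntegrable_iff_integrableOn_Ioc_of_le hρ2.le] at hi1
        exact hi1.mono_set inter_subset_left
      · exact integrableOn_const hfin.ne
      · intro s hs
        have hs1 : ρ / 2 < s := hs.1.1
        rw [inv_le_comm₀ (by have : 0 < s := by linarith
                             positivity) (by positivity), inv_div]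
        rw [div_le_iff₀ (by norm_num)]
        nlinarith
    refine h1.trans ?_
    rw [setIntegral_const, smul_eq_mul]
    have h2 : volume.real (Ioc (ρ / 2) ρ ∩ B) ≤ η * ρ := by
      rw [measureReal_def]
      refine ENNReal.toReal_le_of_le_ofReal (by positivity) ?_
      exact (measure_mono inter_subset_right).trans hBv
    calc volume.real (Ioc (ρ / 2) ρ ∩ B) * (2 / (θ * ρ)) ≤ η * ρ * (2 / (θ * ρ)) := by
          gcongr
      _ = 2 * η / θ := by field_simp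
  have hfinal : Real.log 2 / θ - 2 * η / θ ≤ g ρ - g (ρ / 2) := by
    have h3 : ∫ s in (ρ / 2)..ρ, ((θ * s)⁻¹ - B.indicator (fun s : ℝ => (θ * s)⁻¹) s) ≤
        ∫ s in (ρ / 2)..ρ, deriv g s := by
      refine intervalIntegral.integral_mono_ae_restrict hρ2.le (hi1.sub hi2) hint ?_
      rw [← restrict_Ioo_eq_restrict_Icc]
      exact hlow
    rw [intervalIntegral.integral_sub hi1 hi2, hint1] at h3
    linarith [hle.2]
  -- conclude
  have hp1 := hpos (ρ / 2) (left_mem_Icc.2 hρ2.le)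
  have hp2 := hpos ρ (right_mem_Icc.2 hρ2.le)
  have h4 : (Real.log 2 - 2 * η) / θ ≤ Real.log (h ρ / h (ρ / 2)) := by
    rw [Real.log_div hp2.ne' hp1.ne', sub_div]
    exact hfinal
  rw [Real.le_log_iff_exp_le (by positivity), le_div_iff₀ hp1] at h4
  have h5 : h (ρ / 2) ≤ Real.exp (-((Real.log 2 - 2 * η) / θ)) * h ρ := by
    rw [Real.exp_neg, inv_mul_eq_div, le_div_iff₀ (Real.exp_pos _)]
    linarith
  have h6 : 0 ≤ Real.exp (-((Real.log 2 - 2 * η) / θ)) * (C * ρ ^ 2) := by positivity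
  simp only [hh] at h5
  nlinarith

/-- iteration of the dyadic step: `a (ρ/2) ≤ 2^{-p} a ρ + C ρ²` with `1 < p < 2`. -/
theorem iterate_step {a : ℝ → ℝ} {p C r : ℝ} (hr : 0 < r) (hp2 : p < 2)
    (hC : 0 ≤ C)
    (hstep : ∀ ρ : ℝ, 0 < ρ → ρ ≤ r → a (ρ / 2) ≤ 2 ^ (-p) * a ρ + C * ρ ^ 2) (k : ℕ) :
    a (r / 2 ^ k) ≤ (2 : ℝ) ^ (-(p * k)) * (a r + C * (2 ^ p / (1 - 2 ^ (p - 2))) * r ^ 2) := by
  have h2p : (0:ℝ) < 2 ^ p := Real.rpow_pos_of_pos (by norm_num) p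
  have hq : (2:ℝ) ^ (p - 2) < 1 := Real.rpow_lt_one_of_one_lt_of_neg (by norm_num) (by linarith)
  have hq0 : (0:ℝ) < 2 ^ (p - 2) := Real.rpow_pos_of_pos (by norm_num) _
  have h1q : 0 < 1 - (2:ℝ) ^ (p - 2) := by linarith
  -- stronger induction hypothesis
  have key : ∀ k : ℕ, a (r / 2 ^ k) ≤ (2 : ℝ) ^ (-(p * k)) *
      (a r + C * (2 ^ p * ((1 - (2 ^ (p - 2)) ^ k) / (1 - 2 ^ (p - 2)))) * r ^ 2) := by
    intro k
    induction k with
    | zero => simp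
    | succ k ih =>
      have h1 := hstep (r / 2 ^ k) (by positivity) (div_le_self hr.le (one_le_pow₀ (by norm_num)))
      have h2 : r / 2 ^ (k + 1) = r / 2 ^ k / 2 := by rw [pow_succ]; field_simp
      rw [h2]
      refine h1.trans ?_
      have h3 : (2:ℝ) ^ (-p) * a (r / 2 ^ k) ≤ 2 ^ (-p) * ((2 : ℝ) ^ (-(p * k)) *
          (a r + C * (2 ^ p * ((1 - (2 ^ (p - 2)) ^ k) / (1 - 2 ^ (p - 2)))) * r ^ 2)) :=
        mul_le_mul_of_nonneg_left ih (Real.rpow_pos_of_pos (by norm_num) _).le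
      have h4 : (2:ℝ) ^ (-p) * (2 : ℝ) ^ (-(p * k)) = 2 ^ (-(p * ((k + 1 : ℕ) : ℝ))) := by
        rw [← Real.rpow_add (by norm_num)]; congr 1; push_cast; ring
      have h5 : (r / 2 ^ k) ^ 2 = 2 ^ (-(p * ((k + 1 : ℕ) : ℝ))) * (2 ^ p * (2 ^ (p - 2)) ^ k)
          * r ^ 2 := by
        have e1 : ((2:ℝ) ^ (p - 2)) ^ k = 2 ^ ((p - 2) * k) := by
          rw [← Real.rpow_natCast, ← Real.rpow_mul (by norm_num)]
        have e2 : (2:ℝ) ^ (-(p * ((k + 1 : ℕ) : ℝ))) * (2 ^ p * 2 ^ ((p - 2) * k)) =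
            2 ^ (-(2 * (k:ℝ))) := by
          rw [← Real.rpow_add (by norm_num), ← Real.rpow_add (by norm_num)]
          congr 1; push_cast; ring
        rw [e1, e2, div_pow, Real.rpow_neg (by norm_num)]
        have e3 : (2:ℝ) ^ (2 * (k:ℝ)) = (2 ^ k) ^ 2 := by
          rw [← pow_mul, mul_comm k 2, ← Real.rpow_natCast]; push_cast; rfl
        rw [e3]; ring
      rw [h5]
      calc _ ≤ 2 ^ (-p) * ((2 : ℝ) ^ (-(p * k)) *
          (a r + C * (2 ^ p * ((1 - (2 ^ (p - 2)) ^ k) / (1 - 2 ^ (p - 2)))) * r ^ 2)) +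
            C * (2 ^ (-(p * ((k + 1 : ℕ) : ℝ))) * (2 ^ p * (2 ^ (p - 2)) ^ k) * r ^ 2) := by
            linarith
        _ = 2 ^ (-(p * ((k + 1 : ℕ) : ℝ))) * (a r + C * (2 ^ p *
            ((1 - (2 ^ (p - 2)) ^ k) / (1 - 2 ^ (p - 2)) + (2 ^ (p - 2)) ^ k)) * r ^ 2) := by
            rw [← mul_assoc, h4]; ring
        _ = _ := by
            congr 3
            rw [pow_succ]
            field_simp
            ring
  refine (key k).trans ?_
  gcongr
  rw [← mul_div_assoc]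
  gcongr
  have : 0 ≤ ((2:ℝ) ^ (p - 2)) ^ k := by positivity
  nlinarith

/-- **Decay lemma** -/
theorem decay_of_step {a : ℝ → ℝ} {p C r : ℝ} (hr : 0 < r) (hp : 0 < p) (hp2 : p < 2)
    (hC : 0 ≤ C) (ha0 : 0 ≤ a r) (hmono : MonotoneOn a (Ioc 0 r))
    (hstep : ∀ ρ : ℝ, 0 < ρ → ρ ≤ r → a (ρ / 2) ≤ 2 ^ (-p) * a ρ + C * ρ ^ 2)
    {ρ : ℝ} (hρ : 0 < ρ) (hρr : ρ ≤ r) :
    a ρ ≤ 2 ^ p * (ρ / r) ^ p * (a r + C * (2 ^ p / (1 - 2 ^ (p - 2))) * r ^ 2) := by
  have hq : (2:ℝ) ^ (p - 2) < 1 := Real.rpow_lt_one_of_one_lt_of_neg (by norm_num) (by linarith)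
  have h1q : 0 < 1 - (2:ℝ) ^ (p - 2) := by linarith
  -- choose k with r/2^(k+1) < ρ ≤ r/2^k
  obtain ⟨k, hk1, hk2⟩ := exists_nat_pow_near (x := r / ρ) (y := 2)
    (by rw [le_div_iff₀ hρ]; linarith) (by norm_num)
  have h1 : ρ ≤ r / 2 ^ k := by
    rw [le_div_iff₀ (by positivity)]
    rw [le_div_iff₀ hρ] at hk1
    linarith
  have h2 : r / ρ < 2 ^ (k + 1) := hk2
  have h3 : a ρ ≤ a (r / 2 ^ k) :=
    hmono ⟨hρ, hρr⟩ ⟨by positivity, div_le_self hr.le (one_le_pow₀ (by norm_num))⟩ h1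
  refine h3.trans ((iterate_step hr hp2 hC hstep k).trans ?_)
  refine mul_le_mul_of_nonneg_right ?_ (by positivity)
  have h4 : (2:ℝ) ^ (-(p * k)) = 2 ^ p * ((2:ℝ) ^ (-((k:ℝ) + 1))) ^ p := by
    rw [← Real.rpow_mul (by norm_num), ← Real.rpow_add (by norm_num)]
    congr 1; ring
  rw [h4]
  refine mul_le_mul_of_nonneg_left ?_ (Real.rpow_pos_of_pos (by norm_num) p).le
  refine Real.rpow_le_rpow (Real.rpow_pos_of_pos (by norm_num) _).le ?_ hp.le
  rw [Real.rpow_neg (by norm_num), le_div_iff₀ hr, inv_mul_le_iff₀ (Real.rpow_pos_of_pos (by norm_num) _)]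
  have h5 : (2:ℝ) ^ ((k:ℝ) + 1) = 2 ^ (k + 1) := by
    rw [← Real.rpow_natCast]; push_cast; rfl
  rw [h5]
  rw [div_lt_iff₀ hρ] at h2
  exact h2.le

end Crest.Agent.R135.Dcy
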