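import Mathlib
import Crest.Agent.R135.DcyArc
import Crest.Agent.R135.DcyODE
import Crest.Agent.R135.IF_B4
import Crest.Agent.R135.QMMono
import Crest.Agent.R135.QMOps

/-!
# R135, DECAY block (helper427): one dyadic step from the phases
-/

set_option autoImplicit false

open MeasureTheory Set Filter Topology Metric
open scoped ENNReal NNReal ContDiff Gradient

namespace Crest.Agent.R135.Dcy

/-- phases with `m` sectors at `(z, ρ)`: the angular gaps have half-width `β` -/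
structure Sect (m : ℕ) (β δ : ℝ) (u : E2 → ℝ) (K : Set E2) (z : E2) (ρ : ℝ) (c : E2 → ℝ)
    (θ : ℝ) (v : Fin m → ℝ) : Prop where
  loc : LocConstOn (ball z ρ \ K) c
  close : ∀ w ∈ ball z ρ \ K, |u w - c w| ≤ δ * Real.sqrt ρ
  inj : Function.Injective v
  sec : ∀ k : Fin m, ∀ t, ρ / 4 ≤ t → t < ρ → ∀ φ : ℝ,
    |φ - (θ + (2 * ((k : ℕ) : ℝ) + 1) * Real.pi / m)| ≤ Real.pi / m - β →
      cpt z t φ ∉ K ∧ c (cpt z t φ) = v k

variable {m : ℕ} {β δ : ℝ} {u : E2 → ℝ} {K : Set E2} {z : E2} {ρ : ℝ} {c : E2 → ℝ}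
    {θ : ℝ} {v : Fin m → ℝ}

theorem Sect.vals (h : Sect m β δ u K z ρ c θ v) (hρ : 0 < ρ) (hβ : β ≤ Real.pi / m) {t : ℝ}
    (ht : ρ / 4 ≤ t) (htρ : t < ρ) :
    Vals (ball z ρ) K c z t m v (fun k => θ + (2 * ((k : ℕ) : ℝ) + 1) * Real.pi / m) where
  pos := by linarith
  loc := h.loc
  sub := by
    intro φ
    have ht0 : 0 < t := by linarith
    rw [cpt_mem_ball ht0]; exact htρ
  inj := h.inj
  off := fun k => (h.sec k t ht htρ _ (by rw [sub_self, abs_zero]; linarith)).1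
  val := fun k => (h.sec k t ht htρ _ (by rw [sub_self, abs_zero]; linarith)).2

/-- index of an integer sector -/
def idx (m : ℕ) (hm : 0 < m) (k : ℤ) : Fin m :=
  ⟨(k % (m : ℤ)).toNat, by
    have h1 := Int.emod_lt_of_pos k (Int.natCast_pos.2 hm)
    have h2 := Int.emod_nonneg k (by omega : (m : ℤ) ≠ 0)
    omega⟩

theorem idx_ne (m : ℕ) (hm : 2 ≤ m) (k : ℤ) : idx m (by omega) (k - 1) ≠ idx m (by omega) k := by
  intro h
  have h1 : ((k - 1) % (m : ℤ)).toNat = (k % (m : ℤ)).toNat := by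
    simpa [idx] using h
  have h2 := Int.emod_nonneg k (by omega : (m : ℤ) ≠ 0)
  have h3 := Int.emod_nonneg (k - 1) (by omega : (m : ℤ) ≠ 0)
  have h4 : (k - 1) % (m : ℤ) = k % (m : ℤ) := by omega
  have h5 := Int.emod_add_mul_ediv (k - 1) (m : ℤ)
  have h6 := Int.emod_add_mul_ediv k (m : ℤ)
  have h7 : (m : ℤ) * (k / m - (k - 1) / m) = 1 := by rw [mul_sub]; omega
  have h8 : (m : ℤ) ∣ 1 := ⟨_, h7.symm⟩
  have h9 : (m : ℤ) ≤ 1 := Int.le_of_dvd one_pos h8
  omega

/-- the sector condition for all integers `k` -/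
theorem Sect.sec_int (h : Sect m β δ u K z ρ c θ v) (hm : 0 < m) (k : ℤ) {t : ℝ}
    (ht : ρ / 4 ≤ t) (htρ : t < ρ) {φ : ℝ}
    (hφ : |φ - (θ + (2 * (k : ℝ) + 1) * Real.pi / m)| ≤ Real.pi / m - β) :
    cpt z t φ ∉ K ∧ c (cpt z t φ) = v (idx m hm k) := by
  have hm0 : (0:ℝ) < m := by exact_mod_cast hm
  have h2 := Int.emod_nonneg k (by omega : (m : ℤ) ≠ 0)
  have h6 := Int.emod_add_mul_ediv k (m : ℤ)
  set j : ℤ := k / m with hj
  have hidx : (((idx m hm k : Fin m) : ℕ) : ℝ) = ((k % (m : ℤ) : ℤ) : ℝ) := by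
    have : (((idx m hm k : Fin m) : ℕ) : ℤ) = k % (m : ℤ) := by
      simp only [idx]; exact Int.toNat_of_nonneg h2
    exact_mod_cast congrArg (fun n : ℤ => (n : ℝ)) this
  have hk : (k : ℝ) = ((k % (m : ℤ) : ℤ) : ℝ) + m * j := by
    have : (k : ℝ) = ((k % (m : ℤ) + m * j : ℤ) : ℝ) := by rw [h6]
    rw [this]; push_cast; ring
  have h7 := h.sec (idx m hm k) t ht htρ (φ + 2 * Real.pi * ((-j : ℤ) : ℝ)) (by
    rw [hidx]
    refine le_trans (le_of_eq ?_) hφ
    congr 1
    rw [hk]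
    push_cast
    field_simp
    ring)
  rw [cpt_shift] at h7
  exact h7

/-- opening of the arcs -/
theorem Sect.opening (h : Sect m β δ u K z ρ c θ v) (hm : 2 ≤ m) (hρ : 0 < ρ)
    (hβ : β ≤ Real.pi / m) (hβ0 : 0 < β) {t : ℝ} (ht : ρ / 4 ≤ t) (htρ : t < ρ) {a b : ℝ}
    (hab : IsArc K z t a b) : b - a ≤ 2 * Real.pi / m + 2 * β := by
  by_contra hcon
  push Not at hcon
  have hm0 : (0:ℝ) < m := by have : 0 < m := by omega
                             exact_mod_cast this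
  have hπ := Real.pi_pos
  set w : ℝ := 2 * Real.pi / m with hw
  have hw0 : 0 < w := by positivity
  set k : ℤ := ⌊(a + β - θ) / w⌋ + 1 with hk
  have h1 : (a + β - θ) / w < k := by rw [hk]; push_cast; exact Int.lt_floor_add_one _
  have h2 : (k : ℝ) - 1 ≤ (a + β - θ) / w := by
    rw [hk]; push_cast; linarith [Int.floor_le ((a + β - θ) / w)]
  rw [div_lt_iff₀ hw0] at h1
  rw [le_div_iff₀ hw0] at h2
  set p : ℝ := θ + k * w - β with hp
  set q : ℝ := θ + k * w + β with hq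
  have hpa : a < p := by rw [hp]; linarith
  have hqb : q < b := by rw [hq]; nlinarith
  have hpq : p < q := by rw [hp, hq]; linarith
  have h3 := locConst_arc (h.vals hρ hβ ht htρ).loc (h.vals hρ hβ ht htρ).sub hab.2.2.2.2
    (p := p) (q := q) ⟨hpa, hpq.trans hqb⟩ ⟨hpa.trans hpq, hqb⟩
  have hm1 : 0 < m := by omega
  have h4 := (h.sec_int hm1 (k - 1) ht htρ (φ := p) (by
    have : p - (θ + (2 * ((k - 1 : ℤ) : ℝ) + 1) * Real.pi / m) = Real.pi / m - β := by
      rw [hp, hw]; push_cast; field_simp; ring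
    rw [this, abs_of_nonneg (by linarith)])).2
  have h5 := (h.sec_int hm1 k ht htρ (φ := q) (by
    have : q - (θ + (2 * (k : ℝ) + 1) * Real.pi / m) = -(Real.pi / m - β) := by
      rw [hq, hw]; field_simp; ring
    rw [this, abs_neg, abs_of_nonneg (by linarith)])).2
  rw [h4, h5] at h3
  exact idx_ne m hm k (h.inj h3)

/-- the indicator of a phase value is a jumping test function -/
theorem isJump_phase {U : Set E2} {lam : ℝ} {u : E2 → ℝ} (h : IsQM U lam u K) {R : ℝ}
    (hc : LocConstOn (U \ K) c) (hR : closedBall z R ⊆ U) (a : ℝ) :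
    QMC.IsJump U K z R (fun y => if c y = a then (1 : ℝ) else 0) ∧
      ∀ y ∈ U \ K, gradient (fun y => if c y = a then (1 : ℝ) else 0) y = 0 := by
  have hloc : LocConstOn (U \ K) (fun y => if c y = a then (1 : ℝ) else 0) := by
    intro y hy
    filter_upwards [hc y hy] with w hw
    simp only [hw]
  have hgrad : ∀ y ∈ U \ K, gradient (fun y => if c y = a then (1 : ℝ) else 0) y = 0 := by
    intro y hy
    exact gradient_eq_zero_of_eventually_const _ (hloc y hy)
  refine ⟨⟨QMC.locLip_of_locConst hloc, ⟨1, ?_⟩, ?_⟩, hgrad⟩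
  · intro y _
    split_ifs <;> simp
  · have h0 : dirE (fun y => if c y = a then (1 : ℝ) else 0) K (closedBall z R) = 0 := by
      unfold dirE
      rw [setLIntegral_congr_fun (g := fun _ => 0)
        (isClosed_closedBall.measurableSet.diff h.measurable_K)]
      · simp
      · intro y hy
        simp only
        rw [hgrad y ⟨hR hy.1, hy.2⟩]
        simp
    rw [h0]; exact ENNReal.zero_lt_top

/-- the flux bound, almost every circle -/
theorem ae_flux {U : Set E2} {lam : ℝ} {u : E2 → ℝ} (h : IsQM U lam u K) {R : ℝ} (hR0 : 0 ≤ R)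
    (hR : closedBall z R ⊆ U) (hc : LocConstOn (U \ K) c) (a : ℝ) :
    ∀ᵐ t : ℝ, t ∈ Ioo 0 R → |t * ∫ θ in (-Real.pi)..Real.pi,
      (if c (cpt z t θ) = a then (1 : ℝ) else 0) *
        inner ℝ (gradient u (cpt z t θ)) (dir θ)| ≤ lam * Real.pi * t ^ 2 := by
  obtain ⟨f, hf⟩ := QMC.exists_EL h
  obtain ⟨hj, hg⟩ := isJump_phase (z := z) (R := R) h hc hR a
  filter_upwards [QMC.circle_identity h hf hR0 hR hj] with t ht htm
  have h1 := ht htm
  have hsub : ball z t ⊆ closedBall z R := (ball_subset_ball htm.2.le).trans ball_subset_closedBall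
  have h0 : ∫ y in ball z t, inner ℝ (gradient u y)
      (gradient (fun y => if c y = a then (1 : ℝ) else 0) y) = 0 := by
    rw [← QMC.restrict_off h hR hsub]
    rw [setIntegral_congr_fun (g := fun _ => (0:ℝ)) (measurableSet_ball.diff h.measurable_K)]
    · simp
    · intro y hy
      simp only
      rw [hg y ⟨hR (hsub hy.1), hy.2⟩, inner_zero_right]
  rw [h0] at h1
  have h2 := QMC.abs_rhs_le h hf hR htm.1.le htm.2.le (M := 1)
    (v := fun y => if c y = a then (1 : ℝ) else 0) (fun y _ => by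
      split_ifs <;> simp)
  rw [mul_one] at h2
  rw [show t * ∫ θ in (-Real.pi)..Real.pi, (if c (cpt z t θ) = a then (1 : ℝ) else 0) *
        inner ℝ (gradient u (cpt z t θ)) (dir θ) =
      ∫ y in ball z t, f y * (if c y = a then (1 : ℝ) else 0) by linarith]
  exact h2

/-- the differential inequality on almost every circle with exactly `m` crack points -/
theorem Sect.ineq {U : Set E2} {lam : ℝ} (h : IsQM U lam u K)
    (hs : Sect m β δ u K z (2 * ρ) c θ v) (hm : 2 ≤ m) (hβ : β ≤ Real.pi / m) (hβ0 : 0 < β)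
    (hδ : 0 ≤ δ) (hρ : 0 < ρ) (hU : ball z (2 * ρ) ⊆ U) :
    ∀ᵐ t ∂(volume.restrict (Ioo (ρ / 2) ρ)), (K ∩ sphere z t).encard = m →
      HasDerivAt (fun s => Dr u K z s) (cirE (fun y => u y + -c y) z t) t ∧
      Dr u K z t ≤ (1 / m + β / Real.pi) * t * cirE (fun y => u y + -c y) z t
        + (δ * Real.sqrt (2 * ρ) * lam * Real.pi * (m + 1)) * t ^ 2 := by
  have hm0 : (0:ℝ) < m := by have : 0 < m := by omega
                             exact_mod_cast this
  set B : Set E2 := ball z (2 * ρ) with hB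
  set K' : Set E2 := K ∩ B with hK'
  have hBK : B \ K' = B \ K := by
    ext y; simp only [hK', Set.mem_sdiff, mem_inter_iff]; tauto
  have hloc' : LocConstOn (B \ K') (fun y => -c y) := by
    intro y hy
    rw [hBK] at hy
    filter_upwards [hs.loc y hy] with w hw
    rw [hw]
  have hloc'' : LocConstOn (B \ K') c := by rw [hBK]; exact hs.loc
  have h' : IsQM B lam (fun y => u y + -c y) K' := (h.mono isOpen_ball hU).addConst hloc'
  set u' : E2 → ℝ := fun y => u y + -c y with hu'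
  set M : ℝ := δ * Real.sqrt (2 * ρ) with hM
  have hM0 : 0 ≤ M := by positivity
  have hMb : ∀ y ∈ B \ K', |u' y| ≤ M := by
    intro y hy
    rw [hBK] at hy
    have := hs.close y hy
    rw [sub_eq_add_neg] at this
    exact this
  have hRB : closedBall z ρ ⊆ B := closedBall_subset_ball (by linarith)
  have hbon := bonnet_err h' hMb hRB
  have hder := QMC.ae_hasDerivAt_Dr h' hRB hρ.le
  have hgood := QMC.ae_goodCirc_qm h' hRB
  have hfl : ∀ᵐ t : ℝ, ∀ k : Fin m, t ∈ Ioo 0 ρ → |t * ∫ θ in (-Real.pi)..Real.pi,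
      (if c (cpt z t θ) = v k then (1 : ℝ) else 0) *
        inner ℝ (gradient u' (cpt z t θ)) (dir θ)| ≤ lam * Real.pi * t ^ 2 :=
    ae_all_iff.2 fun k => ae_flux h' hρ.le hRB hloc'' (v k)
  rw [ae_restrict_iff' measurableSet_Ioo] at hbon ⊢
  filter_upwards [hbon, hder, hgood, hfl] with t h1 h2 h3 h4 ht hN
  have htm : t ∈ Ioo 0 ρ := ⟨by linarith [ht.1], ht.2⟩
  have ht4 : 2 * ρ / 4 ≤ t := by linarith [ht.1]
  have ht2 : t < 2 * ρ := by linarith [ht.2]
  have hsph : K' ∩ sphere z t = K ∩ sphere z t := by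
    ext y
    constructor
    · rintro ⟨⟨a1, _⟩, a3⟩; exact ⟨a1, a3⟩
    · rintro ⟨a1, a3⟩
      refine ⟨⟨a1, ?_⟩, a3⟩
      rw [hB, mem_ball, mem_sphere.1 a3]; exact ht2
  have hDr : ∀ s ≤ 2 * ρ, Dr u' K' z s = Dr u K z s := by
    intro s hs2
    unfold Dr dirE
    have e1 : ball z s \ K' = ball z s \ K := by
      ext y
      simp only [hK', Set.mem_sdiff, mem_inter_iff]
      constructor
      · rintro ⟨a1, a2⟩; exact ⟨a1, fun a3 => a2 ⟨a3, ball_subset_ball hs2 a1⟩⟩
      · rintro ⟨a1, a2⟩; exact ⟨a1, fun a3 => a2 a3.1⟩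
    rw [e1]
    congr 1
    refine setLIntegral_congr_fun (measurableSet_ball.diff h.measurable_K) ?_
    intro y hy
    simp only
    have hy' : y ∈ B \ K' := by rw [hBK]; exact ⟨ball_subset_ball hs2 hy.1, hy.2⟩
    rw [gradient_add_locConst (hloc' y hy')]
  refine ⟨?_, ?_⟩
  · refine (h2 htm).congr_of_eventuallyEq ?_
    have : ∀ᶠ s in 𝓝 t, s < 2 * ρ := Iio_mem_nhds ht2
    filter_upwards [this] with s hs'
    exact (hDr s hs'.le).symm
  · have hvals := hs.vals (by positivity) hβ ht4 ht2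
    have hvals' : Vals B K' c z t m v (fun k => θ + (2 * ((k : ℕ) : ℝ) + 1) * Real.pi / m) :=
      ⟨hvals.pos, hloc'', hvals.sub, hvals.inj, fun k hk => hvals.off k hk.1, hvals.val⟩
    have hne : (K' ∩ sphere z t).Nonempty := hvals'.nonempty hm
    have hfin : (K' ∩ sphere z t).Finite := by
      rw [hsph]; exact Set.finite_of_encard_eq_coe hN
    have hcard : (K' ∩ sphere z t).ncard = m := by
      rw [Set.ncard, hsph, hN]; rfl
    have harc : ∀ a b, IsArc K' z t a b → IsArc K z t a b := by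
      rintro a b ⟨a1, a2, a3, a4, a5⟩
      refine ⟨a1, a2, a3.1, a4.1, fun φ hφ hK => a5 φ hφ ⟨hK, ?_⟩⟩
      rw [hB, cpt_mem_ball htm.1]; exact ht2
    have h5 := h1 htm hne (lam * Real.pi * t ^ 2) (fun a b hab => by
      obtain ⟨k, hk⟩ := hvals'.flux_eq hm (h3 htm) hcard hab
      rw [hk]
      exact h4 k htm) (2 * Real.pi / m + 2 * β) (fun a b hab =>
        hs.opening hm (by positivity) hβ hβ0 ht4 ht2 (harc a b hab))
    rw [hDr t ht2.le, hcard] at h5
    refine h5.trans (le_of_eq ?_)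
    have hπ := Real.pi_pos
    field_simp
    ring

/-- measure of the bad radii -/
theorem bad_radii {K : Set E2} {z : E2} {ρ η : ℝ} {m : ℕ} (hρ : 0 < ρ) (hη : 0 ≤ η)
    (hN : ∀ t ∈ Ioo 0 ρ, (m : ℕ∞) ≤ (K ∩ sphere z t).encard)
    (hlen : len (K ∩ closedBall z ρ) ≤ ENNReal.ofReal ((m + η) * ρ)) :
    volume (Ioo (ρ / 2) ρ \ {t | (K ∩ sphere z t).encard = m}) ≤ ENNReal.ofReal (η * ρ) := by
  obtain ⟨g, hgm, hg, hgi⟩ := exists_fiber_majorant (fun y : E2 => dist y z)
    (K ∩ closedBall z ρ) ((lipschitzWith_dist_left z).lipschitzOnWith)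
  have hfib : ∀ t ∈ Ioo 0 ρ, (K ∩ closedBall z ρ) ∩ (fun y : E2 => dist y z) ⁻¹' {t} =
      K ∩ sphere z t := by
    intro t ht
    ext y
    simp only [mem_inter_iff, mem_closedBall, mem_preimage, mem_singleton_iff, mem_sphere]
    constructor
    · rintro ⟨⟨a, _⟩, b⟩; exact ⟨a, b⟩
    · rintro ⟨a, b⟩; exact ⟨⟨a, by rw [b]; exact ht.2.le⟩, b⟩
  have hlow : ∀ t ∈ Ioo 0 ρ, (m : ℝ≥0∞) ≤ g t := by
    intro t ht
    have h1 : ((m : ℕ∞) : ℝ≥0∞) ≤ ((K ∩ sphere z t).encard : ℝ≥0∞) := ENat.toENNReal_le.2 (hN t ht)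
    have h2 := hg t
    rw [hfib t ht] at h2
    simpa using h1.trans h2
  set Bd : Set ℝ := {t | (m : ℝ≥0∞) + 1 ≤ g t} ∩ Ioo 0 ρ with hBd
  have hBdm : MeasurableSet Bd := (measurableSet_le measurable_const hgm).inter measurableSet_Ioo
  have hsub : Ioo (ρ / 2) ρ \ {t | (K ∩ sphere z t).encard = m} ⊆ Bd := by
    rintro t ⟨ht, hne⟩
    have ht' : t ∈ Ioo 0 ρ := ⟨by linarith [ht.1], ht.2⟩
    refine ⟨?_, ht'⟩
    have h1 : (m : ℕ∞) < (K ∩ sphere z t).encard :=
      lt_of_le_of_ne (hN t ht') (fun he => hne he.symm)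
    have h2 : ((m : ℕ∞) + 1) ≤ (K ∩ sphere z t).encard := Order.add_one_le_of_lt h1
    have h3 : (((m : ℕ∞) + 1 : ℕ∞) : ℝ≥0∞) ≤ ((K ∩ sphere z t).encard : ℝ≥0∞) :=
      ENat.toENNReal_le.2 h2
    have h4 := hg t
    rw [hfib t ht'] at h4
    have h5 := h3.trans h4
    simpa using h5
  refine (measure_mono hsub).trans ?_
  have hint : (m : ℝ≥0∞) * ENNReal.ofReal ρ + volume Bd ≤ ENNReal.ofReal ((m + η) * ρ) := by
    calc (m : ℝ≥0∞) * ENNReal.ofReal ρ + volume Bd
        = ∫⁻ t in Ioo 0 ρ, ((m : ℝ≥0∞) + Bd.indicator (fun _ => 1) t) := by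
          rw [lintegral_add_left measurable_const, lintegral_indicator hBdm]
          simp only [lintegral_const, Measure.restrict_apply MeasurableSet.univ, univ_inter,
            Real.volume_Ioo, sub_zero, one_mul]
          rw [Measure.restrict_apply hBdm, inter_eq_left.2 inter_subset_right]
      _ ≤ ∫⁻ t in Ioo 0 ρ, g t := by
          refine setLIntegral_mono hgm fun t ht => ?_
          by_cases htB : t ∈ Bd
          · rw [indicator_of_mem htB]; exact htB.1
          · rw [indicator_of_notMem htB, add_zero]; exact hlow t ht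
      _ ≤ ∫⁻ t, g t := setLIntegral_le_lintegral _ _
      _ ≤ len (K ∩ closedBall z ρ) := hgi
      _ ≤ _ := hlen
  have h6 : ENNReal.ofReal ((m + η) * ρ) = (m : ℝ≥0∞) * ENNReal.ofReal ρ +
      ENNReal.ofReal (η * ρ) := by
    rw [add_mul, ENNReal.ofReal_add (by positivity) (by positivity),
      ENNReal.ofReal_mul (by positivity), ENNReal.ofReal_natCast]
  rw [h6] at hint
  exact (ENNReal.add_le_add_iff_left (ENNReal.mul_ne_top (ENNReal.natCast_ne_top m)
    ENNReal.ofReal_ne_top)).1 hint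

end Crest.Agent.R135.Dcy
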