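import Mathlib
import Crest.Agent.R135.DcyStep
import Crest.Agent.R135.IFDefs2

/-!
# R135, DECAY block (helper427): energy decay at line-like and propeller-like points
-/

set_option autoImplicit false

open MeasureTheory Set Filter Topology Metric
open scoped ENNReal NNReal ContDiff Gradient

namespace Crest.Agent.R135.Dcy

/-- the decay factor -/
theorem exp_le_rpow {m : ℕ} (hm : 2 ≤ m) {β η : ℝ} (hβ0 : 0 < β) (hβ : β ≤ 1 / 10)
    (hη : η ≤ 1 / 100) :
    Real.exp (-((Real.log 2 - 2 * η) / (1 / m + β / Real.pi))) ≤ (2 : ℝ) ^ (-(3 / 2 : ℝ)) := by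
  have hlog := Real.log_two_gt_d9
  have hπ := Real.pi_gt_three
  have hm2 : (2 : ℝ) ≤ m := by exact_mod_cast hm
  have hm0 : (0:ℝ) < m := by linarith
  have h1 : (1 : ℝ) / m ≤ 1 / 2 := one_div_le_one_div_of_le (by norm_num) hm2
  have h2 : β / Real.pi ≤ 1 / 30 := by
    rw [div_le_iff₀ Real.pi_pos]; nlinarith
  have h3 : 0 < 1 / (m : ℝ) + β / Real.pi := by have := Real.pi_pos; positivity
  rw [Real.rpow_def_of_pos (by norm_num)]
  apply Real.exp_le_exp.2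
  rw [neg_div', neg_eq_neg_one_mul]
  have h4 : Real.log 2 * (3 / 2) ≤ (Real.log 2 - 2 * η) / (1 / m + β / Real.pi) := by
    rw [le_div_iff₀ h3]
    have h5 : Real.log 2 * (3 / 2) * (1 / m + β / Real.pi) ≤
        Real.log 2 * (3 / 2) * (1 / 2 + 1 / 30) := by
      apply mul_le_mul_of_nonneg_left (by linarith)
      linarith
    nlinarith
  have h6 : -1 * (Real.log 2 - 2 * η) / (1 / (m:ℝ) + β / Real.pi) =
      -((Real.log 2 - 2 * η) / (1 / m + β / Real.pi)) := by ring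
  rw [h6]
  linarith

/-- energy decay at a centre with `m` phases at all scales `≤ 2 r` -/
theorem decay_core {U : Set E2} {lam : ℝ} {u : E2 → ℝ} {K : Set E2} (h : IsQM U lam u K)
    {m : ℕ} (hm : 2 ≤ m) {β η δ : ℝ} (hβ0 : 0 < β) (hβ : β ≤ 1 / 10) (hβm : β ≤ Real.pi / m)
    (hη0 : 0 ≤ η) (hη : η ≤ 1 / 100) (hδ : 0 ≤ δ) {z : E2} {r : ℝ} (hr : 0 < r) (hr1 : r ≤ 1)
    (hU : closedBall z (2 * r) ⊆ U)
    (hph : ∀ ρ : ℝ, 0 < ρ → ρ ≤ 2 * r → ∃ (c : E2 → ℝ) (θ : ℝ) (v : Fin m → ℝ),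
      Sect m β δ u K z ρ c θ v)
    (hlen : ∀ ρ : ℝ, 0 < ρ → ρ ≤ r → Lr K z ρ ≤ (m + η) * ρ) {ρ : ℝ} (hρ : 0 < ρ)
    (hρr : ρ ≤ r) :
    Dr u K z ρ ≤ 2 ^ (3 / 2 : ℝ) * (ρ / r) ^ (3 / 2 : ℝ) * (Dr u K z r +
      (δ * Real.sqrt 2 * lam * Real.pi * (m + 1)) *
        (2 ^ (3 / 2 : ℝ) / (1 - 2 ^ ((3 / 2 : ℝ) - 2))) * r ^ 2) := by
  have hlam := h.lam_nonneg
  have hπ := Real.pi_pos
  have hm0 : (0:ℝ) < m := by have : 0 < m := by omega
                             exact_mod_cast this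
  have hmono : MonotoneOn (fun s => Dr u K z s) (Ioc 0 r) := by
    intro s hs t ht hst
    exact QMC.Dr_mono h ((closedBall_subset_closedBall (by linarith [ht.2])).trans hU) hst
  refine decay_of_step (a := fun s => Dr u K z s) hr (by norm_num) (by norm_num) (by positivity)
    (QMC.Dr_nonneg _ _ _ _) hmono ?_ hρ hρr
  intro s hs hsr
  -- number of points
  have hN : ∀ t ∈ Ioo 0 s, (m : ℕ∞) ≤ (K ∩ sphere z t).encard := by
    intro t ht
    obtain ⟨c, θ, v, hc⟩ := hph (2 * t) (by linarith [ht.1]) (by linarith [ht.2])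
    exact (hc.vals (by linarith [ht.1]) hβm (t := t) (by linarith [ht.1])
      (by linarith [ht.1])).card_le hm
  have hfin : len (K ∩ closedBall z s) < ⊤ :=
    h.len_fin z s ((closedBall_subset_closedBall (by linarith)).trans hU)
  have hlen' : len (K ∩ closedBall z s) ≤ ENNReal.ofReal ((m + η) * s) := by
    rw [← ENNReal.ofReal_toReal hfin.ne]
    exact ENNReal.ofReal_le_ofReal (hlen s hs hsr)
  have hbad := bad_radii hs hη0 hN hlen'
  obtain ⟨c, θ, v, hc⟩ := hph (2 * s) (by linarith) (by linarith)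
  have hineq := hc.ineq h hm hβm hβ0 hδ hs (ball_subset_closedBall.trans
    ((closedBall_subset_closedBall (by linarith)).trans hU))
  have hstep := ode_step (a := fun s => Dr u K z s) (d := cirE (fun y => u y + -c y) z)
    (θ := 1 / m + β / Real.pi) (η := η) (C := δ * Real.sqrt 2 * lam * Real.pi * (m + 1)) hs
    (by positivity) (by positivity) hη0 (QMC.Dr_nonneg _ _ _ _)
    (hmono.mono fun t ht => ⟨by linarith [ht.1], ht.2.trans hsr⟩)
    (G := {t | (K ∩ sphere z t).encard = m}) (by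
      filter_upwards [hineq, ae_restrict_mem measurableSet_Ioo] with t ht htI htG
      obtain ⟨h1, h2⟩ := ht htG
      refine ⟨h1, h2.trans ?_⟩
      have h3 : Real.sqrt (2 * s) ≤ Real.sqrt 2 := Real.sqrt_le_sqrt (by linarith)
      have h4 : δ * Real.sqrt (2 * s) * lam * Real.pi * (m + 1) ≤
          δ * Real.sqrt 2 * lam * Real.pi * (m + 1) := by gcongr
      have h5 := mul_le_mul_of_nonneg_right h4 (sq_nonneg t)
      linarith) hbad
  refine hstep.trans ?_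
  have h6 := exp_le_rpow hm hβ0 hβ hη
  have h7 := mul_le_mul_of_nonneg_right h6 (QMC.Dr_nonneg u K z s)
  linarith

/-- the constant of the decay estimate -/
noncomputable def decC (m : ℕ) : ℝ :=
  2 ^ (3 / 2 : ℝ) * Real.sqrt 32 *
    (1 + (1 / 100) * Real.sqrt 2 * Real.pi * (m + 1) *
      (2 ^ (3 / 2 : ℝ) / (1 - 2 ^ ((3 / 2 : ℝ) - 2))))

theorem q_lt_one : (2:ℝ) ^ ((3 / 2 : ℝ) - 2) < 1 :=
  Real.rpow_lt_one_of_one_lt_of_neg (by norm_num) (by norm_num)

theorem decC_ge (m : ℕ) : Real.sqrt 32 ≤ decC m := by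
  have h1 : (1:ℝ) ≤ 2 ^ (3 / 2 : ℝ) := Real.one_le_rpow (by norm_num) (by norm_num)
  have h2 := q_lt_one
  have h2' : 0 < 1 - (2:ℝ) ^ ((3 / 2 : ℝ) - 2) := by linarith
  have h3 : (1:ℝ) ≤ 1 + (1 / 100) * Real.sqrt 2 * Real.pi * (m + 1) *
      (2 ^ (3 / 2 : ℝ) / (1 - 2 ^ ((3 / 2 : ℝ) - 2))) := by
    have : 0 ≤ (1 / 100) * Real.sqrt 2 * Real.pi * ((m:ℝ) + 1) *
      (2 ^ (3 / 2 : ℝ) / (1 - 2 ^ ((3 / 2 : ℝ) - 2))) := by
        have := Real.pi_pos
        positivity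
    linarith
  unfold decC
  have h4 : (0:ℝ) ≤ Real.sqrt 32 := Real.sqrt_nonneg _
  calc Real.sqrt 32 = 1 * Real.sqrt 32 * 1 := by ring
    _ ≤ _ := by gcongr

theorem decC_pos (m : ℕ) : 0 < decC m :=
  (Real.sqrt_pos.2 (by norm_num)).trans_le (decC_ge m)

/-- energy decay, final form -/
theorem decay_final {U : Set E2} {lam : ℝ} {u : E2 → ℝ} {K : Set E2} (h : IsQM U lam u K)
    {m : ℕ} (hm : 2 ≤ m) (hβm : (1 / 10 : ℝ) ≤ Real.pi / m) {z : E2} {r : ℝ} (hr : 0 < r)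
    (hr1 : r ≤ 1) (hlr : lam * r ≤ 1) (hU : closedBall z (r / 16) ⊆ U)
    (hph : ∀ ρ : ℝ, 0 < ρ → ρ ≤ r / 16 → ∃ (c : E2 → ℝ) (θ : ℝ) (v : Fin m → ℝ),
      Sect m (1 / 10) (1 / 100) u K z ρ c θ v)
    (hlen : ∀ ρ : ℝ, 0 < ρ → ρ ≤ r / 16 → Lr K z ρ ≤ (m + 1 / 100) * ρ)
    (hen : ∀ ρ : ℝ, 0 < ρ → ρ ≤ r / 16 → Dr u K z ρ ≤ ρ) {s : ℝ} (hs : 0 < s)
    (hsr : s ≤ r / 16) :
    Dr u K z s ≤ decC m * s * (s / r) ^ (2 * (1 / 4 : ℝ)) := by
  have hlam := h.lam_nonneg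
  have hπ := Real.pi_pos
  have h12 : (2 * (1 / 4 : ℝ)) = 1 / 2 := by norm_num
  rw [h12]
  by_cases hsr' : s ≤ r / 32
  swap
  · push Not at hsr'
    have h1 : 1 ≤ Real.sqrt 32 * (s / r) ^ (1 / 2 : ℝ) := by
      rw [← Real.sqrt_eq_rpow, ← Real.sqrt_mul (by norm_num), Real.one_le_sqrt]
      rw [← mul_div_assoc, le_div_iff₀ hr]; linarith
    calc Dr u K z s ≤ s * 1 := by rw [mul_one]; exact hen s hs hsr
      _ ≤ s * (decC m * (s / r) ^ (1 / 2 : ℝ)) := by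
          refine mul_le_mul_of_nonneg_left (h1.trans ?_) hs.le
          exact mul_le_mul_of_nonneg_right (decC_ge m) (Real.rpow_nonneg (by positivity) _)
      _ = _ := by ring
  have hr0 : 0 < r / 32 := by positivity
  have h1 := decay_core h hm (by norm_num) le_rfl hβm (by norm_num : (0:ℝ) ≤ 1 / 100) le_rfl
    (by norm_num : (0:ℝ) ≤ 1 / 100) (z := z) hr0 (by linarith)
    (by rw [show 2 * (r / 32) = r / 16 by ring]; exact hU)
    (fun ρ hρ hρr => hph ρ hρ (by linarith)) (fun ρ hρ hρr => hlen ρ hρ (by linarith)) hs hsr'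
  refine h1.trans ?_
  have h2 : Dr u K z (r / 32) ≤ r / 32 := hen _ hr0 (by linarith)
  have hq := q_lt_one
  have hq' : 0 < 1 - (2:ℝ) ^ ((3 / 2 : ℝ) - 2) := by linarith
  set Q : ℝ := 2 ^ (3 / 2 : ℝ) / (1 - 2 ^ ((3 / 2 : ℝ) - 2)) with hQ
  have hQ0 : 0 < Q := by positivity
  have h3 : 1 / 100 * Real.sqrt 2 * lam * Real.pi * (m + 1) * Q * (r / 32) ^ 2 ≤
      (1 / 100 * Real.sqrt 2 * Real.pi * (m + 1) * Q) * (r / 32) := by
    have h4 : lam * (r / 32) ≤ 1 := by nlinarith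
    have h5 : 0 ≤ 1 / 100 * Real.sqrt 2 * Real.pi * (m + 1) * Q * (r / 32) := by positivity
    nlinarith
  have h6 : Dr u K z (r / 32) + 1 / 100 * Real.sqrt 2 * lam * Real.pi * (m + 1) * Q * (r / 32) ^ 2
      ≤ (1 + 1 / 100 * Real.sqrt 2 * Real.pi * (m + 1) * Q) * (r / 32) := by linarith
  have h7 : (s / (r / 32)) ^ (3 / 2 : ℝ) * (r / 32) = s * (Real.sqrt 32 * (s / r) ^ (1 / 2 : ℝ)) := by
    have e1 : s / (r / 32) = 32 * (s / r) := by field_simp
    have e2 : (32 * (s / r)) ^ (3 / 2 : ℝ) = (32 * (s / r)) * (32 * (s / r)) ^ (1 / 2 : ℝ) := by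
      rw [show (3 / 2 : ℝ) = 1 + 1 / 2 by norm_num, Real.rpow_add (by positivity), Real.rpow_one]
    rw [e1, e2, Real.mul_rpow (by norm_num) (by positivity), ← Real.sqrt_eq_rpow 32]
    field_simp
  calc 2 ^ (3 / 2 : ℝ) * (s / (r / 32)) ^ (3 / 2 : ℝ) * (Dr u K z (r / 32) +
        1 / 100 * Real.sqrt 2 * lam * Real.pi * (m + 1) * Q * (r / 32) ^ 2)
      ≤ 2 ^ (3 / 2 : ℝ) * (s / (r / 32)) ^ (3 / 2 : ℝ) *
        ((1 + 1 / 100 * Real.sqrt 2 * Real.pi * (m + 1) * Q) * (r / 32)) := by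
        refine mul_le_mul_of_nonneg_left h6 ?_
        exact mul_nonneg (Real.rpow_nonneg (by norm_num) _) (Real.rpow_nonneg (by positivity) _)
    _ = 2 ^ (3 / 2 : ℝ) * ((s / (r / 32)) ^ (3 / 2 : ℝ) * (r / 32)) *
        (1 + 1 / 100 * Real.sqrt 2 * Real.pi * (m + 1) * Q) := by ring
    _ = _ := by rw [h7, decC]; ring

/-! ### the two cases -/

theorem sect_of_linePhase {u : E2 → ℝ} {K : Set E2} {z : E2} {ρ : ℝ} (hρ : 0 < ρ)
    (h : LinePhase (1 / 100) u K z ρ) :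
    ∃ (c : E2 → ℝ) (θ : ℝ) (v : Fin 2 → ℝ), Sect 2 (1 / 10) (1 / 100) u K z ρ c θ v := by
  obtain ⟨c, e, m₁, m₂, hc, hfl, hne, hup, hdown⟩ := h
  obtain ⟨he, hf1, hf2⟩ := hfl
  obtain ⟨θ, -, hθ⟩ := exists_dir_eq e he 0
  subst hθ
  have hπ := Real.pi_gt_three
  have hin : ∀ t φ : ℝ, inner ℝ (cpt z t φ - z) (Arc.J (dir θ)) = t * Real.sin (φ - θ) := by
    intro t φ
    have : cpt z t φ - z = t • dir φ := by simp [cpt]
    rw [this, inner_smul_left, inner_E2]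
    simp [Arc.J, dir, Real.sin_sub]
    left
    ring
  have hsin : (1 / 25 : ℝ) < Real.sin (1 / 10) := by
    have := Real.sin_gt_sub_cube (x := 1 / 10) (by norm_num)
    norm_num at this ⊢
    linarith
  refine ⟨c, θ, ![m₁, m₂], hc.loc, hc.close, ?_, ?_⟩
  · intro i j hij
    fin_cases i <;> fin_cases j <;> simp_all
  · intro k t ht htρ φ hφ
    have ht0 : 0 < t := by linarith
    have hball : cpt z t φ ∈ ball z ρ := by rw [cpt_mem_ball ht0]; exact htρ
    have key : (k = 0 ∧ 1 / 100 * ρ < t * Real.sin (φ - θ)) ∨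
        (k = 1 ∧ t * Real.sin (φ - θ) < -(1 / 100 * ρ)) := by
      fin_cases k
      · left
        refine ⟨rfl, ?_⟩
        simp only [Nat.cast_zero, mul_zero, zero_add, one_mul,
          Nat.cast_ofNat] at hφ
        rw [abs_le] at hφ
        have h1 : Real.sin (1 / 10) ≤ Real.sin (φ - θ) := by
          rw [← Real.cos_pi_div_two_sub, ← Real.cos_pi_div_two_sub (φ - θ),
            ← Real.cos_abs (Real.pi / 2 - (φ - θ))]
          refine Real.cos_le_cos_of_nonneg_of_le_pi (abs_nonneg _) (by linarith) ?_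
          rw [abs_le]
          constructor <;> linarith
        nlinarith
      · right
        refine ⟨rfl, ?_⟩
        simp only [Nat.cast_one, mul_one, Nat.cast_ofNat] at hφ
        rw [abs_le] at hφ
        have h1 : Real.sin (φ - θ) ≤ -Real.sin (1 / 10) := by
          have h2 : Real.sin (φ - θ) = -Real.cos (3 * Real.pi / 2 - (φ - θ)) := by
            have e1 : 3 * Real.pi / 2 - (φ - θ) = Real.pi + (Real.pi / 2 - (φ - θ)) := by ring
            rw [e1, add_comm, Real.cos_add_pi, Real.cos_pi_div_two_sub, neg_neg]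
          rw [h2, ← Real.cos_pi_div_two_sub, ← Real.cos_abs (3 * Real.pi / 2 - (φ - θ))]
          apply neg_le_neg
          refine Real.cos_le_cos_of_nonneg_of_le_pi (abs_nonneg _) (by linarith) ?_
          rw [abs_le]
          constructor <;> linarith
        nlinarith
    have hK : cpt z t φ ∉ K := by
      intro hK
      have h1 := hf1 _ hK (by rw [dist_comm, ← dist_comm]; exact (mem_ball.1 hball).le)
      rw [hin, abs_le] at h1
      rcases key with ⟨_, h2⟩ | ⟨_, h2⟩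
      · linarith [h1.2]
      · linarith [h1.1]
    refine ⟨hK, ?_⟩
    rcases key with ⟨rfl, h2⟩ | ⟨rfl, h2⟩
    · simpa using hup _ hball (by rw [hin]; exact h2)
    · simpa using hdown _ hball (by rw [hin]; exact h2)

theorem sect_of_propPhase {u : E2 → ℝ} {K : Set E2} {z : E2} {ρ : ℝ}
    (h : PropPhase (1 / 100) u K z ρ) :
    ∃ (c : E2 → ℝ) (θ : ℝ) (v : Fin 3 → ℝ), Sect 3 (1 / 10) (1 / 100) u K z ρ c θ v := by
  obtain ⟨c, θ, v, hc, hst, hinj, hsec⟩ := h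
  refine ⟨c, θ, v, hc.loc, hc.close, hinj, ?_⟩
  intro k t ht htρ φ hφ
  exact hsec k t ht htρ φ (hφ.trans (by norm_num; linarith))

end Crest.Agent.R135.Dcy
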