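import Crest.Agent.R135.EarnMaster
import Crest.Agent.R135.Scal1

/-!
# R135, Earnshaw block (helper391), part 7: translated and dilated singular parts
-/

set_option autoImplicit false
open MeasureTheory Metric Set Filter Topology Laplacian InnerProductSpace
open scoped RealInnerProductSpace NNReal ENNReal ContDiff Gradient Convolution

namespace Crest.Agent.R135.Earn

open Crest.Agent.R097 (bv Harm laplacian_eq_sum gradient_coord inner_gradient norm_gradient
  exists_cutoff green1)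
open Crest.Agent.R135.Reg

/-- the moved singular part; the crack is `rescK S a r = {y | a + r y ∈ S}`. -/
noncomputable def mv (ζ : E2 → ℝ) (a : E2) (r : ℝ) (y : E2) : ℝ := r⁻¹ * ζ (a + r • y)

theorem grad_comp_aff (f : E2 → ℝ) (a y : E2) (r : ℝ) :
    ∇ (fun y => f (a + r • y)) y = r • ∇ f (a + r • y) := gradient_comp_scm f a r y

theorem grad_mv (ζ : E2 → ℝ) (a : E2) {r : ℝ} (hr : 0 < r) (y : E2) :
    ∇ (mv ζ a r) y = ∇ ζ (a + r • y) := by
  have h1 : mv ζ a r = fun y => r⁻¹ * (fun y => ζ (a + r • y)) y := rfl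
  rw [h1, gradient_const_mul, grad_comp_aff, smul_smul, inv_mul_cancel₀ hr.ne', one_smul]

theorem integral_aff0 {F : Type*} [NormedAddCommGroup F] [NormedSpace ℝ F] (f : E2 → F) (a : E2)
    {r : ℝ} (hr : 0 < r) : ∫ y, f (a + r • y) = ((r ^ 2)⁻¹ : ℝ) • ∫ y, f y := by
  have h := integral_scm a hr f univ
  rw [rescK_univ, Measure.restrict_univ] at h
  exact h

theorem memLp_aff {V : E2 → E2} (hV : MemLp V 2 volume) (a : E2) {r : ℝ} (hr : 0 < r) :
    MemLp (fun y => V (a + r • y)) 2 volume := by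
  have h1 : MemLp V 2 (Measure.map (scm a r) volume) := by
    rw [map_scm_volume a hr]; exact hV.smul_measure ENNReal.ofReal_ne_top
  exact (memLp_map_measure_iff h1.1 (continuous_scm a r).measurable.aemeasurable).1 h1

theorem null_resc {S : Set E2} (hS : volume S = 0) (a : E2) {r : ℝ} (hr : 0 < r) :
    volume (rescK S a r) = 0 := by
  have h := lintegral_scm a hr (fun _ => 1) S
  simp only [lintegral_const, Measure.restrict_apply_univ, one_mul] at h
  rw [h, hS, mul_zero]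

theorem sing_mv {ζ : E2 → ℝ} {S : Set E2} (h : Sing ζ S) (a : E2) {r : ℝ} (hr : 0 < r) :
    Sing (mv ζ a r) (rescK S a r) := by
  have hScl : IsClosed S := h.cpt.isClosed
  have hnull := null_resc h.null a hr
  have hae : ∀ᵐ y : E2, y ∉ rescK S a r := by
    rw [ae_iff]; simp only [not_not]; exact hnull
  have hd : ∀ y ∉ rescK S a r, DifferentiableAt ℝ ζ (a + r • y) := fun y hy =>
    (h.smooth.contDiffAt (hScl.isOpen_compl.mem_nhds hy)).differentiableAt (by simp)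
  have hgr : ∀ y, ∇ (mv ζ a r) y = ∇ ζ (a + r • y) := fun y => grad_mv ζ a hr y
  refine ⟨?_, hnull, ?_, ?_, ?_, ?_⟩
  · exact (scH a r hr.ne').isCompact_preimage.2 h.cpt
  · intro y hy
    apply ContDiffAt.contDiffWithinAt
    have h1 : ContDiffAt ℝ ∞ ζ (a + r • y) := h.smooth.contDiffAt (hScl.isOpen_compl.mem_nhds hy)
    have h2 : ContDiffAt ℝ ∞ (fun y : E2 => a + r • y) y := by fun_prop
    exact contDiffAt_const.mul (h1.comp y h2)
  · refine (memLp_aff h.l2 a hr).ae_eq ?_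
    filter_upwards [hae] with y hy
    rw [hgr y]
  · intro φ hφ hc
    set φ' : E2 → ℝ := fun x => φ (-(r⁻¹ • a) + r⁻¹ • x) with hφ'
    have s1 : ContDiff ℝ ∞ φ' := hφ.comp (by fun_prop)
    have s2 : HasCompactSupport φ' := by
      have : φ' = φ ∘ (scH (-(r⁻¹ • a)) r⁻¹ (inv_ne_zero hr.ne')) := rfl
      rw [this]
      exact hc.comp_homeomorph _
    have h1 := h.divfree φ' s1 s2
    have h2 : ∀ y, ∇ φ y = r • ∇ φ' (a + r • y) := by
      intro y
      have h3 := grad_comp_aff φ' a y r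
      rw [← h3]
      refine gradient_congr_of_eventuallyEq (Eventually.of_forall fun z => ?_)
      simp only [hφ']
      congr 1
      rw [smul_add, smul_smul, inv_mul_cancel₀ hr.ne', one_smul]
      abel
    have h4 : ∫ y, ⟪∇ (mv ζ a r) y, ∇ φ y⟫_ℝ =
        ∫ y, (fun x => r * ⟪∇ ζ x, ∇ φ' x⟫_ℝ) (a + r • y) := by
      refine integral_congr_ae ?_
      filter_upwards [hae] with y hy
      rw [hgr y, h2 y, inner_smul_right]
    rw [h4, integral_aff0 (fun x => r * ⟪∇ ζ x, ∇ φ' x⟫_ℝ) a hr, integral_const_mul, h1]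
    simp
  · obtain ⟨C, R, hC, hR, hd1⟩ := h.decay
    refine ⟨4 * C / r ^ 2, max (2 * R / r) (2 * ‖a‖ / r), by positivity, ?_, fun y hy => ?_⟩
    · exact lt_max_of_lt_left (by positivity)
    have hy1 : 2 * R / r ≤ ‖y‖ := (le_max_left _ _).trans hy
    have hy2 : 2 * ‖a‖ / r ≤ ‖y‖ := (le_max_right _ _).trans hy
    rw [div_le_iff₀ hr] at hy1 hy2
    have hy0 : 0 < ‖y‖ := by nlinarith
    have hn : r / 2 * ‖y‖ ≤ ‖a + r • y‖ := by
      have h1 : ‖r • y‖ - ‖a‖ ≤ ‖a + r • y‖ := by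
        have := norm_sub_norm_le (r • y) (-a)
        rw [norm_neg] at this
        have e : r • y - -a = a + r • y := by abel
        rwa [e] at this
      rw [norm_smul, Real.norm_of_nonneg hr.le] at h1
      linarith
    have hRn : R ≤ ‖a + r • y‖ := by nlinarith
    have hn0 : 0 < ‖a + r • y‖ := by linarith
    obtain ⟨b1, b2⟩ := hd1 _ hRn
    constructor
    · unfold mv
      rw [abs_mul, abs_of_pos (inv_pos.2 hr)]
      calc r⁻¹ * |ζ (a + r • y)| ≤ r⁻¹ * (C / (r / 2 * ‖y‖)) := by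
            gcongr
            exact b1.trans (by gcongr)
        _ = (2 * C / r ^ 2) / ‖y‖ := by field_simp
        _ ≤ (4 * C / r ^ 2) / ‖y‖ := by gcongr; norm_num
    · rw [hgr y]
      calc ‖∇ ζ (a + r • y)‖ ≤ C / (r / 2 * ‖y‖) ^ 2 := b2.trans (by gcongr)
        _ = 4 * C / r ^ 2 / ‖y‖ ^ 2 := by field_simp; ring

theorem energy_mv (ζ : E2 → ℝ) (a : E2) {r : ℝ} (hr : 0 < r) :
    ∫ y, ‖∇ (mv ζ a r) y‖ ^ 2 = (r ^ 2)⁻¹ * ∫ y, ‖∇ ζ y‖ ^ 2 := by
  have e1 : ∫ y, ‖∇ (mv ζ a r) y‖ ^ 2 = ∫ y, (fun x => ‖∇ ζ x‖ ^ 2) (a + r • y) := by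
    refine integral_congr_ae (Eventually.of_forall fun y => ?_)
    simp only
    rw [grad_mv ζ a hr y]
  rw [e1, integral_aff0 (fun x => ‖∇ ζ x‖ ^ 2) a hr, smul_eq_mul]

/-- **master inequality for similarities** -/
theorem master_aff {u : E2 → ℝ} {K K1 : Set E2} {ρ : ℝ} {ζ ue p : E2 → ℝ} (h : IsQM univ 0 u K)
    (D : Dat u K1 (K \ K1) ρ ζ ue p) (hsub : K1 ⊆ K)
    {η : E2 → ℝ} (hη : ContDiff ℝ ∞ η) (hηc : HasCompactSupport η)
    (hηs : tsupport η ⊆ thickening (3 * ρ) K1)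
    (hη1 : ∀ x ∈ cthickening ρ K1, ∀ᶠ y in 𝓝 x, η y = 1)
    {a : E2} {r : ℝ} (hr : 0 < r) (hrK : rescK K1 a r ⊆ cthickening ρ K1)
    {ψ : E2 → ℝ} (hψ : ContDiffOn ℝ 1 ψ (rescK K1 a r)ᶜ) (hψc : HasCompactSupport ψ)
    (hψ2 : MemLp (fun x => ∇ ψ x) 2 volume) (t : ℝ) :
    0 ≤ ((r ^ 2)⁻¹ - 1) * (∫ x, ‖∇ ζ x‖ ^ 2) + 2 * (Mg η p (mv ζ a r) - Mg η p ζ) +
      2 * t * (∫ x, ⟪∇ ue x + ∇ (mv ζ a r) x, ∇ ψ x⟫_ℝ) + t ^ 2 * (∫ x, ‖∇ ψ x‖ ^ 2) +
      (r⁻¹ - 1) * (len K1).toReal := by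
  have hK1c := D.sing.cpt
  have hself : ∀ x ∈ K1, x ∈ cthickening ρ K1 := fun x hx => self_subset_cthickening _ hx
  have hdis : Disjoint K1 (K \ K1) := disjoint_sdiff_right
  have hKu : K1 ∪ (K \ K1) = K := union_sdiff_cancel hsub
  have hlenK1 : len K1 < ⊤ := by
    obtain ⟨Rb, hRb⟩ := hK1c.isBounded.subset_closedBall 0
    exact lt_of_le_of_lt (measure_mono (subset_inter hsub hRb)) (h.len_fin 0 Rb (subset_univ _))
  have hlen1 : len (rescK K1 a r) = ENNReal.ofReal r⁻¹ * len K1 := len_rescK K1 a hr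
  have hkeep : ∃ R0 : ℝ, ∀ R : ℝ, R0 ≤ R →
      Keeps univ K ((K \ K1) ∪ rescK K1 a r) (closedBall 0 R) := by
    obtain ⟨R0, hR0, H⟩ := keeps_move hK1c D.K2c hdis
    refine ⟨max R0 ((R0 + ‖a‖) / r), fun R hR => ?_⟩
    have h1 := H (scH a r hr.ne').symm R ((le_max_left _ _).trans hR) (fun y hy => by
      rw [Homeomorph.symm_symm, scH_apply]
      unfold scm
      have h2 : (R0 + ‖a‖) / r ≤ R := (le_max_right _ _).trans hR
      rw [div_le_iff₀ hr] at h2
      have h3 : ‖r • y‖ - ‖a‖ ≤ ‖a + r • y‖ := by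
        have := norm_sub_norm_le (r • y) (-a)
        rw [norm_neg] at this
        have e : r • y - -a = a + r • y := by abel
        rwa [e] at this
      rw [norm_smul, Real.norm_of_nonneg hr.le] at h3
      nlinarith)
    have himg : (scH a r hr.ne').symm '' K1 = rescK K1 a r := by
      rw [Homeomorph.image_symm]; rfl
    rw [himg, hKu] at h1
    exact h1
  have key := master h D hsub hη hηc hηs (fun x hx => hη1 x (hself x hx)) (sing_mv D.sing a hr)
    (fun x hx => hη1 x (hrK hx)) hkeep (by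
      rw [hlen1]; exact ENNReal.mul_lt_top ENNReal.ofReal_lt_top hlenK1) hψ hψc hψ2 t
  rw [energy_mv ζ a hr, hlen1, ENNReal.toReal_mul, ENNReal.toReal_ofReal
    (inv_nonneg.2 hr.le)] at key
  linarith

end Crest.Agent.R135.Earn
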