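import Crest.Agent.R135.EarnTrans

/-! # R135, Earnshaw block: averaging over translations -/

set_option autoImplicit false
open MeasureTheory Metric Set Filter Topology Laplacian InnerProductSpace
open scoped RealInnerProductSpace NNReal ENNReal ContDiff Gradient Convolution

namespace Crest.Agent.R135.Earn

open Crest.Agent.R097 (bv Harm laplacian_eq_sum gradient_coord inner_gradient norm_gradient
  exists_cutoff green1)
open Crest.Agent.R135.Reg

variable {u : E2 → ℝ} {K K1 K2 : Set E2} {ρ : ℝ} {ζ ue p η : E2 → ℝ}

theorem Mg_trans_aux (D : Dat u K1 K2 ρ ζ ue p) (hc : Cut K1 ρ η)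
    (hpos : ∀ h : E2, ‖h‖ < ρ → 0 ≤ Mg η p (mv ζ (-h) 1) - Mg η p ζ) {t : ℝ} (ht : 0 < t)
    (htρ : t < ρ) :
    ∀ h : E2, ‖h‖ < t → Mg η p (mv ζ (-h) 1) = Mg η p ζ := by
  set N := tsupport (fderiv ℝ η) with hN
  have hNc : IsCompact N := hc.cs.fderiv (𝕜 := ℝ)
  have hNout : ∀ x ∈ N, x ∉ cthickening ρ K1 := by
    intro x hx hxS
    rw [hN] at hx
    refine (notMem_tsupport_iff_eventuallyEq.2 ?_) hx
    filter_upwards [(hc.one x hxS).eventually_nhds] with y hy
    have : η =ᶠ[𝓝 y] fun _ => (1 : ℝ) := hy
    rw [this.fderiv_eq]; simp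
  have hsub : ∀ x ∈ N, ∀ h : E2, ‖h‖ < ρ → x - h ∉ K1 := by
    intro x hx h hh hK
    refine hNout x hx (thickening_subset_cthickening _ _ (mem_thickening_iff.2 ⟨_, hK, ?_⟩))
    rw [dist_eq_norm, sub_sub_cancel]; exact hh
  -- the compact set of translates
  set A : Set E2 := (fun q : E2 × E2 => q.1 - q.2) '' (N ×ˢ closedBall (0 : E2) t) with hA
  have hAc : IsCompact A := (hNc.prod (isCompact_closedBall _ _)).image (by fun_prop)
  have hAm : ∀ x ∈ N, ∀ h : E2, ‖h‖ ≤ t → x - h ∈ A := fun x hx h hh =>
    ⟨(x, h), ⟨hx, by simpa using hh⟩, rfl⟩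
  have hAK : A ⊆ K1ᶜ := by
    rintro _ ⟨⟨x, h⟩, ⟨hx, hh⟩, rfl⟩
    exact hsub x hx h (lt_of_le_of_lt (by simpa using hh) htρ)
  obtain ⟨g, hg, hgc, hgu⟩ := Crest.Agent.R097.Hm.exists_ext (m := (⊤ : ℕ∞))
    D.sing.cpt.isClosed.isOpen_compl D.sing.smooth hAc hAK
  have hgs : ContDiff ℝ ∞ g := hg
  set b := bet η p with hb
  have hbc : Continuous b := (contDiff_bet D hc).continuous
  have hb0 : ∀ x, x ∉ N → b x = 0 := fun x hx => bet_zero D hc hx
  -- the function of the translation
  set M : E2 → ℝ := fun h => ∫ x in N, g (x - h) * b x with hM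
  have hMc : Continuous M := by
    have hf : Continuous (Function.uncurry fun (h x : E2) => g (x - h) * b x) := by
      have h1 : Continuous fun q : E2 × E2 => g (q.2 - q.1) :=
        hgs.continuous.comp (continuous_snd.sub continuous_fst)
      exact h1.mul (hbc.comp continuous_snd)
    exact continuous_parametric_integral_of_continuous hf hNc
  have hMeq : ∀ h : E2, ‖h‖ ≤ t → Mg η p (mv ζ (-h) 1) = M h := by
    intro h hh
    rw [Mg_eq_bet D hc (sing_mv D.sing (-h) one_pos) (fun x hx => hc.one x ?_)]
    · rw [hM]
      simp only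
      rw [setIntegral_eq_integral_of_forall_compl_eq_zero (fun x hx => by
        rw [hb0 x hx, mul_zero])]
      refine integral_congr_ae (Eventually.of_forall fun x => ?_)
      simp only
      by_cases hx : x ∈ N
      · have h1 := (hgu _ (hAm x hx h hh)).eq_of_nhds
        unfold mv
        have e : -h + (1 : ℝ) • x = x - h := by rw [one_smul]; abel
        rw [e, h1, inv_one, one_mul]
      · have := hb0 x hx
        rw [hb] at this
        rw [this, mul_zero, hb, this, mul_zero]
    · have hx' : -h + (1 : ℝ) • x ∈ K1 := hx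
      refine thickening_subset_cthickening _ _ (mem_thickening_iff.2 ⟨_, hx', ?_⟩)
      rw [dist_eq_norm]
      have e : x - (-h + (1 : ℝ) • x) = h := by rw [one_smul]; abel
      rw [e]; linarith
  have hM0 : Mg η p ζ = M 0 := by
    rw [Mg_eq_bet D hc D.sing (fun x hx => hc.one x (self_subset_cthickening _ hx)), hM]
    simp only
    rw [setIntegral_eq_integral_of_forall_compl_eq_zero (fun x hx => by
        rw [hb0 x hx, mul_zero])]
    refine integral_congr_ae (Eventually.of_forall fun x => ?_)
    simp only
    by_cases hx : x ∈ N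
    · have h1 := (hgu _ (hAm x hx 0 (by simpa using ht.le))).eq_of_nhds
      rw [h1, sub_zero]
    · have := hb0 x hx
      rw [hb] at this
      rw [this, mul_zero, hb, this, mul_zero]
  -- mean value property
  have hmean : ∀ x ∈ N, ∫ h in ball (0 : E2) t, g (x - h) = (volume (ball (0 : E2) t)).toReal * g x := by
    intro x hx
    have h1 := Crest.Agent.R097.Hm.mean_ball (h := g) (x := x) ht (lt_add_one t)
      ((contDiff_infty.mp hgs 2).contDiffOn) (fun y hy => by
        have hyA : y ∈ A := by
          have := hAm x hx (x - y) (by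
            have := mem_ball.1 hy
            rw [dist_comm, dist_eq_norm] at this
            exact this.le)
          rwa [sub_sub_cancel] at this
        rw [Crest.Agent.R097.Hm.lap_congr_at (hgu y hyA)]
        exact D.zharm.2 y (hAK hyA))
    have h2 : ∫ h in ball (0 : E2) t, g (x - h) = ∫ y in ball x t, g y := by
      rw [← integral_indicator measurableSet_ball, ← integral_indicator measurableSet_ball,
        ← integral_sub_left_eq_self (fun y => (ball x t).indicator g y) volume x]
      refine integral_congr_ae (Eventually.of_forall fun h => ?_)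
      have : h ∈ ball (0 : E2) t ↔ x - h ∈ ball x t := by
        rw [mem_ball, mem_ball, dist_eq_norm, dist_eq_norm, sub_zero]
        rw [show x - h - x = -h by abel, norm_neg]
      show (ball (0 : E2) t).indicator (fun h => g (x - h)) h = (ball x t).indicator g (x - h)
      by_cases hb : h ∈ ball (0 : E2) t
      · rw [indicator_of_mem hb, indicator_of_mem (this.1 hb)]
      · rw [indicator_of_notMem hb, indicator_of_notMem (fun h1 => hb (this.2 h1))]
    have hv : (volume (ball (0 : E2) t)).toReal = (volume (ball x t)).toReal := by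
      rw [EuclideanSpace.volume_ball, EuclideanSpace.volume_ball]
    have hv0 : (volume (ball x t)).toReal ≠ 0 :=
      (ENNReal.toReal_pos (measure_ball_pos volume x ht).ne' measure_ball_lt_top.ne).ne'
    rw [h2, h1, setAverage_eq, hv, smul_eq_mul]
    rw [measureReal_def, ← mul_assoc, mul_inv_cancel₀ hv0, one_mul]
  -- Fubini
  have hfub : ∫ h in ball (0 : E2) t, M h = (volume (ball (0 : E2) t)).toReal * M 0 := by
    have hf : Continuous (Function.uncurry fun (h x : E2) => g (x - h) * b x) := by
      have h1 : Continuous fun q : E2 × E2 => g (q.2 - q.1) :=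
        hgs.continuous.comp (continuous_snd.sub continuous_fst)
      exact h1.mul (hbc.comp continuous_snd)
    have hint : Integrable (Function.uncurry fun (h x : E2) => g (x - h) * b x)
        ((volume.restrict (ball (0 : E2) t)).prod (volume.restrict N)) := by
      rw [Measure.prod_restrict]
      have h1 : IntegrableOn (Function.uncurry fun (h x : E2) => g (x - h) * b x)
          (closedBall (0 : E2) t ×ˢ N) (volume.prod volume) :=
        hf.continuousOn.integrableOn_compact ((isCompact_closedBall _ _).prod hNc)
      exact h1.mono_set (prod_mono ball_subset_closedBall Subset.rfl)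
    rw [hM]
    simp only
    rw [integral_integral_swap hint, ← integral_const_mul]
    refine setIntegral_congr_fun hNc.measurableSet fun x hx => ?_
    show ∫ h in ball (0 : E2) t, g (x - h) * b x = _
    rw [integral_mul_const, hmean x hx, sub_zero]
    ring
  -- conclusion
  have hzero : ∫ h in ball (0 : E2) t, (M h - M 0) = 0 := by
    rw [integral_sub, hfub, setIntegral_const, smul_eq_mul, measureReal_def, sub_self]
    · exact (hMc.continuousOn.integrableOn_compact (isCompact_closedBall (0 : E2) t)).mono_set
        ball_subset_closedBall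
    · exact integrableOn_const measure_ball_lt_top.ne
  have hnn : ∀ h ∈ ball (0 : E2) t, 0 ≤ M h - M 0 := by
    intro h hh
    have hh' : ‖h‖ < t := by simpa using hh
    rw [← hMeq h hh'.le, ← hM0]
    exact hpos h (hh'.trans htρ)
  have hae : (fun h => M h - M 0) =ᵐ[volume.restrict (ball (0 : E2) t)] fun _ => 0 := by
    refine (setIntegral_eq_zero_iff_of_nonneg_ae ?_ ?_).1 hzero
    · exact (ae_restrict_iff' measurableSet_ball).2 (Eventually.of_forall fun h hh => hnn h hh)
    · exact ((hMc.sub continuous_const).continuousOn.integrableOn_compact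
        (isCompact_closedBall (0 : E2) t)).mono_set ball_subset_closedBall
  have heq := Measure.eqOn_open_of_ae_eq hae isOpen_ball
    (hMc.sub continuous_const).continuousOn continuousOn_const
  intro h hh
  have h1 := heq (show h ∈ ball (0 : E2) t by simpa using hh)
  simp only at h1
  rw [hMeq h hh.le, hM0]
  linarith

theorem Mg_trans (D : Dat u K1 K2 ρ ζ ue p) (hc : Cut K1 ρ η)
    (hpos : ∀ h : E2, ‖h‖ < ρ → 0 ≤ Mg η p (mv ζ (-h) 1) - Mg η p ζ) :
    ∀ h : E2, ‖h‖ < ρ → Mg η p (mv ζ (-h) 1) = Mg η p ζ := by
  intro h hh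
  have h0 := norm_nonneg h
  exact Mg_trans_aux D hc hpos (t := (‖h‖ + ρ) / 2) (by linarith) (by linarith) h (by linarith)

end Crest.Agent.R135.Earn
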