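import Crest.Agent.R135.EarnSplit

/-!
# R135, Earnshaw block (helper391), part 5: cut-offs, energy inequality, Green's formula
-/

set_option autoImplicit false
open MeasureTheory Metric Set Filter Topology Laplacian InnerProductSpace
open scoped RealInnerProductSpace NNReal ENNReal ContDiff Gradient Convolution

namespace Crest.Agent.R135.Earn

open Crest.Agent.R097 (bv Harm laplacian_eq_sum gradient_coord inner_gradient norm_gradient
  exists_cutoff green1)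
open Crest.Agent.R135.Reg

/-! ### cut-offs at infinity -/

theorem exists_kappa : ∃ C : ℝ, 0 ≤ C ∧ ∀ R : ℝ, 0 < R → ∃ κ : E2 → ℝ, ContDiff ℝ ∞ κ ∧
    (∀ x, ‖x‖ ≤ R → ∀ᶠ y in 𝓝 x, κ y = 1) ∧ (∀ x, 2 * R ≤ ‖x‖ → κ x = 0) ∧
    (∀ x, κ x ∈ Icc (0 : ℝ) 1) ∧ ∀ x, ‖∇ κ x‖ ≤ C / R := by
  obtain ⟨κ, hκ, hκc, hκU, hκ01, hκ1⟩ := exists_cutoff (d := 2) (isCompact_closedBall (0 : E2) 1)
    (isOpen_ball (x := (0 : E2)) (ε := 2)) (closedBall_subset_ball (by norm_num))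
  obtain ⟨C, hC⟩ := (hasCompactSupport_grad hκc).exists_bound_of_continuous
    (contDiff_grad hκ).continuous
  refine ⟨C, (norm_nonneg _).trans (hC 0), fun R hR => ⟨fun x => κ (R⁻¹ • x), ?_, ?_, ?_, ?_, ?_⟩⟩
  · exact hκ.comp (contDiff_const_smul _)
  · intro x hx
    have h1 : R⁻¹ • x ∈ closedBall (0 : E2) 1 := by
      rw [mem_closedBall_zero_iff, norm_smul, norm_inv, Real.norm_of_nonneg hR.le,
        inv_mul_le_iff₀ hR]
      linarith
    exact (continuous_const_smul R⁻¹).continuousAt.eventually (hκ1 _ h1)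
  · intro x hx
    refine image_eq_zero_of_notMem_tsupport fun hmem => ?_
    have := hκU hmem
    rw [mem_ball_zero_iff, norm_smul, norm_inv, Real.norm_of_nonneg hR.le,
      inv_mul_lt_iff₀ hR] at this
    linarith
  · exact fun x => hκ01 _
  · intro x
    have h1 : HasFDerivAt (fun x : E2 => κ (R⁻¹ • x))
        ((fderiv ℝ κ (R⁻¹ • x)).comp (R⁻¹ • ContinuousLinearMap.id ℝ E2)) x := by
      have h2 : HasFDerivAt κ (fderiv ℝ κ (R⁻¹ • x)) (R⁻¹ • x) :=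
        ((hκ.differentiable (by simp)).differentiableAt).hasFDerivAt
      have h3 : HasFDerivAt (fun x : E2 => R⁻¹ • x) (R⁻¹ • ContinuousLinearMap.id ℝ E2) x :=
        (hasFDerivAt_id x).const_smul R⁻¹
      exact h2.comp x h3
    rw [norm_gradient, h1.fderiv]
    have h4 := hC (R⁻¹ • x)
    rw [norm_gradient] at h4
    calc ‖(fderiv ℝ κ (R⁻¹ • x)).comp (R⁻¹ • ContinuousLinearMap.id ℝ E2)‖
        ≤ ‖fderiv ℝ κ (R⁻¹ • x)‖ * ‖R⁻¹ • ContinuousLinearMap.id ℝ E2‖ :=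
          ContinuousLinearMap.opNorm_comp_le _ _
      _ ≤ C * R⁻¹ := by
          refine mul_le_mul h4 ?_ (norm_nonneg _) ((norm_nonneg _).trans h4)
          refine (norm_smul_le R⁻¹ (ContinuousLinearMap.id ℝ E2)).trans ?_
          rw [norm_inv, Real.norm_of_nonneg hR.le]
          calc R⁻¹ * ‖ContinuousLinearMap.id ℝ E2‖ ≤ R⁻¹ * 1 := by
                gcongr
                exact ContinuousLinearMap.norm_id_le
            _ = R⁻¹ := mul_one _
      _ = C / R := by rw [div_eq_mul_inv]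

/-! ### squares of norms -/

theorem lintegral_sq_eq {μ : Measure E2} {V : E2 → E2} (hV : MemLp V 2 μ) :
    ∫⁻ x, ‖V x‖ₑ ^ 2 ∂μ = ENNReal.ofReal (∫ x, ‖V x‖ ^ 2 ∂μ) := by
  have h1 : Integrable (fun x => ‖V x‖ ^ 2) μ := hV.integrable_norm_pow (by norm_num)
  rw [ofReal_integral_eq_lintegral_ofReal h1 (Eventually.of_forall fun x => by positivity)]
  refine lintegral_congr fun x => ?_
  rw [ENNReal.ofReal_pow (norm_nonneg _), ofReal_norm]

theorem integral_add_sq {μ : Measure E2} {V W : E2 → E2} (hV : MemLp V 2 μ) (hW : MemLp W 2 μ) :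
    ∫ x, ‖V x + W x‖ ^ 2 ∂μ =
      (∫ x, ‖V x‖ ^ 2 ∂μ) + 2 * (∫ x, ⟪V x, W x⟫_ℝ ∂μ) + ∫ x, ‖W x‖ ^ 2 ∂μ := by
  have h1 : Integrable (fun x => ‖V x‖ ^ 2) μ := hV.integrable_norm_pow (by norm_num)
  have h2 : Integrable (fun x => ‖W x‖ ^ 2) μ := hW.integrable_norm_pow (by norm_num)
  have h3 := memLp_integrable_inner hV hW
  have h13 : Integrable (fun x => ‖V x‖ ^ 2 + 2 * ⟪V x, W x⟫_ℝ) μ := h1.add (h3.const_mul 2)
  rw [← integral_const_mul, ← integral_add h1 (h3.const_mul 2), ← integral_add h13 h2]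
  refine integral_congr_ae (Eventually.of_forall fun x => ?_)
  simp only
  rw [norm_add_sq_real]

/-! ### the energy inequality -/

theorem energy_ineq {u : E2 → ℝ} {K : Set E2} (h : IsQM univ 0 u K) {R : ℝ} (hR : 0 < R)
    {w : E2 → ℝ} {L : Set E2} (hcomp : IsComp univ u K 0 R w L) (hL0 : volume L = 0)
    {Z : E2 → E2} (hZ2 : MemLp Z 2 (volume.restrict (closedBall 0 R)))
    (hZ : ∀ᵐ x, ∇ w x = ∇ u x + Z x) :
    (∫ x in closedBall 0 R, ‖∇ u x‖ ^ 2) + (len (K ∩ closedBall 0 R)).toReal ≤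
      (∫ x in closedBall 0 R, ‖∇ u x + Z x‖ ^ 2) + (len (L ∩ closedBall 0 R)).toReal := by
  have hmin := h.min 0 R hR (subset_univ _) w L hcomp
  simp only [zero_mul, ENNReal.ofReal_zero, add_zero] at hmin
  unfold enE dirE at hmin
  set B : Set E2 := closedBall 0 R
  have hu2 := memLp_grad_u h R
  have e1 : ∫⁻ x in B \ K, ‖∇ u x‖ₑ ^ 2 = ENNReal.ofReal (∫ x in B, ‖∇ u x‖ ^ 2) := by
    rw [← lintegral_sq_eq hu2]
    exact setLIntegral_congr (sdiff_null_ae_eq_self h.volume_K)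
  have e2 : ∫⁻ x in B \ L, ‖∇ w x‖ₑ ^ 2 = ENNReal.ofReal (∫ x in B, ‖∇ u x + Z x‖ ^ 2) := by
    have h3 : MemLp (fun x => ∇ u x + Z x) 2 (volume.restrict B) := hu2.add hZ2
    rw [← lintegral_sq_eq h3, setLIntegral_congr (sdiff_null_ae_eq_self hL0)]
    refine lintegral_congr_ae ?_
    filter_upwards [ae_restrict_of_ae hZ] with x hx
    rw [hx]
  rw [e1, e2] at hmin
  have f1 : len (K ∩ B) ≠ ⊤ := (h.len_fin 0 R (subset_univ _)).ne
  have f2 : len (L ∩ B) ≠ ⊤ := hcomp.len_fin.ne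
  have n1 : 0 ≤ ∫ x in B, ‖∇ u x‖ ^ 2 := integral_nonneg fun x => by positivity
  have n2 : 0 ≤ ∫ x in B, ‖∇ u x + Z x‖ ^ 2 := integral_nonneg fun x => by positivity
  have := ENNReal.toReal_mono (ENNReal.add_ne_top.2 ⟨ENNReal.ofReal_ne_top, f2⟩) hmin
  rw [ENNReal.toReal_add ENNReal.ofReal_ne_top f1, ENNReal.toReal_add ENNReal.ofReal_ne_top f2,
    ENNReal.toReal_ofReal n1, ENNReal.toReal_ofReal n2] at this
  exact this

/-! ### products vanishing near the crack -/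

theorem smooth_mul_sing {ζ a : E2 → ℝ} {S : Set E2} (hS : IsClosed S)
    (hζ : ContDiffOn ℝ ∞ ζ Sᶜ) (ha : ContDiff ℝ ∞ a) (h0 : ∀ x ∈ S, ∀ᶠ y in 𝓝 x, a y = 0) :
    ContDiff ℝ ∞ (fun x => a x * ζ x) := by
  rw [contDiff_iff_contDiffAt]
  intro x
  by_cases hx : x ∈ S
  · have : (fun x => a x * ζ x) =ᶠ[𝓝 x] fun _ => (0 : ℝ) := by
      filter_upwards [h0 x hx] with y hy
      rw [hy, zero_mul]
    exact contDiffAt_const.congr_of_eventuallyEq this
  · exact ha.contDiffAt.mul (hζ.contDiffAt (hS.isOpen_compl.mem_nhds hx))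

theorem smooth_smul_sing {ζ : E2 → ℝ} {a : E2 → E2} {S : Set E2} (hS : IsClosed S)
    (hζ : ContDiffOn ℝ ∞ ζ Sᶜ) (ha : ContDiff ℝ ∞ a) (h0 : ∀ x ∈ S, ∀ᶠ y in 𝓝 x, a y = 0) :
    ContDiff ℝ ∞ (fun x => ζ x • a x) := by
  rw [contDiff_iff_contDiffAt]
  intro x
  by_cases hx : x ∈ S
  · have : (fun x => ζ x • a x) =ᶠ[𝓝 x] fun _ => (0 : E2) := by
      filter_upwards [h0 x hx] with y hy
      rw [hy, smul_zero]
    exact contDiffAt_const.congr_of_eventuallyEq this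
  · exact (hζ.contDiffAt (hS.isOpen_compl.mem_nhds hx)).smul ha.contDiffAt

theorem grad_near_zero {f : E2 → ℝ} {x : E2} {c : ℝ} (h : ∀ᶠ y in 𝓝 x, f y = c) :
    ∀ᶠ y in 𝓝 x, ∇ f y = 0 := by
  filter_upwards [h.eventually_nhds] with y hy
  exact grad_eq_zero_of_near hy

/-- the boundary form of Green's formula -/
noncomputable def Mg (η p ζ : E2 → ℝ) : ℝ :=
  ∫ x, (ζ x * ⟪∇ η x, ∇ p x⟫_ℝ - p x * ⟪∇ η x, ∇ ζ x⟫_ℝ)

/-- **Green's formula**: the pairing of `∇ ue` with the field `∇ (κ ζ₀)`. -/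
theorem green_pair {u : E2 → ℝ} {K1 K2 : Set E2} {ρ : ℝ} {ζ ue p : E2 → ℝ}
    (D : Dat u K1 K2 ρ ζ ue p) {η : E2 → ℝ} (hη : ContDiff ℝ ∞ η)
    (hηc : HasCompactSupport η) (hηs : tsupport η ⊆ thickening (3 * ρ) K1)
    {ζ₀ : E2 → ℝ} {S : Set E2} (hS : Sing ζ₀ S) (hη1 : ∀ x ∈ S, ∀ᶠ y in 𝓝 x, η y = 1)
    {κ : E2 → ℝ} (hκ : ContDiff ℝ ∞ κ) (hκc : HasCompactSupport κ)
    (hκ1 : ∀ x ∈ S, ∀ᶠ y in 𝓝 x, κ y = 1) :
    Integrable (fun x => ⟪∇ ue x, κ x • ∇ ζ₀ x + ζ₀ x • ∇ κ x⟫_ℝ) ∧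
    ∫ x, ⟪∇ ue x, κ x • ∇ ζ₀ x + ζ₀ x • ∇ κ x⟫_ℝ = Mg η p ζ₀ := by
  have hSc : IsClosed S := hS.cpt.isClosed
  have haeS : ∀ᵐ x : E2, x ∉ S := by rw [ae_iff]; simpa using hS.null
  have dζ : ∀ x ∉ S, DifferentiableAt ℝ ζ₀ x := fun x hx =>
    (hS.smooth.contDiffAt (hSc.isOpen_compl.mem_nhds hx)).differentiableAt (by simp)
  have dsm : ∀ {f : E2 → ℝ}, ContDiff ℝ ∞ f → ∀ x, DifferentiableAt ℝ f x := fun hf x =>
    (hf.differentiable (by simp)).differentiableAt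
  -- the smooth part
  have hq : ContDiff ℝ ∞ (fun x => (κ x - η x) * ζ₀ x) := by
    refine smooth_mul_sing hSc hS.smooth (hκ.sub hη) fun x hx => ?_
    filter_upwards [hκ1 x hx, hη1 x hx] with y hy hy'
    rw [hy, hy', sub_self]
  have hqc : HasCompactSupport (fun x => (κ x - η x) * ζ₀ x) := (hκc.sub hηc).mul_right
  have h1 := D.Ydiv _ hq hqc
  have i1 : Integrable (fun x => ⟪∇ ue x, ∇ (fun x => (κ x - η x) * ζ₀ x) x⟫_ℝ) :=
    integrable_inner_loc D.Yl2 (contDiff_grad hq).continuous (hasCompactSupport_grad hqc)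
  -- the part near the crack
  have hηp : ContDiff ℝ ∞ (fun x => η x * p x) := hη.mul D.psm
  have hηpc : HasCompactSupport (fun x => η x * p x) := hηc.mul_right
  have h2 := hS.divfree _ hηp hηpc
  have hζη : ContDiff ℝ ∞ (fun x => ζ₀ x • ∇ η x) :=
    smooth_smul_sing hSc hS.smooth (contDiff_grad hη) fun x hx => grad_near_zero (hη1 x hx)
  have cp := (contDiff_grad D.psm).continuous
  have cη := (contDiff_grad hη).continuous
  have i2 : Integrable (fun x => η x * ⟪∇ ζ₀ x, ∇ p x⟫_ℝ) := by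
    have hcs : HasCompactSupport (fun x => η x • ∇ p x) :=
      HasCompactSupport.intro hηc fun x hx => by
        rw [image_eq_zero_of_notMem_tsupport hx, zero_smul]
    have := integrable_inner_loc (fun R => hS.l2.restrict _) (hη.continuous.smul cp) hcs
    refine this.congr (Eventually.of_forall fun x => ?_)
    simp only [Pi.smul_apply', inner_smul_right]
  have i3 : Integrable (fun x => p x * ⟪∇ ζ₀ x, ∇ η x⟫_ℝ) := by
    have hcs : HasCompactSupport (fun x => p x • ∇ η x) :=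
      HasCompactSupport.intro hηc fun x hx => by
        rw [grad_notMem_tsupport hx, smul_zero]
    have := integrable_inner_loc (fun R => hS.l2.restrict _) (D.psm.continuous.smul cη) hcs
    refine this.congr (Eventually.of_forall fun x => ?_)
    simp only [Pi.smul_apply', inner_smul_right]
  have i4 : Integrable (fun x => ζ₀ x * ⟪∇ p x, ∇ η x⟫_ℝ) := by
    refine (int_cc (cp.inner hζη.continuous) hηc fun x hx => ?_).congr
      (Eventually.of_forall fun x => ?_)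
    · rw [grad_notMem_tsupport hx, smul_zero, inner_zero_right]
    · simp only [inner_smul_right]
  have h3 : (∫ x, η x * ⟪∇ ζ₀ x, ∇ p x⟫_ℝ) + ∫ x, p x * ⟪∇ ζ₀ x, ∇ η x⟫_ℝ = 0 := by
    rw [← integral_add i2 i3, ← h2]
    refine integral_congr_ae (Eventually.of_forall fun x => ?_)
    simp only
    rw [grad_mul (dsm hη x) (dsm D.psm x), inner_add_right, inner_smul_right, inner_smul_right]
  have hYp : ∀ x ∈ tsupport η, ∇ ue x = ∇ p x := by
    intro x hx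
    refine gradient_congr_of_eventuallyEq ?_
    filter_upwards [isOpen_thickening.mem_nhds (hηs hx)] with y hy
    exact D.near y hy
  have hpt : ∀ᵐ x, ⟪∇ ue x, κ x • ∇ ζ₀ x + ζ₀ x • ∇ κ x⟫_ℝ =
      ⟪∇ ue x, ∇ (fun x => (κ x - η x) * ζ₀ x) x⟫_ℝ +
        (η x * ⟪∇ ζ₀ x, ∇ p x⟫_ℝ + ζ₀ x * ⟪∇ p x, ∇ η x⟫_ℝ) := by
    filter_upwards [haeS] with x hx
    have e1 : ∇ (fun x => (κ x - η x) * ζ₀ x) x =
        (κ x - η x) • ∇ ζ₀ x + ζ₀ x • (∇ κ x - ∇ η x) := by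
      rw [grad_mul (f := fun x => κ x - η x) ((dsm hκ x).sub (dsm hη x)) (dζ x hx),
        grad_sub (dsm hκ x) (dsm hη x)]
    have e2 : η x * ⟪∇ ζ₀ x, ∇ p x⟫_ℝ + ζ₀ x * ⟪∇ p x, ∇ η x⟫_ℝ =
        ⟪∇ ue x, η x • ∇ ζ₀ x + ζ₀ x • ∇ η x⟫_ℝ := by
      by_cases hxs : x ∈ tsupport η
      · rw [hYp x hxs, inner_add_right, inner_smul_right, inner_smul_right, real_inner_comm]
      · rw [image_eq_zero_of_notMem_tsupport hxs, grad_notMem_tsupport hxs]; simp
    rw [e2, e1, ← inner_add_right]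
    congr 1
    module
  have i5 := i1.add (i2.add i4)
  constructor
  · exact i5.congr (hpt.mono fun x hx => hx.symm)
  · rw [integral_congr_ae hpt]
    have e5 := integral_add i1 (i2.add i4)
    have e6 := integral_add i2 i4
    simp only [Pi.add_apply] at e5
    rw [e5, e6, h1, zero_add]
    unfold Mg
    have i4' : Integrable (fun x => ζ₀ x * ⟪∇ η x, ∇ p x⟫_ℝ) := by
      refine i4.congr (Eventually.of_forall fun x => ?_)
      simp only [real_inner_comm]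
    have i3' : Integrable (fun x => p x * ⟪∇ η x, ∇ ζ₀ x⟫_ℝ) := by
      refine i3.congr (Eventually.of_forall fun x => ?_)
      simp only [real_inner_comm]
    rw [integral_sub i4' i3']
    have e7 : ∫ x, ζ₀ x * ⟪∇ η x, ∇ p x⟫_ℝ = ∫ x, ζ₀ x * ⟪∇ p x, ∇ η x⟫_ℝ := by
      simp only [real_inner_comm]
    have e8 : ∫ x, p x * ⟪∇ η x, ∇ ζ₀ x⟫_ℝ = ∫ x, p x * ⟪∇ ζ₀ x, ∇ η x⟫_ℝ := by
      simp only [real_inner_comm]
    rw [e7, e8]
    linarith

end Crest.Agent.R135.Earn
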