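import Crest.Agent.R135.EarnKeeps
import Crest.Agent.R135.QMOps
import Crest.Agent.R097.Harm

/-!
# R135, Earnshaw block (helper391), part 3: harmonicity off the crack, the decomposition `u = ζ + ue`
-/

set_option autoImplicit false
open MeasureTheory Metric Set Filter Topology Laplacian InnerProductSpace
open scoped RealInnerProductSpace NNReal ENNReal ContDiff Gradient Convolution

namespace Crest.Agent.R135.Earn

open Crest.Agent.R097 (bv Harm laplacian_eq_sum gradient_coord inner_gradient norm_gradient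
  exists_cutoff green1)
open Crest.Agent.R135.Reg

/-! ### gradient calculus -/

theorem grad_add {f g : E2 → ℝ} {x : E2} (hf : DifferentiableAt ℝ f x)
    (hg : DifferentiableAt ℝ g x) : ∇ (fun y => f y + g y) x = ∇ f x + ∇ g x := by
  unfold gradient; rw [fderiv_fun_add hf hg, map_add]

theorem grad_sub {f g : E2 → ℝ} {x : E2} (hf : DifferentiableAt ℝ f x)
    (hg : DifferentiableAt ℝ g x) : ∇ (fun y => f y - g y) x = ∇ f x - ∇ g x := by
  unfold gradient; rw [fderiv_fun_sub hf hg, map_sub]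

theorem grad_mul {f g : E2 → ℝ} {x : E2} (hf : DifferentiableAt ℝ f x)
    (hg : DifferentiableAt ℝ g x) :
    ∇ (fun y => f y * g y) x = f x • ∇ g x + g x • ∇ f x := by
  unfold gradient
  rw [fderiv_fun_mul hf hg, map_add]
  simp

theorem grad_eq_zero_of_near {f : E2 → ℝ} {x : E2} {c : ℝ} (h : ∀ᶠ y in 𝓝 x, f y = c) :
    ∇ f x = 0 := gradient_eq_zero_of_eventually_const c h

theorem grad_notMem_tsupport {f : E2 → ℝ} {x : E2} (h : x ∉ tsupport f) : ∇ f x = 0 := by
  rw [notMem_tsupport_iff_eventuallyEq] at h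
  exact grad_eq_zero_of_near h

theorem contDiff_grad {f : E2 → ℝ} (hf : ContDiff ℝ ∞ f) : ContDiff ℝ ∞ (fun x => ∇ f x) :=
  Crest.Agent.R097.contDiff_gradient hf (by simp)

theorem hasCompactSupport_grad {f : E2 → ℝ} (hc : HasCompactSupport f) :
    HasCompactSupport (fun x => ∇ f x) := by
  refine HasCompactSupport.intro hc fun x hx => grad_notMem_tsupport hx

theorem integrable_inner_of_cs {V W : E2 → E2} (hV : Continuous V) (hW : Continuous W)
    (hc : HasCompactSupport W) : Integrable (fun x => ⟪V x, W x⟫_ℝ) := by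
  refine (hV.inner hW).integrable_of_hasCompactSupport ?_
  refine HasCompactSupport.intro hc fun x hx => ?_
  rw [image_eq_zero_of_notMem_tsupport hx, inner_zero_right]

/-- Green's identity with smooth compactly supported test function. -/
theorem green_s {f φ : E2 → ℝ} (hf : ContDiff ℝ ∞ f) (hφ : ContDiff ℝ ∞ φ)
    (hc : HasCompactSupport φ) : ∫ x, ⟪∇ f x, ∇ φ x⟫_ℝ = - ∫ x, φ x * (Δ f) x := by
  obtain ⟨C, hC⟩ := Crest.Agent.R097.lip_of_contDiff_compact (contDiff_infty.mp hφ 1) hc
  rw [← green1 (contDiff_infty.mp hf 2) hC hc]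
  refine integral_congr_ae (Eventually.of_forall fun x => ?_)
  simp only
  rw [← inner_gradient, real_inner_comm]

/-! ### consequences of the Euler-Lagrange equation -/

section EL
variable {u : E2 → ℝ} {K : Set E2}

theorem isOpen_compl_K (h : IsQM univ 0 u K) : IsOpen Kᶜ := by
  have := h.isOpen_diff
  rwa [← compl_eq_univ_sdiff] at this

theorem isClosed_K (h : IsQM univ 0 u K) : IsClosed K := isOpen_compl_iff.1 (isOpen_compl_K h)

theorem ae_notMem_K (h : IsQM univ 0 u K) : ∀ᵐ x : E2, x ∉ K := by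
  rw [ae_iff]; simpa using h.volume_K

/-- Euler-Lagrange equation of a global object. -/
theorem el0 (h : IsQM univ 0 u K) {φ : E2 → ℝ} (hφ : IsTest univ K φ) :
    ∫ x, ⟪∇ u x, ∇ φ x⟫_ℝ = 0 := by
  obtain ⟨f, -, hf0, hf⟩ := h.el
  have h1 := hf φ hφ
  have h2 : ∀ x, f x = 0 := fun x => abs_eq_zero.1 (le_antisymm (hf0 x) (abs_nonneg _))
  simp only [h2, zero_mul, integral_zero, neg_zero] at h1
  rw [← h1, ← compl_eq_univ_sdiff]
  symm
  have := setIntegral_univ (μ := (volume : Measure E2)) (f := fun x => ⟪∇ u x, ∇ φ x⟫_ℝ)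
  rw [← this]
  refine setIntegral_congr_set ?_
  rw [compl_eq_univ_sdiff]
  exact sdiff_null_ae_eq_self h.volume_K

theorem isTest_of_smooth {φ : E2 → ℝ} (hφ : ContDiff ℝ ∞ φ) (hc : HasCompactSupport φ)
    (K : Set E2) : IsTest univ K φ where
  lip := fun x _ => by
    obtain ⟨C, t, ht, hC⟩ := lipAt_of_contDiffAt ((contDiff_infty.mp hφ 1).contDiffAt (x := x))
    exact ⟨C, t, mem_nhdsWithin_of_mem_nhds ht, hC⟩
  bdd := by
    obtain ⟨C, hC⟩ := hc.exists_bound_of_continuous hφ.continuous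
    exact ⟨C, fun y => by simpa using hC y⟩
  supp := ⟨tsupport φ, hc, subset_univ _, fun y hy => image_eq_zero_of_notMem_tsupport hy⟩
  dir_fin := by
    unfold dirE
    have h1 : MemLp (fun x => ∇ φ x) 2 volume :=
      (contDiff_grad hφ).continuous.memLp_of_hasCompactSupport (hasCompactSupport_grad hc)
    have h2 := h1.2
    rw [eLpNorm_lt_top_iff_lintegral_rpow_enorm_lt_top (by norm_num) (by norm_num)] at h2
    refine lt_of_le_of_lt (setLIntegral_le_lintegral _ _) ?_
    simpa using h2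

theorem el_smooth (h : IsQM univ 0 u K) {φ : E2 → ℝ} (hφ : ContDiff ℝ ∞ φ)
    (hc : HasCompactSupport φ) : ∫ x, ⟪∇ u x, ∇ φ x⟫_ℝ = 0 :=
  el0 h (isTest_of_smooth hφ hc K)

/-- `u` is harmonic off `K`. -/
theorem harm_u (h : IsQM univ 0 u K) : Harm u Kᶜ := by
  have hO := isOpen_compl_K h
  have hc1 : ContDiffOn ℝ 1 u Kᶜ := by
    have := h.c1
    rwa [← compl_eq_univ_sdiff] at this
  have hlip : LocallyLipschitzOn Kᶜ u :=
    (locallyLipschitzOn_iff_lipAt hO).2 fun x hx => lipAt_of_contDiffOn hO hc1 hx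
  have hw := isWeakGradOn_of_locallyLipschitzOn hO hlip
  obtain ⟨v, hv, hae, -⟩ := Crest.Agent.R097.weyl_grad hO hw (by
    intro φ hφ hc hs
    rw [← el_smooth h hφ hc]
    refine setIntegral_eq_integral_of_forall_compl_eq_zero fun x hx => ?_
    rw [grad_notMem_tsupport (fun h => hx (hs h)), inner_zero_right])
  have heq : ∀ x ∈ Kᶜ, u x = v x := by
    have := Measure.eqOn_open_of_ae_eq (μ := (volume : Measure E2)) hae hO hc1.continuousOn
      hv.1.continuousOn
    exact this
  refine ⟨hv.1.congr heq, fun x hx => ?_⟩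
  have hev : u =ᶠ[𝓝 x] v := by
    filter_upwards [hO.mem_nhds hx] with y hy
    exact heq y hy
  rw [Crest.Agent.R097.Hm.lap_congr_at hev, hv.2 x hx]

end EL

end Crest.Agent.R135.Earn
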