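import Crest.Agent.R135.EarnTrans

/-! # R135, Earnshaw block: dilations (statement helper391, proof helper823) -/

set_option autoImplicit false
open MeasureTheory Metric Set Filter Topology Laplacian InnerProductSpace
open scoped RealInnerProductSpace NNReal ENNReal ContDiff Gradient Convolution

namespace Crest.Agent.R135.Earn

open Crest.Agent.R097 (bv Harm laplacian_eq_sum gradient_coord inner_gradient norm_gradient
  exists_cutoff green1)
open Crest.Agent.R135.Reg

variable {u : E2 → ℝ} {K K1 K2 : Set E2} {ρ : ℝ} {ζ ue p η : E2 → ℝ}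

theorem Mg_dil (D : Dat u K1 K2 ρ ζ ue p) (hc : Cut K1 ρ η)
    (hconst : ∀ x ∈ K1, ∀ y ∈ ball x ρ, ∇ p y = ∇ p x) (a : E2) {r : ℝ} (hr : 0 < r)
    (hclose : ∀ x ∈ K1, dist (r⁻¹ • (x - a)) x < ρ) :
    Mg η p (mv ζ a r) = (r ^ 2)⁻¹ * Mg η p ζ := by
  have dsm : ∀ {f : E2 → ℝ}, ContDiff ℝ ∞ f → ∀ x, DifferentiableAt ℝ f x := fun hf x =>
    (hf.differentiable (by simp)).differentiableAt
  set f : E2 → ℝ := fun y => η y * p y with hf
  have hfs : ContDiff ℝ ∞ f := hc.sm.mul D.psm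
  have hfc : HasCompactSupport f := hc.cs.mul_right
  set s : E2 → E2 := fun y => -(r⁻¹ • a) + r⁻¹ • y with hs
  have hs' : ∀ y, s y = r⁻¹ • (y - a) := fun y => by
    simp only [hs, smul_sub]; abel
  have hsa : ∀ x, s (a + r • x) = x := fun x => by
    rw [hs', add_sub_cancel_left, smul_smul, inv_mul_cancel₀ hr.ne', one_smul]
  have hssm : ContDiff ℝ ∞ s := by fun_prop
  have hsc : Continuous s := hssm.continuous
  set W : E2 → ℝ := fun y => r * f (s y) - f y with hW
  have hfss : ContDiff ℝ ∞ (fun y => f (s y)) := hfs.comp hssm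
  have hfsc : HasCompactSupport (fun y => f (s y)) := by
    have : (fun y => f (s y)) = f ∘ (scH (-(r⁻¹ • a)) r⁻¹ (inv_ne_zero hr.ne')) := rfl
    rw [this]
    exact hfc.comp_homeomorph _
  have hWs : ContDiff ℝ ∞ W := (contDiff_const.mul hfss).sub hfs
  have hWc : HasCompactSupport W := (hfsc.mul_left (f := fun _ => r)).sub hfc
  have hgfs : ∀ y, ∇ (fun y => f (s y)) y = r⁻¹ • ∇ f (s y) := fun y =>
    grad_comp_aff f (-(r⁻¹ • a)) y r⁻¹
  have hWg : ∀ y, ∇ W y = ∇ f (s y) - ∇ f y := by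
    intro y
    rw [hW, grad_sub (f := fun y => r * f (s y)) ((dsm hfss y).const_mul r) (dsm hfs y),
      gradient_const_mul, hgfs, smul_smul, mul_inv_cancel₀ hr.ne', one_smul]
  -- `∇ W = 0` near `K1`
  have hfp : ∀ x ∈ K1, ∀ y ∈ ball x ρ, ∇ f y = ∇ p x := by
    intro x hx y hy
    have h1 : y ∈ cthickening ρ K1 :=
      thickening_subset_cthickening _ _ (mem_thickening_iff.2 ⟨x, hx, mem_ball.1 hy⟩)
    have h2 : f =ᶠ[𝓝 y] p := by
      filter_upwards [hc.one y h1] with z hz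
      rw [hf]; simp only; rw [hz, one_mul]
    rw [gradient_congr_of_eventuallyEq h2, hconst x hx y hy]
  have hW0 : ∀ y ∈ K1, ∀ᶠ z in 𝓝 y, ∇ W z = 0 := by
    intro y hy
    have h1 : ∀ᶠ z in 𝓝 y, z ∈ ball y ρ := ball_mem_nhds y D.ρpos
    have h2 : ∀ᶠ z in 𝓝 y, s z ∈ ball y ρ := by
      refine hsc.continuousAt.eventually (isOpen_ball.mem_nhds ?_)
      rw [hs', mem_ball]; exact hclose y hy
    filter_upwards [h1, h2] with z hz1 hz2
    rw [hWg, hfp y hy _ hz2, hfp y hy _ hz1, sub_self]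
  -- the compact set
  set N1 := tsupport (fderiv ℝ η) with hN1
  have hN1c : IsCompact N1 := hc.cs.fderiv (𝕜 := ℝ)
  have hN1out : ∀ x ∈ N1, x ∉ cthickening ρ K1 := by
    intro x hx hxS
    rw [hN1] at hx
    refine (notMem_tsupport_iff_eventuallyEq.2 ?_) hx
    filter_upwards [(hc.one x hxS).eventually_nhds] with y hy
    have : η =ᶠ[𝓝 y] fun _ => (1 : ℝ) := hy
    rw [this.fderiv_eq]; simp
  set N2 : Set E2 := (fun x => a + r • x) '' N1 with hN2
  have hN2c : IsCompact N2 := hN1c.image (by fun_prop)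
  set N3 := tsupport (fun x => ∇ W x) with hN3
  have hN3c : IsCompact N3 := hasCompactSupport_grad hWc
  have hNK : N1 ∪ N2 ∪ N3 ⊆ K1ᶜ := by
    rintro x ((hx | hx) | hx) hxK
    · exact hN1out x hx (self_subset_cthickening _ hxK)
    · obtain ⟨z, hz, rfl⟩ := hx
      refine hN1out z hz (thickening_subset_cthickening _ _ (mem_thickening_iff.2 ⟨_, hxK, ?_⟩))
      have h := hclose _ hxK
      simp only at h
      rwa [← hs', hsa] at h
    · exact (notMem_tsupport_iff_eventuallyEq.2 (hW0 x hxK)) hx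
  obtain ⟨g, hg, hgc, hgu⟩ := Crest.Agent.R097.Hm.exists_ext (m := (⊤ : ℕ∞))
    D.sing.cpt.isClosed.isOpen_compl D.sing.smooth ((hN1c.union hN2c).union hN3c) hNK
  have hgs : ContDiff ℝ ∞ g := hg
  -- first side
  have hgr : ContDiff ℝ ∞ (fun x => r⁻¹ * g (a + r • x)) := by
    have : ContDiff ℝ ∞ (fun x : E2 => a + r • x) := by fun_prop
    exact contDiff_const.mul (hgs.comp this)
  have hgrc : HasCompactSupport (fun x => r⁻¹ * g (a + r • x)) := by
    have h1 : HasCompactSupport (fun x => g (a + r • x)) := by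
      have : (fun x => g (a + r • x)) = g ∘ (scH a r hr.ne') := rfl
      rw [this]
      exact hgc.comp_homeomorph _
    exact h1.mul_left
  have hgrg : ∀ x, ∇ (fun x => r⁻¹ * g (a + r • x)) x = ∇ g (a + r • x) := fun x =>
    grad_mv g a hr x
  have e1 : Mg η p (mv ζ a r) = - ((r ^ 2)⁻¹ * ∫ y, ⟪∇ f (s y), ∇ g y⟫_ℝ) := by
    have hSη : ∀ x ∈ rescK K1 a r, ∀ᶠ y in 𝓝 x, η y = 1 := by
      intro x hx
      have hx' : a + r • x ∈ K1 := hx
      refine hc.one x (thickening_subset_cthickening _ _ (mem_thickening_iff.2 ⟨_, hx', ?_⟩))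
      have h := hclose _ hx'
      rwa [← hs', hsa] at h
    rw [Mg_eq_bet D hc (sing_mv D.sing a hr) hSη]
    have h1 : ∫ x, mv ζ a r x * bet η p x = ∫ x, (r⁻¹ * g (a + r • x)) * (Δ f) x := by
      refine integral_congr_ae (Eventually.of_forall fun x => ?_)
      simp only
      by_cases hx : x ∈ N1
      · have h2 := (hgu (a + r • x) (Or.inl (Or.inr ⟨x, hx, rfl⟩))).eq_of_nhds
        unfold mv bet
        rw [h2]
      · have h3 : bet η p x = 0 := bet_zero D hc hx
        rw [h3]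
        unfold bet at h3
        rw [h3, mul_zero, mul_zero]
    rw [h1]
    have h2 := green_s hfs hgr hgrc
    have h3 : ∫ x, ⟪∇ f x, ∇ (fun x => r⁻¹ * g (a + r • x)) x⟫_ℝ =
        (r ^ 2)⁻¹ * ∫ y, ⟪∇ f (s y), ∇ g y⟫_ℝ := by
      rw [← smul_eq_mul, ← integral_aff0 (fun y => ⟪∇ f (s y), ∇ g y⟫_ℝ) a hr]
      refine integral_congr_ae (Eventually.of_forall fun x => ?_)
      simp only
      rw [hgrg, hsa]
    linarith
  have e2 : Mg η p ζ = - ∫ y, ⟪∇ f y, ∇ g y⟫_ℝ := by
    rw [Mg_eq_bet D hc D.sing (fun x hx => hc.one x (self_subset_cthickening _ hx))]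
    have h1 : ∫ x, ζ x * bet η p x = ∫ x, g x * (Δ f) x := by
      refine integral_congr_ae (Eventually.of_forall fun x => ?_)
      simp only
      by_cases hx : x ∈ N1
      · rw [(hgu x (Or.inl (Or.inl hx))).eq_of_nhds]; rfl
      · have h3 : bet η p x = 0 := bet_zero D hc hx
        rw [h3]
        unfold bet at h3
        rw [h3, mul_zero, mul_zero]
    rw [h1]
    have h2 := green_s hfs hgs hgc
    linarith
  -- equality of the two
  have i1 : Integrable (fun y => ⟪∇ f (s y), ∇ g y⟫_ℝ) :=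
    integrable_inner_of_cs ((contDiff_grad hfs).continuous.comp hsc)
      (contDiff_grad hgs).continuous (hasCompactSupport_grad hgc)
  have i2 : Integrable (fun y => ⟪∇ f y, ∇ g y⟫_ℝ) :=
    integrable_inner_of_cs (contDiff_grad hfs).continuous
      (contDiff_grad hgs).continuous (hasCompactSupport_grad hgc)
  have e3 : (∫ y, ⟪∇ f (s y), ∇ g y⟫_ℝ) - ∫ y, ⟪∇ f y, ∇ g y⟫_ℝ = 0 := by
    rw [← integral_sub i1 i2, ← D.sing.divfree W hWs hWc]
    refine integral_congr_ae (Eventually.of_forall fun y => ?_)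
    simp only
    rw [← inner_sub_left, ← hWg, real_inner_comm]
    by_cases hy : y ∈ N3
    · rw [gradient_congr_of_eventuallyEq (hgu y (Or.inr hy))]
    · have : ∇ W y = 0 := image_eq_zero_of_notMem_tsupport hy
      rw [this, inner_zero_right, inner_zero_right]
  rw [e1, e2, sub_eq_zero.1 e3]
  ring

end Crest.Agent.R135.Earn
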