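import Crest.Agent.R135.EarnNeu

/-! # R135, Earnshaw block: frame lemma -/

set_option autoImplicit false
open MeasureTheory Metric Set Filter Topology Laplacian InnerProductSpace
open scoped RealInnerProductSpace NNReal ENNReal ContDiff Gradient Convolution

namespace Crest.Agent.R135.Earn

open Crest.Agent.R097 (bv Harm laplacian_eq_sum gradient_coord inner_gradient norm_gradient
  exists_cutoff green1)
open Crest.Agent.R135.Reg

namespace Frame

theorem inner2 (a b : E2) : ⟪a, b⟫_ℝ = a 0 * b 0 + a 1 * b 1 := by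
  simp [PiLp.inner_apply, Fin.sum_univ_two, mul_comm]

theorem dsm {f : E2 → ℝ} (hf : ContDiff ℝ ∞ f) (x : E2) : DifferentiableAt ℝ f x :=
  (hf.differentiable (by simp)).differentiableAt

/-- a product of a smooth compactly supported function and a jump test function is a jump test
function -/
theorem jump_mul {K : Set E2} (hK : IsClosed K) {r : E2 → ℝ} (hr : ContDiff ℝ ∞ r)
    {φ : E2 → ℝ} (h1 : ContDiffOn ℝ 1 φ Kᶜ) (h2 : ∃ M, ∀ y, |φ y| ≤ M) {C : Set E2}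
    (hC : IsCompact C) (h3 : ∀ y, y ∉ C → φ y = 0) (h4 : dirE φ K univ < ⊤) :
    ContDiffOn ℝ 1 (fun y => r y * φ y) Kᶜ ∧ (∃ M, ∀ y, |r y * φ y| ≤ M) ∧
      (∀ y, y ∉ C → r y * φ y = 0) ∧ dirE (fun y => r y * φ y) K univ < ⊤ := by
  obtain ⟨M, hM⟩ := h2
  obtain ⟨A, hA⟩ := hC.exists_bound_of_continuousOn hr.continuous.continuousOn
  obtain ⟨B, hB⟩ := hC.exists_bound_of_continuousOn (contDiff_grad hr).continuous.continuousOn
  have hM0 : 0 ≤ M := (abs_nonneg _).trans (hM 0)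
  have h0 : ∀ y, y ∉ C → r y * φ y = 0 := fun y hy => by rw [h3 y hy, mul_zero]
  refine ⟨(contDiff_infty.mp hr 1).contDiffOn.mul h1, ?_, h0, ?_⟩
  · refine ⟨|A| * M, fun y => ?_⟩
    by_cases hy : y ∈ C
    · rw [abs_mul]
      exact mul_le_mul ((hA y hy).trans (le_abs_self _)) (hM y) (abs_nonneg _) (abs_nonneg _)
    · rw [h0 y hy, abs_zero]; positivity
  · have key : ∀ y ∈ univ \ K, ‖∇ (fun y => r y * φ y) y‖ₑ ^ 2 ≤
        ENNReal.ofReal (2 * A ^ 2) * ‖∇ φ y‖ₑ ^ 2 +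
          C.indicator (fun _ => ENNReal.ofReal (2 * (M * B) ^ 2)) y := by
      intro y hy
      by_cases hyC : y ∈ C
      · have hd : DifferentiableAt ℝ φ y :=
          (h1.contDiffAt (hK.isOpen_compl.mem_nhds hy.2)).differentiableAt (by simp)
        rw [grad_mul (dsm hr y) hd, indicator_of_mem hyC, ← ofReal_norm, ← ofReal_norm,
          ← ENNReal.ofReal_pow (norm_nonneg _), ← ENNReal.ofReal_pow (norm_nonneg _),
          ← ENNReal.ofReal_mul (by positivity), ← ENNReal.ofReal_add (by positivity)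
          (by positivity)]
        apply ENNReal.ofReal_le_ofReal
        have n1 : ‖r y • ∇ φ y + φ y • ∇ r y‖ ≤ A * ‖∇ φ y‖ + M * B := by
          refine (norm_add_le _ _).trans ?_
          rw [norm_smul, norm_smul]
          have := hA y hyC
          have := hB y hyC
          have := hM y
          gcongr
          exact hM y
        have n2 : 0 ≤ A * ‖∇ φ y‖ + M * B := (norm_nonneg _).trans n1
        calc ‖r y • ∇ φ y + φ y • ∇ r y‖ ^ 2 ≤ (A * ‖∇ φ y‖ + M * B) ^ 2 := by gcongr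
          _ ≤ _ := by nlinarith [sq_nonneg (A * ‖∇ φ y‖ - M * B)]
      · have : ∇ (fun y => r y * φ y) y = 0 := by
          refine grad_eq_zero_of_near (c := 0) ?_
          filter_upwards [hC.isClosed.isOpen_compl.mem_nhds hyC] with z hz
          exact h0 z hz
        rw [this]; simp
    unfold dirE at h4 ⊢
    have hms : MeasurableSet (univ \ K : Set E2) := MeasurableSet.univ.diff hK.measurableSet
    refine (setLIntegral_mono' hms key).trans_lt ?_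
    rw [lintegral_add_right _ (measurable_const.indicator hC.measurableSet),
      lintegral_const_mul' _ _ ENNReal.ofReal_ne_top, lintegral_indicator_const hC.measurableSet]
    refine ENNReal.add_lt_top.2 ⟨ENNReal.mul_lt_top ENNReal.ofReal_lt_top h4,
      ENNReal.mul_lt_top ENNReal.ofReal_lt_top ?_⟩
    exact (Measure.restrict_apply_le _ _).trans_lt hC.measure_lt_top

/-- the divergence identity -/
theorem div_zero {q₀ q₁ r₀ r₁ : E2 → ℝ} (hq₀ : ContDiff ℝ ∞ q₀) (hq₁ : ContDiff ℝ ∞ q₁)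
    (hr₀ : ContDiff ℝ ∞ r₀) (hr₁ : ContDiff ℝ ∞ r₁) {y e : E2} (h0 : (Δ q₀) y = 0)
    (h1 : (Δ q₁) y = 0) (h : ∀ᶠ z in 𝓝 y, r₀ z • (∇ q₀ z) + r₁ z • (∇ q₁ z) = e) :
    ⟪∇ q₀ y, ∇ r₀ y⟫_ℝ + ⟪∇ q₁ y, ∇ r₁ y⟫_ℝ = 0 := by
  have hi : ∀ i : Fin 2, fderiv ℝ r₀ y (bv i) * fderiv ℝ q₀ y (bv i) +
      r₀ y * fderiv ℝ (fun z => fderiv ℝ q₀ z (bv i)) y (bv i) +
      (fderiv ℝ r₁ y (bv i) * fderiv ℝ q₁ y (bv i) +
      r₁ y * fderiv ℝ (fun z => fderiv ℝ q₁ z (bv i)) y (bv i)) = 0 := by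
    intro i
    have e1 : (fun z => r₀ z * fderiv ℝ q₀ z (bv i) + r₁ z * fderiv ℝ q₁ z (bv i)) =ᶠ[𝓝 y]
        fun _ => e i := by
      filter_upwards [h] with z hz
      rw [← hz]
      simp only [PiLp.add_apply, PiLp.smul_apply, smul_eq_mul, gradient_coord]
    have e2 := e1.fderiv_eq (𝕜 := ℝ)
    have d0 := dsm (contDiff_fd hq₀ (bv i)) y
    have d1 := dsm (contDiff_fd hq₁ (bv i)) y
    rw [fderiv_fun_add ((dsm hr₀ y).fun_mul d0) ((dsm hr₁ y).fun_mul d1),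
      fderiv_fun_mul (dsm hr₀ y) d0, fderiv_fun_mul (dsm hr₁ y) d1] at e2
    have e3 := congrArg (fun L : E2 →L[ℝ] ℝ => L (bv i)) e2
    simp only [add_apply, smul_apply, smul_eq_mul,
      fderiv_fun_const, Pi.zero_apply, zero_apply] at e3
    linarith
  rw [lap_two ((contDiff_infty.mp hq₀ 2).contDiffAt)] at h0
  rw [lap_two ((contDiff_infty.mp hq₁ 2).contDiffAt)] at h1
  rw [inner2, inner2, gradient_coord, gradient_coord, gradient_coord, gradient_coord,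
    gradient_coord, gradient_coord, gradient_coord, gradient_coord]
  have a0 := hi 0
  have a1 := hi 1
  linear_combination a0 + a1 - r₀ y * h0 - r₁ y * h1

end Frame

/-- two independent divergence-free fields tangent to `K` ⇒ no jump test function feels `K` -/
theorem frame {K : Set E2} (hK : IsClosed K) (hK0 : volume K = 0) {x : E2} {s : ℝ} (hs : 0 < s)
    {q₀ q₁ : E2 → ℝ} (hq₀ : ContDiff ℝ ∞ q₀) (hq₁ : ContDiff ℝ ∞ q₁)
    (hh₀ : ∀ y ∈ ball x s, (Δ q₀) y = 0) (hh₁ : ∀ y ∈ ball x s, (Δ q₁) y = 0)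
    (hind : (∇ q₀ x) 0 * (∇ q₁ x) 1 - (∇ q₀ x) 1 * (∇ q₁ x) 0 ≠ 0)
    (hN : ∀ φ : E2 → ℝ, ContDiffOn ℝ 1 φ Kᶜ → (∃ M, ∀ y, |φ y| ≤ M) →
      (∃ C, IsCompact C ∧ C ⊆ ball x s ∧ ∀ y, y ∉ C → φ y = 0) → dirE φ K univ < ⊤ →
      (∫ y in Kᶜ, ⟪∇ q₀ y, ∇ φ y⟫_ℝ = 0) ∧ ∫ y in Kᶜ, ⟪∇ q₁ y, ∇ φ y⟫_ℝ = 0) :
    ∃ s' : ℝ, 0 < s' ∧ s' ≤ s ∧ ∀ φ : E2 → ℝ, ContDiffOn ℝ 1 φ Kᶜ → (∃ M, ∀ y, |φ y| ≤ M) →
      (∃ C, IsCompact C ∧ C ⊆ ball x s' ∧ ∀ y, y ∉ C → φ y = 0) → dirE φ K univ < ⊤ →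
      ∀ e : E2, ∫ y in Kᶜ, inner ℝ e (gradient φ y) = 0 := by
  set D : E2 → ℝ := fun y => fderiv ℝ q₀ y (bv 0) * fderiv ℝ q₁ y (bv 1) -
    fderiv ℝ q₀ y (bv 1) * fderiv ℝ q₁ y (bv 0) with hD
  have hDs : ContDiff ℝ ∞ D := ((contDiff_fd hq₀ _).mul (contDiff_fd hq₁ _)).sub
    ((contDiff_fd hq₀ _).mul (contDiff_fd hq₁ _))
  have hDx : D x ≠ 0 := by
    simp only [gradient_coord] at hind
    exact hind
  have hV : IsOpen {y | D y ≠ 0} := isOpen_ne_fun hDs.continuous continuous_const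
  obtain ⟨t, ht, htV⟩ := Metric.isOpen_iff.1 hV x hDx
  set s' : ℝ := min s (t / 2) with hs'
  have hs'0 : 0 < s' := lt_min hs (by linarith)
  have hcV : closedBall x s' ⊆ {y | D y ≠ 0} := by
    refine (closedBall_subset_ball ?_).trans htV
    exact (min_le_right _ _).trans_lt (by linarith)
  obtain ⟨χ, hχ, hχc, hχU, -, hχ1⟩ := exists_cutoff (d := 2) (isCompact_closedBall x s') hV hcV
  refine ⟨s', hs'0, min_le_left _ _, ?_⟩
  intro φ h1 h2 ⟨C, hC, hCb, h3⟩ h4 e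
  -- the coefficients
  have hsm : ∀ a : E2 → ℝ, ContDiff ℝ ∞ a → ContDiff ℝ ∞ (fun y => χ y * (a y / D y)) := by
    intro a ha
    rw [contDiff_iff_contDiffAt]
    intro y
    by_cases hy : y ∈ tsupport χ
    · exact hχ.contDiffAt.mul (ha.contDiffAt.div hDs.contDiffAt (hχU hy))
    · refine (contDiffAt_const (c := (0:ℝ))).congr_of_eventuallyEq ?_
      filter_upwards [(isClosed_tsupport χ).isOpen_compl.mem_nhds hy] with z hz
      rw [image_eq_zero_of_notMem_tsupport hz, zero_mul]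
  set a₀ : E2 → ℝ := fun y => e 0 * fderiv ℝ q₁ y (bv 1) - e 1 * fderiv ℝ q₁ y (bv 0) with ha₀
  set a₁ : E2 → ℝ := fun y => e 1 * fderiv ℝ q₀ y (bv 0) - e 0 * fderiv ℝ q₀ y (bv 1) with ha₁
  have ha₀s : ContDiff ℝ ∞ a₀ := (contDiff_const.mul (contDiff_fd hq₁ _)).sub
    (contDiff_const.mul (contDiff_fd hq₁ _))
  have ha₁s : ContDiff ℝ ∞ a₁ := (contDiff_const.mul (contDiff_fd hq₀ _)).sub
    (contDiff_const.mul (contDiff_fd hq₀ _))
  set r₀ : E2 → ℝ := fun y => χ y * (a₀ y / D y) with hr₀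
  set r₁ : E2 → ℝ := fun y => χ y * (a₁ y / D y) with hr₁
  have hr₀s : ContDiff ℝ ∞ r₀ := hsm a₀ ha₀s
  have hr₁s : ContDiff ℝ ∞ r₁ := hsm a₁ ha₁s
  have hcomb : ∀ y, D y ≠ 0 → χ y = 1 → r₀ y • ∇ q₀ y + r₁ y • ∇ q₁ y = e := by
    intro y hy hχy
    have hy' : D y = fderiv ℝ q₀ y (bv 0) * fderiv ℝ q₁ y (bv 1) -
      fderiv ℝ q₀ y (bv 1) * fderiv ℝ q₁ y (bv 0) := rfl
    ext i
    simp only [PiLp.add_apply, PiLp.smul_apply, smul_eq_mul, gradient_coord, hr₀, hr₁, hχy,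
      one_mul, ha₀, ha₁]
    fin_cases i
    · simp only [Fin.zero_eta]
      rw [div_mul_eq_mul_div, div_mul_eq_mul_div, ← add_div, div_eq_iff hy, hy']
      ring
    · simp only [Fin.mk_one]
      rw [div_mul_eq_mul_div, div_mul_eq_mul_div, ← add_div, div_eq_iff hy, hy']
      ring
  have hcomb' : ∀ y ∈ ball x s', ∀ᶠ z in 𝓝 y, r₀ z • ∇ q₀ z + r₁ z • ∇ q₁ z = e := by
    intro y hy
    filter_upwards [isOpen_ball.mem_nhds hy] with z hz
    exact hcomb z (hcV (ball_subset_closedBall hz))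
      (hχ1 z (ball_subset_closedBall hz)).self_of_nhds
  -- test functions
  have hCs : C ⊆ ball x s := hCb.trans (ball_subset_ball (min_le_left _ _))
  obtain ⟨t1, t2, t3, t4⟩ := Frame.jump_mul hK hr₀s h1 h2 hC h3 h4
  obtain ⟨v1, v2, v3, v4⟩ := Frame.jump_mul hK hr₁s h1 h2 hC h3 h4
  have I0 := (hN _ t1 t2 ⟨C, hC, hCs, t3⟩ t4).1
  have I1 := (hN _ v1 v2 ⟨C, hC, hCs, v3⟩ v4).2
  have z0 : ∀ {f : E2 → ℝ}, (∀ y, y ∉ C → f y = 0) → ∀ y, y ∉ C → ∇ f y = 0 := by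
    intro f hf y hy
    refine grad_eq_zero_of_near (c := 0) ?_
    filter_upwards [hC.isClosed.isOpen_compl.mem_nhds hy] with z hz
    exact hf z hz
  have J0 := (int_cont_l2 (contDiff_grad hq₀).continuous (memLp_of_dirE hK0 t4) hC (z0 t3))
  have J1 := (int_cont_l2 (contDiff_grad hq₁).continuous (memLp_of_dirE hK0 v4) hC (z0 v3))
  have I2 : ∫ y in Kᶜ, (⟪∇ q₀ y, ∇ (fun y => r₀ y * φ y) y⟫_ℝ +
      ⟪∇ q₁ y, ∇ (fun y => r₁ y * φ y) y⟫_ℝ) = 0 := by
    rw [integral_add J0.integrableOn J1.integrableOn, I0, I1, add_zero]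
  rw [← I2]
  refine setIntegral_congr_fun hK.isOpen_compl.measurableSet fun y hy => ?_
  by_cases hyC : y ∈ C
  · have hd : DifferentiableAt ℝ φ y :=
      (h1.contDiffAt (hK.isOpen_compl.mem_nhds hy)).differentiableAt (by simp)
    rw [grad_mul (Frame.dsm hr₀s y) hd, grad_mul (Frame.dsm hr₁s y) hd]
    have hdiv := Frame.div_zero hq₀ hq₁ hr₀s hr₁s (hh₀ y (hCs hyC)) (hh₁ y (hCs hyC))
      (hcomb' y (hCb hyC))
    rw [← (hcomb' y (hCb hyC)).self_of_nhds, inner_add_left, inner_smul_left, inner_smul_left,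
      inner_add_right, inner_add_right, inner_smul_right, inner_smul_right, inner_smul_right,
      inner_smul_right]
    simp only [conj_trivial]
    linear_combination - φ y * hdiv
  · rw [z0 h3 y hyC, z0 t3 y hyC, z0 v3 y hyC]
    simp

end Crest.Agent.R135.Earn
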