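import Crest.Agent.R135.EarnPot
import Crest.Agent.R135.Core

/-!
# R135, Earnshaw block (helper391), part 2: analytic Janiszewski theorem
a locally constant function off `K1 ∪ K2` (disjoint, `K1` compact, `K2` closed) splits as
`c1 + c2`, `ci` locally constant off `Ki`, `c1` compactly supported.
-/

set_option autoImplicit false
open MeasureTheory Metric Set Filter Topology Laplacian InnerProductSpace
open scoped RealInnerProductSpace NNReal ENNReal ContDiff Gradient Convolution

namespace Crest.Agent.R135.Earn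

open Crest.Agent.R097 (bv Harm laplacian_eq_sum gradient_coord inner_gradient norm_gradient
  exists_cutoff)
open Crest.Agent.R135.Reg

/-- a differentiable function with zero derivative near `x` is constant near `x`. -/
theorem eventually_const_of_fderiv {g : E2 → ℝ} {x : E2}
    (hd : ∀ᶠ y in 𝓝 x, DifferentiableAt ℝ g y) (h0 : ∀ᶠ y in 𝓝 x, fderiv ℝ g y = 0) :
    ∀ᶠ y in 𝓝 x, g y = g x := by
  obtain ⟨r, hr, hball⟩ := Metric.eventually_nhds_iff_ball.1 (hd.and h0)
  filter_upwards [ball_mem_nhds x hr] with y hy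
  exact (convex_ball x r).is_const_of_fderivWithin_eq_zero (𝕜 := ℝ)
    (fun z hz => (hball z hz).1.differentiableWithinAt)
    (fun z hz => by
      rw [fderivWithin_of_isOpen isOpen_ball hz]; exact (hball z hz).2) hy (mem_ball_self hr)

theorem locConst_mono {W W' : Set E2} {c : E2 → ℝ} (h : LocConstOn W c) (hs : W' ⊆ W) :
    LocConstOn W' c := fun x hx => h x (hs hx)

/-- **Analytic Janiszewski theorem.** -/
theorem splitLC {K1 K2 : Set E2} (h1 : IsCompact K1) (h2 : IsClosed K2) (hd : Disjoint K1 K2) :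
    ∃ R0 : ℝ, 0 < R0 ∧ ∀ c : E2 → ℝ, LocConstOn (K1 ∪ K2)ᶜ c → ∃ c1 c2 : E2 → ℝ,
      LocConstOn K1ᶜ c1 ∧ LocConstOn K2ᶜ c2 ∧ (∀ x, c x = c1 x + c2 x) ∧
      ∀ y, R0 ≤ ‖y‖ → c1 y = 0 := by
  obtain ⟨χ, hχ, hχc, hχU, -, hχ1⟩ := exists_cutoff h1 h2.isOpen_compl
    (hd.subset_compl_right)
  obtain ⟨a, ha, haχ⟩ : ∃ a : ℝ, 0 < a ∧ ∀ y, a < ‖y‖ → χ y = 0 := by
    obtain ⟨r, hr⟩ := hχc.isBounded.subset_closedBall (0 : E2)
    refine ⟨max r 1, by positivity, fun y hy => ?_⟩
    refine image_eq_zero_of_notMem_tsupport fun hmem => ?_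
    have := hr hmem
    rw [mem_closedBall_zero_iff] at this
    have := le_max_left r 1
    linarith
  refine ⟨2 * a, by positivity, fun c hc => ?_⟩
  have hχ' : ContDiff ℝ ∞ χ := hχ
  -- near K1 and K2 the derivative of χ vanishes
  have hD1 : ∀ x ∈ K1, ∀ᶠ y in 𝓝 x, fderiv ℝ χ y = 0 := by
    intro x hx
    filter_upwards [(hχ1 x hx).eventually_nhds] with y hy
    have : χ =ᶠ[𝓝 y] fun _ => (1 : ℝ) := hy
    rw [this.fderiv_eq]; simp
  have h02 : ∀ x ∈ K2, ∀ᶠ y in 𝓝 x, χ y = 0 := by
    intro x hx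
    have hx' : x ∉ tsupport χ := fun h => hχU h hx
    filter_upwards [(isClosed_tsupport χ).isOpen_compl.mem_nhds hx'] with y hy
    exact image_eq_zero_of_notMem_tsupport hy
  have hD2 : ∀ x ∈ K2, ∀ᶠ y in 𝓝 x, fderiv ℝ χ y = 0 := by
    intro x hx
    filter_upwards [(h02 x hx).eventually_nhds] with y hy
    have : χ =ᶠ[𝓝 y] fun _ => (0 : ℝ) := hy
    rw [this.fderiv_eq]; simp
  -- the field
  have hVs : ∀ v : E2, ContDiff ℝ ∞ (fun y => c y * fderiv ℝ χ y v) := by
    intro v
    rw [contDiff_iff_contDiffAt]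
    intro x
    by_cases hx : x ∈ K1 ∪ K2
    · have h0 : (fun y => c y * fderiv ℝ χ y v) =ᶠ[𝓝 x] fun _ => (0 : ℝ) := by
        rcases hx with hx | hx
        · filter_upwards [hD1 x hx] with y hy
          rw [hy]; simp
        · filter_upwards [hD2 x hx] with y hy
          rw [hy]; simp
      exact contDiffAt_const.congr_of_eventuallyEq h0
    · have h0 : (fun y => c y * fderiv ℝ χ y v) =ᶠ[𝓝 x] fun y => c x * fderiv ℝ χ y v := by
        filter_upwards [hc x hx] with y hy
        rw [hy]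
      exact (contDiffAt_const.mul (contDiff_fd hχ' v).contDiffAt).congr_of_eventuallyEq h0
  have hVd : ∀ v w x, fderiv ℝ (fun y => c y * fderiv ℝ χ y v) x w =
      fderiv ℝ (fun y => c y * fderiv ℝ χ y w) x v := by
    intro v w x
    by_cases hx : x ∈ K1 ∪ K2
    · have h0 : ∀ v : E2, (fun y => c y * fderiv ℝ χ y v) =ᶠ[𝓝 x] fun _ => (0 : ℝ) := by
        intro v
        rcases hx with hx | hx
        · filter_upwards [hD1 x hx] with y hy
          rw [hy]; simp
        · filter_upwards [hD2 x hx] with y hy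
          rw [hy]; simp
      rw [(h0 v).fderiv_eq, (h0 w).fderiv_eq]; simp
    · have h0 : ∀ v : E2,
          (fun y => c y * fderiv ℝ χ y v) =ᶠ[𝓝 x] fun y => c x * fderiv ℝ χ y v := by
        intro v
        filter_upwards [hc x hx] with y hy
        rw [hy]
      rw [(h0 v).fderiv_eq, (h0 w).fderiv_eq]
      have hD : DifferentiableAt ℝ (fderiv ℝ χ) x :=
        ((contDiff_infty_iff_fderiv.mp hχ').2.differentiable (by simp)).differentiableAt
      have hDv : ∀ v : E2, DifferentiableAt ℝ (fun y => fderiv ℝ χ y v) x := fun v =>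
        ((contDiff_fd hχ' v).differentiable (by simp)).differentiableAt
      rw [fderiv_const_mul (hDv v), fderiv_const_mul (hDv w)]
      simp only [smul_apply, smul_eq_mul]
      congr 1
      rw [fderiv_clm_apply hD (differentiableAt_const _), fderiv_clm_apply hD
        (differentiableAt_const _)]
      simp only [fderiv_fun_const, Pi.zero_apply, ContinuousLinearMap.comp_zero, zero_add,
        ContinuousLinearMap.flip_apply]
      have hsym : IsSymmSndFDerivAt ℝ χ x :=
        (contDiff_infty.mp hχ' 2).contDiffAt.isSymmSndFDerivAt (by simp)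
      exact hsym.eq w v
  have hVz : ∀ v : E2, ∀ y, a < ‖y‖ → c y * fderiv ℝ χ y v = 0 := by
    intro v y hy
    have : χ =ᶠ[𝓝 y] fun _ => (0 : ℝ) := by
      have hopen : IsOpen {z : E2 | a < ‖z‖} := isOpen_lt continuous_const continuous_norm
      filter_upwards [hopen.mem_nhds hy] with z hz
      exact haχ z hz
    rw [this.fderiv_eq]; simp
  obtain ⟨q, hq, hq0, hqV⟩ := exists_potential (hVs (bv 0)) (hVs (bv 1)) ha (hVz (bv 0))
    (hVz (bv 1)) (fun x => hVd (bv 0) (bv 1) x)
  have hqD : ∀ x, fderiv ℝ q x = c x • fderiv ℝ χ x := by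
    intro x
    refine clm_ext2 ?_ ?_
    · rw [(hqV x).1]; simp
    · rw [(hqV x).2]; simp
  have hqd : ∀ x, DifferentiableAt ℝ q x := fun x => (hq.differentiable (by simp)).differentiableAt
  have hχd : ∀ x, DifferentiableAt ℝ χ x := fun x =>
    (hχ'.differentiable (by simp)).differentiableAt
  -- constancy in the three cases
  have hA : ∀ x ∉ K1 ∪ K2, ∀ᶠ y in 𝓝 x, χ y * c x - q y = χ x * c x - q x := by
    intro x hx
    refine eventually_const_of_fderiv (g := fun y => χ y * c x - q y)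
      (Eventually.of_forall fun y => ((hχd y).mul_const _).sub (hqd y)) ?_
    filter_upwards [hc x hx] with y hy
    rw [fderiv_fun_sub ((hχd y).mul_const _) (hqd y), fderiv_mul_const (hχd y), hqD, hy, sub_self]
  have hB : ∀ x ∈ K1 ∪ K2, ∀ᶠ y in 𝓝 x, q y = q x := by
    intro x hx
    refine eventually_const_of_fderiv (Eventually.of_forall fun y => hqd y) ?_
    rcases hx with hx | hx
    · filter_upwards [hD1 x hx] with y hy
      rw [hqD, hy, smul_zero]
    · filter_upwards [hD2 x hx] with y hy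
      rw [hqD, hy, smul_zero]
  refine ⟨fun y => χ y * c y - q y, fun y => (1 - χ y) * c y + q y, ?_, ?_, fun x => by ring, ?_⟩
  · intro x hx
    by_cases hx2 : x ∈ K2
    · filter_upwards [hB x (Or.inr hx2), h02 x hx2] with y hy hy2
      rw [hy2, hy, (h02 x hx2).self_of_nhds]; ring
    · have hx' : x ∉ K1 ∪ K2 := by simp only [mem_union, not_or]; exact ⟨hx, hx2⟩
      filter_upwards [hA x hx', hc x hx'] with y hy hy2
      rw [hy2]; exact hy
  · intro x hx
    by_cases hx1 : x ∈ K1
    · filter_upwards [hB x (Or.inl hx1), hχ1 x hx1] with y hy hy2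
      rw [hy2, hy, (hχ1 x hx1).self_of_nhds]; ring
    · have hx' : x ∉ K1 ∪ K2 := by simp only [mem_union, not_or]; exact ⟨hx1, hx⟩
      filter_upwards [hA x hx', hc x hx'] with y hy hy2
      rw [hy2]; linarith
  · intro y hy
    simp only
    rw [haχ y (by linarith), hq0 y hy]; ring

/-- moving a compact clopen piece keeps the separation outside a large ball. -/
theorem keeps_move {K1 K2 : Set E2} (h1 : IsCompact K1) (h2 : IsClosed K2)
    (hd : Disjoint K1 K2) :
    ∃ R0 : ℝ, 0 < R0 ∧ ∀ (T : E2 ≃ₜ E2) (R : ℝ), R0 ≤ R →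
      (∀ y, R < ‖y‖ → R0 ≤ ‖T.symm y‖) →
      Keeps univ (K1 ∪ K2) (K2 ∪ T '' K1) (closedBall 0 R) := by
  obtain ⟨R0, hR0, H⟩ := splitLC h1 h2 hd
  refine ⟨R0, hR0, fun T R hR hT c hc => ?_⟩
  rw [← compl_eq_univ_sdiff] at hc
  obtain ⟨c1, c2, hc1, hc2, hcc, hz⟩ := H c hc
  refine ⟨fun y => c2 y + c1 (T.symm y), ?_, ?_⟩
  · intro x hx
    have hx2 : x ∈ K2ᶜ := fun h => hx.2 (Or.inl h)
    have hx1 : T.symm x ∈ K1ᶜ := fun h => hx.2 (Or.inr ⟨_, h, T.apply_symm_apply x⟩)
    filter_upwards [hc2 x hx2, T.symm.continuous.continuousAt.eventually (hc1 _ hx1)] with y hy hy'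
    rw [hy, hy']
  · rintro y ⟨-, hy⟩
    have hyR : R < ‖y‖ := by
      by_contra hcon
      push Not at hcon
      exact hy (Or.inr (by rwa [mem_closedBall_zero_iff]))
    simp only
    rw [hcc y, hz _ (hT y hyR), hz y (by linarith)]; ring

end Crest.Agent.R135.Earn
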