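import Crest.Agent.R135.EarnTrans

/-! # R135, Earnshaw block: harmonic gradient with values in a line -/

set_option autoImplicit false
open MeasureTheory Metric Set Filter Topology Laplacian InnerProductSpace
open scoped RealInnerProductSpace NNReal ENNReal ContDiff Gradient Convolution

namespace Crest.Agent.R135.Earn

open Crest.Agent.R097 (bv Harm laplacian_eq_sum gradient_coord inner_gradient norm_gradient
  exists_cutoff green1)
open Crest.Agent.R135.Reg

theorem grad_const_of_dep {p : E2 → ℝ} {x : E2} {ρ : ℝ} (hρ : 0 < ρ) (hp : ContDiff ℝ ∞ p)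
    (hh : ∀ y ∈ ball x ρ, (Δ p) y = 0)
    (hdep : ∀ y ∈ ball x ρ, ∀ z ∈ ball x ρ, (∇ p y - ∇ p x) 0 * (∇ p z - ∇ p x) 1 -
      (∇ p y - ∇ p x) 1 * (∇ p z - ∇ p x) 0 = 0) :
    ∀ y ∈ ball x ρ, ∇ p y = ∇ p x := by
  by_contra hcon
  push Not at hcon
  obtain ⟨y0, hy0, hne⟩ := hcon
  set w := ∇ p y0 - ∇ p x with hw
  have hw0 : w ≠ 0 := sub_ne_zero.2 hne
  have hxb : x ∈ ball x ρ := mem_ball_self hρ
  set g0 : E2 → ℝ := fun y => fderiv ℝ p y (bv 0) with hg0
  set g1 : E2 → ℝ := fun y => fderiv ℝ p y (bv 1) with hg1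
  have s0 : ContDiff ℝ ∞ g0 := contDiff_fd hp _
  have s1 : ContDiff ℝ ∞ g1 := contDiff_fd hp _
  have d : ∀ {f : E2 → ℝ}, ContDiff ℝ ∞ f → ∀ x, DifferentiableAt ℝ f x := fun hf x =>
    (hf.differentiable (by simp)).differentiableAt
  have c0 : ∀ y, (∇ p y) 0 = g0 y := fun y => gradient_coord p y 0
  have c1 : ∀ y, (∇ p y) 1 = g1 y := fun y => gradient_coord p y 1
  have hcst : ∀ z ∈ ball x ρ, w 0 * g1 z - w 1 * g0 z = w 0 * g1 x - w 1 * g0 x := by
    intro z hz
    have h1 := hdep y0 hy0 z hz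
    rw [← hw] at h1
    have h2 : (∇ p z - ∇ p x) 1 = g1 z - g1 x := by rw [PiLp.sub_apply, c1, c1]
    have h3 : (∇ p z - ∇ p x) 0 = g0 z - g0 x := by rw [PiLp.sub_apply, c0, c0]
    rw [h2, h3] at h1
    linarith
  have hder : ∀ z ∈ ball x ρ, ∀ v : E2, w 0 * fderiv ℝ g1 z v - w 1 * fderiv ℝ g0 z v = 0 := by
    intro z hz v
    have h1 : (fun z => w 0 * g1 z - w 1 * g0 z) =ᶠ[𝓝 z] fun _ => w 0 * g1 x - w 1 * g0 x := by
      filter_upwards [isOpen_ball.mem_nhds hz] with y hy using hcst y hy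
    have h2 := h1.fderiv_eq (𝕜 := ℝ)
    rw [fderiv_fun_sub ((d s1 z).const_mul _) ((d s0 z).const_mul _),
      fderiv_const_mul (d s1 z), fderiv_const_mul (d s0 z)] at h2
    have h3 := congrArg (fun L : E2 →L[ℝ] ℝ => L v) h2
    simpa using h3
  have hsym : ∀ z, fderiv ℝ g1 z (bv 0) = fderiv ℝ g0 z (bv 1) := by
    intro z
    have hs : IsSymmSndFDerivAt ℝ p z :=
      (contDiff_infty.mp hp 2).contDiffAt.isSymmSndFDerivAt (by simp)
    have hd : DifferentiableAt ℝ (fderiv ℝ p) z :=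
      ((hp.fderiv_right (m := ∞) (by simp)).differentiable (by simp)).differentiableAt
    have e : ∀ v : E2, ∀ w : E2, fderiv ℝ (fun y => fderiv ℝ p y v) z w =
        fderiv ℝ (fderiv ℝ p) z w v := by
      intro v w
      rw [fderiv_clm_apply hd (differentiableAt_const v)]
      simp
    rw [hg1, hg0, e, e]
    exact hs _ _
  have hzero : ∀ z ∈ ball x ρ, fderiv ℝ g0 z = 0 ∧ fderiv ℝ g1 z = 0 := by
    intro z hz
    have a1 := hder z hz (bv 0)
    have a2 := hder z hz (bv 1)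
    have a3 := hh z hz
    rw [lap_two ((contDiff_infty.mp hp 2).contDiffAt)] at a3
    rw [hsym z] at a1
    have hN : 0 < w 0 ^ 2 + w 1 ^ 2 := by
      by_contra hcon
      apply hw0
      have h0 : w 0 = 0 := by nlinarith [sq_nonneg (w 0), sq_nonneg (w 1)]
      have h1 : w 1 = 0 := by nlinarith [sq_nonneg (w 0), sq_nonneg (w 1)]
      ext i; fin_cases i <;> simp [h0, h1]
    set A := fderiv ℝ g0 z (bv 0)
    set B := fderiv ℝ g0 z (bv 1)
    set C := fderiv ℝ g1 z (bv 1)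
    have a3' : A + C = 0 := a3
    have hB : (w 0 ^ 2 + w 1 ^ 2) * B = 0 := by
      linear_combination (w 0) * a1 - (w 1) * a2 + (w 0 * w 1) * a3'
    have hA : (w 0 ^ 2 + w 1 ^ 2) * A = 0 := by
      linear_combination (-(w 1)) * a1 - (w 0) * a2 + (w 0 ^ 2) * a3'
    have hB0 : B = 0 := (mul_eq_zero.1 hB).resolve_left hN.ne'
    have hA0 : A = 0 := (mul_eq_zero.1 hA).resolve_left hN.ne'
    have hC0 : C = 0 := by linarith
    constructor
    · refine clm_ext2 ?_ ?_
      · simpa using hA0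
      · simpa using hB0
    · refine clm_ext2 ?_ ?_
      · rw [hsym z]; simpa using hB0
      · simpa using hC0
  have hconst : ∀ {g : E2 → ℝ}, ContDiff ℝ ∞ g → (∀ z ∈ ball x ρ, fderiv ℝ g z = 0) →
      g y0 = g x := by
    intro g hg h0
    exact (convex_ball x ρ).is_const_of_fderivWithin_eq_zero (𝕜 := ℝ)
      (hg.differentiable (by simp)).differentiableOn (fun z hz => by
        rw [fderivWithin_of_isOpen isOpen_ball hz]; exact h0 z hz) hy0 hxb
  apply hne
  have h0 := hconst s0 fun z hz => (hzero z hz).1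
  have h1 := hconst s1 fun z hz => (hzero z hz).2
  ext i; fin_cases i
  · simp only [Fin.zero_eta, Fin.isValue]; rw [c0, c0, h0]
  · simp only [Fin.mk_one, Fin.isValue]; rw [c1, c1, h1]

end Crest.Agent.R135.Earn
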