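import Crest.Agent.R135.BonCone5

/-! # R135, Earnshaw block: removal lemma, part (iii): the competitor `K \ ball x t` (helper898) -/

set_option autoImplicit false

open MeasureTheory Set Filter Topology Metric
open scoped Real ENNReal NNReal ContDiff Gradient

noncomputable section

namespace Crest.Agent.R135.Earn

open Crest.Agent.R135.Bon (volume_K_zero lip_of_eventuallyEq isOpen_compl_of_isQM)

theorem rem_comp {u : E2 → ℝ} {K : Set E2} (h : IsQM univ 0 u K) {x : E2} (hx : x ∈ K) {s : ℝ}
    (hs : 0 < s) {w : E2 → ℝ} (hw : ContDiffOn ℝ 1 w (ball x s))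
    (hu : ∀ y ∈ ball x s \ K, u y = w y)
    (hc : ∀ c, LocConstOn (univ \ K) c → ∃ k, ∀ y ∈ ball x s \ K, c y = k) : False := by
  classical
  have hKc : IsClosed K := isOpen_compl_of_isQM h
  set t : ℝ := s / 2 with ht
  have ht0 : 0 < t := by positivity
  have hts : t < s := by linarith
  have hcb : closedBall x t ⊆ ball x s := closedBall_subset_ball hts
  set L : Set E2 := K \ ball x t with hL
  set w' : E2 → ℝ := fun y => if y ∈ ball x s then w y else u y with hw'
  have hLK : L ⊆ K := fun y hy => hy.1
  have hLclosed : IsClosed L := by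
    rw [hL, Set.sdiff_eq]
    exact hKc.inter isOpen_ball.isClosed_compl
  have hoff : ∀ y, y ∉ K → w' y = u y := by
    intro y hy
    simp only [hw']
    split_ifs with hb
    · exact (hu y ⟨hb, hy⟩).symm
    · rfl
  have hin : ∀ y ∈ ball x s, w' =ᶠ[𝓝 y] w := by
    intro y hy
    filter_upwards [isOpen_ball.mem_nhds hy] with z hz
    exact if_pos hz
  have hout : ∀ y, y ∉ K → w' =ᶠ[𝓝 y] u := by
    intro y hy
    filter_upwards [hKc.isOpen_compl.mem_nhds hy] with z hz
    exact hoff z hz
  have hcomp : IsComp univ u K x t w' L := by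
    refine ⟨subset_univ _, ?_, ?_, ?_, ?_, ?_, ?_⟩
    · rw [hLclosed.closure_eq, inter_univ]
    · exact (measure_mono (inter_subset_inter_left _ hLK)).trans_lt
        (h.len_fin x t (subset_univ _))
    · ext y
      constructor
      · rintro ⟨hy, hb⟩
        exact ⟨hLK hy, hb⟩
      · rintro ⟨hy, hb⟩
        exact ⟨⟨hy, fun hc => hb (ball_subset_closedBall hc)⟩, hb⟩
    · intro y hy
      have hyL : y ∉ L := hy.2
      by_cases hb : y ∈ ball x s
      · exact lip_of_eventuallyEq (hin y hb) (hw.contDiffAt (isOpen_ball.mem_nhds hb)) _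
      · have hyK : y ∉ K := fun hK => hyL ⟨hK, fun hbt => hb (ball_subset_ball hts.le hbt)⟩
        have hd : ContDiffAt ℝ 1 u y := h.c1.contDiffAt (by
          rw [← compl_eq_univ_sdiff]; exact hKc.isOpen_compl.mem_nhds hyK)
        exact lip_of_eventuallyEq (hout y hyK) hd _
    · intro y hy
      exact hoff y fun hK => hy.2 (Or.inl hK)
    · intro c hcc
      obtain ⟨k, hk⟩ := hc c hcc
      refine ⟨fun y => if y ∈ ball x s then k else c y, ?_, ?_⟩
      · intro y hy
        have hyL : y ∉ L := hy.2
        by_cases hb : y ∈ ball x s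
        · filter_upwards [isOpen_ball.mem_nhds hb] with z hz
          rw [if_pos hz, if_pos hb]
        · have hyK : y ∉ K := fun hK => hyL ⟨hK, fun hbt => hb (ball_subset_ball hts.le hbt)⟩
          filter_upwards [hcc y ⟨mem_univ _, hyK⟩, hKc.isOpen_compl.mem_nhds hyK] with z hz hzK
          rw [if_neg hb]
          split_ifs with hzb
          · rw [← hz, hk z ⟨hzb, hzK⟩]
          · exact hz
      · intro y hy
        have hyK : y ∉ K := fun hK => hy.2 (Or.inl hK)
        show (if y ∈ ball x s then k else c y) = c y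
        split_ifs with hb
        · rw [hk y ⟨hb, hyK⟩]
        · rfl
  have hmin := h.min x t ht0 (subset_univ _) w' L hcomp
  rw [zero_mul, ENNReal.ofReal_zero, add_zero, enE, enE] at hmin
  have hdir : dirE w' L (closedBall x t) ≤ dirE u K (closedBall x t) := by
    have hae : (closedBall x t \ L : Set E2) =ᵐ[volume] (closedBall x t \ K : Set E2) := by
      have h2 := volume_K_zero h
      have h3 : ∀ᵐ z ∂(volume : Measure E2), z ∉ K := by
        rw [ae_iff]
        simpa using h2
      filter_upwards [h3] with z hz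
      apply propext
      exact ⟨fun h4 => ⟨h4.1, hz⟩, fun h4 => ⟨h4.1, fun h5 => hz (hLK h5)⟩⟩
    rw [dirE, dirE, setLIntegral_congr hae]
    refine le_of_eq (setLIntegral_congr_fun (measurableSet_closedBall.diff hKc.measurableSet)
      fun z hz => ?_)
    have hg : gradient w' z = gradient u z := by
      rw [gradient, gradient, (hout z hz.2).fderiv_eq]
    rw [hg]
  have hfin := h.dir_fin x t (subset_univ _)
  have hlen : len (K ∩ closedBall x t) ≤ len (L ∩ closedBall x t) := by
    have h1 : dirE u K (closedBall x t) + len (K ∩ closedBall x t)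
        ≤ dirE u K (closedBall x t) + len (L ∩ closedBall x t) :=
      hmin.trans (add_le_add hdir le_rfl)
    exact (ENNReal.add_le_add_iff_left hfin.ne).1 h1
  have hfl : len (K ∩ closedBall x t) < ⊤ := h.len_fin x t (subset_univ _)
  have hsplit := measure_inter_add_sdiff (μ := (Measure.hausdorffMeasure 1 : Measure E2))
    (K ∩ closedBall x t) (measurableSet_ball (x := x) (ε := t))
  change len ((K ∩ closedBall x t) ∩ ball x t) + len ((K ∩ closedBall x t) \ ball x t)
    = len (K ∩ closedBall x t) at hsplit
  have hpos : 0 < len ((K ∩ closedBall x t) ∩ ball x t) := by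
    refine (h.red x hx t ht0).trans_le (measure_mono ?_)
    rintro y ⟨h1, h2⟩
    exact ⟨⟨h1, ball_subset_closedBall h2⟩, h2⟩
  have hLsub : L ∩ closedBall x t ⊆ (K ∩ closedBall x t) \ ball x t := by
    rintro y ⟨⟨h1, h2⟩, h3⟩
    exact ⟨⟨h1, h3⟩, h2⟩
  have hf2 : len ((K ∩ closedBall x t) \ ball x t) < ⊤ :=
    (measure_mono sdiff_subset).trans_lt hfl
  have h2 : len (K ∩ closedBall x t) ≤ len ((K ∩ closedBall x t) \ ball x t) :=
    hlen.trans (measure_mono hLsub)
  have : len ((K ∩ closedBall x t) \ ball x t) < len (K ∩ closedBall x t) := by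
    rw [← hsplit, add_comm]
    exact ENNReal.lt_add_right hf2.ne hpos.ne'
  exact absurd h2 (not_le.2 this)

end Crest.Agent.R135.Earn
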