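import Crest.Agent.R135.EarnRem2
import Crest.Agent.R135.EarnRem1

/-! # R135, Earnshaw block: removal lemma -/

set_option autoImplicit false
open MeasureTheory Metric Set Filter Topology Laplacian InnerProductSpace
open scoped RealInnerProductSpace NNReal ENNReal ContDiff Gradient Convolution

namespace Crest.Agent.R135.Earn

/-- if no jump test function near `x` feels `K`, then `x` cannot be in `K` -/
theorem rem_false {u : E2 → ℝ} {K : Set E2} (h : IsQM univ 0 u K) {x : E2} (hx : x ∈ K) {s : ℝ}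
    (hs : 0 < s)
    (hd : ∀ φ : E2 → ℝ, ContDiffOn ℝ 1 φ Kᶜ → (∃ M, ∀ y, |φ y| ≤ M) →
      (∃ C, IsCompact C ∧ C ⊆ ball x s ∧ ∀ y, y ∉ C → φ y = 0) → dirE φ K univ < ⊤ →
      ∀ e : E2, ∫ y in Kᶜ, inner ℝ e (gradient φ y) = 0) : False := by
  obtain ⟨w, hw, hwu⟩ := exists_ext_u h hs hd
  refine rem_comp h hx hs hw hwu fun c hc => ?_
  exact const_of_nojump (isClosed_K h) h.volume_K hs hd fun y hy => hc y ⟨mem_univ _, hy.2⟩

end Crest.Agent.R135.Earn
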