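import Crest.Agent.R135.EarnNeu
import Crest.Agent.R135.EarnRem
import Crest.Agent.R135.EarnFrame
import Crest.Agent.R135.EarnLine
import Crest.Agent.R135.EarnDil
import Crest.Agent.R135.EarnAvg

/-! # R135, Earnshaw block (helper391): assembly of `no_cluster` -/

set_option autoImplicit false
open MeasureTheory Metric Set Filter Topology Laplacian InnerProductSpace
open scoped RealInnerProductSpace NNReal ENNReal ContDiff Gradient Convolution

namespace Crest.Agent.R135.Earn

open Crest.Agent.R097 (bv Harm laplacian_eq_sum gradient_coord inner_gradient norm_gradient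
  exists_cutoff green1)
open Crest.Agent.R135.Reg

variable {u : E2 → ℝ} {K K1 K2 : Set E2} {ρ : ℝ} {ζ ue p η : E2 → ℝ}

/-- the translation inequality -/
theorem trans_ineq (h : IsQM univ 0 u K) (D : Dat u K1 (K \ K1) ρ ζ ue p) (hsub : K1 ⊆ K)
    (hc : Cut K1 ρ η) {a : E2} {r : ℝ} (hr : 0 < r)
    (hrK : ∀ y, a + r • y ∈ K1 → dist y (a + r • y) < ρ) :
    0 ≤ ((r ^ 2)⁻¹ - 1) * (∫ x, ‖∇ ζ x‖ ^ 2) + 2 * (Mg η p (mv ζ a r) - Mg η p ζ) +
      (r⁻¹ - 1) * (len K1).toReal := by
  have hrK' : rescK K1 a r ⊆ cthickening ρ K1 := by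
    intro y hy
    exact thickening_subset_cthickening _ _ (mem_thickening_iff.2 ⟨_, hy, hrK y hy⟩)
  have h0 : ContDiffOn ℝ 1 (fun _ : E2 => (0 : ℝ)) (rescK K1 a r)ᶜ := contDiffOn_const
  have h1 : MemLp (fun x : E2 => ∇ (fun _ : E2 => (0 : ℝ)) x) 2 volume := by
    have : (fun x : E2 => ∇ (fun _ : E2 => (0 : ℝ)) x) = fun _ => 0 := by
      funext x; simp [gradient]
    rw [this]; exact MemLp.zero
  have m := master_aff h D hsub hc.sm hc.cs hc.supp hc.one hr hrK' h0
    (HasCompactSupport.intro isCompact_empty fun x _ => rfl) h1 0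
  rw [mul_zero, zero_mul, zero_pow two_ne_zero, zero_mul] at m
  linarith

theorem lap_diff {p : E2 → ℝ} (hp : ContDiff ℝ ∞ p) (a y : E2) :
    (Δ (fun y => p (a + y) - p y)) y = (Δ p) (a + y) - (Δ p) y := by
  have hpa : ContDiff ℝ ∞ (fun y => p (a + y)) := hp.comp (by fun_prop)
  have d : ∀ {f : E2 → ℝ}, ContDiff ℝ ∞ f → ∀ x, DifferentiableAt ℝ f x := fun hf x =>
    (hf.differentiable (by simp)).differentiableAt
  have e1 : ∀ v : E2, (fun y => fderiv ℝ (fun y => p (a + y) - p y) y v) =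
      fun y => fderiv ℝ p (a + y) v - fderiv ℝ p y v := by
    intro v; funext y
    rw [fderiv_fun_sub (d hpa y) (d hp y), fderiv_comp_add_left]
    rfl
  have e2 : ∀ v : E2, fderiv ℝ (fun y => fderiv ℝ p (a + y) v - fderiv ℝ p y v) y v =
      fderiv ℝ (fun y => fderiv ℝ p y v) (a + y) v - fderiv ℝ (fun y => fderiv ℝ p y v) y v := by
    intro v
    have h1 := contDiff_fd hp v
    have h2 : ContDiff ℝ ∞ (fun y => fderiv ℝ p (a + y) v) := h1.comp (g := fun y => fderiv ℝ p y v) (by fun_prop)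
    rw [fderiv_fun_sub (d h2 y) (d h1 y), fderiv_comp_add_left (f := fun y => fderiv ℝ p y v)]
    rfl
  rw [lap_two ((contDiff_infty.mp (hpa.sub hp) 2).contDiffAt),
    lap_two ((contDiff_infty.mp hp 2).contDiffAt), lap_two ((contDiff_infty.mp hp 2).contDiffAt)]
  simp only [e1, e2]
  ring

/-- Earnshaw's theorem for cracks: there is no compact relatively open part. -/
theorem no_cluster_aux {u : E2 → ℝ} {K K1 : Set E2} (h : IsQM univ 0 u K) (h1 : IsCompact K1)
    (hsub : K1 ⊆ K) (h2 : IsClosed (K \ K1)) : K1 = ∅ := by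
  obtain ⟨ρ, ζ, ue, p, D⟩ := exists_dat h h1 hsub h2
  have hρ := D.ρpos
  obtain ⟨η, hc⟩ := exists_cut h1 hρ
  -- translations
  have hpos : ∀ a : E2, ‖a‖ < ρ → 0 ≤ Mg η p (mv ζ (-a) 1) - Mg η p ζ := by
    intro a ha
    have m := trans_ineq h D hsub hc (a := -a) (r := 1) one_pos (fun y _ => by
      rw [dist_eq_norm]
      have e : y - (-a + (1 : ℝ) • y) = a := by rw [one_smul]; abel
      rw [e]; exact ha)
    rw [one_pow, inv_one, sub_self, zero_mul, zero_mul] at m
    linarith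
  have htr := Mg_trans D hc hpos
  -- dichotomy
  have hconst : ∀ x ∈ K1, ∀ y ∈ ball x ρ, ∇ p y = ∇ p x := by
    intro x hx
    have hharm : ∀ y ∈ ball x ρ, ∀ a : E2, ‖a‖ < ρ → (Δ p) (a + y) = 0 := by
      intro y hy a ha
      refine D.pharm _ (mem_thickening_iff.2 ⟨x, hx, ?_⟩)
      have h1 := mem_ball.1 hy
      have h2 : dist (a + y) x ≤ ‖a‖ + dist y x := by
        rw [dist_eq_norm, dist_eq_norm]
        have : a + y - x = a + (y - x) := by abel
        rw [this]; exact norm_add_le _ _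
      linarith
    have hharm0 : ∀ y ∈ ball x ρ, (Δ p) y = 0 := by
      intro y hy
      have := hharm y hy 0 (by rw [norm_zero]; exact hρ)
      rwa [zero_add] at this
    refine grad_const_of_dep hρ D.psm hharm0 ?_
    intro y hy z hz
    by_contra hne
    set a := y - x with ha
    set b := z - x with hb
    have ha' : ‖a‖ < ρ := by rw [ha, ← dist_eq_norm]; exact mem_ball.1 hy
    have hb' : ‖b‖ < ρ := by rw [hb, ← dist_eq_norm]; exact mem_ball.1 hz
    have hq : ∀ a : E2, ContDiff ℝ ∞ (fun y => p (a + y) - p y) := fun a =>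
      (D.psm.comp (by fun_prop)).sub D.psm
    have hg : ∀ a : E2, ∇ (fun y => p (a + y) - p y) x = ∇ p (a + x) - ∇ p x := by
      intro a
      have d1 : DifferentiableAt ℝ p (a + x) := (D.psm.differentiable (by simp)).differentiableAt
      have d2 : DifferentiableAt ℝ p x := (D.psm.differentiable (by simp)).differentiableAt
      have d3 : DifferentiableAt ℝ (fun y => p (a + y)) x := d1.comp x (by fun_prop)
      have h1 := grad_comp_aff p a x 1
      simp only [one_smul] at h1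
      rw [grad_sub d3 d2, h1]
    have hK : IsClosed K := isOpen_compl_iff.1 (isOpen_compl_K h)
    obtain ⟨s', hs', hs'', hfr⟩ := frame hK h.volume_K (x := x) hρ (hq a) (hq b)
      (fun y hy => by rw [lap_diff D.psm, hharm y hy a ha', hharm0 y hy, sub_zero])
      (fun y hy => by rw [lap_diff D.psm, hharm y hy b hb', hharm0 y hy, sub_zero])
      (by
        rw [hg, hg]
        have e1 : a + x = y := by rw [ha]; abel
        have e2 : b + x = z := by rw [hb]; abel
        rw [e1, e2]; exact hne)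
      (fun φ hφ _ hs hfin => ⟨neumann_diff h D hsub hc htr hx ha' hφ hs hfin,
        neumann_diff h D hsub hc htr hx hb' hφ hs hfin⟩)
    exact rem_false h (hsub hx) hs' hfr
  -- dilations
  set S := ∫ x, ‖∇ ζ x‖ ^ 2 with hS
  set ℓ := (len K1).toReal with hℓ
  have hMg := Mg_self h D hsub hc
  obtain ⟨Rb, hRb0, hRb⟩ : ∃ Rb : ℝ, 0 < Rb ∧ K1 ⊆ closedBall (0 : E2) Rb := by
    obtain ⟨R, hR⟩ := h1.isBounded.subset_closedBall (0 : E2)
    exact ⟨max R 1, by positivity, hR.trans (closedBall_subset_closedBall (le_max_left _ _))⟩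
  have key : ∀ τ : ℝ, 0 < τ → |τ - 1| * Rb < ρ → 0 ≤ -((τ ^ 2 - 1) * S) + (τ - 1) * ℓ := by
    intro τ hτ hτ'
    have hr : 0 < τ⁻¹ := inv_pos.2 hτ
    have hcl : ∀ x ∈ K1, dist ((τ⁻¹)⁻¹ • (x - 0)) x < ρ := by
      intro x hx
      rw [sub_zero, inv_inv, dist_eq_norm]
      have e : τ • x - x = (τ - 1) • x := by rw [sub_smul, one_smul]
      rw [e, norm_smul, Real.norm_eq_abs]
      refine lt_of_le_of_lt ?_ hτ'
      gcongr
      simpa using hRb hx
    have hD := Mg_dil D hc hconst 0 hr hcl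
    have m := trans_ineq h D hsub hc (a := 0) (r := τ⁻¹) hr (fun y hy => by
      have h3 := hcl _ hy
      have e : (τ⁻¹)⁻¹ • (0 + τ⁻¹ • y - 0) = y := by
        rw [zero_add, sub_zero, smul_smul, inv_inv, mul_inv_cancel₀ hτ.ne', one_smul]
      rw [e] at h3
      exact h3)
    rw [hD, hMg, inv_pow, inv_inv, inv_inv] at m
    nlinarith [m]
  have hS0 : 0 ≤ S := integral_nonneg fun x => by positivity
  have hℓ0 : 0 ≤ ℓ := ENNReal.toReal_nonneg
  obtain ⟨ε, hε0, hε1, hερ⟩ : ∃ ε : ℝ, 0 < ε ∧ ε < 1 ∧ ε * Rb < ρ := by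
    refine ⟨min (1 / 2) (ρ / (2 * Rb)), by positivity, ?_, ?_⟩
    · exact lt_of_le_of_lt (min_le_left _ _) (by norm_num)
    · calc min (1 / 2) (ρ / (2 * Rb)) * Rb ≤ ρ / (2 * Rb) * Rb := by
            gcongr; exact min_le_right _ _
        _ = ρ / 2 := by field_simp
        _ < ρ := by linarith
  have k1 := key (1 + ε) (by linarith) (by
    rw [show (1 + ε - 1 : ℝ) = ε by ring, abs_of_pos hε0]; exact hερ)
  have k2 := key (1 - ε) (by linarith) (by
    rw [show (1 - ε - 1 : ℝ) = -ε by ring, abs_neg, abs_of_pos hε0]; exact hερ)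
  have hS1 : S = 0 := by
    have : 0 ≤ -(2 * ε ^ 2 * S) := by nlinarith
    have h3 : 0 < ε ^ 2 := by positivity
    nlinarith
  have hℓ1 : ℓ = 0 := by
    rw [hS1] at k2
    nlinarith
  -- conclusion
  by_contra hne
  obtain ⟨x, hx⟩ := nonempty_iff_ne_empty.2 hne
  have hlenK1 : len K1 < ⊤ :=
    lt_of_le_of_lt (measure_mono (subset_inter hsub hRb)) (h.len_fin 0 Rb (subset_univ _))
  have hr := h.red x (hsub hx) ρ hρ
  have h3 : len (K ∩ ball x ρ) ≤ len K1 := by
    refine measure_mono fun y hy => ?_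
    by_contra hy1
    refine D.sep (mem_thickening_iff.2 ⟨x, hx, ?_⟩) ⟨hy.1, hy1⟩
    have := mem_ball.1 hy.2
    linarith
  have h4 : len K1 = 0 := by
    rcases (ENNReal.toReal_eq_zero_iff _).1 hℓ1 with h5 | h5
    · exact h5
    · exact absurd h5 hlenK1.ne
  rw [h4] at h3
  exact absurd hr (not_lt.2 h3)

end Crest.Agent.R135.Earn
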