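import Crest.Agent.R135.EarnCut

/-!
# R135, Earnshaw block (helper391), part 6: the master inequality
-/

set_option autoImplicit false
open MeasureTheory Metric Set Filter Topology Laplacian InnerProductSpace
open scoped RealInnerProductSpace NNReal ENNReal ContDiff Gradient Convolution

namespace Crest.Agent.R135.Earn

open Crest.Agent.R097 (bv Harm laplacian_eq_sum gradient_coord inner_gradient norm_gradient
  exists_cutoff green1)
open Crest.Agent.R135.Reg

theorem memLp_smul_bdd {μ : Measure E2} {a : E2 → ℝ} {V : E2 → E2} (hV : MemLp V 2 μ)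
    (ha : Measurable a) (hb : ∀ x, |a x| ≤ 1) : MemLp (fun x => a x • V x) 2 μ := by
  refine hV.mono (ha.aestronglyMeasurable.smul hV.1) (Eventually.of_forall fun x => ?_)
  rw [norm_smul, Real.norm_eq_abs]
  calc |a x| * ‖V x‖ ≤ 1 * ‖V x‖ := mul_le_mul_of_nonneg_right (hb x) (norm_nonneg _)
    _ = ‖V x‖ := one_mul _

/-- the dominating function at infinity -/
noncomputable def G0 (C : ℝ) (x : E2) : ℝ := (2 * C * (1 + ‖x‖ ^ 2)⁻¹) ^ 2

theorem integrable_G0 (C : ℝ) : Integrable (G0 C) := by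
  have h := integrable_rpow_neg_one_add_norm_sq (E := E2) (μ := volume) (r := 4) (by
    simp; norm_num)
  refine (h.const_mul ((2 * C) ^ 2)).congr (Eventually.of_forall fun x => ?_)
  have e1 : (1 + ‖x‖ ^ 2 : ℝ) ^ (-4 / 2 : ℝ) = ((1 + ‖x‖ ^ 2)⁻¹) ^ 2 := by
    rw [show (-4 / 2 : ℝ) = -((2 : ℕ) : ℝ) by norm_num, Real.rpow_neg (by positivity),
      Real.rpow_natCast, inv_pow]
  simp only [G0, e1]
  ring

theorem G0_nonneg (C : ℝ) (x : E2) : 0 ≤ G0 C x := by unfold G0; positivity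

theorem sq_le_G0 {C : ℝ} (hC : 0 ≤ C) {x : E2} (hx : 1 ≤ ‖x‖) {a : ℝ} (ha0 : 0 ≤ a)
    (ha : a ≤ C / ‖x‖ ^ 2) : a ^ 2 ≤ G0 C x := by
  unfold G0
  refine pow_le_pow_left₀ ha0 (ha.trans ?_) 2
  have h1 : (1 : ℝ) ≤ ‖x‖ ^ 2 := by nlinarith
  rw [div_le_iff₀ (by positivity), mul_assoc, mul_assoc]
  have h2 : (1 / 2 : ℝ) ≤ (1 + ‖x‖ ^ 2)⁻¹ * ‖x‖ ^ 2 := by
    rw [inv_mul_eq_div, div_le_div_iff₀ (by norm_num) (by positivity)]
    linarith
  nlinarith

theorem tendsto_G0 (C : ℝ) :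
    Tendsto (fun n : ℕ => ∫ x in (ball (0 : E2) n)ᶜ, G0 C x) atTop (𝓝 0) := by
  have h := Antitone.tendsto_setIntegral (μ := (volume : Measure E2)) (f := G0 C)
    (s := fun n : ℕ => (ball (0 : E2) n)ᶜ) (fun n => isOpen_ball.measurableSet.compl)
    (fun a b hab => compl_subset_compl.2 (ball_subset_ball (by exact_mod_cast hab)))
    ((integrable_G0 C).integrableOn)
  have h2 : (⋂ n : ℕ, (ball (0 : E2) n)ᶜ) = ∅ := by
    rw [← compl_iUnion, compl_empty_iff, eq_univ_iff_forall]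
    intro x
    obtain ⟨n, hn⟩ := exists_nat_gt ‖x‖
    exact mem_iUnion.2 ⟨n, by rwa [mem_ball_zero_iff]⟩
  rw [h2] at h
  simpa using h

set_option maxHeartbeats 4000000 in
/-- **Master inequality.** -/
theorem master {u : E2 → ℝ} {K K1 : Set E2} {ρ : ℝ} {ζ ue p : E2 → ℝ} (h : IsQM univ 0 u K)
    (D : Dat u K1 (K \ K1) ρ ζ ue p) (hsub : K1 ⊆ K)
    {η : E2 → ℝ} (hη : ContDiff ℝ ∞ η) (hηc : HasCompactSupport η)
    (hηs : tsupport η ⊆ thickening (3 * ρ) K1)
    (hη1 : ∀ x ∈ K1, ∀ᶠ y in 𝓝 x, η y = 1)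
    {S1 : Set E2} {ζT : E2 → ℝ} (hT : Sing ζT S1) (hηT : ∀ x ∈ S1, ∀ᶠ y in 𝓝 x, η y = 1)
    (hkeep : ∃ R0 : ℝ, ∀ R : ℝ, R0 ≤ R → Keeps univ K ((K \ K1) ∪ S1) (closedBall 0 R))
    (hTlen : len S1 < ⊤) {ψ : E2 → ℝ} (hψ : ContDiffOn ℝ 1 ψ S1ᶜ) (hψc : HasCompactSupport ψ)
    (hψ2 : MemLp (fun x => ∇ ψ x) 2 volume) (t : ℝ) :
    0 ≤ ((∫ x, ‖∇ ζT x‖ ^ 2) - ∫ x, ‖∇ ζ x‖ ^ 2) + 2 * (Mg η p ζT - Mg η p ζ) +
      2 * t * (∫ x, ⟪∇ ue x + ∇ ζT x, ∇ ψ x⟫_ℝ) + t ^ 2 * (∫ x, ‖∇ ψ x‖ ^ 2) +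
      ((len S1).toReal - (len K1).toReal) := by
  classical
  obtain ⟨Cκ, hCκ, hκex⟩ := exists_kappa
  obtain ⟨C1, R1, hC1, hR1, hd1⟩ := D.sing.decay
  obtain ⟨C2, R2, hC2, hR2, hd2⟩ := hT.decay
  obtain ⟨R0, hkeep⟩ := hkeep
  have hK1c : IsCompact K1 := D.sing.cpt
  have hS1c : IsCompact S1 := hT.cpt
  have hS1cl : IsClosed S1 := hS1c.isClosed
  have hK1cl : IsClosed K1 := hK1c.isClosed
  obtain ⟨Rb, hRb⟩ : ∃ Rb : ℝ, K1 ∪ S1 ∪ tsupport ψ ⊆ closedBall (0 : E2) Rb :=
    ((hK1c.union hS1c).union hψc).isBounded.subset_closedBall 0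
  set C3 := (C1 + C2) * (1 + 2 * Cκ) with hC3
  have hC3n : 0 ≤ C3 := by positivity
  set A := ((∫ x, ‖∇ ζT x‖ ^ 2) - ∫ x, ‖∇ ζ x‖ ^ 2) + 2 * (Mg η p ζT - Mg η p ζ) +
      2 * t * (∫ x, ⟪∇ ue x + ∇ ζT x, ∇ ψ x⟫_ℝ) + t ^ 2 * (∫ x, ‖∇ ψ x‖ ^ 2) +
      ((len S1).toReal - (len K1).toReal) with hA
  have haeK := ae_notMem_K h
  have haeS : ∀ᵐ x : E2, x ∉ S1 := by rw [ae_iff]; simpa using hT.null
  have hO := isOpen_compl_K h
  have hX2 : Integrable (fun x => ‖∇ ζ x‖ ^ 2) := D.sing.l2.integrable_norm_pow (by norm_num)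
  have hXT2 : Integrable (fun x => ‖∇ ζT x‖ ^ 2) := hT.l2.integrable_norm_pow (by norm_num)
  have hlenK1 : len K1 < ⊤ := by
    have h1 := h.len_fin 0 Rb (subset_univ _)
    refine lt_of_le_of_lt (measure_mono ?_) h1
    exact subset_inter hsub (fun x hx => hRb (Or.inl (Or.inl hx)))
  -- the key estimate for each large `n`
  have key : ∀ᶠ n : ℕ in atTop, 0 ≤ A + 2 * ∫ x in (ball (0 : E2) n)ᶜ, G0 C3 x := by
    filter_upwards [eventually_ge_atTop (⌈max (max (max R0 R1) (max R2 Rb)) 1⌉₊)] with n hn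
    have hn' : max (max (max R0 R1) (max R2 Rb)) 1 ≤ (n : ℝ) :=
      (Nat.le_ceil _).trans (by exact_mod_cast hn)
    obtain ⟨R, hRn⟩ : ∃ R : ℝ, R = (n : ℝ) := ⟨_, rfl⟩
    rw [← hRn] at hn' ⊢
    have hRR0 : R0 ≤ R := (((le_max_left _ _).trans (le_max_left _ _)).trans (le_max_left _ _)).trans hn'
    have hRR1 : R1 ≤ R := (((le_max_right _ _).trans (le_max_left _ _)).trans (le_max_left _ _)).trans hn'
    have hRR2 : R2 ≤ R := (((le_max_left _ _).trans (le_max_right _ _)).trans (le_max_left _ _)).trans hn'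
    have hRRb : Rb ≤ R := (((le_max_right _ _).trans (le_max_right _ _)).trans (le_max_left _ _)).trans hn'
    have hR1' : 1 ≤ R := (le_max_right _ _).trans hn'
    have hRpos : 0 < R := by linarith
    obtain ⟨κ, hκ, hκ1, hκ0, hκ01, hκg⟩ := hκex R hRpos
    -- points of the cracks are inside
    have hinK1 : ∀ x ∈ K1, ‖x‖ ≤ R := fun x hx => by
      have := hRb (Or.inl (Or.inl hx)); rw [mem_closedBall_zero_iff] at this; linarith
    have hinS1 : ∀ x ∈ S1, ‖x‖ ≤ R := fun x hx => by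
      have := hRb (Or.inl (Or.inr hx)); rw [mem_closedBall_zero_iff] at this; linarith
    have hinψ : ∀ x ∈ tsupport ψ, ‖x‖ ≤ R := fun x hx => by
      have := hRb (Or.inr hx); rw [mem_closedBall_zero_iff] at this; linarith
    have hκc : HasCompactSupport κ :=
      HasCompactSupport.intro (isCompact_closedBall (0 : E2) (2 * R)) fun x hx => by
        rw [mem_closedBall_zero_iff, not_le] at hx
        exact hκ0 x hx.le
    have hκS : ∀ x ∈ S1, ∀ᶠ y in 𝓝 x, κ y = 1 := fun x hx => hκ1 x (hinS1 x hx)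
    have hκK : ∀ x ∈ K1, ∀ᶠ y in 𝓝 x, κ y = 1 := fun x hx => hκ1 x (hinK1 x hx)
    have dsm : ∀ {f : E2 → ℝ}, ContDiff ℝ ∞ f → ∀ x, DifferentiableAt ℝ f x := fun hf x =>
      (hf.differentiable (by simp)).differentiableAt
    have dκ := dsm hκ
    have hgκ0 : ∀ x, 2 * R < ‖x‖ → ∇ κ x = 0 := by
      intro x hx
      refine grad_eq_zero_of_near (c := 0) ?_
      have hopen : IsOpen {z : E2 | 2 * R < ‖z‖} := isOpen_lt continuous_const continuous_norm
      filter_upwards [hopen.mem_nhds hx] with y hy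
      exact hκ0 y (le_of_lt hy)
    have hgκ1 : ∀ x, ‖x‖ ≤ R → ∇ κ x = 0 := fun x hx => grad_eq_zero_of_near (hκ1 x hx)
    set B : Set E2 := closedBall 0 (2 * R) with hB
    have hBm : MeasurableSet B := isClosed_closedBall.measurableSet
    set L : Set E2 := (K \ K1) ∪ S1 with hL
    have hLcl : IsClosed L := D.K2c.union hS1cl
    -- the fields
    set W1 : E2 → E2 := fun x => κ x • ∇ ζT x + ζT x • ∇ κ x with hW1
    set W2 : E2 → E2 := fun x => κ x • ∇ ζ x + ζ x • ∇ κ x with hW2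
    set W : E2 → E2 := fun x => W1 x + ∇ ζ x - W2 x with hW
    have habs : ∀ x, |κ x| ≤ 1 := fun x => by
      rw [abs_of_nonneg (hκ01 x).1]; exact (hκ01 x).2
    have l2ζκ : MemLp (fun x => ζ x • ∇ κ x) 2 volume :=
      (smooth_smul_sing hK1cl D.sing.smooth (contDiff_grad hκ) fun x hx =>
        grad_near_zero (hκK x hx)).continuous.memLp_of_hasCompactSupport
        (HasCompactSupport.intro hκc fun x hx => by rw [grad_notMem_tsupport hx, smul_zero])
    have l2ζTκ : MemLp (fun x => ζT x • ∇ κ x) 2 volume :=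
      (smooth_smul_sing hS1cl hT.smooth (contDiff_grad hκ) fun x hx =>
        grad_near_zero (hκS x hx)).continuous.memLp_of_hasCompactSupport
        (HasCompactSupport.intro hκc fun x hx => by rw [grad_notMem_tsupport hx, smul_zero])
    have l2W1 : MemLp W1 2 volume :=
      (memLp_smul_bdd hT.l2 hκ.continuous.measurable habs).add l2ζTκ
    have l2W2 : MemLp W2 2 volume :=
      (memLp_smul_bdd D.sing.l2 hκ.continuous.measurable habs).add l2ζκ
    have l2W : MemLp W 2 volume := (l2W1.add D.sing.l2).sub l2W2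
    have l2Y : MemLp (fun x => ∇ ue x) 2 (volume.restrict B) := D.Yl2 _
    -- the competitor
    set w : E2 → ℝ := fun x => ue x + κ x * ζT x + (1 - κ x) * ζ x + t * ψ x with hw
    have dψ : ∀ x ∉ S1, DifferentiableAt ℝ ψ x := fun x hx =>
      (hψ.contDiffAt (hS1cl.isOpen_compl.mem_nhds hx)).differentiableAt (by simp)
    have dζT : ∀ x ∉ S1, DifferentiableAt ℝ ζT x := fun x hx =>
      (hT.smooth.contDiffAt (hS1cl.isOpen_compl.mem_nhds hx)).differentiableAt (by simp)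
    have dζ : ∀ x ∉ K, DifferentiableAt ℝ ζ x := fun x hx =>
      (D.sing.smooth.contDiffAt (hK1cl.isOpen_compl.mem_nhds fun h => hx (hsub h))).differentiableAt
        (by simp)
    have due : ∀ x ∉ K, DifferentiableAt ℝ ue x := fun x hx =>
      (D.ueh.contDiffAt (D.K2c.isOpen_compl.mem_nhds fun h => hx h.1)).differentiableAt (by simp)
    have hgw : ∀ x, x ∉ K → x ∉ S1 → ∇ w x = ∇ ue x + (W x + t • ∇ ψ x) := by
      intro x hxK hxS
      have e1 : ∇ (fun y => (1 - κ y) * ζ y) x = (1 - κ x) • ∇ ζ x - ζ x • ∇ κ x := by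
        rw [grad_mul (f := fun y => 1 - κ y) ((dκ x).const_sub 1) (dζ x hxK)]
        have : ∇ (fun y => 1 - κ y) x = - ∇ κ x := by
          unfold gradient
          rw [fderiv_const_sub, map_neg]
        rw [this, smul_neg, ← sub_eq_add_neg]
      have e2 : ∇ (fun y => t * ψ y) x = t • ∇ ψ x := by
        unfold gradient
        rw [fderiv_const_mul (dψ x hxS)]
        simp
      have d1 : DifferentiableAt ℝ (fun y => κ y * ζT y) x := (dκ x).mul (dζT x hxS)
      have d2 : DifferentiableAt ℝ (fun y => (1 - κ y) * ζ y) x :=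
        ((dκ x).const_sub 1).mul (dζ x hxK)
      have d3 : DifferentiableAt ℝ (fun y => t * ψ y) x := (dψ x hxS).const_mul t
      have e3 : ∇ w x = ∇ ue x + ∇ (fun y => κ y * ζT y) x + ∇ (fun y => (1 - κ y) * ζ y) x +
          ∇ (fun y => t * ψ y) x := by
        rw [hw, grad_add (f := fun x => ue x + κ x * ζT x + (1 - κ x) * ζ x)
          (((due x hxK).add d1).add d2) d3,
          grad_add (f := fun x => ue x + κ x * ζT x) ((due x hxK).add d1) d2,
          grad_add (due x hxK) d1]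
      rw [e3, e1, e2, grad_mul (dκ x) (dζT x hxS)]
      simp only [hW, hW1, hW2]
      module
    have hgu : ∀ x ∉ K, ∇ u x = ∇ ue x + ∇ ζ x := by
      intro x hx
      rw [← grad_add (due x hx) (dζ x hx)]
      refine gradient_congr_of_eventuallyEq ?_
      filter_upwards [hO.mem_nhds hx] with y hy
      have : y ∉ K1 ∪ (K \ K1) := by
        rw [union_sdiff_cancel hsub]; exact hy
      rw [D.sum y this]; ring
    -- it is a competitor
    have hLK : L ∩ B ⊆ ((K \ K1) ∩ B) ∪ S1 := by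
      rintro x ⟨hx | hx, hxB⟩
      · exact Or.inl ⟨hx, hxB⟩
      · exact Or.inr hx
    have hlenL : len (L ∩ B) ≤ len ((K \ K1) ∩ B) + len S1 :=
      (measure_mono hLK).trans (measure_union_le _ _)
    have hK1B : K1 ⊆ B := fun x hx => by
      rw [hB, mem_closedBall_zero_iff]; linarith [hinK1 x hx]
    have hS1B : S1 ⊆ B := fun x hx => by
      rw [hB, mem_closedBall_zero_iff]; linarith [hinS1 x hx]
    have hlenK : len (K ∩ B) = len ((K \ K1) ∩ B) + len K1 := by
      have e1 : K ∩ B = ((K \ K1) ∩ B) ∪ K1 := by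
        ext x; constructor
        · rintro ⟨h1, h2⟩
          by_cases hx : x ∈ K1
          · exact Or.inr hx
          · exact Or.inl ⟨⟨h1, hx⟩, h2⟩
        · rintro (⟨⟨h1, -⟩, h2⟩ | h1)
          · exact ⟨h1, h2⟩
          · exact ⟨hsub h1, hK1B h1⟩
      rw [e1]
      unfold len
      refine measure_union ?_ hK1cl.measurableSet
      rw [Set.disjoint_left]
      rintro x ⟨⟨-, h1⟩, -⟩ h2
      exact h1 h2
    have hfin2 : len ((K \ K1) ∩ B) < ⊤ :=
      (measure_mono (inter_subset_inter_left _ sdiff_subset)).trans_lt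
        (h.len_fin 0 (2 * R) (subset_univ _))
    have hcomp : IsComp univ u K 0 (2 * R) w L := by
      refine ⟨subset_univ _, ?_, ?_, ?_, ?_, ?_, ?_⟩
      · rw [inter_univ, hLcl.closure_eq]
      · exact hlenL.trans_lt (ENNReal.add_lt_top.2 ⟨hfin2, hTlen⟩)
      · ext x; constructor
        · rintro ⟨hx | hx, hxB⟩
          · exact ⟨hx.1, hxB⟩
          · exact absurd (hS1B hx) hxB
        · rintro ⟨hx, hxB⟩
          exact ⟨Or.inl ⟨hx, fun h1 => hxB (hK1B h1)⟩, hxB⟩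
      · have hopen : IsOpen (univ \ L) := by
          rw [← compl_eq_univ_sdiff]; exact hLcl.isOpen_compl
        rw [locallyLipschitzOn_iff_lipAt hopen]
        rintro x ⟨-, hx⟩
        have hx2 : x ∉ K \ K1 := fun h1 => hx (Or.inl h1)
        have hxS : x ∉ S1 := fun h1 => hx (Or.inr h1)
        have l1 : LipAt ue x := lipAt_of_contDiffAt
          ((D.ueh.contDiffAt (D.K2c.isOpen_compl.mem_nhds hx2)).of_le (by simp))
        have lκ : LipAt κ x := lipAt_of_contDiffAt ((contDiff_infty.mp hκ 1).contDiffAt)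
        have l2 : LipAt ζT x := lipAt_of_contDiffAt
          ((hT.smooth.contDiffAt (hS1cl.isOpen_compl.mem_nhds hxS)).of_le (by simp))
        have l4 : LipAt ψ x := lipAt_of_contDiffAt
          (hψ.contDiffAt (hS1cl.isOpen_compl.mem_nhds hxS))
        have l3 : LipAt (fun y => (1 - κ y) * ζ y) x := by
          by_cases hxK : x ∈ K1
          · refine lipAt_of_eventually_const 0 ?_
            filter_upwards [hκK x hxK] with y hy
            rw [hy]; ring
          · have l5 : LipAt ζ x := lipAt_of_contDiffAt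
              ((D.sing.smooth.contDiffAt (hK1cl.isOpen_compl.mem_nhds hxK)).of_le (by simp))
            exact ((lipAt_const 1 x).sub lκ).mul l5
        exact ((l1.add (lκ.mul l2)).add l3).add ((lipAt_const t x).mul l4)
      · rintro y ⟨-, hy⟩
        have hyK : y ∉ K := fun h1 => hy (Or.inl h1)
        have hyB : 2 * R < ‖y‖ := by
          by_contra hcon
          push Not at hcon
          exact hy (Or.inr (by rwa [mem_closedBall_zero_iff]))
        have hyψ : ψ y = 0 := by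
          refine image_eq_zero_of_notMem_tsupport fun hmem => ?_
          linarith [hinψ y hmem]
        have h4 : y ∉ K1 ∪ (K \ K1) := by
          rw [union_sdiff_cancel hsub]; exact hyK
        simp only [hw]
        rw [hκ0 y hyB.le, hyψ, D.sum y h4]; ring
      · exact hkeep (2 * R) (by linarith)
    have hL0 : volume L = 0 := measure_union_null D.K2null hT.null
    set Z : E2 → E2 := fun x => (W x - ∇ ζ x) + t • ∇ ψ x with hZdef
    have l2Z : MemLp Z 2 volume := (l2W.sub D.sing.l2).add (hψ2.const_smul t)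
    have hZ : ∀ᵐ x, ∇ w x = ∇ u x + Z x := by
      filter_upwards [haeK, haeS] with x hx hxS
      rw [hgw x hx hxS, hgu x hx, hZdef]
      simp only
      abel
    have hE := energy_ineq h (by positivity) hcomp hL0 (l2Z.restrict B) hZ
    -- rewrite the two energies
    have l2X := D.sing.l2
    have l2tψ : MemLp (fun x => t • ∇ ψ x) 2 volume := hψ2.const_smul t
    have eU : ∫ x in B, ‖∇ u x‖ ^ 2 = (∫ x in B, ‖∇ ue x‖ ^ 2) +
        2 * (∫ x in B, ⟪∇ ue x, ∇ ζ x⟫_ℝ) + ∫ x in B, ‖∇ ζ x‖ ^ 2 := by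
      rw [← integral_add_sq l2Y (l2X.restrict B)]
      refine integral_congr_ae ?_
      filter_upwards [ae_restrict_of_ae haeK] with x hx
      rw [hgu x hx]
    have eW : ∫ x in B, ‖∇ u x + Z x‖ ^ 2 = (∫ x in B, ‖∇ ue x‖ ^ 2) +
        2 * (∫ x in B, ⟪∇ ue x, W x + t • ∇ ψ x⟫_ℝ) + ∫ x in B, ‖W x + t • ∇ ψ x‖ ^ 2 := by
      have l2Wψ : MemLp (fun x => W x + t • ∇ ψ x) 2 volume := l2W.add l2tψ
      rw [← integral_add_sq l2Y (l2Wψ.restrict B)]
      refine integral_congr_ae ?_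
      filter_upwards [ae_restrict_of_ae haeK] with x hx
      rw [hgu x hx, hZdef]
      congr 2
      simp only
      abel
    have eW2 : ∫ x in B, ‖W x + t • ∇ ψ x‖ ^ 2 = (∫ x in B, ‖W x‖ ^ 2) +
        2 * (∫ x in B, ⟪W x, t • ∇ ψ x⟫_ℝ) + ∫ x in B, ‖t • ∇ ψ x‖ ^ 2 :=
      integral_add_sq (l2W.restrict B) (l2tψ.restrict B)
    -- the support of `ψ`
    have hψB : ∀ x, x ∉ B → ∇ ψ x = 0 := by
      intro x hx
      refine grad_notMem_tsupport fun hmem => hx ?_
      rw [hB, mem_closedBall_zero_iff]; linarith [hinψ x hmem]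
    have eψ1 : ∫ x in B, ‖t • ∇ ψ x‖ ^ 2 = t ^ 2 * ∫ x, ‖∇ ψ x‖ ^ 2 := by
      rw [setIntegral_eq_integral_of_forall_compl_eq_zero fun x hx => by
        rw [hψB x hx]; simp]
      rw [← integral_const_mul]
      refine integral_congr_ae (Eventually.of_forall fun x => ?_)
      simp only
      rw [norm_smul, mul_pow, Real.norm_eq_abs, sq_abs]
    have hWζT : ∀ x, ‖x‖ ≤ R → W x = ∇ ζT x := by
      intro x hx
      simp only [hW, hW1, hW2]
      rw [(hκ1 x hx).self_of_nhds, hgκ1 x hx]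
      simp
    have eψ2 : ∫ x in B, ⟪W x, t • ∇ ψ x⟫_ℝ = t * ∫ x, ⟪∇ ζT x, ∇ ψ x⟫_ℝ := by
      rw [setIntegral_eq_integral_of_forall_compl_eq_zero fun x hx => by
        rw [hψB x hx]; simp]
      rw [← integral_const_mul]
      refine integral_congr_ae (Eventually.of_forall fun x => ?_)
      simp only
      by_cases hx : x ∈ tsupport ψ
      · rw [hWζT x (hinψ x hx), inner_smul_right]
      · rw [grad_notMem_tsupport hx]; simp
    -- pairing with `∇ ue`
    obtain ⟨g1i, g1⟩ := green_pair D hη hηc hηs hT hηT hκ hκc hκS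
    obtain ⟨g2i, g2⟩ := green_pair D hη hηc hηs D.sing hη1 hκ hκc hκK
    have hW1B : ∀ x, x ∉ B → W1 x = 0 := by
      intro x hx
      rw [hB, mem_closedBall_zero_iff, not_le] at hx
      simp only [hW1]
      rw [hκ0 x hx.le, hgκ0 x hx]; simp
    have hW2B : ∀ x, x ∉ B → W2 x = 0 := by
      intro x hx
      rw [hB, mem_closedBall_zero_iff, not_le] at hx
      simp only [hW2]
      rw [hκ0 x hx.le, hgκ0 x hx]; simp
    have g1' : ∫ x in B, ⟪∇ ue x, W1 x⟫_ℝ = Mg η p ζT := by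
      rw [← g1]
      exact setIntegral_eq_integral_of_forall_compl_eq_zero fun x hx => by
        rw [hW1B x hx, inner_zero_right]
    have g2' : ∫ x in B, ⟪∇ ue x, W2 x⟫_ℝ = Mg η p ζ := by
      rw [← g2]
      exact setIntegral_eq_integral_of_forall_compl_eq_zero fun x hx => by
        rw [hW2B x hx, inner_zero_right]
    have j1 : Integrable (fun x => ⟪∇ ue x, W1 x⟫_ℝ) (volume.restrict B) := g1i.integrableOn
    have j2 : Integrable (fun x => ⟪∇ ue x, W2 x⟫_ℝ) (volume.restrict B) := g2i.integrableOn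
    have j3 : Integrable (fun x => ⟪∇ ue x, ∇ ζ x⟫_ℝ) (volume.restrict B) :=
      memLp_integrable_inner l2Y (l2X.restrict B)
    have j4 : Integrable (fun x => ⟪∇ ue x, ∇ ψ x⟫_ℝ) (volume.restrict B) :=
      memLp_integrable_inner l2Y (hψ2.restrict B)
    have eY : ∫ x in B, ⟪∇ ue x, W x + t • ∇ ψ x⟫_ℝ = Mg η p ζT +
        (∫ x in B, ⟪∇ ue x, ∇ ζ x⟫_ℝ) - Mg η p ζ + t * ∫ x in B, ⟪∇ ue x, ∇ ψ x⟫_ℝ := by
      have e5 : ∫ x in B, ⟪∇ ue x, W x + t • ∇ ψ x⟫_ℝ =
          ∫ x in B, (((⟪∇ ue x, W1 x⟫_ℝ + ⟪∇ ue x, ∇ ζ x⟫_ℝ) - ⟪∇ ue x, W2 x⟫_ℝ) +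
            t * ⟪∇ ue x, ∇ ψ x⟫_ℝ) := by
        refine integral_congr_ae (Eventually.of_forall fun x => ?_)
        simp only [hW]
        rw [inner_add_right, inner_sub_right, inner_add_right, inner_smul_right]
      have j13 : Integrable (fun x => ⟪∇ ue x, W1 x⟫_ℝ + ⟪∇ ue x, ∇ ζ x⟫_ℝ)
        (volume.restrict B) := j1.add j3
      have j132 : Integrable (fun x => (⟪∇ ue x, W1 x⟫_ℝ + ⟪∇ ue x, ∇ ζ x⟫_ℝ) -
        ⟪∇ ue x, W2 x⟫_ℝ) (volume.restrict B) := j13.sub j2
      rw [e5, integral_add j132 (j4.const_mul t), integral_sub j13 j2, integral_add j1 j3,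
        integral_const_mul, g1', g2']
    have eΨ : ∫ x, ⟪∇ ue x + ∇ ζT x, ∇ ψ x⟫_ℝ =
        (∫ x in B, ⟪∇ ue x, ∇ ψ x⟫_ℝ) + ∫ x, ⟪∇ ζT x, ∇ ψ x⟫_ℝ := by
      have j5 : Integrable (fun x => ⟪∇ ue x, ∇ ψ x⟫_ℝ) := by
        rw [← integrableOn_univ]
        refine IntegrableOn.of_forall_sdiff_eq_zero (s := B) j4 MeasurableSet.univ fun x hx => ?_
        rw [hψB x hx.2, inner_zero_right]
      have j6 : Integrable (fun x => ⟪∇ ζT x, ∇ ψ x⟫_ℝ) := memLp_integrable_inner hT.l2 hψ2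
      rw [setIntegral_eq_integral_of_forall_compl_eq_zero (fun x hx => by
        rw [hψB x hx, inner_zero_right] : ∀ x ∉ B, ⟪∇ ue x, ∇ ψ x⟫_ℝ = 0), ← integral_add j5 j6]
      refine integral_congr_ae (Eventually.of_forall fun x => ?_)
      simp only [inner_add_left]
    -- bounds at infinity
    have hballm : MeasurableSet (ball (0 : E2) R)ᶜ := isOpen_ball.measurableSet.compl
    have hW2i : Integrable (fun x => ‖W x‖ ^ 2) := l2W.integrable_norm_pow (by norm_num)
    have hG0i : Integrable ((ball (0 : E2) R)ᶜ.indicator (G0 C3)) :=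
      (integrable_G0 C3).indicator hballm
    have hWpt : ∀ x, ‖W x‖ ^ 2 ≤ ‖∇ ζT x‖ ^ 2 + (ball (0 : E2) R)ᶜ.indicator (G0 C3) x := by
      intro x
      by_cases hx : x ∈ ball (0 : E2) R
      · rw [indicator_of_notMem (by simpa using hx), add_zero]
        rw [mem_ball_zero_iff] at hx
        rw [hWζT x hx.le]
      · rw [indicator_of_mem (by simpa using hx)]
        rw [mem_ball_zero_iff, not_lt] at hx
        have hx1 : 1 ≤ ‖x‖ := by linarith
        have hx0 : 0 < ‖x‖ := by linarith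
        obtain ⟨a1, a2⟩ := hd1 x (by linarith)
        obtain ⟨b1, b2⟩ := hd2 x (by linarith)
        have hk : ‖∇ κ x‖ ≤ 2 * Cκ / ‖x‖ := by
          by_cases hx2 : 2 * R < ‖x‖
          · rw [hgκ0 x hx2, norm_zero]; positivity
          · push Not at hx2
            refine (hκg x).trans ?_
            rw [div_le_div_iff₀ hRpos hx0]
            nlinarith
        have hκx := hκ01 x
        have e6 : W x = κ x • ∇ ζT x + ζT x • ∇ κ x + (1 - κ x) • ∇ ζ x - ζ x • ∇ κ x := by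
          simp only [hW, hW1, hW2]; module
        have e7 : ‖W x‖ ≤ C3 / ‖x‖ ^ 2 := by
          rw [e6]
          calc ‖κ x • ∇ ζT x + ζT x • ∇ κ x + (1 - κ x) • ∇ ζ x - ζ x • ∇ κ x‖
              ≤ ‖κ x • ∇ ζT x‖ + ‖ζT x • ∇ κ x‖ + ‖(1 - κ x) • ∇ ζ x‖ + ‖ζ x • ∇ κ x‖ := by
                refine (norm_sub_le _ _).trans ?_
                gcongr
                refine (norm_add_le _ _).trans ?_
                gcongr
                exact norm_add_le _ _
            _ = κ x * ‖∇ ζT x‖ + |ζT x| * ‖∇ κ x‖ + (1 - κ x) * ‖∇ ζ x‖ + |ζ x| * ‖∇ κ x‖ := by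
                rw [norm_smul, norm_smul, norm_smul, norm_smul, Real.norm_eq_abs,
                  Real.norm_eq_abs, Real.norm_eq_abs, Real.norm_eq_abs,
                  abs_of_nonneg hκx.1, abs_of_nonneg (sub_nonneg.2 hκx.2)]
            _ ≤ 1 * (C2 / ‖x‖ ^ 2) + (C2 / ‖x‖) * (2 * Cκ / ‖x‖) + 1 * (C1 / ‖x‖ ^ 2) +
                (C1 / ‖x‖) * (2 * Cκ / ‖x‖) := by
                gcongr
                · exact hκx.2
                · linarith [hκx.1]
            _ = C3 / ‖x‖ ^ 2 := by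
                rw [hC3]; field_simp; ring
        have := sq_le_G0 hC3n hx1 (norm_nonneg _) e7
        linarith [sq_nonneg ‖∇ ζT x‖]
    have bW : ∫ x in B, ‖W x‖ ^ 2 ≤ (∫ x, ‖∇ ζT x‖ ^ 2) + ∫ x in (ball (0 : E2) R)ᶜ, G0 C3 x := by
      calc ∫ x in B, ‖W x‖ ^ 2 ≤ ∫ x, ‖W x‖ ^ 2 :=
            setIntegral_le_integral hW2i (Eventually.of_forall fun x => by positivity)
        _ ≤ ∫ x, (‖∇ ζT x‖ ^ 2 + (ball (0 : E2) R)ᶜ.indicator (G0 C3) x) :=
            integral_mono hW2i (hXT2.add hG0i) hWpt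
        _ = _ := by
            rw [integral_add hXT2 hG0i, integral_indicator hballm]
    have bX : (∫ x, ‖∇ ζ x‖ ^ 2) ≤ (∫ x in B, ‖∇ ζ x‖ ^ 2) +
        ∫ x in (ball (0 : E2) R)ᶜ, G0 C3 x := by
      rw [← integral_add_compl hBm hX2]
      gcongr
      have hsubc : Bᶜ ⊆ (ball (0 : E2) R)ᶜ := by
        refine compl_subset_compl.2 ((ball_subset_ball ?_).trans ball_subset_closedBall)
        linarith
      calc ∫ x in Bᶜ, ‖∇ ζ x‖ ^ 2 ≤ ∫ x in Bᶜ, G0 C3 x := by
            refine setIntegral_mono_on hX2.integrableOn (integrable_G0 C3).integrableOn hBm.compl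
              fun x hx => ?_
            rw [mem_compl_iff, hB, mem_closedBall_zero_iff, not_le] at hx
            obtain ⟨a1, a2⟩ := hd1 x (by linarith)
            refine sq_le_G0 hC3n (by linarith) (norm_nonneg _) (a2.trans ?_)
            have : C1 ≤ C3 := by rw [hC3]; nlinarith
            gcongr
        _ ≤ ∫ x in (ball (0 : E2) R)ᶜ, G0 C3 x :=
            setIntegral_mono_set (integrable_G0 C3).integrableOn
              (Eventually.of_forall fun x => G0_nonneg _ _) hsubc.eventuallyLE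
    -- lengths
    have hlen : (len (L ∩ B)).toReal - (len (K ∩ B)).toReal ≤
        (len S1).toReal - (len K1).toReal := by
      have f1 : (len (L ∩ B)).toReal ≤ (len ((K \ K1) ∩ B)).toReal + (len S1).toReal := by
        rw [← ENNReal.toReal_add hfin2.ne hTlen.ne]
        exact ENNReal.toReal_mono (ENNReal.add_ne_top.2 ⟨hfin2.ne, hTlen.ne⟩) hlenL
      have f2 : (len (K ∩ B)).toReal = (len ((K \ K1) ∩ B)).toReal + (len K1).toReal := by
        rw [hlenK, ENNReal.toReal_add hfin2.ne hlenK1.ne]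
      linarith
    rw [eU, eW, eW2, eψ1, eψ2, eY] at hE
    rw [hA, eΨ]
    linarith
  have hlim : Tendsto (fun n : ℕ => A + 2 * ∫ x in (ball (0 : E2) n)ᶜ, G0 C3 x) atTop
      (𝓝 (A + 2 * 0)) := ((tendsto_G0 C3).const_mul 2).const_add A
  have := ge_of_tendsto hlim key
  linarith

end Crest.Agent.R135.Earn
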