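import Crest.Agent.R135.EarnTrans

/-! # R135, Earnshaw block: difference of Neumann conditions under translations -/

set_option autoImplicit false
open MeasureTheory Metric Set Filter Topology Laplacian InnerProductSpace
open scoped RealInnerProductSpace NNReal ENNReal ContDiff Gradient Convolution

namespace Crest.Agent.R135.Earn

open Crest.Agent.R097 (bv Harm laplacian_eq_sum gradient_coord inner_gradient norm_gradient
  exists_cutoff green1)
open Crest.Agent.R135.Reg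

variable {u : E2 → ℝ} {K K1 K2 : Set E2} {ρ : ℝ} {ζ ue p η : E2 → ℝ}

theorem int_cont_l2 {V W : E2 → E2} (hV : Continuous V) (hW : MemLp W 2 volume) {C : Set E2}
    (hC : IsCompact C) (h0 : ∀ x, x ∉ C → W x = 0) : Integrable (fun x => ⟪V x, W x⟫_ℝ) := by
  haveI : IsFiniteMeasure (volume.restrict C) := ⟨by
    rw [Measure.restrict_apply_univ]; exact hC.measure_lt_top⟩
  obtain ⟨M, hM⟩ := hC.exists_bound_of_continuousOn hV.continuousOn
  have h1 : MemLp V 2 (volume.restrict C) := by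
    refine MemLp.of_bound hV.aestronglyMeasurable M ?_
    exact (ae_restrict_iff' hC.measurableSet).2 (Eventually.of_forall fun x hx => hM x hx)
  have h2 : IntegrableOn (fun x => ⟪V x, W x⟫_ℝ) C :=
    memLp_integrable_inner h1 (hW.restrict _)
  rw [← integrableOn_univ]
  refine h2.of_forall_sdiff_eq_zero MeasurableSet.univ fun x hx => ?_
  rw [h0 x hx.2, inner_zero_right]

theorem lin_zero {a b : ℝ} (h : ∀ t : ℝ, 0 ≤ 2 * t * a + t ^ 2 * b) : a = 0 := by
  have hb : 0 ≤ b := by have h1 := h 1; have h2 := h (-1); nlinarith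
  have h1 := h (a / (b + 1))
  have h2 := h (-(a / (b + 1)))
  have e1 : 2 * -(a / (b + 1)) * a + (-(a / (b + 1))) ^ 2 * b =
      - (a ^ 2 * (b + 2) / (b + 1) ^ 2) := by
    field_simp; ring
  rw [e1] at h2
  have h3 : 0 ≤ a ^ 2 * (b + 2) / (b + 1) ^ 2 := by positivity
  have h4 : a ^ 2 * (b + 2) / (b + 1) ^ 2 = 0 := le_antisymm (by linarith) h3
  rw [div_eq_zero_iff] at h4
  rcases h4 with h4 | h4
  · rcases mul_eq_zero.1 h4 with h5 | h5
    · exact pow_eq_zero_iff (two_ne_zero) |>.1 h5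
    · linarith
  · have := pow_eq_zero_iff (two_ne_zero) |>.1 h4
    linarith

/-- Neumann condition for the translated crack -/
theorem neumann_shift (h : IsQM univ 0 u K) (D : Dat u K1 (K \ K1) ρ ζ ue p) (hsub : K1 ⊆ K)
    (hc : Cut K1 ρ η) {a : E2} (ha : ‖a‖ < ρ)
    (htr : Mg η p (mv ζ (-a) 1) = Mg η p ζ)
    {φ : E2 → ℝ} (hφ : ContDiffOn ℝ 1 φ K1ᶜ) (hφc : HasCompactSupport φ)
    (hφ2 : MemLp (fun x => ∇ φ x) 2 volume) :
    ∫ x, ⟪∇ ue (a + x) + ∇ ζ x, ∇ φ x⟫_ℝ = 0 := by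
  have hrK : rescK K1 (-a) 1 ⊆ cthickening ρ K1 := by
    intro y hy
    have hy' : -a + (1 : ℝ) • y ∈ K1 := hy
    refine thickening_subset_cthickening _ _ (mem_thickening_iff.2 ⟨_, hy', ?_⟩)
    rw [dist_eq_norm]
    have e : y - (-a + (1 : ℝ) • y) = a := by rw [one_smul]; abel
    rw [e]; exact ha
  set ψ : E2 → ℝ := fun y => φ (-a + (1 : ℝ) • y) with hψ
  have hgψ : ∀ y, ∇ ψ y = ∇ φ (-a + (1 : ℝ) • y) := by
    intro y
    rw [hψ, grad_comp_aff φ (-a) y 1, one_smul]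
  have s1 : ContDiffOn ℝ 1 ψ (rescK K1 (-a) 1)ᶜ := by
    refine hφ.comp (by fun_prop) ?_
    intro y hy
    exact hy
  have s2 : HasCompactSupport ψ := by
    have : ψ = φ ∘ (scH (-a) 1 one_ne_zero) := rfl
    rw [this]
    exact hφc.comp_homeomorph _
  have s3 : MemLp (fun x => ∇ ψ x) 2 volume := by
    simp only [hgψ]
    exact memLp_aff hφ2 (-a) one_pos
  have key : ∫ x, ⟪∇ ue x + ∇ (mv ζ (-a) 1) x, ∇ ψ x⟫_ℝ = 0 := by
    refine lin_zero (b := ∫ x, ‖∇ ψ x‖ ^ 2) fun t => ?_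
    have m := master_aff h D hsub hc.sm hc.cs hc.supp hc.one (a := -a) (r := 1) one_pos hrK s1 s2
      s3 t
    rw [htr, one_pow, inv_one, sub_self, sub_self, zero_mul, zero_mul, mul_zero] at m
    linarith
  have e1 : ∫ x, ⟪∇ ue x + ∇ (mv ζ (-a) 1) x, ∇ ψ x⟫_ℝ =
      ∫ x, (fun y => ⟪∇ ue (a + y) + ∇ ζ y, ∇ φ y⟫_ℝ) (-a + (1 : ℝ) • x) := by
    refine integral_congr_ae (Eventually.of_forall fun x => ?_)
    simp only
    rw [hgψ, grad_mv ζ (-a) one_pos]
    have e : a + (-a + (1 : ℝ) • x) = x := by rw [one_smul]; abel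
    rw [e]
  rw [e1, integral_aff0 (fun y => ⟪∇ ue (a + y) + ∇ ζ y, ∇ φ y⟫_ℝ) (-a) one_pos] at key
  simpa using key

theorem memLp_of_dirE {φ : E2 → ℝ} {K : Set E2} (hK : volume K = 0) (hfin : dirE φ K univ < ⊤) :
    MemLp (fun x => ∇ φ x) 2 volume := by
  refine ⟨(measurable_gradient φ).aestronglyMeasurable, ?_⟩
  rw [eLpNorm_lt_top_iff_lintegral_rpow_enorm_lt_top (by norm_num) (by norm_num)]
  unfold dirE at hfin
  have h2 : ∫⁻ x, ‖∇ φ x‖ₑ ^ 2 = ∫⁻ x in univ \ K, ‖∇ φ x‖ₑ ^ 2 := by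
    conv_lhs => rw [← setLIntegral_univ]
    exact (setLIntegral_congr (sdiff_null_ae_eq_self hK)).symm
  rw [← h2] at hfin
  simpa using hfin

/-- **difference of Neumann conditions** -/
theorem neumann_diff (h : IsQM univ 0 u K) (D : Dat u K1 (K \ K1) ρ ζ ue p) (hsub : K1 ⊆ K)
    (hc : Cut K1 ρ η)
    (htr : ∀ a : E2, ‖a‖ < ρ → Mg η p (mv ζ (-a) 1) = Mg η p ζ)
    {x : E2} (hx : x ∈ K1) {a : E2} (ha : ‖a‖ < ρ) {φ : E2 → ℝ} (hφ : ContDiffOn ℝ 1 φ Kᶜ)
    (hs : ∃ C, IsCompact C ∧ C ⊆ ball x ρ ∧ ∀ y, y ∉ C → φ y = 0) (hfin : dirE φ K univ < ⊤) :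
    ∫ y in Kᶜ, ⟪∇ (fun y => p (a + y) - p y) y, ∇ φ y⟫_ℝ = 0 := by
  obtain ⟨C, hC, hCx, hC0⟩ := hs
  have hO := isOpen_compl_K h
  have hKnull : volume K = 0 := h.volume_K
  have hρ := D.ρpos
  have hdiff : ∀ y, y ∉ C → ∀ᶠ z in 𝓝 y, φ z = 0 := fun y hy => by
    filter_upwards [hC.isClosed.isOpen_compl.mem_nhds hy] with z hz using hC0 z hz
  have hφ1 : ContDiffOn ℝ 1 φ K1ᶜ := by
    intro y hy
    apply ContDiffAt.contDiffWithinAt
    by_cases hyC : y ∈ C
    · refine hφ.contDiffAt (hO.mem_nhds fun hyK => ?_)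
      refine D.sep (mem_thickening_iff.2 ⟨x, hx, ?_⟩) ⟨hyK, hy⟩
      have := mem_ball.1 (hCx hyC)
      linarith
    · refine (contDiffAt_const (c := (0 : ℝ))).congr_of_eventuallyEq (hdiff y hyC)
  have hφc : HasCompactSupport φ := HasCompactSupport.intro hC hC0
  have hφ2 := memLp_of_dirE hKnull hfin
  have hg0 : ∀ y, y ∉ C → ∇ φ y = 0 := fun y hy =>
    (grad_near_zero (c := 0) (hdiff y hy)).self_of_nhds
  have n1 := neumann_shift h D hsub hc ha (htr a ha) hφ1 hφc hφ2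
  have h0 : ‖(0 : E2)‖ < ρ := by rw [norm_zero]; exact hρ
  have n0 := neumann_shift h D hsub hc h0 (htr 0 h0) hφ1 hφc hφ2
  have hth : IsOpen (thickening (3 * ρ) K1) := isOpen_thickening
  have hue : ∀ y ∈ C, ∀ b : E2, ‖b‖ < ρ → ∇ ue (b + y) = ∇ p (b + y) := by
    intro y hy b hb
    refine gradient_congr_of_eventuallyEq ?_
    have hm : b + y ∈ thickening (3 * ρ) K1 := by
      refine mem_thickening_iff.2 ⟨x, hx, ?_⟩
      have h1 := mem_ball.1 (hCx hy)
      have h2 : dist (b + y) x ≤ ‖b‖ + dist y x := by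
        rw [dist_eq_norm, dist_eq_norm]
        have : b + y - x = b + (y - x) := by abel
        rw [this]; exact norm_add_le _ _
      linarith
    filter_upwards [hth.mem_nhds hm] with z hz using D.near z hz
  have cp : Continuous (fun y => ∇ p y) := (contDiff_grad D.psm).continuous
  have hζ : Integrable (fun y => ⟪∇ ζ y, ∇ φ y⟫_ℝ) := memLp_integrable_inner D.sing.l2 hφ2
  have hval : ∀ b : E2, ‖b‖ < ρ → ∫ y, ⟪∇ ue (b + y) + ∇ ζ y, ∇ φ y⟫_ℝ =
      (∫ y, ⟪∇ p (b + y), ∇ φ y⟫_ℝ) + ∫ y, ⟪∇ ζ y, ∇ φ y⟫_ℝ := by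
    intro b hb
    have hi : Integrable (fun y => ⟪∇ p (b + y), ∇ φ y⟫_ℝ) :=
      int_cont_l2 (cp.comp (continuous_const.add continuous_id)) hφ2 hC hg0
    rw [← integral_add hi hζ]
    refine integral_congr_ae (Eventually.of_forall fun y => ?_)
    simp only
    by_cases hy : y ∈ C
    · rw [hue y hy b hb, inner_add_left]
    · rw [hg0 y hy]; simp
  rw [hval a ha] at n1
  rw [hval 0 h0] at n0
  have hi1 : Integrable (fun y => ⟪∇ p (a + y), ∇ φ y⟫_ℝ) :=
    int_cont_l2 (cp.comp (continuous_const.add continuous_id)) hφ2 hC hg0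
  have hi0 : Integrable (fun y => ⟪∇ p (0 + y), ∇ φ y⟫_ℝ) :=
    int_cont_l2 (cp.comp (continuous_const.add continuous_id)) hφ2 hC hg0
  have e2 : ∫ y in Kᶜ, ⟪∇ (fun y => p (a + y) - p y) y, ∇ φ y⟫_ℝ =
      ∫ y, ⟪∇ (fun y => p (a + y) - p y) y, ∇ φ y⟫_ℝ := by
    refine setIntegral_eq_integral_of_ae_compl_eq_zero ?_
    filter_upwards [ae_notMem_K h] with y hy hy2
    exact absurd hy hy2
  have e3 : ∀ y, ∇ (fun y => p (a + y) - p y) y = ∇ p (a + y) - ∇ p (0 + y) := by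
    intro y
    have d1 : DifferentiableAt ℝ p (a + y) := (D.psm.differentiable (by simp)).differentiableAt
    have d2 : DifferentiableAt ℝ p y := (D.psm.differentiable (by simp)).differentiableAt
    have d3 : DifferentiableAt ℝ (fun y => p (a + y)) y := d1.comp y (by fun_prop)
    have h1 := grad_comp_aff p a y 1
    simp only [one_smul] at h1
    rw [grad_sub d3 d2, h1, zero_add]
  rw [e2]
  simp only [e3, inner_sub_left]
  rw [integral_sub hi1 hi0]
  linarith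

end Crest.Agent.R135.Earn
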