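import Crest.Agent.R135.RegPot
import Crest.Agent.R097.Calc
import Crest.Agent.R097.HF2

/-!
# R135, Earnshaw block (helper391), part 1: logarithmic potentials of smooth functions
smoothness, derivatives, `Δ (lp f) = f`, decay at infinity, exactness of closed compactly
supported fields.
-/

set_option autoImplicit false
open MeasureTheory Metric Set Filter Topology Laplacian InnerProductSpace
open scoped RealInnerProductSpace NNReal ENNReal ContDiff Gradient Convolution

namespace Crest.Agent.R135.Earn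

open Crest.Agent.R097 (bv Harm laplacian_eq_sum gradient_coord inner_gradient norm_gradient)
open Crest.Agent.R135.Reg

local notation "E2" => EuclideanSpace ℝ (Fin 2)

/-- logarithmic potential -/
noncomputable def lp (f : E2 → ℝ) (x : E2) : ℝ := c0⁻¹ * ∫ y, Lk 0 y * f (x - y)

theorem locInt_Lk : LocallyIntegrable (Lk 0 : E2 → ℝ) := locInt_of_balls integrableOn_Lk_zero

theorem lp_eq (f : E2 → ℝ) : lp f = fun x =>
    c0⁻¹ * ((Lk 0 : E2 → ℝ) ⋆[ContinuousLinearMap.mul ℝ ℝ, volume] f) x := rfl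

theorem contDiff_lp {f : E2 → ℝ} (hf : ContDiff ℝ ∞ f) (hc : HasCompactSupport f) :
    ContDiff ℝ ∞ (lp f) := by
  rw [lp_eq]
  exact contDiff_const.mul (HasCompactSupport.contDiff_convolution_right _ hc locInt_Lk hf)

theorem fderiv_lp {f : E2 → ℝ} (hf : ContDiff ℝ ∞ f) (hc : HasCompactSupport f) (x v : E2) :
    fderiv ℝ (lp f) x v = lp (fun y => fderiv ℝ f y v) x := by
  have h1 := hc.hasFDerivAt_convolution_right (ContinuousLinearMap.mul ℝ ℝ) locInt_Lk
    (contDiff_infty.mp hf 1) x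
  have h2 := (h1.const_mul c0⁻¹).fderiv
  rw [lp_eq, lp_eq, h2]
  have h3 : Continuous (fderiv ℝ f) := hf.continuous_fderiv (by simp)
  have h4 := convolution_precompR_apply (ContinuousLinearMap.mul ℝ ℝ) locInt_Lk
    (hc.fderiv (𝕜 := ℝ)) h3 x v
  simp only [smul_apply, smul_eq_mul]
  rw [h4]

theorem contDiff_fd {f : E2 → ℝ} (hf : ContDiff ℝ ∞ f) (v : E2) :
    ContDiff ℝ ∞ (fun y => fderiv ℝ f y v) := by
  have h := (contDiff_infty_iff_fderiv.mp hf).2
  exact h.clm_apply contDiff_const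

theorem hasCompactSupport_fd {f : E2 → ℝ} (hc : HasCompactSupport f) (v : E2) :
    HasCompactSupport (fun y => fderiv ℝ f y v) := hc.fderiv_apply (𝕜 := ℝ) v

theorem integrable_lp {f : E2 → ℝ} (hf : Continuous f) (hc : HasCompactSupport f) (x : E2) :
    Integrable (fun y => Lk 0 y * f (x - y)) :=
  (hc.convolutionExists_right (ContinuousLinearMap.mul ℝ ℝ) locInt_Lk hf x)

theorem lp_add {f g : E2 → ℝ} (hf : Continuous f) (hcf : HasCompactSupport f)
    (hg : Continuous g) (hcg : HasCompactSupport g) (x : E2) :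
    lp (fun y => f y + g y) x = lp f x + lp g x := by
  unfold lp
  rw [← mul_add, ← integral_add (integrable_lp hf hcf x) (integrable_lp hg hcg x)]
  simp_rw [mul_add]

theorem lp_swap (f : E2 → ℝ) (x : E2) : lp f x = c0⁻¹ * ∫ y, Lk 0 (y - x) * f y := by
  unfold lp
  congr 1
  rw [← integral_sub_left_eq_self (fun y => Lk 0 y * f (x - y)) volume x]
  refine integral_congr_ae (Eventually.of_forall fun y => ?_)
  simp only [sub_sub_cancel]
  congr 1
  unfold Lk
  rw [norm_sub_rev]

/-- `lp (Δ φ) = φ` -/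
theorem lp_lap {φ : E2 → ℝ} (hφ : ContDiff ℝ ∞ φ) (hc : HasCompactSupport φ) (x : E2) :
    lp (Δ φ) x = φ x := by
  rw [lp_swap, Lk_zero_test x hφ hc, ← mul_assoc, inv_mul_cancel₀ c0_pos.ne', one_mul]

theorem lap_two {f : E2 → ℝ} {x : E2} (hf : ContDiffAt ℝ 2 f x) :
    (Δ f) x = fderiv ℝ (fun y => fderiv ℝ f y (bv 0)) x (bv 0) +
      fderiv ℝ (fun y => fderiv ℝ f y (bv 1)) x (bv 1) := by
  rw [laplacian_eq_sum hf, Fin.sum_univ_two]

/-- `Δ (lp f) = f` -/
theorem lap_lp {f : E2 → ℝ} (hf : ContDiff ℝ ∞ f) (hc : HasCompactSupport f) (x : E2) :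
    (Δ (lp f)) x = f x := by
  rw [lap_two ((contDiff_infty.mp (contDiff_lp hf hc) 2).contDiffAt)]
  have h1 : ∀ i : Fin 2, (fun y => fderiv ℝ (lp f) y (bv i)) = lp (fun y => fderiv ℝ f y (bv i)) :=
    fun i => funext fun y => fderiv_lp hf hc y (bv i)
  rw [h1, h1, fderiv_lp (contDiff_fd hf _) (hasCompactSupport_fd hc _),
    fderiv_lp (contDiff_fd hf _) (hasCompactSupport_fd hc _),
    ← lp_add (contDiff_fd (contDiff_fd hf _) _).continuous
      (hasCompactSupport_fd (hasCompactSupport_fd hc _) _)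
      (contDiff_fd (contDiff_fd hf _) _).continuous
      (hasCompactSupport_fd (hasCompactSupport_fd hc _) _)]
  rw [← lp_lap hf hc x]
  congr 1
  funext y
  rw [lap_two ((contDiff_infty.mp hf 2).contDiffAt)]

/-! ### decay -/

theorem abs_log_sub_le {a b : ℝ} (ha : 0 < a) (hb : 0 < b) :
    |Real.log a - Real.log b| ≤ |a - b| / min a b := by
  have key : ∀ {a b : ℝ}, 0 < a → 0 < b → Real.log a - Real.log b ≤ |a - b| / min a b := by
    intro a b ha hb
    rw [← Real.log_div ha.ne' hb.ne']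
    have h1 : Real.log (a / b) ≤ a / b - 1 := Real.log_le_sub_one_of_pos (by positivity)
    have hm : 0 < min a b := lt_min ha hb
    rcases le_total a b with h | h
    · have : a / b - 1 ≤ 0 := by
        rw [sub_nonpos, div_le_one hb]; exact h
      exact (h1.trans this).trans (by positivity)
    · have h2 : a / b - 1 = |a - b| / min a b := by
        rw [min_eq_right h, abs_of_nonneg (by linarith)]
        field_simp
      rw [← h2]; exact h1
  rw [abs_le]
  constructor
  · have := key hb ha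
    rw [abs_sub_comm, min_comm] at this
    linarith
  · exact key ha hb

theorem Lk_zero_eq (z : E2) : Lk 0 z = Real.log ‖z‖ := by
  unfold Lk
  rw [show ‖z‖ ^ 2 + (0 : ℝ) ^ 2 = ‖z‖ ^ 2 by ring, Real.log_pow]
  push_cast; ring

/-- decay of the potential of a mean zero function -/
theorem lp_decay {f : E2 → ℝ} (hf : Continuous f) {a : ℝ} (ha : 0 < a)
    (hs : ∀ y, a < ‖y‖ → f y = 0) (h0 : ∫ y, f y = 0) :
    ∃ C : ℝ, 0 ≤ C ∧ ∀ x : E2, 2 * a ≤ ‖x‖ → |lp f x| ≤ C / ‖x‖ := by
  have hc : HasCompactSupport f := by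
    refine HasCompactSupport.intro (isCompact_closedBall (0 : E2) a) fun y hy => ?_
    refine hs y ?_
    rw [mem_closedBall_zero_iff, not_le] at hy
    exact hy
  have hI : Integrable f := hf.integrable_of_hasCompactSupport hc
  refine ⟨c0⁻¹ * (2 * a * ∫ y, |f y|), ?_, fun x hx => ?_⟩
  · have := c0_pos
    have h2 : 0 ≤ ∫ y, |f y| := integral_nonneg fun y => abs_nonneg _
    positivity
  have hx0 : 0 < ‖x‖ := by linarith
  have h1 : lp f x = c0⁻¹ * ∫ y, (Lk 0 (y - x) - Lk 0 x) * f y := by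
    rw [lp_swap]
    congr 1
    have h2 : Integrable (fun y => Lk 0 (y - x) * f y) := by
      have := integrable_shift locInt_Lk x hf hc
      exact this
    have h3 : ∫ y, (Lk 0 (y - x) - Lk 0 x) * f y =
        (∫ y, Lk 0 (y - x) * f y) - ∫ y, Lk 0 x * f y := by
      rw [← integral_sub h2 (hI.const_mul _)]
      refine integral_congr_ae (Eventually.of_forall fun y => ?_)
      simp only; ring
    rw [h3, integral_const_mul, h0, mul_zero, sub_zero]
  rw [h1, abs_mul, abs_of_pos (inv_pos.2 c0_pos), mul_div_assoc]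
  refine mul_le_mul_of_nonneg_left ?_ (inv_pos.2 c0_pos).le
  have h4 : ∀ y, ‖(Lk 0 (y - x) - Lk 0 x) * f y‖ ≤ (2 * a / ‖x‖) * |f y| := by
    intro y
    rw [Real.norm_eq_abs, abs_mul]
    by_cases hy : a < ‖y‖
    · rw [hs y hy]; simp
    push Not at hy
    refine mul_le_mul_of_nonneg_right ?_ (abs_nonneg _)
    rw [Lk_zero_eq, Lk_zero_eq]
    have h5 : ‖x‖ / 2 ≤ ‖y - x‖ := by
      have := norm_sub_norm_le x y
      rw [norm_sub_rev] at this
      linarith
    have h6 : 0 < ‖y - x‖ := by linarith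
    refine (abs_log_sub_le h6 hx0).trans ?_
    have h7 : |‖y - x‖ - ‖x‖| ≤ a := by
      have := abs_norm_sub_norm_le (y - x) (-x)
      rw [norm_neg] at this
      have h8 : y - x - -x = y := by abel
      rw [h8] at this
      linarith
    have h9 : ‖x‖ / 2 ≤ min ‖y - x‖ ‖x‖ := le_min h5 (by linarith)
    calc |‖y - x‖ - ‖x‖| / min ‖y - x‖ ‖x‖ ≤ a / (‖x‖ / 2) := by
          apply div_le_div₀ ha.le h7 (by positivity) h9
      _ = 2 * a / ‖x‖ := by field_simp
  calc |∫ y, (Lk 0 (y - x) - Lk 0 x) * f y|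
      ≤ ∫ y, (2 * a / ‖x‖) * |f y| := by
        rw [← Real.norm_eq_abs]
        exact norm_integral_le_of_norm_le (hI.abs.const_mul _) (Eventually.of_forall h4)
    _ = 2 * a * ((∫ y, |f y|) / ‖x‖) := by
        rw [integral_const_mul]; ring
    _ = (2 * a * ∫ y, |f y|) / ‖x‖ := by ring

/-- `lp f` is harmonic where `f` vanishes near -/
theorem harm_lp {f : E2 → ℝ} (hf : ContDiff ℝ ∞ f) (hc : HasCompactSupport f) {U : Set E2}
    (h0 : ∀ x ∈ U, f x = 0) : Harm (lp f) U :=
  ⟨(contDiff_lp hf hc).contDiffOn, fun x hx => by rw [lap_lp hf hc, h0 x hx]⟩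

/-- decay of the gradient -/
theorem grad_lp_decay {f : E2 → ℝ} (hf : ContDiff ℝ ∞ f) {a : ℝ} (ha : 0 < a)
    (hs : ∀ y, a < ‖y‖ → f y = 0) (h0 : ∫ y, f y = 0) :
    ∃ C : ℝ, 0 ≤ C ∧ ∀ x : E2, 4 * a ≤ ‖x‖ → ‖fderiv ℝ (lp f) x‖ ≤ C / ‖x‖ ^ 2 := by
  have hc : HasCompactSupport f := by
    refine HasCompactSupport.intro (isCompact_closedBall (0 : E2) a) fun y hy => ?_
    refine hs y ?_
    rw [mem_closedBall_zero_iff, not_le] at hy
    exact hy
  obtain ⟨C, hC0, hC⟩ := lp_decay hf.continuous ha hs h0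
  obtain ⟨C1, hC1, h1⟩ := Crest.Agent.R097.harm_grad_sup 2
  refine ⟨4 * C1 * C, by positivity, fun x hx => ?_⟩
  have hx0 : 0 < ‖x‖ := by linarith
  have h2 : Harm (lp f) (ball x (‖x‖ / 2)) := by
    refine harm_lp hf hc fun y hy => hs y ?_
    rw [mem_ball, dist_eq_norm] at hy
    have := norm_sub_norm_le x y
    rw [norm_sub_rev] at this
    linarith
  have h3 : ∀ y ∈ ball x (‖x‖ / 2), |lp f y| ≤ 2 * C / ‖x‖ := by
    intro y hy
    rw [mem_ball, dist_eq_norm] at hy
    have h4 : ‖x‖ / 2 ≤ ‖y‖ := by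
      have := norm_sub_norm_le x y
      rw [norm_sub_rev] at this
      linarith
    refine (hC y (by linarith)).trans ?_
    calc C / ‖y‖ ≤ C / (‖x‖ / 2) := div_le_div_of_nonneg_left hC0 (by positivity) h4
      _ = 2 * C / ‖x‖ := by field_simp
  have h5 := h1 (lp f) x (‖x‖ / 2) (2 * C / ‖x‖) (by positivity) h2 h3
  rw [norm_gradient] at h5
  refine h5.trans (le_of_eq ?_)
  field_simp
  ring

/-! ### exactness of closed compactly supported fields -/

theorem clm_ext2 {L M : E2 →L[ℝ] ℝ} (h0 : L (bv 0) = M (bv 0)) (h1 : L (bv 1) = M (bv 1)) :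
    L = M := by
  ext v
  rw [← Crest.Agent.R097.sum_bv v]
  simp only [Fin.sum_univ_two, map_add, map_smul, h0, h1]

theorem integral_fd_eq_zero {W : E2 → ℝ} (hW : ContDiff ℝ ∞ W) (hc : HasCompactSupport W)
    (v : E2) : ∫ y, fderiv ℝ W y v = 0 := by
  obtain ⟨C, hC⟩ := Crest.Agent.R097.lip_of_contDiff_compact (contDiff_infty.mp hW 1) hc
  have := Crest.Agent.R097.ibp1 (f := fun _ : E2 => (1 : ℝ)) contDiff_const hC hc v
  simpa using this

/-- a smooth compactly supported closed field `(V1, V2)` is the gradient of a smooth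
compactly supported function. -/
theorem exists_potential {V1 V2 : E2 → ℝ} (h1 : ContDiff ℝ ∞ V1) (h2 : ContDiff ℝ ∞ V2)
    {a : ℝ} (ha : 0 < a) (hs1 : ∀ y, a < ‖y‖ → V1 y = 0) (hs2 : ∀ y, a < ‖y‖ → V2 y = 0)
    (hcl : ∀ x, fderiv ℝ V1 x (bv 1) = fderiv ℝ V2 x (bv 0)) :
    ∃ q : E2 → ℝ, ContDiff ℝ ∞ q ∧ (∀ y, 2 * a ≤ ‖y‖ → q y = 0) ∧
      ∀ x, fderiv ℝ q x (bv 0) = V1 x ∧ fderiv ℝ q x (bv 1) = V2 x := by
  have hc1 : HasCompactSupport V1 := by
    refine HasCompactSupport.intro (isCompact_closedBall (0 : E2) a) fun y hy => ?_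
    refine hs1 y ?_
    rw [mem_closedBall_zero_iff, not_le] at hy
    exact hy
  have hc2 : HasCompactSupport V2 := by
    refine HasCompactSupport.intro (isCompact_closedBall (0 : E2) a) fun y hy => ?_
    refine hs2 y ?_
    rw [mem_closedBall_zero_iff, not_le] at hy
    exact hy
  set f : E2 → ℝ := fun y => fderiv ℝ V1 y (bv 0) + fderiv ℝ V2 y (bv 1) with hf
  have hfs : ContDiff ℝ ∞ f := (contDiff_fd h1 _).add (contDiff_fd h2 _)
  have hfc : HasCompactSupport f := (hasCompactSupport_fd hc1 _).add (hasCompactSupport_fd hc2 _)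
  have hV : ∀ i : Fin 2, ∀ x, fderiv ℝ (lp f) x (bv i) = (if i = 0 then V1 else V2) x := by
    intro i x
    rw [fderiv_lp hfs hfc]
    have hcl' : (fun x => fderiv ℝ V1 x (bv 1)) = fun x => fderiv ℝ V2 x (bv 0) := funext hcl
    have hd1 : ∀ (W : E2 → ℝ), ContDiff ℝ ∞ W → ∀ y v w,
        fderiv ℝ (fun y => fderiv ℝ W y v) y w = fderiv ℝ (fun y => fderiv ℝ W y w) y v := by
      intro W hW y v w
      have hD : DifferentiableAt ℝ (fderiv ℝ W) y :=
        ((contDiff_infty_iff_fderiv.mp hW).2.differentiable (by simp)).differentiableAt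
      rw [fderiv_clm_apply hD (differentiableAt_const _), fderiv_clm_apply hD
        (differentiableAt_const _)]
      simp only [fderiv_fun_const, Pi.zero_apply, ContinuousLinearMap.comp_zero, zero_add,
        ContinuousLinearMap.flip_apply]
      have hsym : IsSymmSndFDerivAt ℝ W y :=
        (contDiff_infty.mp hW 2).contDiffAt.isSymmSndFDerivAt (by simp)
      exact hsym.eq w v
    have hadd : ∀ y v, fderiv ℝ f y v = fderiv ℝ (fun y => fderiv ℝ V1 y (bv 0)) y v +
        fderiv ℝ (fun y => fderiv ℝ V2 y (bv 1)) y v := by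
      intro y v
      have hA : DifferentiableAt ℝ (fun y => fderiv ℝ V1 y (bv 0)) y :=
        ((contDiff_fd h1 _).differentiable (by simp)).differentiableAt
      have hB : DifferentiableAt ℝ (fun y => fderiv ℝ V2 y (bv 1)) y :=
        ((contDiff_fd h2 _).differentiable (by simp)).differentiableAt
      rw [hf, fderiv_fun_add hA hB]; rfl
    fin_cases i
    · simp only [Fin.zero_eta, Fin.isValue, ↓reduceIte]
      rw [← lp_lap h1 hc1 x]
      congr 1
      funext y
      rw [hadd, lap_two ((contDiff_infty.mp h1 2).contDiffAt)]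
      congr 1
      rw [hd1 V2 h2 y (bv 1) (bv 0), hcl']
    · simp only [Fin.mk_one, Fin.isValue, one_ne_zero, ↓reduceIte]
      rw [← lp_lap h2 hc2 x]
      congr 1
      funext y
      rw [hadd, lap_two ((contDiff_infty.mp h2 2).contDiffAt)]
      congr 1
      rw [hd1 V1 h1 y (bv 0) (bv 1), hcl']
  have hV0 : ∀ x, fderiv ℝ (lp f) x (bv 0) = V1 x := fun x => by simpa using hV 0 x
  have hV1 : ∀ x, fderiv ℝ (lp f) x (bv 1) = V2 x := fun x => by simpa using hV 1 x
  refine ⟨lp f, contDiff_lp hfs hfc, ?_, fun x => ⟨hV0 x, hV1 x⟩⟩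
  -- the derivative vanishes outside the ball
  have hD0 : ∀ y : E2, a < ‖y‖ → fderiv ℝ (lp f) y = 0 := by
    intro y hy
    refine clm_ext2 ?_ ?_
    · rw [hV0, hs1 y hy]; simp
    · rw [hV1, hs2 y hy]; simp
  have hf0 : ∫ y, f y = 0 := by
    have e1 : ∫ y, fderiv ℝ V1 y (bv 0) = 0 := integral_fd_eq_zero h1 hc1 _
    have e2 : ∫ y, fderiv ℝ V2 y (bv 1) = 0 := integral_fd_eq_zero h2 hc2 _
    rw [hf]
    rw [integral_add ((contDiff_fd h1 _).continuous.integrable_of_hasCompactSupport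
      (hasCompactSupport_fd hc1 _)) ((contDiff_fd h2 _).continuous.integrable_of_hasCompactSupport
      (hasCompactSupport_fd hc2 _)), e1, e2, add_zero]
  have hfz : ∀ y, a < ‖y‖ → f y = 0 := by
    intro y hy
    have hz : ∀ W : E2 → ℝ, (∀ y, a < ‖y‖ → W y = 0) → fderiv ℝ W y = 0 := by
      intro W hW
      have : W =ᶠ[𝓝 y] fun _ => (0 : ℝ) := by
        have hopen : IsOpen {z : E2 | a < ‖z‖} := isOpen_lt continuous_const continuous_norm
        filter_upwards [hopen.mem_nhds hy] with z hz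
        exact hW z hz
      rw [this.fderiv_eq]; simp
    simp only [hf, hz V1 hs1, hz V2 hs2]; simp
  obtain ⟨C, hC0, hC⟩ := lp_decay hfs.continuous ha hfz hf0
  intro y hy
  have hy0 : 0 < ‖y‖ := by linarith
  -- constant on the ray
  have hray : ∀ t : ℝ, 1 ≤ t → lp f (t • y) = lp f y := by
    intro t ht
    have hder : ∀ s ∈ Icc (1 : ℝ) t, HasDerivAt (fun s : ℝ => lp f (s • y)) 0 s := by
      intro s hs
      have hsy : a < ‖s • y‖ := by
        rw [norm_smul, Real.norm_eq_abs, abs_of_pos (by linarith [hs.1])]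
        nlinarith [hs.1]
      have hd : HasFDerivAt (lp f) (fderiv ℝ (lp f) (s • y)) (s • y) :=
        (((contDiff_lp hfs hfc).differentiable (by simp)).differentiableAt).hasFDerivAt
      rw [hD0 _ hsy] at hd
      have h3 : HasDerivAt (fun s : ℝ => s • y) y s := by
        simpa using (hasDerivAt_id s).smul_const y
      have h4 := hd.comp_hasDerivAt s h3
      rw [ContinuousLinearMap.zero_apply] at h4
      exact h4
    have h := constant_of_has_deriv_right_zero (f := fun s : ℝ => lp f (s • y)) (a := 1) (b := t)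
      (fun s hs => (hder s hs).continuousAt.continuousWithinAt)
      (fun s hs => (hder s ⟨hs.1, hs.2.le⟩).hasDerivWithinAt)
    have := h t ⟨ht, le_rfl⟩
    simpa using this
  by_contra hne
  have hpos : 0 < |lp f y| := abs_pos.2 hne
  -- choose t large
  set t : ℝ := max 1 (C / (‖y‖ * |lp f y|) + 1) with htdef
  have ht1 : 1 ≤ t := le_max_left _ _
  have ht2 : C / (‖y‖ * |lp f y|) < t := by
    have := le_max_right 1 (C / (‖y‖ * |lp f y|) + 1)
    linarith
  have h6 := hC (t • y) (by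
    rw [norm_smul, Real.norm_eq_abs, abs_of_pos (by linarith)]
    nlinarith)
  rw [hray t ht1, norm_smul, Real.norm_eq_abs, abs_of_pos (by linarith : (0:ℝ) < t),
    le_div_iff₀ (by positivity)] at h6
  rw [div_lt_iff₀ (by positivity)] at ht2
  nlinarith

end Crest.Agent.R135.Earn
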