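import Crest.Agent.R135.EarnNeu

/-! # R135, Earnshaw block: removal lemma, analytic part -/

set_option autoImplicit false
open MeasureTheory Metric Set Filter Topology Laplacian InnerProductSpace
open scoped RealInnerProductSpace NNReal ENNReal ContDiff Gradient Convolution

namespace Crest.Agent.R135.Earn

open Crest.Agent.R097 (bv Harm laplacian_eq_sum gradient_coord inner_gradient norm_gradient
  exists_cutoff green1)
open Crest.Agent.R135.Reg

/-- no jump test function supported in `ball x s` feels `K` -/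
def NoJump (K : Set E2) (x : E2) (s : ℝ) : Prop :=
  ∀ φ : E2 → ℝ, ContDiffOn ℝ 1 φ Kᶜ → (∃ M, ∀ y, |φ y| ≤ M) →
      (∃ C, IsCompact C ∧ C ⊆ ball x s ∧ ∀ y, y ∉ C → φ y = 0) → dirE φ K univ < ⊤ →
      ∀ e : E2, ∫ y in Kᶜ, inner ℝ e (gradient φ y) = 0

theorem fd_symm {η : E2 → ℝ} (hη : ContDiff ℝ ∞ η) (y v w : E2) :
    fderiv ℝ (fun y => fderiv ℝ η y v) y w = fderiv ℝ (fun y => fderiv ℝ η y w) y v := by
  have hs : IsSymmSndFDerivAt ℝ η y :=
    (contDiff_infty.mp hη 2).contDiffAt.isSymmSndFDerivAt (by simp)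
  have hd : DifferentiableAt ℝ (fderiv ℝ η) y :=
    ((hη.fderiv_right (m := ∞) (by simp)).differentiable (by simp)).differentiableAt
  have e : ∀ v : E2, ∀ w : E2, fderiv ℝ (fun y => fderiv ℝ η y v) y w =
      fderiv ℝ (fderiv ℝ η) y w v := by
    intro v w
    rw [fderiv_clm_apply hd (differentiableAt_const v)]
    simp
  rw [e, e]
  exact hs _ _

theorem tsupport_fd_subset (η : E2 → ℝ) (v : E2) :
    tsupport (fun y => fderiv ℝ η y v) ⊆ tsupport η := by
  refine (closure_mono ?_).trans (tsupport_fderiv_subset ℝ)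
  intro y hy
  rw [Function.mem_support] at hy ⊢
  intro h; apply hy; rw [h]; rfl

/-- locally constant functions off `K` are constant on the ball -/
theorem const_of_nojump {K : Set E2} (hK : IsClosed K) (hK0 : volume K = 0) {x : E2} {s : ℝ}
    (hs : 0 < s) (hd : NoJump K x s) {c : E2 → ℝ} (hc : LocConstOn (ball x s \ K) c) :
    ∃ k, ∀ y ∈ ball x s \ K, c y = k := by
  have hO : IsOpen (ball x s \ K) := isOpen_ball.sdiff hK
  have haeK : ∀ᵐ y : E2, y ∉ K := by rw [ae_iff]; simpa using hK0
  set a : E2 → ℝ := fun y => (ball x s \ K).indicator (fun y => Real.arctan (c y)) y with ha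
  have hacont : ContinuousOn (fun y => Real.arctan (c y)) (ball x s \ K) := by
    intro y hy
    apply ContinuousAt.continuousWithinAt
    have h1 : (fun z => Real.arctan (c z)) =ᶠ[𝓝 y] fun _ => Real.arctan (c y) := by
      filter_upwards [hc y hy] with z hz
      rw [hz]
    exact continuousAt_const.congr h1.symm
  have habd : ∀ y, |a y| ≤ Real.pi / 2 := by
    intro y
    rw [ha]
    simp only
    by_cases hy : y ∈ ball x s \ K
    · rw [indicator_of_mem hy]
      exact (abs_lt.2 ⟨Real.neg_pi_div_two_lt_arctan _, Real.arctan_lt_pi_div_two _⟩).le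
    · rw [indicator_of_notMem hy, abs_zero]; positivity
  have ham : AEStronglyMeasurable a volume := by
    rw [ha]
    refine (aestronglyMeasurable_indicator_iff hO.measurableSet).2 ?_
    exact hacont.aestronglyMeasurable hO.measurableSet
  -- first order equation
  have first : ∀ χ : E2 → ℝ, ContDiff ℝ ∞ χ → HasCompactSupport χ → tsupport χ ⊆ ball x s →
      ∀ e : E2, ∫ y, a y * fderiv ℝ χ y e = 0 := by
    intro χ hχ hχc hχs e
    obtain ⟨Cχ, hCχ⟩ := hχc.exists_bound_of_continuous hχ.continuous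
    set φ : E2 → ℝ := fun y => χ y * a y with hφ
    have hnear : ∀ y ∈ ball x s \ K, φ =ᶠ[𝓝 y] fun z => χ z * Real.arctan (c y) := by
      intro y hy
      filter_upwards [hc y hy, hO.mem_nhds hy] with z hz hz2
      rw [hφ, ha]; simp only
      rw [indicator_of_mem hz2, hz]
    have hoff : ∀ y, y ∉ tsupport χ → φ =ᶠ[𝓝 y] fun _ => 0 := by
      intro y hy
      rw [notMem_tsupport_iff_eventuallyEq] at hy
      filter_upwards [hy] with z hz
      rw [hφ]; simp only; rw [hz]; simp
    have hgr : ∀ y ∈ Kᶜ, ∇ φ y = a y • ∇ χ y := by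
      intro y hy
      by_cases hyB : y ∈ ball x s
      · rw [gradient_congr_of_eventuallyEq (hnear y ⟨hyB, hy⟩)]
        have h1 : (fun z => χ z * Real.arctan (c y)) = fun z => Real.arctan (c y) * χ z := by
          funext z; ring
        rw [h1, gradient_const_mul]
        congr 1
        rw [ha]; simp only
        rw [indicator_of_mem (show y ∈ ball x s \ K from ⟨hyB, hy⟩)]
      · have hy1 : y ∉ tsupport χ := fun h => hyB (hχs h)
        rw [gradient_congr_of_eventuallyEq (hoff y hy1), grad_notMem_tsupport hy1, smul_zero]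
        exact grad_eq_zero_of_near (c := 0) (Eventually.of_forall fun _ => rfl)
    have h1 := hd φ (by
        intro y hy
        apply ContDiffAt.contDiffWithinAt
        by_cases hyB : y ∈ ball x s
        · exact ((((contDiff_infty.mp hχ 1).contDiffAt).mul contDiffAt_const)).congr_of_eventuallyEq
            (hnear y ⟨hyB, hy⟩)
        · have hy1 : y ∉ tsupport χ := fun h => hyB (hχs h)
          exact (contDiffAt_const (c := (0 : ℝ))).congr_of_eventuallyEq (hoff y hy1))
      ⟨Cχ * (Real.pi / 2), fun y => by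
        rw [hφ]; simp only
        rw [abs_mul]
        exact mul_le_mul (by simpa using hCχ y) (habd y) (abs_nonneg _)
          ((norm_nonneg _).trans (hCχ y))⟩
      ⟨tsupport χ, hχc, hχs, fun y hy => by
        rw [hφ]; simp only
        rw [image_eq_zero_of_notMem_tsupport hy, zero_mul]⟩
      (by
        have h2 := (isTest_of_smooth hχ hχc K).dir_fin
        unfold dirE at h2 ⊢
        refine lt_of_le_of_lt (setLIntegral_mono' (MeasurableSet.univ.diff hK.measurableSet)
          (g := fun y => ENNReal.ofReal ((Real.pi / 2) ^ 2) * ‖∇ χ y‖ₑ ^ 2) fun y hy => ?_) ?_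
        · rw [hgr y hy.2, enorm_smul, mul_pow, ENNReal.ofReal_pow (by positivity)]
          gcongr
          rw [← ofReal_norm_eq_enorm]
          exact ENNReal.ofReal_le_ofReal (by simpa using habd y)
        · rw [lintegral_const_mul' _ _ ENNReal.ofReal_ne_top]
          exact ENNReal.mul_lt_top ENNReal.ofReal_lt_top h2)
      e
    rw [← h1]
    symm
    have h2 : ∫ y in Kᶜ, inner ℝ e (gradient φ y) = ∫ y in Kᶜ, a y * fderiv ℝ χ y e := by
      refine setIntegral_congr_fun hK.isOpen_compl.measurableSet fun y hy => ?_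
      show inner ℝ e (gradient φ y) = a y * fderiv ℝ χ y e
      rw [hgr y hy, inner_smul_right, real_inner_comm, inner_gradient]
    rw [h2]
    refine setIntegral_eq_integral_of_ae_compl_eq_zero ?_
    filter_upwards [haeK] with y hy hy2
    exact absurd hy hy2
  -- integrability against smooth compactly supported functions
  have hint : ∀ χ : E2 → ℝ, ContDiff ℝ ∞ χ → HasCompactSupport χ → Integrable (fun y => a y * χ y) :=
    fun χ hχ hχc => (hχ.continuous.integrable_of_hasCompactSupport hχc).bdd_mul ham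
      (Eventually.of_forall fun y => by simpa using habd y)
  -- Weyl
  have hloc : LocallyIntegrableOn a (ball x s) := by
    have h1 : LocallyIntegrable a volume := by
      refine (locallyIntegrable_const (Real.pi / 2)).mono ham (Eventually.of_forall fun y => ?_)
      rw [Real.norm_eq_abs, Real.norm_eq_abs]
      exact (habd y).trans (le_abs_self _)
    exact h1.locallyIntegrableOn _
  obtain ⟨g, hg, -, hae, -⟩ := Crest.Agent.R097.Hm.weyl' (f := a) isOpen_ball hloc (by
    intro φ hφ hφc hφs
    have e1 : ∀ y, a y * (Δ φ) y =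
        a y * fderiv ℝ (fun y => fderiv ℝ φ y (bv 0)) y (bv 0) +
        a y * fderiv ℝ (fun y => fderiv ℝ φ y (bv 1)) y (bv 1) := by
      intro y
      rw [lap_two ((contDiff_infty.mp hφ 2).contDiffAt)]; ring
    simp only [e1]
    rw [integral_add (hint _ (contDiff_fd (contDiff_fd hφ _) _)
        (hasCompactSupport_fd (hasCompactSupport_fd hφc _) _))
      (hint _ (contDiff_fd (contDiff_fd hφ _) _)
        (hasCompactSupport_fd (hasCompactSupport_fd hφc _) _)),
      first _ (contDiff_fd hφ _) (hasCompactSupport_fd hφc _)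
        ((tsupport_fd_subset φ _).trans hφs) _,
      first _ (contDiff_fd hφ _) (hasCompactSupport_fd hφc _)
        ((tsupport_fd_subset φ _).trans hφs) _, add_zero])
  -- `a = g` off `K`
  have hsub : ball x s \ K ⊆ ball x s := sdiff_subset
  have heq : EqOn a g (ball x s \ K) := by
    refine Measure.eqOn_open_of_ae_eq (μ := (volume : Measure E2)) ?_ hO ?_
      (hg.continuousOn.mono hsub)
    · exact ae_mono (Measure.restrict_mono hsub le_rfl) hae
    · refine hacont.congr fun y hy => ?_
      rw [ha]; simp only; rw [indicator_of_mem hy]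
  have hfd0 : ∀ y ∈ ball x s \ K, fderiv ℝ g y = 0 := by
    intro y hy
    have h1 : g =ᶠ[𝓝 y] fun _ => Real.arctan (c y) := by
      filter_upwards [hc y hy, hO.mem_nhds hy] with z hz hz2
      rw [← heq hz2, ha]; simp only
      rw [indicator_of_mem hz2, hz]
    rw [h1.fderiv_eq]; simp
  have hfd1 : EqOn (fderiv ℝ g) (fun _ => 0) (ball x s) := by
    refine Measure.eqOn_open_of_ae_eq (μ := (volume : Measure E2)) ?_ isOpen_ball
      (hg.continuousOn_fderiv_of_isOpen isOpen_ball (by simp)) continuousOn_const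
    rw [EventuallyEq, ae_restrict_iff' measurableSet_ball]
    filter_upwards [haeK] with y hy hyB
    exact hfd0 y ⟨hyB, hy⟩
  refine ⟨Real.tan (g x), fun y hy => ?_⟩
  have h1 : g y = g x := by
    refine (convex_ball x s).is_const_of_fderivWithin_eq_zero (𝕜 := ℝ)
      (hg.differentiableOn (by simp)) (fun z hz => ?_) hy.1 (mem_ball_self hs)
    rw [fderivWithin_of_isOpen isOpen_ball hz]; exact hfd1 hz
  rw [← h1, ← heq hy, ha]
  simp only
  rw [indicator_of_mem hy, Real.tan_arctan]

/-! ### the gradient of `u` is curl-free across `K` -/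

section Curl
variable {u : E2 → ℝ} {K : Set E2}

theorem hasFDerivAt_trunc {u : E2 → ℝ} {y : E2} (hd : DifferentiableAt ℝ u y) {M : ℝ}
    (hM : 0 < M) : HasFDerivAt (fun y => M * Real.arctan (u y / M))
      ((1 + (u y / M) ^ 2)⁻¹ • fderiv ℝ u y) y := by
  have h1 : HasFDerivAt (fun y => u y / M) (M⁻¹ • fderiv ℝ u y) y := by
    have := hd.hasFDerivAt.const_mul M⁻¹
    refine this.congr_of_eventuallyEq (Eventually.of_forall fun z => ?_)
    simp only; rw [div_eq_inv_mul]
  have h2 := ((Real.hasDerivAt_arctan (u y / M)).comp_hasFDerivAt y h1).const_mul M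
  refine h2.congr_fderiv ?_
  rw [smul_smul, smul_smul]
  congr 1
  rw [one_div]
  field_simp

/-- first order equation for the truncations -/
theorem trunc_eq (h : IsQM univ 0 u K) {x : E2} {s : ℝ} (hd : NoJump K x s) {M : ℝ} (hM : 0 < M)
    {χ : E2 → ℝ} (hχ : ContDiff ℝ ∞ χ) (hχc : HasCompactSupport χ) (hχs : tsupport χ ⊆ ball x s)
    (e : E2) : ∫ y in Kᶜ, (χ y * ((1 + (u y / M) ^ 2)⁻¹ * fderiv ℝ u y e) +
      M * Real.arctan (u y / M) * fderiv ℝ χ y e) = 0 := by
  have hO := isOpen_compl_K h
  have hK : IsClosed K := isClosed_K h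
  have hu := harm_u h
  obtain ⟨Cχ, hCχ⟩ := hχc.exists_bound_of_continuous hχ.continuous
  have hCχ0 : 0 ≤ Cχ := (norm_nonneg _).trans (hCχ 0)
  have hgc := hasCompactSupport_grad hχc
  obtain ⟨Dχ, hDχ⟩ := hgc.exists_bound_of_continuous (contDiff_grad hχ).continuous
  have hDχ0 : 0 ≤ Dχ := (norm_nonneg _).trans (hDχ 0)
  obtain ⟨R, hR⟩ := hχc.isBounded.subset_closedBall (0 : E2)
  have hbd : ∀ y, |M * Real.arctan (u y / M)| ≤ M * (Real.pi / 2) := by
    intro y
    rw [abs_mul, abs_of_pos hM]
    gcongr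
    exact (abs_lt.2 ⟨Real.neg_pi_div_two_lt_arctan _, Real.arctan_lt_pi_div_two _⟩).le
  set φ : E2 → ℝ := fun y => χ y * (M * Real.arctan (u y / M)) with hφ
  have hud : ∀ y ∈ Kᶜ, DifferentiableAt ℝ u y := fun y hy =>
    (hu.1.contDiffAt (hO.mem_nhds hy)).differentiableAt (by simp)
  have hfd : ∀ y ∈ Kᶜ, fderiv ℝ φ y = χ y • ((1 + (u y / M) ^ 2)⁻¹ • fderiv ℝ u y) +
      (M * Real.arctan (u y / M)) • fderiv ℝ χ y := by
    intro y hy
    have h1 := hasFDerivAt_trunc (hud y hy) hM
    have h2 : HasFDerivAt χ (fderiv ℝ χ y) y :=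
      (hχ.differentiable (by simp)).differentiableAt.hasFDerivAt
    exact (h2.mul h1).fderiv
  have hA : ∀ y, |(1 + (u y / M) ^ 2)⁻¹| ≤ 1 := by
    intro y
    rw [abs_of_pos (by positivity)]
    exact inv_le_one_of_one_le₀ (by nlinarith [sq_nonneg (u y / M)])
  have h1 := hd φ (by
      intro y hy
      apply ContDiffAt.contDiffWithinAt
      have h2 : ContDiffAt ℝ 1 u y := (hu.1.contDiffAt (hO.mem_nhds hy)).of_le (by simp)
      exact ((contDiff_infty.mp hχ 1).contDiffAt).mul (contDiffAt_const.mul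
        ((Real.contDiff_arctan.contDiffAt).comp y (h2.div_const M))))
    ⟨Cχ * (M * (Real.pi / 2)), fun y => by
      rw [hφ]; simp only
      rw [abs_mul]
      exact mul_le_mul (by simpa using hCχ y) (hbd y) (abs_nonneg _) hCχ0⟩
    ⟨tsupport χ, hχc, hχs, fun y hy => by
      rw [hφ]; simp only
      rw [image_eq_zero_of_notMem_tsupport hy, zero_mul]⟩
    (by
      set C : ℝ := Cχ + Dχ * (M * (Real.pi / 2)) with hC
      have hC0 : 0 ≤ C := by positivity
      have hdf := h.dir_fin 0 R (subset_univ _)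
      unfold dirE at hdf ⊢
      have hle : ∀ y ∈ univ \ K, ‖∇ φ y‖ₑ ^ 2 ≤ (closedBall (0 : E2) R).indicator
          (fun y => ENNReal.ofReal (2 * C ^ 2) * (‖∇ u y‖ₑ ^ 2 + 1)) y := by
        intro y hy
        by_cases hyR : y ∈ closedBall (0 : E2) R
        · rw [indicator_of_mem hyR]
          have hn : ‖∇ φ y‖ ≤ C * (‖∇ u y‖ + 1) := by
            rw [norm_gradient, norm_gradient, hfd y hy.2]
            refine (norm_add_le _ _).trans ?_
            rw [norm_smul, norm_smul, norm_smul, Real.norm_eq_abs (1 + (u y / M) ^ 2)⁻¹,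
              Real.norm_eq_abs (M * _)]
            have a1 : ‖χ y‖ * (|(1 + (u y / M) ^ 2)⁻¹| * ‖fderiv ℝ u y‖) ≤
                Cχ * (1 * ‖fderiv ℝ u y‖) := by
              gcongr
              · exact hCχ y
              · exact hA y
            have a2 : |M * Real.arctan (u y / M)| * ‖fderiv ℝ χ y‖ ≤
                (M * (Real.pi / 2)) * Dχ := by
              gcongr
              · exact hbd y
              · rw [← norm_gradient]; exact hDχ y
            have a3 : 0 ≤ ‖fderiv ℝ u y‖ := norm_nonneg _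
            have a4 : 0 ≤ Dχ * (M * (Real.pi / 2)) := by positivity
            nlinarith
          have hn2 : ‖∇ φ y‖ ^ 2 ≤ 2 * C ^ 2 * (‖∇ u y‖ ^ 2 + 1) := by
            have b1 : ‖∇ φ y‖ ^ 2 ≤ (C * (‖∇ u y‖ + 1)) ^ 2 :=
              pow_le_pow_left₀ (norm_nonneg _) hn 2
            have b2 : (‖∇ u y‖ + 1) ^ 2 ≤ 2 * (‖∇ u y‖ ^ 2 + 1) := by
              nlinarith [sq_nonneg (‖∇ u y‖ - 1)]
            calc ‖∇ φ y‖ ^ 2 ≤ C ^ 2 * (‖∇ u y‖ + 1) ^ 2 := by rw [← mul_pow]; exact b1
              _ ≤ C ^ 2 * (2 * (‖∇ u y‖ ^ 2 + 1)) := by gcongr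
              _ = _ := by ring
          have e1 : ‖∇ φ y‖ₑ ^ 2 = ENNReal.ofReal (‖∇ φ y‖ ^ 2) := by
            rw [← ofReal_norm_eq_enorm, ENNReal.ofReal_pow (norm_nonneg _)]
          have e2 : ‖∇ u y‖ₑ ^ 2 + 1 = ENNReal.ofReal (‖∇ u y‖ ^ 2 + 1) := by
            rw [← ofReal_norm_eq_enorm, ← ENNReal.ofReal_pow (norm_nonneg _),
              ENNReal.ofReal_add (by positivity) zero_le_one, ENNReal.ofReal_one]
          rw [e1, e2, ← ENNReal.ofReal_mul (by positivity)]
          exact ENNReal.ofReal_le_ofReal hn2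
        · rw [indicator_of_notMem hyR]
          have hyt : y ∉ tsupport χ := fun h => hyR (hR h)
          have h2 : ∀ᶠ z in 𝓝 y, φ z = 0 := by
            rw [notMem_tsupport_iff_eventuallyEq] at hyt
            filter_upwards [hyt] with z hz
            rw [hφ]; simp only; rw [hz]; simp
          rw [grad_eq_zero_of_near h2]; simp
      refine lt_of_le_of_lt (setLIntegral_mono' (MeasurableSet.univ.diff hK.measurableSet) hle) ?_
      rw [lintegral_indicator measurableSet_closedBall, Measure.restrict_restrict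
        measurableSet_closedBall]
      have hset : closedBall (0 : E2) R ∩ (univ \ K) = closedBall (0 : E2) R \ K := by
        ext z; simp
      rw [hset, lintegral_const_mul' _ _ ENNReal.ofReal_ne_top]
      refine ENNReal.mul_lt_top ENNReal.ofReal_lt_top ?_
      rw [lintegral_add_right _ measurable_const]
      refine ENNReal.add_lt_top.2 ⟨hdf, ?_⟩
      rw [lintegral_const, one_mul, Measure.restrict_apply_univ]
      exact lt_of_le_of_lt (measure_mono sdiff_subset) measure_closedBall_lt_top)
    e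
  rw [← h1]
  refine setIntegral_congr_fun hO.measurableSet fun y hy => ?_
  show _ = inner ℝ e (gradient φ y)
  rw [real_inner_comm, inner_gradient, hfd y hy]
  simp [smul_eq_mul]

/-- the gradient is curl-free across `K` -/
theorem curl_eq (h : IsQM univ 0 u K) {x : E2} {s : ℝ} (hd : NoJump K x s)
    {η : E2 → ℝ} (hη : ContDiff ℝ ∞ η) (hηc : HasCompactSupport η) (hηs : tsupport η ⊆ ball x s) :
    ∫ y, (fderiv ℝ u y (bv 1) * fderiv ℝ η y (bv 0) - fderiv ℝ u y (bv 0) * fderiv ℝ η y (bv 1))
      = 0 := by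
  have hO := isOpen_compl_K h
  have hu := harm_u h
  have haeK := ae_notMem_K h
  set A : ℝ → E2 → ℝ := fun M y => (1 + (u y / M) ^ 2)⁻¹ with hA
  have hAb : ∀ M y, ‖A M y‖ ≤ 1 := by
    intro M y
    rw [hA]; simp only
    rw [Real.norm_eq_abs, abs_of_pos (by positivity)]
    exact inv_le_one_of_one_le₀ (by nlinarith [sq_nonneg (u y / M)])
  have hAm : ∀ M, AEStronglyMeasurable (A M) (volume.restrict Kᶜ) := by
    intro M
    refine ContinuousOn.aestronglyMeasurable ?_ hO.measurableSet
    refine ContinuousOn.inv₀ ?_ fun y _ => by positivity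
    exact continuousOn_const.add ((hu.1.continuousOn.div_const M).pow 2)
  have hvm : ∀ M, AEStronglyMeasurable (fun y => M * Real.arctan (u y / M))
      (volume.restrict Kᶜ) := by
    intro M
    refine ContinuousOn.aestronglyMeasurable ?_ hO.measurableSet
    exact continuousOn_const.mul
      (Real.continuous_arctan.comp_continuousOn (hu.1.continuousOn.div_const M))
  have hI : ∀ (χ : E2 → ℝ) (e : E2), ContDiff ℝ ∞ χ → HasCompactSupport χ →
      Integrable (fun y => fderiv ℝ u y e * χ y) := by
    intro χ e hχ hχc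
    have h1 := integrable_inner_loc (memLp_grad_u h) (hχ.continuous.smul (continuous_const (y := e)))
      (hχc.smul_right)
    refine h1.congr (Eventually.of_forall fun y => ?_)
    show ⟪∇ u y, χ y • e⟫_ℝ = fderiv ℝ u y e * χ y
    rw [inner_smul_right, inner_gradient, mul_comm]
  set η0 : E2 → ℝ := fun y => fderiv ℝ η y (bv 0) with hη0
  set η1 : E2 → ℝ := fun y => fderiv ℝ η y (bv 1) with hη1
  have s0 : ContDiff ℝ ∞ η0 := contDiff_fd hη _
  have s1 : ContDiff ℝ ∞ η1 := contDiff_fd hη _
  have c0 : HasCompactSupport η0 := hasCompactSupport_fd hηc _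
  have c1 : HasCompactSupport η1 := hasCompactSupport_fd hηc _
  set F : E2 → ℝ := fun y => fderiv ℝ u y (bv 1) * η0 y - fderiv ℝ u y (bv 0) * η1 y with hF
  have hFi : IntegrableOn F Kᶜ := ((hI η0 _ s0 c0).sub (hI η1 _ s1 c1)).integrableOn
  have key : ∀ M : ℝ, 0 < M → ∫ y in Kᶜ, A M y * F y = 0 := by
    intro M hM
    have t1 := trunc_eq h hd hM s0 c0 ((tsupport_fd_subset η _).trans hηs) (bv 1)
    have t2 := trunc_eq h hd hM s1 c1 ((tsupport_fd_subset η _).trans hηs) (bv 0)
    have hint : ∀ (χ : E2 → ℝ) (e : E2), ContDiff ℝ ∞ χ → HasCompactSupport χ →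
        IntegrableOn (fun y => χ y * ((1 + (u y / M) ^ 2)⁻¹ * fderiv ℝ u y e) +
          M * Real.arctan (u y / M) * fderiv ℝ χ y e) Kᶜ := by
      intro χ e hχ hχc
      have i1 : IntegrableOn (fun y => A M y * (fderiv ℝ u y e * χ y)) Kᶜ :=
        (hI χ e hχ hχc).integrableOn.bdd_mul (hAm M) (Eventually.of_forall (hAb M))
      have i2 : IntegrableOn (fun y => M * Real.arctan (u y / M) * fderiv ℝ χ y e) Kᶜ := by
        have h3 : IntegrableOn (fun y => fderiv ℝ χ y e) Kᶜ :=
          ((contDiff_fd hχ e).continuous.integrable_of_hasCompactSupport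
            (hasCompactSupport_fd hχc e)).integrableOn
        refine h3.bdd_mul (c := |M| * (Real.pi / 2)) (hvm M) (Eventually.of_forall fun y => ?_)
        rw [norm_mul, Real.norm_eq_abs, Real.norm_eq_abs]
        gcongr
        exact (abs_lt.2 ⟨Real.neg_pi_div_two_lt_arctan _, Real.arctan_lt_pi_div_two _⟩).le
      refine (i1.add i2).congr (Eventually.of_forall fun y => ?_)
      simp only [hA, Pi.add_apply]
      ring
    have t3 := integral_sub (hint η0 (bv 1) s0 c0) (hint η1 (bv 0) s1 c1)
    rw [t1, t2, sub_zero] at t3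
    rw [← t3]
    refine integral_congr_ae (Eventually.of_forall fun y => ?_)
    simp only [hA, hF]
    have hsy : fderiv ℝ η0 y (bv 1) = fderiv ℝ η1 y (bv 0) := fd_symm hη y _ _
    rw [hsy]
    ring
  have hlim : Tendsto (fun n : ℕ => ∫ y in Kᶜ, A ((n : ℝ) + 1) y * F y) atTop
      (𝓝 (∫ y in Kᶜ, F y)) := by
    refine tendsto_integral_of_dominated_convergence (fun y => ‖F y‖) (fun n => ?_) hFi.norm
      (fun n => Eventually.of_forall fun y => ?_) (Eventually.of_forall fun y => ?_)
    · exact (hAm _).mul hFi.1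
    · rw [norm_mul]
      exact mul_le_of_le_one_left (norm_nonneg _) (hAb _ _)
    · have h1 : Tendsto (fun n : ℕ => u y / ((n : ℝ) + 1)) atTop (𝓝 0) :=
        tendsto_const_nhds.div_atTop (tendsto_natCast_atTop_atTop.atTop_add tendsto_const_nhds)
      have h2 : Tendsto (fun n : ℕ => A ((n : ℝ) + 1) y) atTop (𝓝 1) := by
        have h3 := ((tendsto_const_nhds (x := (1 : ℝ))).add (h1.pow 2)).inv₀ (by norm_num)
        simpa [hA] using h3
      simpa using h2.mul_const (F y)
  have hz : (fun n : ℕ => ∫ y in Kᶜ, A ((n : ℝ) + 1) y * F y) = fun _ => 0 := by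
    funext n; exact key _ (by positivity)
  rw [hz] at hlim
  have h0 : ∫ y in Kᶜ, F y = 0 := (tendsto_nhds_unique hlim tendsto_const_nhds)
  rw [← h0]
  symm
  refine setIntegral_eq_integral_of_ae_compl_eq_zero ?_
  filter_upwards [haeK] with y hy hy2
  exact absurd hy hy2

/-- `∇u` extends smoothly across `K`, and `u` agrees with a `C¹` function off `K` -/
theorem exists_ext_u (h : IsQM univ 0 u K) {x : E2} {s : ℝ} (hs : 0 < s) (hd : NoJump K x s) :
    ∃ w : E2 → ℝ, ContDiffOn ℝ 1 w (ball x s) ∧ ∀ y ∈ ball x s \ K, u y = w y := by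
  have hO := isOpen_compl_K h
  have hK := isClosed_K h
  have hu := harm_u h
  have haeK := ae_notMem_K h
  have hOB : IsOpen (ball x s \ K) := isOpen_ball.sdiff hK
  have hsub : ball x s \ K ⊆ ball x s := sdiff_subset
  have hsub' : ball x s \ K ⊆ Kᶜ := fun y hy => hy.2
  have hI : ∀ (χ : E2 → ℝ) (e : E2), ContDiff ℝ ∞ χ → HasCompactSupport χ →
      Integrable (fun y => fderiv ℝ u y e * χ y) := by
    intro χ e hχ hχc
    have h1 := integrable_inner_loc (memLp_grad_u h) (hχ.continuous.smul (continuous_const (y := e)))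
      (hχc.smul_right)
    refine h1.congr (Eventually.of_forall fun y => ?_)
    show ⟪∇ u y, χ y • e⟫_ℝ = fderiv ℝ u y e * χ y
    rw [inner_smul_right, inner_gradient, mul_comm]
  -- divergence equation in coordinates
  have hdiv : ∀ η : E2 → ℝ, ContDiff ℝ ∞ η → HasCompactSupport η →
      ∫ y, (fderiv ℝ u y (bv 0) * fderiv ℝ η y (bv 0) +
        fderiv ℝ u y (bv 1) * fderiv ℝ η y (bv 1)) = 0 := by
    intro η hη hηc
    rw [← el_smooth h hη hηc]
    refine integral_congr_ae (Eventually.of_forall fun y => ?_)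
    simp only
    rw [PiLp.inner_apply]
    simp only [Fin.sum_univ_two, gradient_coord]
    simp [mul_comm]
  have hloc : ∀ e : E2, LocallyIntegrableOn (fun y => fderiv ℝ u y e) (ball x s) := by
    intro e
    have h1 : LocallyIntegrable (fun y => fderiv ℝ u y e) volume := by
      rw [locallyIntegrable_iff]
      intro C hC
      obtain ⟨R, hR⟩ := hC.isBounded.subset_closedBall (0 : E2)
      haveI : IsFiniteMeasure (volume.restrict (closedBall (0 : E2) R)) := ⟨by
        rw [Measure.restrict_apply_univ]; exact measure_closedBall_lt_top⟩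
      have h2 : MemLp (fun _ : E2 => e) 2 (volume.restrict (closedBall (0 : E2) R)) :=
        memLp_const e
      have h3 := memLp_integrable_inner (memLp_grad_u h R) h2
      simp only [inner_gradient] at h3
      exact IntegrableOn.mono_set h3 hR
    exact h1.locallyIntegrableOn _
  -- weak harmonicity
  obtain ⟨G0, hG0, -, hae0, -⟩ := Crest.Agent.R097.Hm.weyl' isOpen_ball (hloc (bv 0)) (by
    intro φ hφ hφc hφs
    have e1 := hdiv _ (contDiff_fd hφ (bv 0)) (hasCompactSupport_fd hφc _)
    have e2 := curl_eq h hd (contDiff_fd hφ (bv 1)) (hasCompactSupport_fd hφc _)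
      ((tsupport_fd_subset φ _).trans hφs)
    have i1 : ∀ i j k : Fin 2, Integrable (fun y => fderiv ℝ u y (bv i) *
        fderiv ℝ (fun y => fderiv ℝ φ y (bv j)) y (bv k)) := fun i j k =>
      hI _ _ (contDiff_fd (contDiff_fd hφ _) _) (hasCompactSupport_fd (hasCompactSupport_fd hφc _) _)
    have e3 := integral_sub ((i1 0 0 0).add (i1 1 0 1)) ((i1 1 1 0).sub (i1 0 1 1))
    simp only [Pi.add_apply, Pi.sub_apply] at e3
    rw [e1, e2, sub_zero] at e3
    rw [← e3]
    refine integral_congr_ae (Eventually.of_forall fun y => ?_)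
    simp only
    rw [lap_two ((contDiff_infty.mp hφ 2).contDiffAt), fd_symm hφ y (bv 0) (bv 1)]
    ring)
  obtain ⟨G1, hG1, -, hae1, -⟩ := Crest.Agent.R097.Hm.weyl' isOpen_ball (hloc (bv 1)) (by
    intro φ hφ hφc hφs
    have e1 := hdiv _ (contDiff_fd hφ (bv 1)) (hasCompactSupport_fd hφc _)
    have e2 := curl_eq h hd (contDiff_fd hφ (bv 0)) (hasCompactSupport_fd hφc _)
      ((tsupport_fd_subset φ _).trans hφs)
    have i1 : ∀ i j k : Fin 2, Integrable (fun y => fderiv ℝ u y (bv i) *
        fderiv ℝ (fun y => fderiv ℝ φ y (bv j)) y (bv k)) := fun i j k =>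
      hI _ _ (contDiff_fd (contDiff_fd hφ _) _) (hasCompactSupport_fd (hasCompactSupport_fd hφc _) _)
    have e3 := integral_add ((i1 0 1 0).add (i1 1 1 1)) ((i1 1 0 0).sub (i1 0 0 1))
    simp only [Pi.add_apply, Pi.sub_apply] at e3
    rw [e1, e2, add_zero] at e3
    rw [← e3]
    refine integral_congr_ae (Eventually.of_forall fun y => ?_)
    simp only
    rw [lap_two ((contDiff_infty.mp hφ 2).contDiffAt), fd_symm hφ y (bv 0) (bv 1)]
    ring)
  -- pointwise equality off `K`
  have hfdc : ∀ e : E2, ContinuousOn (fun y => fderiv ℝ u y e) (ball x s \ K) := fun e =>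
    ((hu.1.continuousOn_fderiv_of_isOpen hO (by simp)).clm_apply continuousOn_const).mono hsub'
  have heq0 : EqOn (fun y => fderiv ℝ u y (bv 0)) G0 (ball x s \ K) :=
    Measure.eqOn_open_of_ae_eq (μ := (volume : Measure E2))
      (ae_mono (Measure.restrict_mono hsub le_rfl) hae0) hOB (hfdc _) (hG0.continuousOn.mono hsub)
  have heq1 : EqOn (fun y => fderiv ℝ u y (bv 1)) G1 (ball x s \ K) :=
    Measure.eqOn_open_of_ae_eq (μ := (volume : Measure E2))
      (ae_mono (Measure.restrict_mono hsub le_rfl) hae1) hOB (hfdc _) (hG1.continuousOn.mono hsub)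
  -- the closed form
  set W : E2 → (E2 →L[ℝ] ℝ) := fun y => G0 y • innerSL ℝ (bv 0) + G1 y • innerSL ℝ (bv 1) with hW
  have hb : ∀ i j : Fin 2, (innerSL ℝ (bv i : E2)) (bv j) = if i = j then 1 else 0 := by
    intro i j
    rw [innerSL_apply_apply, Crest.Agent.R097.inner_bv']
    by_cases hij : i = j
    · subst hij; simp [bv]
    · simp [bv, hij]
  have hWs : ContDiffOn ℝ ∞ W (ball x s) :=
    (hG0.smul contDiffOn_const).add (hG1.smul contDiffOn_const)
  have hWeq : ∀ y ∈ ball x s \ K, W y = fderiv ℝ u y := by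
    intro y hy
    have a0 : fderiv ℝ u y (bv 0) = G0 y := heq0 hy
    have a1 : fderiv ℝ u y (bv 1) = G1 y := heq1 hy
    refine clm_ext2 ?_ ?_
    · rw [a0, hW]
      simp only [ContinuousLinearMap.add_apply, ContinuousLinearMap.smul_apply, hb]
      simp
    · rw [a1, hW]
      simp only [ContinuousLinearMap.add_apply, ContinuousLinearMap.smul_apply, hb]
      simp
  have hWd : ContinuousOn (fderiv ℝ W) (ball x s) :=
    hWs.continuousOn_fderiv_of_isOpen isOpen_ball (by simp)
  have hsym : ∀ a ∈ ball x s, ∀ v w : E2, fderiv ℝ W a v w = fderiv ℝ W a w v := by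
    intro a ha v w
    have h1 : EqOn (fun a => fderiv ℝ W a v w) (fun a => fderiv ℝ W a w v) (ball x s) := by
      refine Measure.eqOn_open_of_ae_eq (μ := (volume : Measure E2)) ?_ isOpen_ball
        ((hWd.clm_apply continuousOn_const).clm_apply continuousOn_const)
        ((hWd.clm_apply continuousOn_const).clm_apply continuousOn_const)
      rw [EventuallyEq, ae_restrict_iff' measurableSet_ball]
      filter_upwards [haeK] with y hy hyB
      have h2 : W =ᶠ[𝓝 y] fderiv ℝ u := by
        filter_upwards [hOB.mem_nhds ⟨hyB, hy⟩] with z hz using hWeq z hz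
      rw [h2.fderiv_eq]
      have h3 : ContDiffAt ℝ 2 u y :=
        (contDiffOn_infty.mp hu.1 2).contDiffAt (hO.mem_nhds hy)
      exact h3.isSymmSndFDerivAt (by simp) v w
    exact h1 ha
  obtain ⟨w, hw⟩ := (convex_ball x s).exists_forall_hasFDerivAt_of_fderiv_symmetric isOpen_ball
    (hWs.differentiableOn (by simp)) hsym
  have hwc : ContDiffOn ℝ 1 w (ball x s) := by
    have h1 : ContDiffOn ℝ (0 + 1) w (ball x s) := by
      rw [contDiffOn_succ_iff_fderiv_of_isOpen isOpen_ball]
      refine ⟨fun y hy => (hw y hy).differentiableAt.differentiableWithinAt, by simp, ?_⟩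
      rw [contDiffOn_zero]
      exact hWs.continuousOn.congr fun y hy => (hw y hy).fderiv
    simpa using h1
  -- `u - w` is locally constant off `K`
  have hlc : LocConstOn (ball x s \ K) (fun y => u y - w y) := by
    intro y hy
    refine eventually_const_of_fderiv ?_ ?_
    · filter_upwards [hOB.mem_nhds hy] with z hz
      exact ((hu.1.contDiffAt (hO.mem_nhds hz.2)).differentiableAt (by simp)).sub
        (hw z hz.1).differentiableAt
    · filter_upwards [hOB.mem_nhds hy] with z hz
      rw [fderiv_fun_sub ((hu.1.contDiffAt (hO.mem_nhds hz.2)).differentiableAt (by simp))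
        (hw z hz.1).differentiableAt, (hw z hz.1).fderiv, hWeq z hz, sub_self]
  obtain ⟨k, hk⟩ := const_of_nojump hK h.volume_K hs hd hlc
  refine ⟨fun y => w y + k, hwc.add contDiffOn_const, fun y hy => ?_⟩
  have h1 : u y - w y = k := hk y hy
  linarith

end Curl

end Crest.Agent.R135.Earn
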