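import Crest.Agent.R135.EarnData

/-!
# R135, Earnshaw block (helper391), part 4: construction of the decomposition `u = ζ + ue`
-/

set_option autoImplicit false
open MeasureTheory Metric Set Filter Topology Laplacian InnerProductSpace
open scoped RealInnerProductSpace NNReal ENNReal ContDiff Gradient Convolution

namespace Crest.Agent.R135.Earn

open Crest.Agent.R097 (bv Harm laplacian_eq_sum gradient_coord inner_gradient norm_gradient
  exists_cutoff green1)
open Crest.Agent.R135.Reg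

/-- a "singular part" with crack `S` -/
structure Sing (ζ : E2 → ℝ) (S : Set E2) : Prop where
  cpt : IsCompact S
  null : volume S = 0
  smooth : ContDiffOn ℝ ∞ ζ Sᶜ
  l2 : MemLp (fun x => ∇ ζ x) 2 volume
  divfree : ∀ φ : E2 → ℝ, ContDiff ℝ ∞ φ → HasCompactSupport φ → ∫ x, ⟪∇ ζ x, ∇ φ x⟫_ℝ = 0
  decay : ∃ C R : ℝ, 0 ≤ C ∧ 0 < R ∧ ∀ x, R ≤ ‖x‖ → |ζ x| ≤ C / ‖x‖ ∧ ‖∇ ζ x‖ ≤ C / ‖x‖ ^ 2

/-- the data of the Earnshaw argument -/
structure Dat (u : E2 → ℝ) (K1 K2 : Set E2) (ρ : ℝ) (ζ ue p : E2 → ℝ) : Prop where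
  ρpos : 0 < ρ
  K2c : IsClosed K2
  K2null : volume K2 = 0
  sep : thickening (3 * ρ) K1 ⊆ K2ᶜ
  sing : Sing ζ K1
  zharm : Harm ζ K1ᶜ
  ueh : ContDiffOn ℝ ∞ ue K2ᶜ
  psm : ContDiff ℝ ∞ p
  pharm : ∀ x ∈ thickening (3 * ρ) K1, (Δ p) x = 0
  near : ∀ x ∈ thickening (3 * ρ) K1, ue x = p x
  sum : ∀ x ∉ K1 ∪ K2, u x = ζ x + ue x
  Ydiv : ∀ φ : E2 → ℝ, ContDiff ℝ ∞ φ → HasCompactSupport φ → ∫ x, ⟪∇ ue x, ∇ φ x⟫_ℝ = 0
  Yl2 : ∀ R : ℝ, MemLp (fun x => ∇ ue x) 2 (volume.restrict (closedBall 0 R))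

/-! ### square integrability -/

/-- a continuous field which decays like `|x|^{-2}` is in `L²`. -/
theorem memLp_of_decay {V : E2 → E2} (hV : Continuous V) {C R : ℝ}
    (hd : ∀ x, R ≤ ‖x‖ → ‖V x‖ ≤ C / ‖x‖ ^ 2) : MemLp V 2 volume := by
  -- global bound by `C' / (1+‖x‖²)`
  obtain ⟨M, hM⟩ := (isCompact_closedBall (0 : E2) (max R 1)).exists_bound_of_continuousOn
    hV.continuousOn
  have hM0 : 0 ≤ M := (norm_nonneg _).trans (hM 0 (mem_closedBall_self (by positivity)))
  have hb : ∀ x, ‖V x‖ ≤ (M * (1 + (max R 1) ^ 2) + 2 * |C|) * (1 + ‖x‖ ^ 2) ^ (-2 / 2 : ℝ) := by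
    intro x
    have e1 : (1 + ‖x‖ ^ 2) ^ (-2 / 2 : ℝ) = (1 + ‖x‖ ^ 2)⁻¹ := by
      rw [show (-2 / 2 : ℝ) = -1 by norm_num, Real.rpow_neg_one]
    rw [e1, ← div_eq_mul_inv, le_div_iff₀ (by positivity)]
    by_cases hx : x ∈ closedBall (0 : E2) (max R 1)
    · have h1 := hM x hx
      rw [mem_closedBall_zero_iff] at hx
      have h2 : ‖x‖ ^ 2 ≤ (max R 1) ^ 2 := pow_le_pow_left₀ (norm_nonneg _) hx 2
      calc ‖V x‖ * (1 + ‖x‖ ^ 2) ≤ M * (1 + (max R 1) ^ 2) := by gcongr
        _ ≤ _ := by linarith [abs_nonneg C]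
    · rw [mem_closedBall_zero_iff, not_le, max_lt_iff] at hx
      have h1 := hd x hx.1.le
      have hx2 : 0 < ‖x‖ ^ 2 := by nlinarith [hx.2]
      have h3 : (1 : ℝ) ≤ ‖x‖ ^ 2 := by nlinarith [hx.2]
      calc ‖V x‖ * (1 + ‖x‖ ^ 2) ≤ (|C| / ‖x‖ ^ 2) * (2 * ‖x‖ ^ 2) := by
            refine mul_le_mul (h1.trans ?_) (by linarith) (by positivity) (by positivity)
            gcongr
            exact le_abs_self C
        _ = 2 * |C| := by
            rw [div_mul_eq_mul_div, div_eq_iff hx2.ne']; ring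
        _ ≤ _ := by
            have : 0 ≤ M * (1 + (max R 1) ^ 2) := by positivity
            linarith
  have hI : MemLp (fun x : E2 => (1 + ‖x‖ ^ 2) ^ (-2 / 2 : ℝ)) 2 volume := by
    rw [memLp_two_iff_integrable_sq]
    · have h := integrable_rpow_neg_one_add_norm_sq (E := E2) (μ := volume) (r := 4) (by
        simp; norm_num)
      refine h.congr (Eventually.of_forall fun x => ?_)
      simp only
      rw [← Real.rpow_natCast ((1 + ‖x‖ ^ 2) ^ (-2 / 2 : ℝ)), ← Real.rpow_mul (by positivity)]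
      norm_num
    · refine Continuous.aestronglyMeasurable ?_
      refine Continuous.rpow_const (by fun_prop) fun x => Or.inl (by positivity)
  refine (hI.const_mul (M * (1 + (max R 1) ^ 2) + 2 * |C|)).mono hV.aestronglyMeasurable
    (Eventually.of_forall fun x => ?_)
  rw [Real.norm_eq_abs]
  exact (hb x).trans (le_abs_self _)

theorem memLp_integrable_inner {μ : Measure E2} {V W : E2 → E2} (hV : MemLp V 2 μ)
    (hW : MemLp W 2 μ) : Integrable (fun x => ⟪V x, W x⟫_ℝ) μ := by
  have h1 : Integrable (fun x => ‖V x‖ * ‖W x‖) μ := hV.norm.integrable_mul hW.norm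
  refine h1.mono' (hV.1.inner hW.1) (Eventually.of_forall fun x => ?_)
  exact norm_inner_le_norm _ _

theorem int_cc {F : E2 → ℝ} (hF : Continuous F) {S : Set E2} (hS : IsCompact S)
    (h : ∀ x, x ∉ S → F x = 0) : Integrable F :=
  hF.integrable_of_hasCompactSupport (HasCompactSupport.intro hS h)

/-- product of a locally square integrable field and a continuous compactly supported one -/
theorem integrable_inner_loc {V W : E2 → E2}
    (hV : ∀ R : ℝ, MemLp V 2 (volume.restrict (closedBall 0 R)))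
    (hW : Continuous W) (hc : HasCompactSupport W) : Integrable (fun x => ⟪V x, W x⟫_ℝ) := by
  obtain ⟨R, hR⟩ := hc.isBounded.subset_closedBall (0 : E2)
  have h1 : IntegrableOn (fun x => ⟪V x, W x⟫_ℝ) (closedBall 0 R) :=
    memLp_integrable_inner (hV R) ((hW.memLp_of_hasCompactSupport hc).restrict _)
  rw [← integrableOn_univ]
  refine h1.of_forall_sdiff_eq_zero MeasurableSet.univ fun x hx => ?_
  rw [image_eq_zero_of_notMem_tsupport (fun h => hx.2 (hR h)), inner_zero_right]

section Construct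
variable {u : E2 → ℝ} {K K1 : Set E2}

theorem memLp_grad_u (h : IsQM univ 0 u K) (R : ℝ) :
    MemLp (fun x => ∇ u x) 2 (volume.restrict (closedBall 0 R)) := by
  refine ⟨(measurable_gradient u).aestronglyMeasurable, ?_⟩
  rw [eLpNorm_lt_top_iff_lintegral_rpow_enorm_lt_top (by norm_num) (by norm_num)]
  have h1 := h.dir_fin 0 R (subset_univ _)
  unfold dirE at h1
  have h2 : ∫⁻ x in closedBall (0 : E2) R, ‖∇ u x‖ₑ ^ 2 =
      ∫⁻ x in closedBall (0 : E2) R \ K, ‖∇ u x‖ₑ ^ 2 :=
    (setLIntegral_congr (sdiff_null_ae_eq_self h.volume_K)).symm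
  rw [← h2] at h1
  simpa using h1

/-- the singular/regular splitting -/
theorem exists_dat (h : IsQM univ 0 u K) (h1 : IsCompact K1) (hsub : K1 ⊆ K)
    (h2 : IsClosed (K \ K1)) : ∃ ρ ζ ue p, Dat u K1 (K \ K1) ρ ζ ue p := by
  set K2 := K \ K1 with hK2
  have hKu : K = K1 ∪ K2 := (union_sdiff_cancel hsub).symm
  have hdis : K1 ⊆ K2ᶜ := fun x hx hx2 => hx2.2 hx
  obtain ⟨δ, hδ, hδ'⟩ := h1.exists_cthickening_subset_open h2.isOpen_compl hdis
  set ρ := δ / 4 with hρ
  have hρ0 : 0 < ρ := by positivity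
  have hu := harm_u h
  have hO := isOpen_compl_K h
  -- cut-off
  set S3 := cthickening (3 * ρ) K1 with hS3
  have hS3c : IsCompact S3 := h1.cthickening
  have hS3U : S3 ⊆ K2ᶜ := (cthickening_mono (by linarith) _).trans hδ'
  obtain ⟨χ, hχ, hχc, hχU, -, hχ1⟩ := exists_cutoff hS3c h2.isOpen_compl hS3U
  have hχs : ContDiff ℝ ∞ χ := hχ
  have hK1S : K1 ⊆ S3 := self_subset_cthickening _
  set A := tsupport (fderiv ℝ χ) with hA
  have hAc : IsCompact A := hχc.fderiv (𝕜 := ℝ)
  have h02 : ∀ x ∈ K2, ∀ᶠ y in 𝓝 x, χ y = 0 := by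
    intro x hx
    have hx' : x ∉ tsupport χ := fun h => hχU h hx
    filter_upwards [(isClosed_tsupport χ).isOpen_compl.mem_nhds hx'] with y hy
    exact image_eq_zero_of_notMem_tsupport hy
  have hfz : ∀ {x : E2} {c : ℝ}, (∀ᶠ y in 𝓝 x, χ y = c) → x ∉ A := by
    intro x c hx
    rw [hA, notMem_tsupport_iff_eventuallyEq]
    filter_upwards [hx.eventually_nhds] with y hy
    have : χ =ᶠ[𝓝 y] fun _ => c := hy
    rw [this.fderiv_eq]; simp
  have hAK : A ⊆ Kᶜ := by
    intro x hx hxK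
    rw [hKu] at hxK
    rcases hxK with hxK | hxK
    · exact hfz (hχ1 x (hK1S hxK)) hx
    · exact hfz (h02 x hxK) hx
  obtain ⟨g, hg, hgc, hgu⟩ := Crest.Agent.R097.Hm.exists_ext (m := (⊤ : ℕ∞)) hO hu.1 hAc hAK
  have hgs : ContDiff ℝ ∞ g := hg
  have hχg : ContDiff ℝ ∞ (fun x => χ x * g x) := hχs.mul hgs
  have hχgc : HasCompactSupport (fun x => χ x * g x) := hχc.mul_right
  -- away from `A` the cut-off is locally constant
  have hcst : ∀ x, x ∉ A → ∀ᶠ y in 𝓝 x, χ y = χ x := by
    intro x hx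
    rw [hA, notMem_tsupport_iff_eventuallyEq] at hx
    exact eventually_const_of_fderiv
      (Eventually.of_forall fun y => (hχs.differentiable (by simp)).differentiableAt) hx
  -- the charge
  set f : E2 → ℝ := fun x => (Δ (fun y => χ y * g y)) x - χ x * (Δ g) x with hf
  have hlaps : ∀ w : E2 → ℝ, ContDiff ℝ ∞ w → ContDiff ℝ ∞ (Δ w) := by
    intro w hw
    have : (Δ w) = fun x => fderiv ℝ (fun y => fderiv ℝ w y (bv 0)) x (bv 0) +
        fderiv ℝ (fun y => fderiv ℝ w y (bv 1)) x (bv 1) := by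
      funext x
      exact lap_two ((contDiff_infty.mp hw 2).contDiffAt)
    rw [this]
    exact (contDiff_fd (contDiff_fd hw _) _).add (contDiff_fd (contDiff_fd hw _) _)
  have hfs : ContDiff ℝ ∞ f := (hlaps _ hχg).sub (hχs.mul (hlaps _ hgs))
  have hf0 : ∀ x, x ∉ A → f x = 0 := by
    intro x hx
    have hev := hcst x hx
    have h3 : (fun y => χ y * g y) =ᶠ[𝓝 x] fun y => χ x * g y := by
      filter_upwards [hev] with y hy
      rw [hy]
    simp only [hf]
    rw [Crest.Agent.R097.Hm.lap_congr_at h3,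
      Crest.Agent.R097.Hm.lap_const_mul_at _ ((contDiff_infty.mp hgs 2).contDiffAt), sub_self]
  have hfc : HasCompactSupport f := HasCompactSupport.intro hAc hf0
  have hpz : ContDiff ℝ ∞ (lp f) := contDiff_lp hfs hfc
  -- the key identity
  have hAB : ∀ φ : E2 → ℝ, ContDiff ℝ ∞ φ → HasCompactSupport φ →
      ∫ x, (χ x * ⟪∇ u x, ∇ φ x⟫_ℝ + g x * ⟪∇ χ x, ∇ φ x⟫_ℝ) = - ∫ x, φ x * f x := by
    intro φ hφ hc
    have dχ : ∀ x, DifferentiableAt ℝ χ x := fun x =>
      (hχs.differentiable (by simp)).differentiableAt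
    have dg : ∀ x, DifferentiableAt ℝ g x := fun x =>
      (hgs.differentiable (by simp)).differentiableAt
    have dφ : ∀ x, DifferentiableAt ℝ φ x := fun x =>
      (hφ.differentiable (by simp)).differentiableAt
    have cχ := (contDiff_grad hχs).continuous
    have cg := (contDiff_grad hgs).continuous
    have cφ := (contDiff_grad hφ).continuous
    have hcφ := hasCompactSupport_grad hc
    have hχφ : ContDiff ℝ ∞ (fun x => χ x * φ x) := hχs.mul hφ
    have hχφc : HasCompactSupport (fun x => χ x * φ x) := hc.mul_left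
    -- integrability
    have i0 : Integrable (fun x => χ x * ⟪∇ u x, ∇ φ x⟫_ℝ) := by
      have := integrable_inner_loc (memLp_grad_u h) (hχs.continuous.smul cφ)
        (hcφ.smul_left (f := χ))
      refine this.congr (Eventually.of_forall fun x => ?_)
      simp only [Pi.smul_apply', inner_smul_right]
    have i1 : Integrable (fun x => χ x * ⟪∇ g x, ∇ φ x⟫_ℝ) :=
      int_cc (hχs.continuous.mul (cg.inner cφ)) hc fun x hx => by
        rw [grad_notMem_tsupport hx, inner_zero_right, mul_zero]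
    have i2 : Integrable (fun x => g x * ⟪∇ χ x, ∇ φ x⟫_ℝ) :=
      int_cc (hgs.continuous.mul (cχ.inner cφ)) hc fun x hx => by
        rw [grad_notMem_tsupport hx, inner_zero_right, mul_zero]
    have i3 : Integrable (fun x => φ x * ⟪∇ g x, ∇ χ x⟫_ℝ) :=
      int_cc (hφ.continuous.mul (cg.inner cχ)) hc fun x hx => by
        rw [image_eq_zero_of_notMem_tsupport hx, zero_mul]
    have i4 : Integrable (fun x => φ x * (Δ (fun y => χ y * g y)) x) :=
      int_cc (hφ.continuous.mul (hlaps _ hχg).continuous) hc fun x hx => by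
        rw [image_eq_zero_of_notMem_tsupport hx, zero_mul]
    have i5 : Integrable (fun x => χ x * φ x * (Δ g) x) :=
      int_cc (hχφ.continuous.mul (hlaps _ hgs).continuous) hc fun x hx => by
        rw [image_eq_zero_of_notMem_tsupport hx, mul_zero, zero_mul]
    have hDug : ∀ x, φ x * ⟪∇ u x, ∇ χ x⟫_ℝ = φ x * ⟪∇ g x, ∇ χ x⟫_ℝ := by
      intro x
      by_cases hx : x ∈ A
      · rw [gradient_congr_of_eventuallyEq (hgu x hx)]
      · rw [grad_eq_zero_of_near (hcst x hx), inner_zero_right, inner_zero_right]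
    -- (A)
    have eA : (∫ x, χ x * ⟪∇ u x, ∇ φ x⟫_ℝ) + ∫ x, φ x * ⟪∇ g x, ∇ χ x⟫_ℝ = 0 := by
      rw [← integral_add i0 i3, ← el_smooth h hχφ hχφc]
      refine integral_congr_ae (Eventually.of_forall fun x => ?_)
      simp only
      rw [grad_mul (dχ x) (dφ x), inner_add_right, inner_smul_right, inner_smul_right, hDug x]
    -- (B)
    have eB : (∫ x, χ x * ⟪∇ g x, ∇ φ x⟫_ℝ) + ∫ x, g x * ⟪∇ χ x, ∇ φ x⟫_ℝ =
        - ∫ x, φ x * (Δ (fun y => χ y * g y)) x := by
      rw [← integral_add i1 i2, ← green_s hχg hφ hc]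
      refine integral_congr_ae (Eventually.of_forall fun x => ?_)
      simp only
      rw [grad_mul (dχ x) (dg x), inner_add_left, inner_smul_left, inner_smul_left]
      simp
    have eC : (∫ x, χ x * ⟪∇ g x, ∇ φ x⟫_ℝ) + ∫ x, φ x * ⟪∇ g x, ∇ χ x⟫_ℝ =
        - ∫ x, χ x * φ x * (Δ g) x := by
      rw [← integral_add i1 i3, ← green_s hgs hχφ hχφc]
      refine integral_congr_ae (Eventually.of_forall fun x => ?_)
      simp only
      rw [grad_mul (dχ x) (dφ x), inner_add_right, inner_smul_right, inner_smul_right]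
    have eD : ∫ x, φ x * f x = (∫ x, φ x * (Δ (fun y => χ y * g y)) x) -
        ∫ x, χ x * φ x * (Δ g) x := by
      rw [← integral_sub i4 i5]
      refine integral_congr_ae (Eventually.of_forall fun x => ?_)
      simp only [hf]; ring
    rw [integral_add i0 i2, eD]
    linarith
  -- radius containing everything
  obtain ⟨a, ha, haχ⟩ : ∃ a : ℝ, 0 < a ∧ tsupport χ ⊆ closedBall 0 a := by
    obtain ⟨r, hr⟩ := hχc.isBounded.subset_closedBall (0 : E2)
    exact ⟨max r 1, by positivity, hr.trans (closedBall_subset_closedBall (le_max_left _ _))⟩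
  have hAχ : A ⊆ tsupport χ := tsupport_fderiv_subset ℝ
  have hχz : ∀ x, a < ‖x‖ → x ∉ tsupport χ := by
    intro x hx hmem
    have := haχ hmem
    rw [mem_closedBall_zero_iff] at this
    linarith
  have hfa : ∀ y, a < ‖y‖ → f y = 0 := fun y hy => hf0 y fun h => hχz y hy (hAχ h)
  -- mean zero
  have hmean : ∫ y, f y = 0 := by
    obtain ⟨ψ, hψ, hψc, -, -, hψ1⟩ := exists_cutoff (isCompact_closedBall (0 : E2) a)
      isOpen_univ (subset_univ _)
    have h3 := hAB ψ hψ hψc
    have h4 : ∫ x, (χ x * ⟪∇ u x, ∇ ψ x⟫_ℝ + g x * ⟪∇ χ x, ∇ ψ x⟫_ℝ) = 0 := by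
      rw [← integral_zero E2 ℝ]
      refine integral_congr_ae (Eventually.of_forall fun x => ?_)
      simp only
      by_cases hx : x ∈ tsupport χ
      · rw [grad_eq_zero_of_near (hψ1 x (haχ hx))]; simp
      · rw [image_eq_zero_of_notMem_tsupport hx, grad_notMem_tsupport hx]; simp
    have h5 : ∫ x, ψ x * f x = ∫ x, f x := by
      refine integral_congr_ae (Eventually.of_forall fun x => ?_)
      simp only
      by_cases hx : x ∈ closedBall (0 : E2) a
      · rw [(hψ1 x hx).self_of_nhds, one_mul]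
      · rw [hfa x (by rwa [mem_closedBall_zero_iff, not_le] at hx), mul_zero]
    rw [h4, h5] at h3
    linarith
  obtain ⟨C1, hC1, hd1⟩ := lp_decay hfs.continuous ha hfa hmean
  obtain ⟨C2, hC2, hd2⟩ := grad_lp_decay hfs ha hfa hmean
  -- differentiability facts
  have dχ : ∀ x, DifferentiableAt ℝ χ x := fun x =>
    (hχs.differentiable (by simp)).differentiableAt
  have dp : ∀ x, DifferentiableAt ℝ (lp f) x := fun x =>
    (hpz.differentiable (by simp)).differentiableAt
  have du : ∀ x ∉ K, DifferentiableAt ℝ u x := fun x hx =>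
    (hu.1.contDiffAt (hO.mem_nhds hx)).differentiableAt (by simp)
  have hugχ : ∀ x, u x • ∇ χ x = g x • ∇ χ x := by
    intro x
    by_cases hx : x ∈ A
    · rw [(hgu x hx).eq_of_nhds]
    · rw [grad_eq_zero_of_near (hcst x hx), smul_zero, smul_zero]
  set ζ : E2 → ℝ := fun x => χ x * u x - lp f x with hζ
  set ue : E2 → ℝ := fun x => (1 - χ x) * u x + lp f x with hue
  have hgζ : ∀ x ∉ K, ∇ ζ x = (χ x • ∇ u x + g x • ∇ χ x) - ∇ (lp f) x := by
    intro x hx
    have e1 := grad_sub (f := fun y => χ y * u y) (g := lp f) ((dχ x).mul (du x hx)) (dp x)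
    rw [hζ, e1, grad_mul (dχ x) (du x hx), hugχ]
  have hgue : ∀ x ∉ K, ∇ ue x = ∇ u x - ∇ ζ x := by
    intro x hx
    have h3 : DifferentiableAt ℝ ζ x := ((dχ x).mul (du x hx)).sub (dp x)
    rw [← grad_sub (du x hx) h3]
    congr 1
    funext y
    simp only [hζ, hue]; ring
  have haeK := ae_notMem_K h
  have hK1null : volume K1 = 0 := measure_mono_null hsub h.volume_K
  have hK2null : volume K2 = 0 := measure_mono_null sdiff_subset h.volume_K
  -- `∇ (lp f) ∈ L²`
  have hLp : MemLp (fun x => ∇ (lp f) x) 2 volume := by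
    refine memLp_of_decay (contDiff_grad hpz).continuous (C := C2) (R := 4 * a) fun x hx => ?_
    rw [norm_gradient]
    exact hd2 x hx
  -- `∇ ζ ∈ L²`
  have hχu : MemLp (fun x => χ x • ∇ u x) 2 volume := by
    obtain ⟨M, hM⟩ := hχc.exists_bound_of_continuous hχs.continuous
    have hM0 : 0 ≤ M := (norm_nonneg _).trans (hM 0)
    have h3 : MemLp (fun x => χ x • ∇ u x) 2 (volume.restrict (closedBall 0 a)) := by
      refine ((memLp_grad_u h a).const_smul M).mono
        (hχs.continuous.measurable.smul (measurable_gradient u)).aestronglyMeasurable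
        (Eventually.of_forall fun x => ?_)
      simp only [Pi.smul_apply]
      rw [norm_smul, norm_smul, Real.norm_of_nonneg hM0]
      exact mul_le_mul_of_nonneg_right (hM x) (norm_nonneg _)
    have h4 : (closedBall (0 : E2) a).indicator (fun x => χ x • ∇ u x) =
        fun x => χ x • ∇ u x := by
      funext x
      by_cases hx : x ∈ closedBall (0 : E2) a
      · rw [indicator_of_mem hx]
      · rw [indicator_of_notMem hx]
        rw [mem_closedBall_zero_iff, not_le] at hx
        rw [image_eq_zero_of_notMem_tsupport (hχz x hx), zero_smul]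
    rw [← memLp_indicator_iff_restrict isClosed_closedBall.measurableSet, h4] at h3
    exact h3
  have hgχ : MemLp (fun x => g x • ∇ χ x) 2 volume :=
    (hgs.continuous.smul (contDiff_grad hχs).continuous).memLp_of_hasCompactSupport
      (HasCompactSupport.intro hχc fun x hx => by
        simp only [Pi.smul_apply']
        rw [grad_notMem_tsupport hx, smul_zero])
  have hζ2 : MemLp (fun x => ∇ ζ x) 2 volume := by
    refine ((hχu.add hgχ).sub hLp).ae_eq ?_
    filter_upwards [haeK] with x hx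
    simp only [Pi.add_apply, Pi.sub_apply]
    rw [hgζ x hx]
  have hζs : ContDiffOn ℝ ∞ ζ K1ᶜ := by
    intro x hx
    apply ContDiffAt.contDiffWithinAt
    by_cases hxK : x ∈ K
    · have hx2 : x ∈ K2 := ⟨hxK, hx⟩
      have h3 : ζ =ᶠ[𝓝 x] fun y => - lp f y := by
        filter_upwards [h02 x hx2] with y hy
        simp only [hζ, hy]; ring
      exact hpz.contDiffAt.neg.congr_of_eventuallyEq h3
    · exact (hχs.contDiffAt.mul (hu.1.contDiffAt (hO.mem_nhds hxK))).sub hpz.contDiffAt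
  have hζd : ∀ φ : E2 → ℝ, ContDiff ℝ ∞ φ → HasCompactSupport φ →
      ∫ x, ⟪∇ ζ x, ∇ φ x⟫_ℝ = 0 := by
    intro φ hφ hc
    have h3 := hAB φ hφ hc
    have h4 := green_s hpz hφ hc
    have cφ := (contDiff_grad hφ).continuous
    have hcφ := hasCompactSupport_grad hc
    have i0 : Integrable (fun x => χ x * ⟪∇ u x, ∇ φ x⟫_ℝ) := by
      have := integrable_inner_loc (memLp_grad_u h) (hχs.continuous.smul cφ)
        (hcφ.smul_left (f := χ))
      refine this.congr (Eventually.of_forall fun x => ?_)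
      simp only [Pi.smul_apply', inner_smul_right]
    have i2 : Integrable (fun x => g x * ⟪∇ χ x, ∇ φ x⟫_ℝ) :=
      int_cc (hgs.continuous.mul ((contDiff_grad hχs).continuous.inner cφ)) hc fun x hx => by
        rw [grad_notMem_tsupport hx, inner_zero_right, mul_zero]
    have i3 : Integrable (fun x => ⟪∇ (lp f) x, ∇ φ x⟫_ℝ) :=
      integrable_inner_of_cs (contDiff_grad hpz).continuous cφ hcφ
    have h5 : ∫ x, ⟪∇ ζ x, ∇ φ x⟫_ℝ =
        (∫ x, (χ x * ⟪∇ u x, ∇ φ x⟫_ℝ + g x * ⟪∇ χ x, ∇ φ x⟫_ℝ)) -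
          ∫ x, ⟪∇ (lp f) x, ∇ φ x⟫_ℝ := by
      have i02 : Integrable (fun x => χ x * ⟪∇ u x, ∇ φ x⟫_ℝ + g x * ⟪∇ χ x, ∇ φ x⟫_ℝ) :=
        i0.add i2
      rw [← integral_sub i02 i3]
      refine integral_congr_ae ?_
      filter_upwards [haeK] with x hx
      rw [hgζ x hx, inner_sub_left, inner_add_left, inner_smul_left, inner_smul_left]
      simp
    rw [h5, h3, h4]
    have h6 : ∀ x, (Δ (lp f)) x = f x := fun x => lap_lp hfs hfc x
    simp only [h6]
    ring
  have hζh : ∀ x ∈ K1ᶜ, (Δ ζ) x = 0 := by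
    intro x hx
    by_cases hxA : x ∈ A
    · have h3 : ζ =ᶠ[𝓝 x] fun y => (χ y * g y) + -(lp f y) := by
        filter_upwards [hgu x hxA] with y hy
        simp only [hζ, hy]; ring
      rw [Crest.Agent.R097.Hm.lap_congr_at h3, Crest.Agent.R097.Hm.lap_add_at
        ((contDiff_infty.mp hχg 2).contDiffAt) ((contDiff_infty.mp hpz 2).contDiffAt.neg),
        Crest.Agent.R097.Hm.lap_neg, lap_lp hfs hfc]
      simp only [hf]
      have h4 : (Δ g) x = 0 := by
        rw [Crest.Agent.R097.Hm.lap_congr_at (hgu x hxA), hu.2 x (hAK hxA)]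
      rw [h4]; ring
    · by_cases hxK : x ∈ K
      · have hx2 : x ∈ K2 := ⟨hxK, hx⟩
        have h3 : ζ =ᶠ[𝓝 x] fun y => - lp f y := by
          filter_upwards [h02 x hx2] with y hy
          simp only [hζ, hy]; ring
        rw [Crest.Agent.R097.Hm.lap_congr_at h3, Crest.Agent.R097.Hm.lap_neg, lap_lp hfs hfc,
          hf0 x hxA, neg_zero]
      · have h3 : ζ =ᶠ[𝓝 x] fun y => (χ x * u y) + -(lp f y) := by
          filter_upwards [hcst x hxA] with y hy
          simp only [hζ, hy]; ring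
        have cu : ContDiffAt ℝ 2 u x :=
          (contDiffOn_infty.mp hu.1 2).contDiffAt (hO.mem_nhds hxK)
        rw [Crest.Agent.R097.Hm.lap_congr_at h3, Crest.Agent.R097.Hm.lap_add_at
          (contDiffAt_const.mul cu) ((contDiff_infty.mp hpz 2).contDiffAt.neg),
          Crest.Agent.R097.Hm.lap_neg, lap_lp hfs hfc,
          Crest.Agent.R097.Hm.lap_const_mul_at _ cu, hu.2 x hxK, hf0 x hxA]
        ring
  have hnear1 : ∀ x ∈ thickening (3 * ρ) K1, x ∈ S3 := fun x hx =>
    thickening_subset_cthickening _ _ hx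
  have hYl2 : ∀ R : ℝ, MemLp (fun x => ∇ ue x) 2 (volume.restrict (closedBall 0 R)) := by
    intro R
    refine ((memLp_grad_u h R).sub (hζ2.restrict _)).ae_eq ?_
    filter_upwards [ae_restrict_of_ae haeK] with x hx
    simp only [Pi.sub_apply]
    rw [hgue x hx]
  refine ⟨ρ, ζ, ue, lp f, hρ0, h2, hK2null, ?_, ⟨h1, hK1null, hζs, hζ2, hζd, ?_⟩, ⟨hζs, hζh⟩, ?_,
    hpz, ?_, ?_, ?_, ?_, hYl2⟩
  · exact fun x hx => hS3U (hnear1 x hx)
  · refine ⟨max C1 C2, 4 * a, le_max_of_le_left hC1, by positivity, fun x hx => ?_⟩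
    have hx0 : 0 < ‖x‖ := by linarith
    have hev : ∀ᶠ y in 𝓝 x, ζ y = - lp f y := by
      have hopen : IsOpen {z : E2 | a < ‖z‖} := isOpen_lt continuous_const continuous_norm
      filter_upwards [hopen.mem_nhds (by show a < ‖x‖; linarith)] with y hy
      simp only [hζ]
      rw [image_eq_zero_of_notMem_tsupport (hχz y hy)]; ring
    have hev' : ζ =ᶠ[𝓝 x] fun y => - lp f y := hev
    constructor
    · rw [hev.self_of_nhds, abs_neg]
      refine (hd1 x (by linarith)).trans ?_
      gcongr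
      exact le_max_left _ _
    · rw [gradient_congr_of_eventuallyEq hev', gradient_neg', norm_neg, norm_gradient]
      refine (hd2 x hx).trans ?_
      gcongr
      exact le_max_right _ _
  · intro x hx
    apply ContDiffAt.contDiffWithinAt
    by_cases hxK : x ∈ K
    · have hx1 : x ∈ K1 := by
        by_contra hcon
        exact hx ⟨hxK, hcon⟩
      have h3 : ue =ᶠ[𝓝 x] fun y => lp f y := by
        filter_upwards [hχ1 x (hK1S hx1)] with y hy
        simp only [hue, hy]; ring
      exact hpz.contDiffAt.congr_of_eventuallyEq h3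
    · exact ((contDiffAt_const.sub hχs.contDiffAt).mul
        (hu.1.contDiffAt (hO.mem_nhds hxK))).add hpz.contDiffAt
  · intro x hx
    rw [lap_lp hfs hfc, hf0 x (hfz (hχ1 x (hnear1 x hx)))]
  · intro x hx
    simp only [hue]
    rw [(hχ1 x (hnear1 x hx)).self_of_nhds]; ring
  · intro x _
    simp only [hζ, hue]; ring
  · intro φ hφ hc
    have i1 := integrable_inner_loc (memLp_grad_u h) (contDiff_grad hφ).continuous
      (hasCompactSupport_grad hc)
    have i2 : Integrable (fun x => ⟪∇ ζ x, ∇ φ x⟫_ℝ) :=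
      integrable_inner_loc (fun R => hζ2.restrict _) (contDiff_grad hφ).continuous
        (hasCompactSupport_grad hc)
    have h3 : ∫ x, ⟪∇ ue x, ∇ φ x⟫_ℝ = (∫ x, ⟪∇ u x, ∇ φ x⟫_ℝ) - ∫ x, ⟪∇ ζ x, ∇ φ x⟫_ℝ := by
      rw [← integral_sub i1 i2]
      refine integral_congr_ae ?_
      filter_upwards [haeK] with x hx
      rw [hgue x hx, inner_sub_left]
    rw [h3, el_smooth h hφ hc, hζd φ hφ hc, sub_zero]

end Construct

end Crest.Agent.R135.Earn
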