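import Crest.Agent.R135.EarnAff

/-!
# R135, Earnshaw block (helper391), part 8: averaging over translations, amplitude variation
-/

set_option autoImplicit false
open MeasureTheory Metric Set Filter Topology Laplacian InnerProductSpace
open scoped RealInnerProductSpace NNReal ENNReal ContDiff Gradient Convolution

namespace Crest.Agent.R135.Earn

open Crest.Agent.R097 (bv Harm laplacian_eq_sum gradient_coord inner_gradient norm_gradient
  exists_cutoff green1)
open Crest.Agent.R135.Reg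

/-- cut-off near `K1` -/
structure Cut (K1 : Set E2) (ρ : ℝ) (η : E2 → ℝ) : Prop where
  sm : ContDiff ℝ ∞ η
  cs : HasCompactSupport η
  supp : tsupport η ⊆ thickening (3 * ρ) K1
  one : ∀ x ∈ cthickening ρ K1, ∀ᶠ y in 𝓝 x, η y = 1

theorem exists_cut {K1 : Set E2} (h : IsCompact K1) {ρ : ℝ} (hρ : 0 < ρ) : ∃ η, Cut K1 ρ η := by
  obtain ⟨η, h1, h2, h3, -, h5⟩ := exists_cutoff (d := 2) (h.cthickening (r := ρ))
    (isOpen_thickening (δ := 3 * ρ) (E := K1))
    ((cthickening_subset_thickening' (by linarith) (by linarith) K1))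
  exact ⟨η, h1, h2, h3, h5⟩

variable {u : E2 → ℝ} {K K1 K2 : Set E2} {ρ : ℝ} {ζ ue p η : E2 → ℝ}

/-- the weight -/
noncomputable def bet (η p : E2 → ℝ) : E2 → ℝ := Δ (fun y => η y * p y)

theorem contDiff_lap {w : E2 → ℝ} (hw : ContDiff ℝ ∞ w) : ContDiff ℝ ∞ (Δ w) := by
  have : (Δ w) = fun x => fderiv ℝ (fun y => fderiv ℝ w y (bv 0)) x (bv 0) +
      fderiv ℝ (fun y => fderiv ℝ w y (bv 1)) x (bv 1) := by
    funext x
    exact lap_two ((contDiff_infty.mp hw 2).contDiffAt)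
  rw [this]
  exact (contDiff_fd (contDiff_fd hw _) _).add (contDiff_fd (contDiff_fd hw _) _)

theorem loc_const_off {η : E2 → ℝ} (hη : ContDiff ℝ ∞ η) {x : E2}
    (hx : x ∉ tsupport (fderiv ℝ η)) : ∀ᶠ y in 𝓝 x, η y = η x := by
  rw [notMem_tsupport_iff_eventuallyEq] at hx
  exact eventually_const_of_fderiv
    (Eventually.of_forall fun y => (hη.differentiable (by simp)).differentiableAt) hx

theorem bet_zero (D : Dat u K1 K2 ρ ζ ue p) (hc : Cut K1 ρ η) {x : E2}
    (hx : x ∉ tsupport (fderiv ℝ η)) : bet η p x = 0 := by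
  have h1 := loc_const_off hc.sm hx
  have h2 : (fun y => η y * p y) =ᶠ[𝓝 x] fun y => η x * p y := by
    filter_upwards [h1] with y hy
    rw [hy]
  unfold bet
  rw [Crest.Agent.R097.Hm.lap_congr_at h2,
    Crest.Agent.R097.Hm.lap_const_mul_at _ ((contDiff_infty.mp D.psm 2).contDiffAt)]
  by_cases hxs : x ∈ tsupport η
  · rw [D.pharm x (hc.supp hxs), mul_zero]
  · rw [image_eq_zero_of_notMem_tsupport hxs, zero_mul]

theorem contDiff_bet (D : Dat u K1 K2 ρ ζ ue p) (hc : Cut K1 ρ η) : ContDiff ℝ ∞ (bet η p) :=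
  contDiff_lap (hc.sm.mul D.psm)

theorem gradη_off {η : E2 → ℝ} {x : E2} (hx : x ∉ tsupport (fderiv ℝ η)) : ∇ η x = 0 := by
  unfold gradient
  rw [image_eq_zero_of_notMem_tsupport hx, map_zero]

/-- `Mg` as an integral against the weight. -/
theorem Mg_eq_bet (D : Dat u K1 K2 ρ ζ ue p) (hc : Cut K1 ρ η) {ζ₀ : E2 → ℝ} {S : Set E2}
    (hS : Sing ζ₀ S) (hSη : ∀ x ∈ S, ∀ᶠ y in 𝓝 x, η y = 1) :
    Mg η p ζ₀ = ∫ x, ζ₀ x * bet η p x := by
  set N := tsupport (fderiv ℝ η) with hN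
  have hNc : IsCompact N := hc.cs.fderiv (𝕜 := ℝ)
  have hNS : N ⊆ Sᶜ := by
    intro x hx hxS
    rw [hN] at hx
    refine (notMem_tsupport_iff_eventuallyEq.2 ?_) hx
    filter_upwards [(hSη x hxS).eventually_nhds] with y hy
    have : η =ᶠ[𝓝 y] fun _ => (1 : ℝ) := hy
    rw [this.fderiv_eq]; simp
  obtain ⟨g, hg, hgc, hgu⟩ := Crest.Agent.R097.Hm.exists_ext (m := (⊤ : ℕ∞))
    hS.cpt.isClosed.isOpen_compl hS.smooth hNc hNS
  have hgs : ContDiff ℝ ∞ g := hg
  have dsm : ∀ {f : E2 → ℝ}, ContDiff ℝ ∞ f → ∀ x, DifferentiableAt ℝ f x := fun hf x =>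
    (hf.differentiable (by simp)).differentiableAt
  have e1 : Mg η p ζ₀ = ∫ x, (g x * ⟪∇ η x, ∇ p x⟫_ℝ - p x * ⟪∇ η x, ∇ g x⟫_ℝ) := by
    unfold Mg
    refine integral_congr_ae (Eventually.of_forall fun x => ?_)
    simp only
    by_cases hx : x ∈ N
    · rw [(hgu x hx).eq_of_nhds, gradient_congr_of_eventuallyEq (hgu x hx)]
    · rw [gradη_off hx]; simp
  have e2 : ∫ x, ζ₀ x * bet η p x = ∫ x, g x * bet η p x := by
    refine integral_congr_ae (Eventually.of_forall fun x => ?_)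
    simp only
    by_cases hx : x ∈ N
    · rw [(hgu x hx).eq_of_nhds]
    · rw [bet_zero D hc hx, mul_zero, mul_zero]
  have hηp : ContDiff ℝ ∞ (fun y => η y * p y) := hc.sm.mul D.psm
  have hηg : ContDiff ℝ ∞ (fun y => η y * g y) := hc.sm.mul hgs
  have hηgc : HasCompactSupport (fun y => η y * g y) := hc.cs.mul_right
  have g1 := green_s hηp hgs hgc
  have g2 := green_s D.psm hηg hηgc
  have cη := (contDiff_grad hc.sm).continuous
  have cp := (contDiff_grad D.psm).continuous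
  have cg := (contDiff_grad hgs).continuous
  have i1 : Integrable (fun x => g x * ⟪∇ η x, ∇ p x⟫_ℝ) :=
    int_cc (hgs.continuous.mul (cη.inner cp)) hgc fun x hx => by
      rw [image_eq_zero_of_notMem_tsupport hx, zero_mul]
  have i2 : Integrable (fun x => p x * ⟪∇ η x, ∇ g x⟫_ℝ) :=
    int_cc (D.psm.continuous.mul (cη.inner cg)) hgc fun x hx => by
      rw [grad_notMem_tsupport hx, inner_zero_right, mul_zero]
  have i3 : Integrable (fun x => η x * ⟪∇ p x, ∇ g x⟫_ℝ) :=
    int_cc (hc.sm.continuous.mul (cp.inner cg)) hgc fun x hx => by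
      rw [grad_notMem_tsupport hx, inner_zero_right, mul_zero]
  have h1 : (∫ x, η x * ⟪∇ p x, ∇ g x⟫_ℝ) + ∫ x, p x * ⟪∇ η x, ∇ g x⟫_ℝ =
      - ∫ x, g x * bet η p x := by
    rw [← integral_add i3 i2]
    refine Eq.trans ?_ g1
    refine integral_congr_ae (Eventually.of_forall fun x => ?_)
    simp only
    rw [grad_mul (dsm hc.sm x) (dsm D.psm x), inner_add_left, inner_smul_left, inner_smul_left]
    simp
  have h2 : (∫ x, η x * ⟪∇ p x, ∇ g x⟫_ℝ) + ∫ x, g x * ⟪∇ η x, ∇ p x⟫_ℝ = 0 := by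
    rw [← integral_add i3 i1]
    have h3 : ∫ x, η x * g x * (Δ p) x = 0 := by
      rw [← integral_zero E2 ℝ]
      refine integral_congr_ae (Eventually.of_forall fun x => ?_)
      simp only
      by_cases hx : x ∈ tsupport η
      · rw [D.pharm x (hc.supp hx), mul_zero]
      · rw [image_eq_zero_of_notMem_tsupport hx]; simp
    rw [h3, neg_zero] at g2
    rw [← g2]
    refine integral_congr_ae (Eventually.of_forall fun x => ?_)
    simp only
    rw [grad_mul (dsm hc.sm x) (dsm hgs x), inner_add_right, inner_smul_right, inner_smul_right,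
      real_inner_comm (∇ p x) (∇ η x)]
  rw [e1, e2, integral_sub i1 i2]
  linarith

/-- amplitude variation: `Mg ζ = - ∫ |∇ζ|²` -/
theorem Mg_self (h : IsQM univ 0 u K) (D : Dat u K1 (K \ K1) ρ ζ ue p) (hsub : K1 ⊆ K)
    (hc : Cut K1 ρ η) : Mg η p ζ = - ∫ x, ‖∇ ζ x‖ ^ 2 := by
  have hη1 : ∀ x ∈ K1, ∀ᶠ y in 𝓝 x, η y = 1 := fun x hx =>
    hc.one x (self_subset_cthickening _ hx)
  have hlenK1 : len K1 < ⊤ := by
    obtain ⟨Rb, hRb⟩ := D.sing.cpt.isBounded.subset_closedBall 0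
    exact lt_of_le_of_lt (measure_mono (subset_inter hsub hRb)) (h.len_fin 0 Rb (subset_univ _))
  have key : ∀ s : ℝ, 0 ≤ (s ^ 2 - 1) * (∫ x, ‖∇ ζ x‖ ^ 2) + 2 * (s - 1) * Mg η p ζ := by
    intro s
    have hgs : ∀ x, ∇ (fun x => s * ζ x) x = s • ∇ ζ x := fun x => gradient_const_mul s ζ x
    have hSs : Sing (fun x => s * ζ x) K1 := by
      obtain ⟨C, R, hC, hR, hd⟩ := D.sing.decay
      refine ⟨D.sing.cpt, D.sing.null, contDiffOn_const.mul D.sing.smooth, ?_, ?_,
        ⟨|s| * C, R, by positivity, hR, fun x hx => ?_⟩⟩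
      · simp only [hgs]
        exact D.sing.l2.const_smul s
      · intro φ hφ hφc
        simp only [hgs, inner_smul_left]
        rw [integral_const_mul, D.sing.divfree φ hφ hφc, mul_zero]
      · obtain ⟨b1, b2⟩ := hd x hx
        constructor
        · rw [abs_mul, mul_div_assoc]; gcongr
        · rw [hgs, norm_smul, Real.norm_eq_abs, mul_div_assoc]; gcongr
    have hkeep : ∃ R0 : ℝ, ∀ R : ℝ, R0 ≤ R → Keeps univ K ((K \ K1) ∪ K1) (closedBall 0 R) := by
      refine ⟨0, fun R _ c hcc => ⟨c, ?_, fun y _ => rfl⟩⟩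
      rw [sdiff_union_of_subset hsub]
      exact hcc
    have h0 : ContDiffOn ℝ 1 (fun _ : E2 => (0 : ℝ)) K1ᶜ := contDiffOn_const
    have h1 : MemLp (fun x : E2 => ∇ (fun _ : E2 => (0 : ℝ)) x) 2 volume := by
      have : (fun x : E2 => ∇ (fun _ : E2 => (0 : ℝ)) x) = fun _ => 0 := by
        funext x; simp [gradient]
      rw [this]; exact MemLp.zero
    have m := master h D hsub hc.sm hc.cs hc.supp hη1 hSs hη1 hkeep hlenK1 h0
      (HasCompactSupport.intro isCompact_empty fun x _ => rfl) h1 0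
    have e1 : ∫ x, ‖∇ (fun x => s * ζ x) x‖ ^ 2 = s ^ 2 * ∫ x, ‖∇ ζ x‖ ^ 2 := by
      rw [← integral_const_mul]
      refine integral_congr_ae (Eventually.of_forall fun x => ?_)
      simp only
      rw [hgs, norm_smul, mul_pow, Real.norm_eq_abs, sq_abs]
    have e2 : Mg η p (fun x => s * ζ x) = s * Mg η p ζ := by
      unfold Mg
      rw [← integral_const_mul]
      refine integral_congr_ae (Eventually.of_forall fun x => ?_)
      simp only
      rw [hgs, inner_smul_right]; ring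
    rw [e1, e2] at m
    linarith
  set S := ∫ x, ‖∇ ζ x‖ ^ 2 with hS
  have hS0 : 0 ≤ S := integral_nonneg fun x => by positivity
  -- take `s = 1 + ε`, `s = 1 - ε`
  have k1 : ∀ ε : ℝ, 0 < ε → 0 ≤ (2 + ε) * S + 2 * Mg η p ζ := by
    intro ε hε
    have := key (1 + ε)
    have e : ((1 + ε) ^ 2 - 1) * S + 2 * (1 + ε - 1) * Mg η p ζ =
        ε * ((2 + ε) * S + 2 * Mg η p ζ) := by ring
    rw [e] at this
    exact nonneg_of_mul_nonneg_right this hε
  have k2 : ∀ ε : ℝ, 0 < ε → (2 - ε) * S + 2 * Mg η p ζ ≤ 0 := by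
    intro ε hε
    have := key (1 - ε)
    have e : ((1 - ε) ^ 2 - 1) * S + 2 * (1 - ε - 1) * Mg η p ζ =
        ε * -((2 - ε) * S + 2 * Mg η p ζ) := by ring
    rw [e] at this
    have := nonneg_of_mul_nonneg_right this hε
    linarith
  have l1 : 0 ≤ 2 * S + 2 * Mg η p ζ := by
    refine le_of_forall_pos_le_add fun δ hδ => ?_
    have := k1 (δ / (S + 1)) (by positivity)
    have h2 : δ / (S + 1) * S ≤ δ := by
      rw [div_mul_eq_mul_div, div_le_iff₀ (by positivity)]; nlinarith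
    linarith
  have l2 : 2 * S + 2 * Mg η p ζ ≤ 0 := by
    refine le_of_forall_pos_le_add fun δ hδ => ?_
    have := k2 (δ / (S + 1)) (by positivity)
    have h2 : δ / (S + 1) * S ≤ δ := by
      rw [div_mul_eq_mul_div, div_le_iff₀ (by positivity)]; nlinarith
    linarith
  linarith

end Crest.Agent.R135.Earn
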