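import Crest.Agent.R135.RegEst
import Crest.Agent.R135.FV1
import Crest.Agent.R135.PolarE

/-!
# Row 135 (Mumford-Shah): the C¹ representative of an absolute minimizer (regularity toolbox, 6)
-/

set_option autoImplicit false
open MeasureTheory Metric Set Filter Topology Laplacian InnerProductSpace
open scoped RealInnerProductSpace NNReal ENNReal ContDiff Gradient

namespace Crest.Agent.R135.Reg
open Crest.Agent.R097 Crest.AnalysisR.PDE.OnePhase Crest.AnalysisR.PDE.MumfordShah Crest.Agent.R135.Gl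

/-- **An absolute minimizer has a `C¹` representative off the crack**, which solves
`Δ u = u - g` weakly there. -/
theorem minimizer_C1_rep {Ω : Set P} (hΩ : IsOpen Ω) {g u : P → ℝ} (hgm : Measurable g)
    (hgb : ∃ M : ℝ, ∀ x ∈ Ω, ‖g x‖ ≤ M) {K : Set P} {G : P → P}
    (hmin : IsAbsoluteMinimizer Ω g u K G) :
    ∃ ut : P → ℝ, ContDiffOn ℝ 1 ut (Ω \ K) ∧ (∀ᵐ x ∂(volume.restrict Ω), u x = ut x) ∧
      (∀ᵐ x ∂(volume.restrict (Ω \ K)), G x = ∇ ut x) ∧
      WLap (Ω \ K) ut (fun x => ut x - g x) := by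
  obtain ⟨M, hM⟩ := hgb
  obtain ⟨hKΩ, hKc, hKf, hu2, hwg, hG2⟩ := hmin.1
  have hU : IsOpen (Ω \ K) := isOpen_compl_of_relClosed hΩ hKc
  have hK0 : volume K = 0 := volume_eq_zero_of_hausdorff_lt_top hKf
  have hN : IsNeumann Ω K G (fun x => u x - g x) := by
    refine neumann_of_min hΩ hmin ?_
    intro C hC hCΩ
    have : IsFiniteMeasure (volume.restrict C) :=
      ⟨by rw [Measure.restrict_apply_univ]; exact hC.measure_lt_top⟩
    refine MemLp.of_bound hgm.aestronglyMeasurable M ?_
    filter_upwards [ae_restrict_mem hC.measurableSet] with x hx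
    exact hM x (hCΩ hx)
  have hres : volume.restrict (Ω \ K) = volume.restrict Ω := by
    refine Measure.restrict_congr_set ?_
    exact sdiff_null_ae_eq_self hK0
  have hloc : ∀ x ∈ Ω \ K, ∃ r > 0, ball x r ⊆ Ω \ K ∧ MemLp u 2 (volume.restrict (ball x r)) := by
    intro x hx
    obtain ⟨r, hr, hrU⟩ := Metric.isOpen_iff.mp hU x hx
    exact ⟨r, hr, hrU, hu2.mono_measure (Measure.restrict_mono (hrU.trans diff_subset) le_rfl)⟩
  have hEL : ∀ φ : P → ℝ, ContDiff ℝ ∞ φ → HasCompactSupport φ → tsupport φ ⊆ Ω \ K →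
      (∫ x in Ω \ K, ⟪G x, ∇ φ x⟫_ℝ) + 1 * ∫ x in Ω \ K, (u x - g x) * φ x = 0 := by
    intro φ hφ hc hs
    have hz : ∀ x, x ∉ tsupport φ → φ x = 0 := fun x hx => image_eq_zero_of_notMem_tsupport hx
    have hz' : ∀ x, x ∉ tsupport φ → ∇ φ x = 0 := by
      intro x hx
      have : φ =ᶠ[𝓝 x] fun _ => (0 : ℝ) := by
        filter_upwards [(isClosed_tsupport φ).isOpen_compl.mem_nhds hx] with y hy
        exact hz y hy
      rw [this.gradient_eq]
      exact gradient_const x 0
    have hgc : Continuous (fun x => ∇ φ x) := continuous_grad hφ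
    have hgcs : HasCompactSupport (fun x => ∇ φ x) :=
      HasCompactSupport.of_support_subset_isCompact hc.isCompact (fun x hx => by
        by_contra h
        exact hx (hz' x h))
    have h5 := hN φ (fun x => ∇ φ x) (tsupport φ) hc.isCompact (hs.trans diff_subset) hz hz'
      (weakGrad_smooth hU hφ) ((hφ.continuous.memLp_of_hasCompactSupport hc).restrict _)
      ((hgc.memLp_of_hasCompactSupport hgcs).restrict _)
    rw [one_mul, hres]
    rw [hres] at h5
    exact h5
  obtain ⟨ut, h1, h2, h3, h4⟩ := exists_C1_rep (U := Ω \ K) (u := u) (g := g) (G := G) (β := 1)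
    (M := M) hU hwg hloc hgm.aestronglyMeasurable (fun x hx => hM x hx.1) hEL
  refine ⟨ut, h1, ?_, h3, ?_⟩
  · rw [← hres]; exact h2
  · simpa using h4

end Crest.Agent.R135.Reg
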