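import Mathlib
import Crest.Agent.R135.QMMono
import Crest.Agent.R135.RegMin
import Crest.Agent.R135.Strong

/-!
# From absolute minimizers to quasi-minimizers, part 1 (helper140)

`Entry1`: comparison of the `C¹` representative of an absolute minimizer with competitors that are
locally Lipschitz off the new crack and bounded in the ball.
-/

set_option autoImplicit false

open MeasureTheory Set Filter Topology Metric
open scoped ENNReal NNReal ContDiff Gradient
open Crest.AnalysisR.PDE.OnePhase Crest.AnalysisR.PDE.MumfordShah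

namespace Crest.Agent.R135

/-- The data of an absolute minimizer with its `C¹` representative `ut`. -/
structure MinData (Ω : Set E2) (g u : E2 → ℝ) (K : Set E2) (G : E2 → E2) (ut : E2 → ℝ)
    (M₀ : ℝ) : Prop where
  isOpen : IsOpen Ω
  gm : Measurable g
  gb : ∀ x ∈ Ω, ‖g x‖ ≤ M₀
  min : IsAbsoluteMinimizer Ω g u K G
  red : IsReduced Ω K
  c1 : ContDiffOn ℝ 1 ut (Ω \ K)
  ae_u : ∀ᵐ x ∂(volume.restrict Ω), u x = ut x
  ae_G : ∀ᵐ x ∂(volume.restrict (Ω \ K)), G x = gradient ut x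

theorem exists_minData {Ω : Set E2} (hΩo : IsOpen Ω) {g u : E2 → ℝ} {K : Set E2} {G : E2 → E2}
    (hgm : Measurable g) (hgb : ∃ M : ℝ, ∀ x ∈ Ω, ‖g x‖ ≤ M)
    (hmin : IsAbsoluteMinimizer Ω g u K G) (hred : IsReduced Ω K) :
    ∃ (ut : E2 → ℝ) (M₀ : ℝ), MinData Ω g u K G ut M₀ := by
  obtain ⟨ut, h1, h2, h3, _⟩ := Reg.minimizer_C1_rep hΩo hgm hgb hmin
  obtain ⟨M, hM⟩ := hgb
  exact ⟨ut, M, hΩo, hgm, hM, hmin, hred, h1, h2, h3⟩

namespace MinData

variable {Ω : Set E2} {g u : E2 → ℝ} {K : Set E2} {G : E2 → E2} {ut : E2 → ℝ} {M₀ : ℝ}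

lemma subK (h : MinData Ω g u K G ut M₀) : K ⊆ Ω := h.min.1.1
lemma closedK (h : MinData Ω g u K G ut M₀) : closure K ∩ Ω ⊆ K := h.min.1.2.1
lemma lenK (h : MinData Ω g u K G ut M₀) : len K < ⊤ := h.min.1.2.2.1
lemma memLp_u (h : MinData Ω g u K G ut M₀) : MemLp u 2 (volume.restrict Ω) := h.min.1.2.2.2.1
lemma isOpen_diff (h : MinData Ω g u K G ut M₀) : IsOpen (Ω \ K) :=
  (relClosed_iff h.isOpen).1 h.closedK
lemma measurable_K (h : MinData Ω g u K G ut M₀) : MeasurableSet K :=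
  relClosed_measurable h.isOpen h.subK h.closedK
lemma volume_K (h : MinData Ω g u K G ut M₀) : volume K = 0 :=
  volume_eq_zero_of_hausdorff_lt_top h.lenK

lemma memLp_ut (h : MinData Ω g u K G ut M₀) : MemLp ut 2 (volume.restrict Ω) :=
  (memLp_congr_ae h.ae_u).1 h.memLp_u

lemma lipAt (h : MinData Ω g u K G ut M₀) {y : E2} (hy : y ∈ Ω \ K) : LipAt ut y :=
  lipAt_of_contDiffOn h.isOpen_diff h.c1 hy

lemma dir_fin (h : MinData Ω g u K G ut M₀) : ∫⁻ x in Ω \ K, ‖gradient ut x‖ₑ ^ 2 < ⊤ := by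
  refine lt_of_le_of_lt (le_of_eq ?_) h.min.1.2.2.2.2.2
  refine lintegral_congr_ae ?_
  filter_upwards [h.ae_G] with x hx
  rw [hx]

lemma msEnergy_eq (h : MinData Ω g u K G ut M₀) {V : Set E2} (hV : V ⊆ Ω) :
    msEnergy g u K G V = msEnergy g ut K (gradient ut) V := by
  unfold msEnergy
  have h1 : ∫⁻ x in V \ K, ‖G x‖ₑ ^ 2 = ∫⁻ x in V \ K, ‖gradient ut x‖ₑ ^ 2 := by
    refine lintegral_congr_ae ?_
    filter_upwards [ae_restrict_of_ae_restrict_of_subset (sdiff_subset_sdiff_left hV) h.ae_G]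
      with x hx
    rw [hx]
  have h2 : ∫⁻ x in V, ‖u x - g x‖ₑ ^ 2 = ∫⁻ x in V, ‖ut x - g x‖ₑ ^ 2 := by
    refine lintegral_congr_ae ?_
    filter_upwards [ae_restrict_of_ae_restrict_of_subset hV h.ae_u] with x hx
    rw [hx]
  rw [h1, h2]

/-- Comparison with general admissible pairs that agree with the representative only in `Ω`. -/
theorem compare (h : MinData Ω g u K G ut M₀) {V : Set E2} (hV : IsOpen V)
    (hVc : IsCompact (closure V)) (hVΩ : closure V ⊆ Ω) {w : E2 → ℝ} {L : Set E2} {H : E2 → E2}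
    (hadm : IsAdmissiblePair Ω w L H) {C : Set E2} (hC : IsCompact C) (hCV : C ⊆ V)
    (hLK : symmDiff L K ⊆ C) (hw : ∀ᵐ x ∂(volume.restrict Ω), x ∉ C → w x = ut x) :
    msEnergy g ut K (gradient ut) V ≤ msEnergy g w L H V := by
  classical
  have hVΩ' : V ⊆ Ω := subset_closure.trans hVΩ
  rw [← h.msEnergy_eq hVΩ']
  set w' : E2 → ℝ := Ω.piecewise w u with hw'
  have hww : ∀ x ∈ Ω, w' x = w x := fun x hx => by simp [hw', hx]
  have hadm' : IsAdmissiblePair Ω w' L H := by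
    obtain ⟨a1, a2, a3, a4, a5, a6⟩ := hadm
    refine ⟨a1, a2, a3, ?_, ?_, a6⟩
    · refine (memLp_congr_ae ?_).1 a4
      filter_upwards [ae_restrict_mem h.isOpen.measurableSet] with x hx
      exact (hww x hx).symm
    · obtain ⟨b1, b2, b3⟩ := a5
      have hLo : IsOpen (Ω \ L) := (relClosed_iff h.isOpen).1 a2
      refine ⟨?_, b2, ?_⟩
      · refine b1.congr ?_
        filter_upwards [ae_restrict_mem hLo.measurableSet] with x hx
        exact (hww x hx.1).symm
      · intro φ hφ hc hs i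
        rw [← b3 φ hφ hc hs i]
        refine setIntegral_congr_fun hLo.measurableSet ?_
        intro x hx
        simp only [hww x hx.1]
  have hae : ∀ᵐ x ∂(volume : Measure E2), x ∉ C → w' x = u x := by
    rw [ae_restrict_iff' h.isOpen.measurableSet] at hw
    have hu := h.ae_u
    rw [ae_restrict_iff' h.isOpen.measurableSet] at hu
    filter_upwards [hw, hu] with x h1 h2 h3
    by_cases hx : x ∈ Ω
    · rw [hww x hx, h1 hx h3, h2 hx]
    · simp [hw', hx]
  refine (h.min.2 V hV hVc hVΩ w' L H hadm' ⟨C, hC, hCV, hLK, hae⟩).trans (le_of_eq ?_)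
  unfold msEnergy
  congr 1
  refine setLIntegral_congr_fun hV.measurableSet ?_
  intro x hx
  simp only [hww x (hVΩ' hx)]

end MinData

end Crest.Agent.R135
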