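import Mathlib
import Crest.Agent.R135.Entry1

/-!
# From absolute minimizers to quasi-minimizers, part 2 (helper140)

`MinData.ball_compare`: comparison on a closed ball, for competitors which are locally Lipschitz off
the new crack and bounded in the ball (no topological condition).
-/

set_option autoImplicit false

open MeasureTheory Set Filter Topology Metric
open scoped ENNReal NNReal ContDiff Gradient
open Crest.AnalysisR.PDE.OnePhase Crest.AnalysisR.PDE.MumfordShah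

namespace Crest.Agent.R135

namespace MinData

variable {Ω : Set E2} {g u : E2 → ℝ} {K : Set E2} {G : E2 → E2} {ut : E2 → ℝ} {M₀ : ℝ}

theorem ball_compare (h : MinData Ω g u K G ut M₀) {x : E2} {ρ : ℝ} (hρ : 0 < ρ)
    (hB : closedBall x ρ ⊆ Ω) {w : E2 → ℝ} {L : Set E2} (hLΩ : L ⊆ Ω)
    (hLcl : closure L ∩ Ω ⊆ L) (hLfin : len (L ∩ closedBall x ρ) < ⊤)
    (heqL : L \ closedBall x ρ = K \ closedBall x ρ) (hlip : LocallyLipschitzOn (Ω \ L) w)
    (heqw : ∀ y ∈ Ω \ (K ∪ closedBall x ρ), w y = ut y)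
    (hbd : ∃ M₁ : ℝ, ∀ y ∈ closedBall x ρ \ L, |w y| ≤ M₁) :
    enE ut K (closedBall x ρ) + ∫⁻ y in closedBall x ρ, ‖ut y - g y‖ₑ ^ 2
      ≤ enE w L (closedBall x ρ) + ∫⁻ y in closedBall x ρ, ‖w y - g y‖ₑ ^ 2 := by
  classical
  set B := closedBall x ρ with hBdef
  have hBm : MeasurableSet B := isClosed_closedBall.measurableSet
  by_cases htop : dirE w L B = ⊤
  · have : enE w L B = ⊤ := by rw [enE, htop]; simp
    rw [this]; simp
  have hLo : IsOpen (Ω \ L) := (relClosed_iff h.isOpen).1 hLcl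
  have hLm : MeasurableSet L := relClosed_measurable h.isOpen hLΩ hLcl
  have hKm := h.measurable_K
  -- length of L
  have hLlen : len L < ⊤ := by
    have h1 : L ⊆ (L ∩ B) ∪ K := by
      intro y hy
      by_cases hyB : y ∈ B
      · exact Or.inl ⟨hy, hyB⟩
      · have : y ∈ K \ B := by rw [← heqL]; exact ⟨hy, hyB⟩
        exact Or.inr this.1
    exact (measure_mono h1).trans_lt ((measure_union_le _ _).trans_lt
      (ENNReal.add_lt_top.2 ⟨hLfin, h.lenK⟩))
  have hLvol : volume L = 0 := volume_eq_zero_of_hausdorff_lt_top hLlen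
  -- equality of w and ut outside B
  have hwe : ∀ y ∈ Ω \ K, y ∉ B → w =ᶠ[𝓝 y] ut := by
    intro y hy hyB
    have h1 : (Ω \ K) ∩ Bᶜ ∈ 𝓝 y :=
      (h.isOpen_diff.inter isClosed_closedBall.isOpen_compl).mem_nhds ⟨hy, hyB⟩
    filter_upwards [h1] with z hz
    refine heqw z ⟨hz.1.1, ?_⟩
    rintro (h2 | h2)
    · exact hz.1.2 h2
    · exact hz.2 h2
  have hgrad : ∀ y ∈ Ω \ K, y ∉ B → gradient w y = gradient ut y :=
    fun y hy hyB => gradient_congr_of_eventuallyEq (hwe y hy hyB)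
  have hdiffB : ∀ S : Set E2, (S \ L) \ B = (S \ K) \ B := by
    intro S
    ext y
    constructor
    · rintro ⟨⟨h1, h2⟩, h3⟩
      refine ⟨⟨h1, fun h4 => h2 ?_⟩, h3⟩
      have : y ∈ L \ B := by rw [heqL]; exact ⟨h4, h3⟩
      exact this.1
    · rintro ⟨⟨h1, h2⟩, h3⟩
      refine ⟨⟨h1, fun h4 => h2 ?_⟩, h3⟩
      have : y ∈ K \ B := by rw [← heqL]; exact ⟨h4, h3⟩
      exact this.1
  have houter : ∀ S : Set E2, MeasurableSet S → S ⊆ Ω →
      ∫⁻ y in (S \ L) \ B, ‖gradient w y‖ₑ ^ 2 = ∫⁻ y in (S \ K) \ B, ‖gradient ut y‖ₑ ^ 2 := by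
    intro S hS hSΩ
    rw [hdiffB S]
    refine setLIntegral_congr_fun ((hS.diff hKm).diff hBm) ?_
    rintro y ⟨⟨h1, h2⟩, h3⟩
    simp only [hgrad y ⟨hSΩ h1, h2⟩ h3]
  -- admissibility
  have hwmeas : AEStronglyMeasurable w (volume.restrict Ω) := by
    have h1 : AEStronglyMeasurable w (volume.restrict (Ω \ L)) :=
      hlip.continuousOn.aestronglyMeasurable hLo.measurableSet
    have h2 : volume.restrict (Ω \ L) = volume.restrict Ω :=
      Measure.restrict_congr_set (sdiff_null_ae_eq_self hLvol)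
    rwa [h2] at h1
  have hwae : ∀ᵐ y ∂(volume.restrict Ω), y ∉ B → w y = ut y := by
    have hK0 : ∀ᵐ y ∂(volume.restrict Ω), y ∉ K :=
      ae_restrict_of_ae (measure_eq_zero_iff_ae_notMem.1 h.volume_K)
    filter_upwards [hK0, ae_restrict_mem h.isOpen.measurableSet] with y h1 h2 h3
    refine heqw y ⟨h2, ?_⟩
    rintro (h4 | h4)
    · exact h1 h4
    · exact h3 h4
  have hwLp : MemLp w 2 (volume.restrict Ω) := by
    obtain ⟨M₁, hM₁⟩ := hbd
    have h1 : MemLp (fun y => B.indicator (fun _ => |M₁|) y + |ut y|) 2 (volume.restrict Ω) := by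
      refine MemLp.add ?_ h.memLp_ut.abs
      refine memLp_indicator_const 2 hBm _ (Or.inr ?_)
      exact ne_of_lt ((Measure.restrict_apply_le _ _).trans_lt
        (isCompact_closedBall x ρ).measure_lt_top)
    refine h1.mono hwmeas ?_
    have hL0 : ∀ᵐ y ∂(volume.restrict Ω), y ∉ L :=
      ae_restrict_of_ae (measure_eq_zero_iff_ae_notMem.1 hLvol)
    filter_upwards [hwae, hL0] with y h2 h3
    rw [Real.norm_eq_abs, Real.norm_eq_abs]
    by_cases hyB : y ∈ B
    · rw [indicator_of_mem hyB]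
      refine (hM₁ y ⟨hyB, h3⟩).trans ((le_abs_self _).trans ?_)
      exact le_trans (by linarith [abs_nonneg (ut y)]) (le_abs_self _)
    · rw [h2 hyB, indicator_of_notMem hyB, zero_add, abs_abs]
  have hadm : IsAdmissiblePair Ω w L (fun y => gradient w y) := by
    refine ⟨hLΩ, hLcl, hLlen, hwLp, isWeakGradOn_of_locallyLipschitzOn hLo hlip, ?_⟩
    rw [← lintegral_inter_add_sdiff _ (Ω \ L) hBm]
    refine ENNReal.add_lt_top.2 ⟨?_, ?_⟩
    · have h1 : (Ω \ L) ∩ B = B \ L := by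
        ext y; constructor
        · rintro ⟨h2, h3⟩; exact ⟨h3, h2.2⟩
        · rintro ⟨h2, h3⟩; exact ⟨⟨hB h2, h3⟩, h2⟩
      rw [h1]
      exact lt_top_iff_ne_top.2 htop
    · rw [houter Ω h.isOpen.measurableSet le_rfl]
      exact (lintegral_mono_set sdiff_subset).trans_lt h.dir_fin
  -- the larger ball
  obtain ⟨δ, hδ, hδΩ⟩ := (isCompact_closedBall x ρ).exists_cthickening_subset_open h.isOpen hB
  rw [cthickening_closedBall hδ.le hρ.le] at hδΩ
  set V := ball x (δ + ρ) with hV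
  have hVcl : closure V = closedBall x (δ + ρ) := closure_ball x (by positivity)
  have hBV : B ⊆ V := closedBall_subset_ball (by linarith)
  have hVΩ : V ⊆ Ω := ball_subset_closedBall.trans hδΩ
  have hVm : MeasurableSet V := measurableSet_ball
  have key := h.compare (V := V) isOpen_ball (by rw [hVcl]; exact isCompact_closedBall _ _)
    (by rw [hVcl]; exact hδΩ) hadm (isCompact_closedBall x ρ) hBV ?_ hwae
  · -- splitting
    unfold msEnergy at key
    have s1 : ∫⁻ y in V \ K, ‖gradient ut y‖ₑ ^ 2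
        = dirE ut K B + ∫⁻ y in (V \ K) \ B, ‖gradient ut y‖ₑ ^ 2 := by
      rw [← lintegral_inter_add_sdiff _ (V \ K) hBm]
      have : (V \ K) ∩ B = B \ K := by
        ext y; constructor
        · rintro ⟨h2, h3⟩; exact ⟨h3, h2.2⟩
        · rintro ⟨h2, h3⟩; exact ⟨⟨hBV h2, h3⟩, h2⟩
      rw [this]; rfl
    have s2 : ∫⁻ y in V \ L, ‖gradient w y‖ₑ ^ 2
        = dirE w L B + ∫⁻ y in (V \ K) \ B, ‖gradient ut y‖ₑ ^ 2 := by
      rw [← lintegral_inter_add_sdiff _ (V \ L) hBm, houter V hVm hVΩ]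
      have : (V \ L) ∩ B = B \ L := by
        ext y; constructor
        · rintro ⟨h2, h3⟩; exact ⟨h3, h2.2⟩
        · rintro ⟨h2, h3⟩; exact ⟨⟨hBV h2, h3⟩, h2⟩
      rw [this]; rfl
    have s3 : Measure.hausdorffMeasure 1 (K ∩ V)
        = len (K ∩ B) + len ((K ∩ V) \ B) := by
      unfold len
      rw [← measure_inter_add_sdiff (K ∩ V) hBm]
      have : K ∩ V ∩ B = K ∩ B := by
        ext y; constructor
        · rintro ⟨h2, h3⟩; exact ⟨h2.1, h3⟩
        · rintro ⟨h2, h3⟩; exact ⟨⟨h2, hBV h3⟩, h3⟩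
      rw [this]
    have s4 : Measure.hausdorffMeasure 1 (L ∩ V)
        = len (L ∩ B) + len ((K ∩ V) \ B) := by
      unfold len
      rw [← measure_inter_add_sdiff (L ∩ V) hBm]
      have e1 : L ∩ V ∩ B = L ∩ B := by
        ext y; constructor
        · rintro ⟨h2, h3⟩; exact ⟨h2.1, h3⟩
        · rintro ⟨h2, h3⟩; exact ⟨⟨h2, hBV h3⟩, h3⟩
      have e2 : (L ∩ V) \ B = (K ∩ V) \ B := by
        ext y; constructor
        · rintro ⟨⟨h2, h3⟩, h4⟩
          have : y ∈ K \ B := by rw [← heqL]; exact ⟨h2, h4⟩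
          exact ⟨⟨this.1, h3⟩, h4⟩
        · rintro ⟨⟨h2, h3⟩, h4⟩
          have : y ∈ L \ B := by rw [heqL]; exact ⟨h2, h4⟩
          exact ⟨⟨this.1, h3⟩, h4⟩
      rw [e1, e2]
    have s5 : ∫⁻ y in V, ‖ut y - g y‖ₑ ^ 2
        = (∫⁻ y in B, ‖ut y - g y‖ₑ ^ 2) + ∫⁻ y in V \ B, ‖ut y - g y‖ₑ ^ 2 := by
      rw [← lintegral_inter_add_sdiff _ V hBm, inter_eq_self_of_subset_right hBV]
    have s6 : ∫⁻ y in V, ‖w y - g y‖ₑ ^ 2
        = (∫⁻ y in B, ‖w y - g y‖ₑ ^ 2) + ∫⁻ y in V \ B, ‖ut y - g y‖ₑ ^ 2 := by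
      rw [← lintegral_inter_add_sdiff _ V hBm, inter_eq_self_of_subset_right hBV]
      congr 1
      refine lintegral_congr_ae ?_
      have hVB : V \ B ⊆ Ω := sdiff_subset.trans hVΩ
      filter_upwards [ae_restrict_of_ae_restrict_of_subset hVB hwae,
        ae_restrict_mem (hVm.diff hBm)] with y h1 h2
      rw [h1 h2.2]
    rw [s1, s2, s3, s4, s5, s6] at key
    set a := ∫⁻ y in (V \ K) \ B, ‖gradient ut y‖ₑ ^ 2
    set b := len ((K ∩ V) \ B)
    set c := ∫⁻ y in V \ B, ‖ut y - g y‖ₑ ^ 2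
    have ha : a ≠ ⊤ := by
      refine ne_of_lt (lt_of_le_of_lt (lintegral_mono_set ?_) h.dir_fin)
      exact sdiff_subset.trans (sdiff_subset_sdiff_left hVΩ)
    have hb : b ≠ ⊤ := by
      refine ne_of_lt (lt_of_le_of_lt (measure_mono ?_) h.lenK)
      exact sdiff_subset.trans inter_subset_left
    have hc : c ≠ ⊤ := by
      have h1 : MemLp (fun y => ut y - g y) 2 (volume.restrict V) := by
        refine (h.memLp_ut.mono_measure (Measure.restrict_mono hVΩ le_rfl)).sub ?_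
        have hfin : IsFiniteMeasure (volume.restrict V) :=
          ⟨by rw [Measure.restrict_apply_univ]; exact measure_ball_lt_top⟩
        refine MemLp.of_bound h.gm.aestronglyMeasurable M₀ ?_
        filter_upwards [ae_restrict_mem hVm] with y hy
        exact h.gb y (hVΩ hy)
      have h2 : ∫⁻ y in V, ‖ut y - g y‖ₑ ^ 2 < ⊤ := by
        rw [Gl.lintegral_sq_eq h1]; exact ENNReal.ofReal_lt_top
      exact ne_of_lt (lt_of_le_of_lt (lintegral_mono_set sdiff_subset) h2)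
    have habc : a + b + c ≠ ⊤ := ENNReal.add_ne_top.2 ⟨ENNReal.add_ne_top.2 ⟨ha, hb⟩, hc⟩
    have e1 : dirE ut K B + a + (len (K ∩ B) + b) + ((∫⁻ y in B, ‖ut y - g y‖ₑ ^ 2) + c)
        = (enE ut K B + ∫⁻ y in B, ‖ut y - g y‖ₑ ^ 2) + (a + b + c) := by
      unfold enE; ring
    have e2 : dirE w L B + a + (len (L ∩ B) + b) + ((∫⁻ y in B, ‖w y - g y‖ₑ ^ 2) + c)
        = (enE w L B + ∫⁻ y in B, ‖w y - g y‖ₑ ^ 2) + (a + b + c) := by
      unfold enE; ring
    rw [e1, e2] at key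
    exact (ENNReal.add_le_add_iff_right habc).1 key
  · -- symmetric difference
    intro y hy
    by_contra hyB
    rcases hy with ⟨h1, h2⟩ | ⟨h1, h2⟩
    · have : y ∈ K \ B := by rw [← heqL]; exact ⟨h1, hyB⟩
      exact h2 this.1
    · have : y ∈ L \ B := by rw [heqL]; exact ⟨h1, hyB⟩
      exact h2 this.1

end MinData

end Crest.Agent.R135
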