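import Mathlib
import Crest.Agent.R135.Entry2

/-!
# From absolute minimizers to quasi-minimizers, part 3 (helper140)

Truncation: gradient bound, local Lipschitz gluing across the sphere, local boundedness of the
representative of an absolute minimizer.
-/

set_option autoImplicit false

open MeasureTheory Set Filter Topology Metric
open scoped ENNReal NNReal ContDiff Gradient
open Crest.AnalysisR.PDE.OnePhase Crest.AnalysisR.PDE.MumfordShah

namespace Crest.Agent.R135

/-! ### truncation -/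

/-- truncation at level `M` -/
noncomputable def trunc (M : ℝ) (s : ℝ) : ℝ := max (min s M) (-M)

lemma trunc_lipschitz (M : ℝ) : LipschitzWith 1 (trunc M) := by
  unfold trunc
  exact (LipschitzWith.id.min_const M).max_const (-M)

lemma abs_trunc_sub_le (M s t : ℝ) : |trunc M s - trunc M t| ≤ |s - t| := by
  have := (trunc_lipschitz M).dist_le_mul s t
  simpa [Real.dist_eq] using this

lemma abs_trunc_le {M : ℝ} (hM : 0 ≤ M) (s : ℝ) : |trunc M s| ≤ M := by
  unfold trunc
  rw [abs_le]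
  exact ⟨le_max_right _ _, max_le (min_le_right _ _) (by linarith)⟩

lemma trunc_of_abs_le {M s : ℝ} (h : |s| ≤ M) : trunc M s = s := by
  rw [abs_le] at h
  unfold trunc
  rw [min_eq_left h.2, max_eq_left h.1]

lemma abs_trunc_sub_le' {M s γ : ℝ} (hγ : |γ| ≤ M) : |trunc M s - γ| ≤ |s - γ| := by
  have := abs_trunc_sub_le M s γ
  rwa [trunc_of_abs_le hγ] at this

/-- strict decrease of the distance to `γ`, `|γ| ≤ M`, when truncating at level `M` -/
lemma abs_trunc_sub_lt {M s γ : ℝ} (hγ : |γ| ≤ M) (hs : M < |s|) : |trunc M s - γ| < |s - γ| := by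
  rw [abs_le] at hγ
  have hM : 0 ≤ M := by linarith
  rcases lt_abs.1 hs with h | h
  · have h1 : trunc M s = M := by
      unfold trunc
      rw [min_eq_right h.le, max_eq_left (by linarith)]
    rw [h1, abs_of_nonneg (by linarith), abs_of_nonneg (by linarith)]
    linarith
  · have h1 : trunc M s = -M := by
      unfold trunc
      rw [min_eq_left (by linarith), max_eq_right (by linarith)]
    rw [h1, abs_of_nonpos (by linarith), abs_of_nonpos (by linarith)]
    linarith

/-- The gradient of a 1-Lipschitz function of `f` is not larger than the gradient of `f`. -/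
theorem norm_gradient_comp_le {T : ℝ → ℝ} (hT : ∀ s t, |T s - T t| ≤ |s - t|) {f : E2 → ℝ}
    {y : E2} (hf : DifferentiableAt ℝ f y) :
    ‖gradient (fun z => T (f z)) y‖ ≤ ‖gradient f y‖ := by
  unfold gradient
  rw [LinearIsometryEquiv.norm_map, LinearIsometryEquiv.norm_map]
  by_cases hd : DifferentiableAt ℝ (fun z => T (f z)) y
  · refine ContinuousLinearMap.opNorm_le_bound _ (norm_nonneg _) fun v => ?_
    have h1 : HasDerivAt (fun t : ℝ => T (f (y + t • v))) (fderiv ℝ (fun z => T (f z)) y v) 0 := by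
      have e : HasDerivAt (fun t : ℝ => y + t • v) v 0 := by
        simpa using ((hasDerivAt_id (0:ℝ)).smul_const v).const_add y
      have h2 : HasFDerivAt (fun z => T (f z)) (fderiv ℝ (fun z => T (f z)) y) (y + (0:ℝ) • v) := by
        simpa using hd.hasFDerivAt
      exact h2.comp_hasDerivAt (0:ℝ) e
    have h3 : HasDerivAt (fun t : ℝ => f (y + t • v)) (fderiv ℝ f y v) 0 := by
      have e : HasDerivAt (fun t : ℝ => y + t • v) v 0 := by
        simpa using ((hasDerivAt_id (0:ℝ)).smul_const v).const_add y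
      have h2 : HasFDerivAt f (fderiv ℝ f y) (y + (0:ℝ) • v) := by
        simpa using hf.hasFDerivAt
      exact h2.comp_hasDerivAt (0:ℝ) e
    rw [hasDerivAt_iff_tendsto_slope] at h1 h3
    have h4 : |fderiv ℝ (fun z => T (f z)) y v| ≤ |fderiv ℝ f y v| := by
      refine le_of_tendsto_of_tendsto h1.abs h3.abs ?_
      filter_upwards [self_mem_nhdsWithin] with t _
      rw [slope_def_field, slope_def_field, abs_div, abs_div]
      exact div_le_div_of_nonneg_right (hT _ _) (abs_nonneg _)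
    rw [Real.norm_eq_abs]
    exact h4.trans (by rw [← Real.norm_eq_abs]; exact (fderiv ℝ f y).le_opNorm v)
  · rw [fderiv_zero_of_not_differentiableAt hd, norm_zero]
    exact norm_nonneg _

/-! ### gluing across a sphere -/

/-- A function equal to `f` in the closed ball and to `f'` outside the open ball is locally
Lipschitz near `y` if `f` and `f'` are. -/
theorem lipAt_glue {w f f' : E2 → ℝ} {x y : E2} {ρ : ℝ}
    (hw1 : ∀ᶠ z in 𝓝 y, z ∈ closedBall x ρ → w z = f z)
    (hw2 : ∀ᶠ z in 𝓝 y, z ∉ ball x ρ → w z = f' z)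
    (hf : LipAt f y) (hf' : LipAt f' y) : LipAt w y := by
  obtain ⟨C, t, ht, hC⟩ := hf
  obtain ⟨D, s, hs, hD⟩ := hf'
  obtain ⟨r, hr, hball⟩ := Metric.mem_nhds_iff.1 (inter_mem (inter_mem ht hs) (inter_mem hw1 hw2))
  refine ⟨max C D, ball y r, ball_mem_nhds y hr, ?_⟩
  refine lipschitzOnWith_of_closed_cover (convex_ball y r) (A1 := closedBall x ρ)
    (A2 := (ball x ρ)ᶜ) isClosed_closedBall isOpen_ball.isClosed_compl ?_ ?_ ?_
  · intro z _
    by_cases hz : z ∈ ball x ρ
    · exact Or.inl (ball_subset_closedBall hz)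
    · exact Or.inr hz
  · have h1 : LipschitzOnWith (max C D) f (ball y r ∩ closedBall x ρ) :=
      (hC.mono (fun z hz => (hball hz.1).1.1)).weaken (le_max_left _ _)
    intro a ha b hb
    rw [(hball ha.1).2.1 ha.2, (hball hb.1).2.1 hb.2]
    exact h1 ha hb
  · have h1 : LipschitzOnWith (max C D) f' (ball y r ∩ (ball x ρ)ᶜ) :=
      (hD.mono (fun z hz => (hball hz.1).1.2)).weaken (le_max_right _ _)
    intro a ha b hb
    rw [(hball ha.1).2.2 ha.2, (hball hb.1).2.2 hb.2]
    exact h1 ha hb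

lemma measure_sphere_zero (x : E2) {ρ : ℝ} (hρ : ρ ≠ 0) : volume (sphere x ρ) = 0 :=
  Measure.addHaar_sphere_of_ne_zero volume x hρ

namespace MinData

variable {Ω : Set E2} {g u : E2 → ℝ} {K : Set E2} {G : E2 → E2} {ut : E2 → ℝ} {M₀ : ℝ}

lemma differentiableAt (h : MinData Ω g u K G ut M₀) {y : E2} (hy : y ∈ Ω \ K) :
    DifferentiableAt ℝ ut y :=
  (h.c1.contDiffAt (h.isOpen_diff.mem_nhds hy)).differentiableAt (by norm_num)

/-- fidelity term is finite on balls -/
lemma fid_lt_top (h : MinData Ω g u K G ut M₀) {B : Set E2} (hB : B ⊆ Ω) (hBm : MeasurableSet B)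
    (hBf : volume B < ⊤) : ∫⁻ y in B, ‖ut y - g y‖ₑ ^ 2 < ⊤ := by
  have h1 : MemLp (fun y => ut y - g y) 2 (volume.restrict B) := by
    refine (h.memLp_ut.mono_measure (Measure.restrict_mono hB le_rfl)).sub ?_
    have hfin : IsFiniteMeasure (volume.restrict B) :=
      ⟨by rw [Measure.restrict_apply_univ]; exact hBf⟩
    refine MemLp.of_bound h.gm.aestronglyMeasurable M₀ ?_
    filter_upwards [ae_restrict_mem hBm] with y hy
    exact h.gb y (hB hy)
  rw [Gl.lintegral_sq_eq h1]; exact ENNReal.ofReal_lt_top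

/-- **Truncation**: if `|ut| ≤ M'` on the sphere off `K` and `|g| ≤ M'`, then `|ut| ≤ M'` in the
ball off `K`. -/
theorem bound_of_sphere (h : MinData Ω g u K G ut M₀) {x : E2} {ρ : ℝ} (hρ : 0 < ρ)
    (hB : closedBall x ρ ⊆ Ω) {M' : ℝ} (hM₀ : M₀ ≤ M') (hM' : 0 ≤ M')
    (hs : ∀ y ∈ sphere x ρ \ K, |ut y| ≤ M') : ∀ y ∈ closedBall x ρ \ K, |ut y| ≤ M' := by
  classical
  set B := closedBall x ρ with hBdef
  have hBm : MeasurableSet B := isClosed_closedBall.measurableSet
  set w : E2 → ℝ := fun y => if y ∈ B then trunc M' (ut y) else ut y with hw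
  have hwB : ∀ y ∈ B, w y = trunc M' (ut y) := fun y hy => by simp only [hw, if_pos hy]
  have hwo : ∀ y ∉ B, w y = ut y := fun y hy => by simp only [hw, if_neg hy]
  have hwsph : ∀ y ∈ sphere x ρ \ K, w y = ut y := by
    intro y hy
    rw [hwB y (sphere_subset_closedBall hy.1), trunc_of_abs_le (hs y hy)]
  have hgb : ∀ y ∈ Ω, |g y| ≤ M' := fun y hy => (h.gb y hy).trans hM₀
  have hlip : LocallyLipschitzOn (Ω \ K) w := by
    rw [locallyLipschitzOn_iff_lipAt h.isOpen_diff]
    intro y hy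
    refine lipAt_glue (x := x) (ρ := ρ) (f := fun z => trunc M' (ut z)) (f' := ut)
      (Eventually.of_forall hwB) ?_ ((h.lipAt hy).comp (trunc_lipschitz M')) (h.lipAt hy)
    filter_upwards [h.isOpen_diff.mem_nhds hy] with z hz hzb
    by_cases hzB : z ∈ B
    · refine hwsph z ⟨?_, hz.2⟩
      rw [mem_ball, not_lt] at hzb
      exact mem_sphere.2 (le_antisymm (mem_closedBall.1 hzB) hzb)
    · exact hwo z hzB
  have hlenB : len (K ∩ B) < ⊤ := (measure_mono inter_subset_left).trans_lt h.lenK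
  have key := h.ball_compare hρ hB (w := w) (L := K) h.subK h.closedK hlenB rfl hlip
    (fun y hy => hwo y (fun h1 => hy.2 (Or.inr h1)))
    ⟨M', fun y hy => by rw [hwB y hy.1]; exact abs_trunc_le hM' _⟩
  -- Dirichlet energy does not increase
  have hdir : dirE w K B ≤ dirE ut K B := by
    unfold dirE
    refine lintegral_mono_ae ?_
    have hsph : ∀ᵐ y ∂(volume.restrict (B \ K)), y ∉ sphere x ρ :=
      ae_restrict_of_ae (measure_eq_zero_iff_ae_notMem.1 (measure_sphere_zero x hρ.ne'))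
    filter_upwards [hsph, ae_restrict_mem (hBm.diff h.measurable_K)] with y h1 h2
    have hyb : y ∈ ball x ρ := by
      rw [mem_ball]
      exact lt_of_le_of_ne (mem_closedBall.1 h2.1) (fun h3 => h1 (mem_sphere.2 h3))
    have he : w =ᶠ[𝓝 y] fun z => trunc M' (ut z) := by
      filter_upwards [isOpen_ball.mem_nhds hyb] with z hz
      exact hwB z (ball_subset_closedBall hz)
    rw [gradient_congr_of_eventuallyEq he]
    have h3 := norm_gradient_comp_le (abs_trunc_sub_le M') (h.differentiableAt ⟨hB h2.1, h2.2⟩)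
    have h4 : ‖gradient (fun z => trunc M' (ut z)) y‖ₑ ≤ ‖gradient ut y‖ₑ := by
      rw [← ofReal_norm, ← ofReal_norm]
      exact ENNReal.ofReal_le_ofReal h3
    gcongr
  -- pointwise comparison of the fidelity terms
  have hptle : ∀ y ∈ B, ‖w y - g y‖ₑ ^ 2 ≤ ‖ut y - g y‖ₑ ^ 2 := by
    intro y hy
    have h1 : |w y - g y| ≤ |ut y - g y| := by
      rw [hwB y hy]; exact abs_trunc_sub_le' (hgb y (hB hy))
    have h2 : ‖w y - g y‖ₑ ≤ ‖ut y - g y‖ₑ := by
      rw [Real.enorm_eq_ofReal_abs, Real.enorm_eq_ofReal_abs]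
      exact ENNReal.ofReal_le_ofReal h1
    gcongr
  have hfid : ∫⁻ y in B, ‖w y - g y‖ₑ ^ 2 ≤ ∫⁻ y in B, ‖ut y - g y‖ₑ ^ 2 := by
    refine setLIntegral_mono' hBm hptle
  have hfin : ∫⁻ y in B, ‖ut y - g y‖ₑ ^ 2 < ⊤ :=
    h.fid_lt_top hB hBm (isCompact_closedBall x ρ).measure_lt_top
  have hdfin : dirE ut K B < ⊤ :=
    (lintegral_mono_set (sdiff_subset_sdiff_left hB)).trans_lt h.dir_fin
  have hfid2 : ∫⁻ y in B, ‖ut y - g y‖ₑ ^ 2 ≤ ∫⁻ y in B, ‖w y - g y‖ₑ ^ 2 := by
    have h1 : enE ut K B + ∫⁻ y in B, ‖ut y - g y‖ₑ ^ 2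
        ≤ enE ut K B + ∫⁻ y in B, ‖w y - g y‖ₑ ^ 2 := by
      refine key.trans ?_
      unfold enE
      gcongr
    have h2 : enE ut K B ≠ ⊤ := ENNReal.add_ne_top.2 ⟨hdfin.ne, hlenB.ne⟩
    exact (ENNReal.add_le_add_iff_left h2).1 h1
  -- a.e. equality
  have hwm : AEMeasurable (fun y => ‖w y - g y‖ₑ ^ 2) (volume.restrict B) := by
    have h1 : AEStronglyMeasurable w (volume.restrict (Ω \ K)) :=
      hlip.continuousOn.aestronglyMeasurable h.isOpen_diff.measurableSet
    have h2 : volume.restrict (Ω \ K) = volume.restrict Ω :=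
      Measure.restrict_congr_set (sdiff_null_ae_eq_self h.volume_K)
    rw [h2] at h1
    have h3 := h1.mono_measure (Measure.restrict_mono hB le_rfl)
    exact ((h3.sub h.gm.aestronglyMeasurable).enorm.pow_const 2)
  have hae : ∀ᵐ y ∂(volume.restrict B), ‖w y - g y‖ₑ ^ 2 = ‖ut y - g y‖ₑ ^ 2 := by
    have hle : (fun y => ‖w y - g y‖ₑ ^ 2) ≤ᵐ[volume.restrict B] fun y => ‖ut y - g y‖ₑ ^ 2 := by
      filter_upwards [ae_restrict_mem hBm] with y hy
      exact hptle y hy
    have hutm : AEMeasurable (fun y => ‖ut y - g y‖ₑ ^ 2) (volume.restrict B) := by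
      have h3 := h.memLp_ut.1.mono_measure (Measure.restrict_mono hB le_rfl)
      exact ((h3.sub h.gm.aestronglyMeasurable).enorm.pow_const 2)
    exact ae_eq_of_ae_le_of_lintegral_le hle (ne_of_lt (hfid.trans_lt hfin)) hutm hfid2
  have haeM : ∀ᵐ y ∂(volume.restrict B), |ut y| ≤ M' := by
    filter_upwards [hae, ae_restrict_mem hBm] with y h1 h2
    by_contra hcon
    rw [not_le] at hcon
    have h3 := abs_trunc_sub_lt (hgb y (hB h2)) hcon
    rw [← hwB y h2] at h3
    have h4 : ‖w y - g y‖ₑ ^ 2 < ‖ut y - g y‖ₑ ^ 2 := by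
      have h5 : ‖w y - g y‖ₑ < ‖ut y - g y‖ₑ := by
        rw [Real.enorm_eq_ofReal_abs, Real.enorm_eq_ofReal_abs]
        exact (ENNReal.ofReal_lt_ofReal_iff_of_nonneg (abs_nonneg _)).2 h3
      exact ENNReal.pow_lt_pow_left (by norm_num) h5
    exact absurd h1 h4.ne
  -- continuity
  intro y hy
  by_cases hyb : y ∈ ball x ρ
  · by_contra hcon
    rw [not_le] at hcon
    have hcont : ContinuousAt ut y := (h.lipAt ⟨hB hy.1, hy.2⟩).continuousAt
    have hev : ∀ᶠ z in 𝓝 y, M' < |ut z| := hcont.abs.eventually_const_lt hcon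
    obtain ⟨r, hr, hrs⟩ := Metric.mem_nhds_iff.1 (inter_mem hev (isOpen_ball.mem_nhds hyb))
    rw [ae_restrict_iff' hBm] at haeM
    have h1 : volume (ball y r) = 0 := by
      refine measure_mono_null ?_ haeM
      intro z hz
      have h2 := hrs hz
      simp only [mem_compl_iff, mem_ofPred_eq, Classical.not_imp, not_le]
      exact ⟨ball_subset_closedBall h2.2, h2.1⟩
    exact absurd h1 (measure_ball_pos volume y hr).ne'
  · have : y ∈ sphere x ρ := by
      rw [mem_ball, not_lt] at hyb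
      exact mem_sphere.2 (le_antisymm (mem_closedBall.1 hy.1) hyb)
    exact hs y ⟨this, hy.2⟩

end MinData

end Crest.Agent.R135
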