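import Mathlib
import Crest.Agent.R135.Entry3

/-!
# From absolute minimizers to quasi-minimizers, part 4 (helper140)

Almost everywhere differentiability of locally Lipschitz functions; extension of competitors
(strong class); the strong minimality inequality and the theorem `exists_isSQM`.
-/

set_option autoImplicit false

open MeasureTheory Set Filter Topology Metric
open scoped ENNReal NNReal ContDiff Gradient
open Crest.AnalysisR.PDE.OnePhase Crest.AnalysisR.PDE.MumfordShah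

namespace Crest.Agent.R135

/-- Locally Lipschitz functions on an open set are differentiable almost everywhere there. -/
theorem ae_differentiableAt_of_lipAt {V : Set E2} {w : E2 → ℝ} (hw : ∀ x ∈ V, LipAt w x) :
    ∀ᵐ x : E2, x ∈ V → DifferentiableAt ℝ w x := by
  rw [ae_iff]
  apply measure_null_of_locally_null
  intro x hx
  simp only [Classical.not_imp, mem_ofPred_eq] at hx
  obtain ⟨C, t, ht, hC⟩ := hw x hx.1
  obtain ⟨r, hr, hrt⟩ := Metric.mem_nhds_iff.1 ht
  refine ⟨{y | ¬(y ∈ V → DifferentiableAt ℝ w y)} ∩ ball x r, ?_, ?_⟩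
  · exact inter_mem_nhdsWithin _ (ball_mem_nhds x hr)
  · have h1 : LipschitzOnWith C w (ball x r) := hC.mono hrt
    have h2 := h1.ae_differentiableWithinAt_of_mem (μ := (volume : Measure E2))
    rw [ae_iff] at h2
    refine measure_mono_null ?_ h2
    rintro y ⟨h3, h4⟩
    simp only [Classical.not_imp, mem_ofPred_eq] at h3 ⊢
    exact ⟨h4, fun h5 => h3.2 (h5.differentiableAt (isOpen_ball.mem_nhds h4))⟩

namespace IsComp0

variable {U : Set E2} {u : E2 → ℝ} {K : Set E2} {x : E2} {ρ : ℝ} {w : E2 → ℝ} {L : Set E2}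

lemma isOpen_diff (h : IsComp0 U u K x ρ w L) (hU : IsOpen U) : IsOpen (U \ L) :=
  (relClosed_iff hU).1 h.closed

lemma measurable_L (h : IsComp0 U u K x ρ w L) (hU : IsOpen U) : MeasurableSet L :=
  relClosed_measurable hU h.sub h.closed

/-- Replacement inside a ball: a (strong) competitor for the restriction to `V` extends to a
competitor in `U`. -/
theorem extend {V : Set E2} (hU : IsOpen U) (hV : IsOpen V) (hVU : V ⊆ U) (hKU : K ⊆ U)
    (hKcl : closure K ∩ U ⊆ K) (hu : ∀ y ∈ U \ K, LipAt u y)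
    (hB : closedBall x ρ ⊆ V) (h : IsComp0 V u (K ∩ V) x ρ w L) :
    ∃ (w' : E2 → ℝ) (L' : Set E2), IsComp0 U u K x ρ w' L' ∧ L' ∩ V = L ∧
      (∀ y ∈ V \ L, w' y = w y) ∧ (∀ y ∉ closedBall x ρ, w' y = u y) := by
  classical
  set L' : Set E2 := L ∪ (K \ V) with hL'
  set w' : E2 → ℝ := fun y => if y ∈ closedBall x ρ then w y else u y with hw'
  have hKo : IsOpen (U \ K) := (relClosed_iff hU).1 hKcl
  have hVo : IsOpen (V \ L) := h.isOpen_diff hV
  have hL'V : L' ∩ V = L := by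
    ext y
    constructor
    · rintro ⟨h1 | h1, h2⟩
      · exact h1
      · exact absurd h2 h1.2
    · intro h1
      exact ⟨Or.inl h1, h.sub h1⟩
  have hmemV : ∀ y ∈ V, (y ∈ L' ↔ y ∈ L) := by
    intro y hy
    constructor
    · rintro (h1 | h1)
      · exact h1
      · exact absurd hy h1.2
    · exact Or.inl
  have hnotL : ∀ y ∈ V, y ∉ closedBall x ρ → (y ∈ L ↔ y ∈ K) := by
    intro y hyV hyB
    have h1 : y ∈ L \ closedBall x ρ ↔ y ∈ (K ∩ V) \ closedBall x ρ := by rw [h.eqL]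
    constructor
    · intro h2; exact (h1.1 ⟨h2, hyB⟩).1.1
    · intro h2; exact (h1.2 ⟨⟨h2, hyV⟩, hyB⟩).1
  have hww : ∀ y ∈ V \ L, w' y = w y := by
    intro y hy
    by_cases hyB : y ∈ closedBall x ρ
    · simp only [hw', if_pos hyB]
    · simp only [hw', if_neg hyB]
      have hyK : y ∉ K := fun hK => hy.2 ((hnotL y hy.1 hyB).2 hK)
      symm
      refine h.eqw y ⟨hy.1, ?_⟩
      rintro (h2 | h2)
      · exact hyK h2.1
      · exact hyB h2
  have hwu : ∀ y ∉ closedBall x ρ, w' y = u y := fun y hy => by simp only [hw', if_neg hy]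
  have hcases : ∀ y ∈ U \ L', (y ∈ V \ L) ∨ (y ∉ closedBall x ρ ∧ y ∈ U \ K) := by
    intro y hy
    by_cases hyV : y ∈ V
    · left
      exact ⟨hyV, fun h1 => hy.2 ((hmemV y hyV).2 h1)⟩
    · right
      exact ⟨fun h1 => hyV (hB h1), hy.1, fun h1 => hy.2 (Or.inr ⟨h1, hyV⟩)⟩
  have hopen' : IsOpen (U \ L') := by
    have : U \ L' = (V \ L) ∪ ((closedBall x ρ)ᶜ ∩ (U \ K)) := by
      ext y
      constructor
      · intro hy; exact hcases y hy
      · rintro (hy | hy)
        · exact ⟨hVU hy.1, fun h1 => hy.2 ((hmemV y hy.1).1 h1)⟩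
        · refine ⟨hy.2.1, ?_⟩
          rintro (h1 | h1)
          · exact hy.2.2 ((hnotL y (h.sub h1) hy.1).1 h1)
          · exact hy.2.2 h1.1
    rw [this]
    exact hVo.union (isClosed_closedBall.isOpen_compl.inter hKo)
  refine ⟨w', L', ⟨?_, (relClosed_iff hU).2 hopen', ?_, ?_, ?_, ?_⟩, hL'V, hww, hwu⟩
  · exact union_subset (h.sub.trans hVU) (sdiff_subset.trans hKU)
  · refine lt_of_le_of_lt (measure_mono ?_) h.len_fin
    rintro y ⟨h1 | h1, h2⟩
    · exact ⟨h1, h2⟩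
    · exact absurd (hB h2) h1.2
  · ext y
    constructor
    · rintro ⟨h1 | h1, h2⟩
      · exact ⟨(hnotL y (h.sub h1) h2).1 h1, h2⟩
      · exact ⟨h1.1, h2⟩
    · rintro ⟨h1, h2⟩
      by_cases hyV : y ∈ V
      · exact ⟨Or.inl ((hnotL y hyV h2).2 h1), h2⟩
      · exact ⟨Or.inr ⟨h1, hyV⟩, h2⟩
  · rw [locallyLipschitzOn_iff_lipAt hopen']
    intro y hy
    rcases hcases y hy with h1 | ⟨h1, h2⟩
    · refine ((locallyLipschitzOn_iff_lipAt hVo).1 h.lip y h1).congr ?_
      filter_upwards [hVo.mem_nhds h1] with z hz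
      exact (hww z hz).symm
    · refine (hu y h2).congr ?_
      filter_upwards [isClosed_closedBall.isOpen_compl.mem_nhds h1] with z hz
      exact (hwu z hz).symm
  · intro y hy
    exact hwu y (fun h1 => hy.2 (Or.inr h1))

end IsComp0

namespace MinData

variable {Ω : Set E2} {g u : E2 → ℝ} {K : Set E2} {G : E2 → E2} {ut : E2 → ℝ} {M₀ : ℝ}

/-- **Strong minimality inequality** in an open set `U` where the representative is bounded. -/
theorem min0 (h : MinData Ω g u K G ut M₀) {U : Set E2} (hU : IsOpen U) (hUΩ : U ⊆ Ω)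
    {M' : ℝ} (hM' : 0 ≤ M') (hM₀ : 0 ≤ M₀) (hbd : ∀ y ∈ U \ K, |ut y| ≤ M')
    {x : E2} {ρ : ℝ} (hρ : 0 < ρ) (hB : closedBall x ρ ⊆ U) {w : E2 → ℝ} {L : Set E2}
    (hc : IsComp0 U ut (K ∩ U) x ρ w L) :
    enE ut (K ∩ U) (closedBall x ρ) ≤ enE w L (closedBall x ρ)
      + ENNReal.ofReal ((Real.pi * (M' + M₀) ^ 2) * ρ ^ 2) := by
  classical
  set B := closedBall x ρ with hBdef
  have hBm : MeasurableSet B := isClosed_closedBall.measurableSet
  obtain ⟨w', L', hc', hLU, hww, hwu⟩ :=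
    hc.extend h.isOpen hU hUΩ h.subK h.closedK (fun y hy => h.lipAt hy) hB
  have hLo : IsOpen (Ω \ L') := hc'.isOpen_diff h.isOpen
  have hLUo : IsOpen (U \ L) := hc.isOpen_diff hU
  have hmemU : ∀ y ∈ U, (y ∈ L' ↔ y ∈ L) := by
    intro y hy
    constructor
    · intro h1
      have : y ∈ L' ∩ U := ⟨h1, hy⟩
      rwa [hLU] at this
    · intro h1
      have : y ∈ L' ∩ U := by rw [hLU]; exact h1
      exact this.1
  set w'' : E2 → ℝ := fun y => if y ∈ B then trunc M' (w' y) else w' y with hw''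
  -- in `U \ L'` the function is the truncation of `w'`
  have htr : ∀ y ∈ U \ L', w'' y = trunc M' (w' y) := by
    intro y hy
    by_cases hyB : y ∈ B
    · simp only [hw'', if_pos hyB]
    · simp only [hw'', if_neg hyB]
      have hyK : y ∉ K := by
        intro hK
        have : y ∈ L' \ closedBall x ρ := by rw [hc'.eqL]; exact ⟨hK, hyB⟩
        exact hy.2 this.1
      rw [hwu y hyB, trunc_of_abs_le (hbd y ⟨hy.1, hyK⟩)]
  have hwo : ∀ y ∉ B, w'' y = w' y := fun y hy => by simp only [hw'', if_neg hy]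
  have hlip' := (locallyLipschitzOn_iff_lipAt hLo).1 hc'.lip
  have hULo : IsOpen (U \ L') := by
    have : U \ L' = U \ L := by
      ext y; constructor
      · rintro ⟨h1, h2⟩; exact ⟨h1, fun h3 => h2 ((hmemU y h1).2 h3)⟩
      · rintro ⟨h1, h2⟩; exact ⟨h1, fun h3 => h2 ((hmemU y h1).1 h3)⟩
    rw [this]; exact hLUo
  have hlip : LocallyLipschitzOn (Ω \ L') w'' := by
    rw [locallyLipschitzOn_iff_lipAt hLo]
    intro y hy
    by_cases hyU : y ∈ U
    · refine ((hlip' y hy).comp (trunc_lipschitz M')).congr ?_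
      filter_upwards [hULo.mem_nhds ⟨hyU, hy.2⟩] with z hz
      exact (htr z hz).symm
    · have hyB : y ∉ B := fun h1 => hyU (hB h1)
      refine (hlip' y hy).congr ?_
      filter_upwards [isClosed_closedBall.isOpen_compl.mem_nhds hyB] with z hz
      exact (hwo z hz).symm
  have key := h.ball_compare hρ (hB.trans hUΩ) (w := w'') (L := L') hc'.sub hc'.closed hc'.len_fin
    hc'.eqL hlip (fun y hy => by
      rw [hwo y (fun h1 => hy.2 (Or.inr h1)), hwu y (fun h1 => hy.2 (Or.inr h1))])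
    ⟨M', fun y hy => by simp only [hw'', hBdef, if_pos hy.1]; exact abs_trunc_le hM' _⟩
  have hBK : B \ (K ∩ U) = B \ K := by
    ext y; constructor
    · rintro ⟨h1, h2⟩; exact ⟨h1, fun h3 => h2 ⟨h3, hB h1⟩⟩
    · rintro ⟨h1, h2⟩; exact ⟨h1, fun h3 => h2 h3.1⟩
  have hBK' : (K ∩ U) ∩ B = K ∩ B := by
    ext y; constructor
    · rintro ⟨⟨h1, _⟩, h3⟩; exact ⟨h1, h3⟩
    · rintro ⟨h1, h2⟩; exact ⟨⟨h1, hB h2⟩, h2⟩
  have e1 : enE ut (K ∩ U) B = enE ut K B := by
    unfold enE dirE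
    rw [hBK, hBK']
  have e2 : enE w'' L' B ≤ enE w L B := by
    unfold enE
    have a1 : L' ∩ B = L ∩ B := by
      ext y; constructor
      · rintro ⟨h1, h2⟩; exact ⟨(hmemU y (hB h2)).1 h1, h2⟩
      · rintro ⟨h1, h2⟩; exact ⟨(hmemU y (hB h2)).2 h1, h2⟩
    have a2 : B \ L' = B \ L := by
      ext y; constructor
      · rintro ⟨h1, h2⟩; exact ⟨h1, fun h3 => h2 ((hmemU y (hB h1)).2 h3)⟩
      · rintro ⟨h1, h2⟩; exact ⟨h1, fun h3 => h2 ((hmemU y (hB h1)).1 h3)⟩
    rw [a1]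
    refine add_le_add ?_ le_rfl
    unfold dirE
    rw [a2]
    refine lintegral_mono_ae ?_
    have hd : ∀ᵐ y ∂(volume.restrict (B \ L)), y ∈ U \ L → DifferentiableAt ℝ w y :=
      ae_restrict_of_ae (ae_differentiableAt_of_lipAt
        ((locallyLipschitzOn_iff_lipAt hLUo).1 hc.lip))
    filter_upwards [hd, ae_restrict_mem (hBm.diff (hc.measurable_L hU))] with y h1 h2
    have hyU : y ∈ U \ L := ⟨hB h2.1, h2.2⟩
    have he : w'' =ᶠ[𝓝 y] fun z => trunc M' (w z) := by
      filter_upwards [hULo.mem_nhds ⟨hyU.1, fun h3 => hyU.2 ((hmemU y hyU.1).1 h3)⟩,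
        hLUo.mem_nhds hyU] with z hz hz'
      rw [htr z hz, hww z hz']
    rw [gradient_congr_of_eventuallyEq he]
    have h3 := norm_gradient_comp_le (abs_trunc_sub_le M') (h1 hyU)
    have h4 : ‖gradient (fun z => trunc M' (w z)) y‖ₑ ≤ ‖gradient w y‖ₑ := by
      rw [← ofReal_norm, ← ofReal_norm]
      exact ENNReal.ofReal_le_ofReal h3
    gcongr
  have e3 : ∫⁻ y in B, ‖w'' y - g y‖ₑ ^ 2 ≤ ENNReal.ofReal ((Real.pi * (M' + M₀) ^ 2) * ρ ^ 2) := by
    have h1 : ∀ y ∈ B, ‖w'' y - g y‖ₑ ^ 2 ≤ ENNReal.ofReal ((M' + M₀) ^ 2) := by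
      intro y hy
      have h2 : |w'' y - g y| ≤ M' + M₀ := by
        have h3 : |w'' y| ≤ M' := by
          simp only [hw'', if_pos hy]; exact abs_trunc_le hM' _
        have h4 : |g y| ≤ M₀ := h.gb y (hUΩ (hB hy))
        exact (abs_sub _ _).trans (add_le_add h3 h4)
      rw [Real.enorm_eq_ofReal_abs, ← ENNReal.ofReal_pow (abs_nonneg _)]
      apply ENNReal.ofReal_le_ofReal
      exact pow_le_pow_left₀ (abs_nonneg _) h2 2
    calc ∫⁻ y in B, ‖w'' y - g y‖ₑ ^ 2 ≤ ∫⁻ _ in B, ENNReal.ofReal ((M' + M₀) ^ 2) :=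
          setLIntegral_mono' hBm h1
      _ = ENNReal.ofReal ((M' + M₀) ^ 2) * volume B := by rw [setLIntegral_const]
      _ = ENNReal.ofReal ((Real.pi * (M' + M₀) ^ 2) * ρ ^ 2) := by
          rw [hBdef, EuclideanSpace.volume_closedBall_fin_two, ← ENNReal.ofReal_pow hρ.le,
            ← ENNReal.ofReal_mul (by positivity), ← ENNReal.ofReal_mul (by positivity)]
          congr 1
          ring
  rw [e1]
  calc enE ut K B ≤ enE ut K B + ∫⁻ y in B, ‖ut y - g y‖ₑ ^ 2 := le_self_add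
    _ ≤ _ := key
    _ ≤ _ := add_le_add e2 e3

end MinData

end Crest.Agent.R135
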