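import Mathlib
import Crest.Agent.R135.Entry4
import Crest.Agent.R135.IFDefs

/-!
# From absolute minimizers to quasi-minimizers, part 5 (helper140)

Euler-Lagrange equation and assembly: `exists_isSQM`.
-/

set_option autoImplicit false

open MeasureTheory Set Filter Topology Metric
open scoped ENNReal NNReal ContDiff Gradient
open Crest.AnalysisR.PDE.OnePhase Crest.AnalysisR.PDE.MumfordShah

namespace Crest.Agent.R135

/-- Test functions of a smaller open set are test functions. -/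
theorem IsTest.extend {U V K : Set E2} {φ : E2 → ℝ} (hV : IsOpen V) (hVU : V ⊆ U)
    (hKo : IsOpen (U \ K)) (hφ : IsTest V (K ∩ V) φ) : IsTest U K φ := by
  obtain ⟨C, hC, hCV, hC0⟩ := hφ.supp
  have hzero : ∀ y ∉ C, ∀ᶠ z in 𝓝 y, φ z = 0 := by
    intro y hy
    filter_upwards [hC.isClosed.isOpen_compl.mem_nhds hy] with z hz
    exact hC0 z hz
  have hgz : ∀ y ∉ C, gradient φ y = 0 := fun y hy =>
    gradient_eq_zero_of_eventually_const 0 (hzero y hy)
  have hVK : V \ (K ∩ V) = V \ K := by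
    ext y; constructor
    · rintro ⟨h1, h2⟩; exact ⟨h1, fun h3 => h2 ⟨h3, h1⟩⟩
    · rintro ⟨h1, h2⟩; exact ⟨h1, fun h3 => h2 h3.1⟩
  have hVo : IsOpen (V \ (K ∩ V)) := by
    rw [hVK]
    have : V \ K = V ∩ (U \ K) := by
      ext y; constructor
      · rintro ⟨h1, h2⟩; exact ⟨h1, hVU h1, h2⟩
      · rintro ⟨h1, h2⟩; exact ⟨h1, h2.2⟩
    rw [this]; exact hV.inter hKo
  refine ⟨?_, hφ.bdd, ⟨C, hC, hCV.trans hVU, hC0⟩, ?_⟩
  · rw [locallyLipschitzOn_iff_lipAt hKo]
    intro y hy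
    by_cases hyV : y ∈ V
    · exact (locallyLipschitzOn_iff_lipAt hVo).1 hφ.lip y ⟨hyV, fun h1 => hy.2 h1.1⟩
    · exact lipAt_of_eventually_const 0 (hzero y (fun h1 => hyV (hCV h1)))
  · have h1 := hφ.dir_fin
    unfold dirE at h1 ⊢
    refine lt_of_le_of_lt (le_of_eq ?_) h1
    rw [hVK, ← lintegral_inter_add_sdiff _ (U \ K) hV.measurableSet]
    have a1 : ∫⁻ y in (U \ K) \ V, ‖gradient φ y‖ₑ ^ 2 = 0 := by
      refine setLIntegral_eq_zero (hKo.measurableSet.diff hV.measurableSet) ?_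
      rintro y ⟨_, hyV⟩
      simp only [Pi.zero_apply]
      rw [hgz y (fun h2 => hyV (hCV h2))]
      simp
    rw [a1, add_zero]
    congr 2
    ext y; constructor
    · rintro ⟨h1, h2⟩; exact ⟨h2, h1.2⟩
    · rintro ⟨h1, h2⟩; exact ⟨⟨hVU h1, h2⟩, h1⟩

namespace MinData

variable {Ω : Set E2} {g u : E2 → ℝ} {K : Set E2} {G : E2 → E2} {ut : E2 → ℝ} {M₀ : ℝ}

lemma restrict_diff_eq (h : MinData Ω g u K G ut M₀) (S : Set E2) :
    (volume.restrict (S \ K) : Measure E2) = volume.restrict S :=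
  Measure.restrict_congr_set (sdiff_null_ae_eq_self h.volume_K)

/-- **Euler-Lagrange equation** with test functions jumping across `K`. -/
theorem el (h : MinData Ω g u K G ut M₀) {φ : E2 → ℝ} (hφ : IsTest Ω K φ) :
    ∫ y in Ω \ K, inner ℝ (gradient ut y) (gradient φ y) = - ∫ y in Ω, (ut y - g y) * φ y := by
  obtain ⟨C, hC, hCΩ, hC0⟩ := hφ.supp
  have hN : Gl.IsNeumann Ω K G (fun x => u x - g x) := by
    refine Gl.neumann_of_min h.isOpen h.min ?_
    intro C hC hCΩ
    have : IsFiniteMeasure (volume.restrict C) :=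
      ⟨by rw [Measure.restrict_apply_univ]; exact hC.measure_lt_top⟩
    refine MemLp.of_bound h.gm.aestronglyMeasurable M₀ ?_
    filter_upwards [ae_restrict_mem hC.measurableSet] with x hx
    exact h.gb x (hCΩ hx)
  have hgz : ∀ y ∉ C, gradient φ y = 0 := by
    intro y hy
    refine gradient_eq_zero_of_eventually_const 0 ?_
    filter_upwards [hC.isClosed.isOpen_compl.mem_nhds hy] with z hz
    exact hC0 z hz
  have hφm : AEStronglyMeasurable φ (volume.restrict Ω) := by
    rw [← h.restrict_diff_eq Ω]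
    exact hφ.lip.continuousOn.aestronglyMeasurable h.isOpen_diff.measurableSet
  have hφL : MemLp φ 2 (volume.restrict Ω) := by
    obtain ⟨M, hM⟩ := hφ.bdd
    have h1 : MemLp (fun y => C.indicator (fun _ => M) y) 2 (volume.restrict Ω) := by
      refine memLp_indicator_const 2 hC.measurableSet _ (Or.inr ?_)
      exact ne_of_lt ((Measure.restrict_apply_le _ _).trans_lt hC.measure_lt_top)
    refine h1.mono hφm (Eventually.of_forall fun y => ?_)
    by_cases hy : y ∈ C
    · rw [indicator_of_mem hy]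
      exact (hM y).trans (le_abs_self M)
    · rw [hC0 y hy, norm_zero]; exact norm_nonneg _
  have hgL : MemLp (fun y => gradient φ y) 2 (volume.restrict (Ω \ K)) := by
    refine Gl.memLp_two_of_lintegral (measurable_gradient φ).aestronglyMeasurable ?_
    exact hφ.dir_fin
  have key := hN φ (fun y => gradient φ y) C hC hCΩ hC0 hgz
    (isWeakGradOn_of_locallyLipschitzOn h.isOpen_diff hφ.lip) hφL hgL
  have e1 : ∫ y in Ω \ K, inner ℝ (G y) (gradient φ y)
      = ∫ y in Ω \ K, inner ℝ (gradient ut y) (gradient φ y) := by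
    refine integral_congr_ae ?_
    filter_upwards [h.ae_G] with y hy
    rw [hy]
  have e2 : ∫ y in Ω, (u y - g y) * φ y = ∫ y in Ω, (ut y - g y) * φ y := by
    refine integral_congr_ae ?_
    filter_upwards [h.ae_u] with y hy
    rw [hy]
  rw [e1, e2] at key
  linarith

/-- The representative of an absolute minimizer is a strong quasi-minimizer in every ball where it
is bounded. -/
theorem isSQM (h : MinData Ω g u K G ut M₀) {U : Set E2} (hU : IsOpen U) (hUΩ : U ⊆ Ω)
    {M' : ℝ} (hM' : 1 ≤ M') (hM₀ : 0 ≤ M₀) (hbd : ∀ y ∈ U \ K, |ut y| ≤ M') :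
    IsSQM U (Real.pi * (M' + M₀) ^ 2) ut (K ∩ U) := by
  classical
  have hUK : U \ (K ∩ U) = U \ K := by
    ext y; constructor
    · rintro ⟨h1, h2⟩; exact ⟨h1, fun h3 => h2 ⟨h3, h1⟩⟩
    · rintro ⟨h1, h2⟩; exact ⟨h1, fun h3 => h2 h3.1⟩
  have hBK : ∀ B : Set E2, B ⊆ U → B \ (K ∩ U) = B \ K := by
    intro B hB
    ext y; constructor
    · rintro ⟨h1, h2⟩; exact ⟨h1, fun h3 => h2 ⟨h3, hB h1⟩⟩
    · rintro ⟨h1, h2⟩; exact ⟨h1, fun h3 => h2 h3.1⟩
  have hUo : IsOpen (U \ K) := by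
    have : U \ K = U ∩ (Ω \ K) := by
      ext y; constructor
      · rintro ⟨h1, h2⟩; exact ⟨h1, hUΩ h1, h2⟩
      · rintro ⟨h1, h2⟩; exact ⟨h1, h2.2⟩
    rw [this]; exact hU.inter h.isOpen_diff
  have hA1 : 1 ≤ M' + M₀ := by linarith
  have hpi : (3 : ℝ) < Real.pi := Real.pi_gt_three
  have hAlam : M' + M₀ ≤ Real.pi * (M' + M₀) ^ 2 := by nlinarith
  have hmin0 : ∀ (x : E2) (ρ : ℝ), 0 < ρ → closedBall x ρ ⊆ U → ∀ (w : E2 → ℝ) (L : Set E2),
      IsComp0 U ut (K ∩ U) x ρ w L →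
        enE ut (K ∩ U) (closedBall x ρ) ≤ enE w L (closedBall x ρ)
          + ENNReal.ofReal ((Real.pi * (M' + M₀) ^ 2) * ρ ^ 2) :=
    fun x ρ hρ hB w L hc => h.min0 hU hUΩ (by linarith) hM₀ hbd hρ hB hc
  refine ⟨⟨hU, by positivity, inter_subset_right, ?_, ?_, ?_, ?_, ?_, ?_, ?_⟩, hmin0⟩
  · rintro y ⟨h1, h2⟩
    exact ⟨h.closedK ⟨closure_mono inter_subset_left h1, hUΩ h2⟩, h2⟩
  · rw [hUK]; exact h.c1.mono (sdiff_subset_sdiff_left hUΩ)
  · intro x r hr
    exact (measure_mono (inter_subset_left.trans inter_subset_left)).trans_lt h.lenK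
  · intro x r hr
    unfold dirE
    rw [hBK _ hr]
    exact (lintegral_mono_set (sdiff_subset_sdiff_left (hr.trans hUΩ))).trans_lt h.dir_fin
  · intro x hx r hr
    obtain ⟨s, hs, hsU⟩ := Metric.isOpen_iff.1 hU x hx.2
    have hmin : 0 < Min.min r s / 2 := half_pos (lt_min hr hs)
    have h1 : closedBall x (Min.min r s / 2) ⊆ U := by
      refine (closedBall_subset_ball ?_).trans hsU
      have := min_le_right r s
      have := lt_min hr hs
      linarith
    have h2 := h.red x hx.1 (Min.min r s / 2) hmin (h1.trans hUΩ)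
    refine h2.trans_le (measure_mono ?_)
    rintro y ⟨hy, hy'⟩
    refine ⟨⟨hy, h1 (ball_subset_closedBall hy')⟩, ball_subset_ball ?_ hy'⟩
    have := min_le_left r s
    have := lt_min hr hs
    linarith
  · intro x ρ hρ hB w L hc
    exact hmin0 x ρ hρ hB w L hc.toIsComp0
  · refine ⟨(U \ K).piecewise (fun y => ut y - g y) 0, ?_, ?_, ?_⟩
    · have h1 : Measurable ((U \ K).piecewise ut (fun _ => 0)) :=
        ContinuousOn.measurable_piecewise (h.c1.continuousOn.mono (sdiff_subset_sdiff_left hUΩ))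
          continuousOn_const hUo.measurableSet
      have h2 : Measurable ((U \ K).piecewise g (fun _ => 0)) :=
        h.gm.piecewise hUo.measurableSet measurable_const
      have h3 : (U \ K).piecewise (fun y => ut y - g y) 0
          = fun y => (U \ K).piecewise ut (fun _ => 0) y - (U \ K).piecewise g (fun _ => 0) y := by
        ext y
        by_cases hy : y ∈ U \ K
        · simp only [Set.piecewise_eq_of_mem _ _ _ hy]
        · simp only [Set.piecewise_eq_of_notMem _ _ _ hy, Pi.zero_apply, sub_zero]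
      rw [h3]; exact h1.sub h2
    · intro y
      by_cases hy : y ∈ U \ K
      · rw [Set.piecewise_eq_of_mem _ _ _ hy]
        refine le_trans ?_ hAlam
        exact (abs_sub _ _).trans (add_le_add (hbd y hy) (h.gb y (hUΩ hy.1)))
      · rw [Set.piecewise_eq_of_notMem _ _ _ hy]
        simp only [Pi.zero_apply, abs_zero]
        positivity
    · intro φ hφ
      have hφΩ := hφ.extend hU hUΩ h.isOpen_diff
      have key := h.el hφΩ
      obtain ⟨C, hC, hCU, hC0⟩ := hφ.supp
      have hgz : ∀ y ∉ C, gradient φ y = 0 := by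
        intro y hy
        refine gradient_eq_zero_of_eventually_const 0 ?_
        filter_upwards [hC.isClosed.isOpen_compl.mem_nhds hy] with z hz
        exact hC0 z hz
      have e1 : ∫ y in U \ (K ∩ U), inner ℝ (gradient ut y) (gradient φ y)
          = ∫ y in Ω \ K, inner ℝ (gradient ut y) (gradient φ y) := by
        rw [hUK]
        symm
        refine setIntegral_eq_of_subset_of_forall_sdiff_eq_zero h.isOpen_diff.measurableSet
          (sdiff_subset_sdiff_left hUΩ) ?_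
        rintro y ⟨hy1, hy2⟩
        have hyU : y ∉ U := fun h2 => hy2 ⟨h2, hy1.2⟩
        rw [hgz y (fun h2 => hyU (hCU h2)), inner_zero_right]
      have e2 : ∫ y in U, (U \ K).piecewise (fun y => ut y - g y) 0 y * φ y
          = ∫ y in Ω, (ut y - g y) * φ y := by
        have a1 : ∫ y in Ω, (ut y - g y) * φ y = ∫ y in U, (ut y - g y) * φ y := by
          refine setIntegral_eq_of_subset_of_forall_sdiff_eq_zero h.isOpen.measurableSet hUΩ ?_
          rintro y ⟨_, hy2⟩
          rw [hC0 y (fun h2 => hy2 (hCU h2)), mul_zero]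
        rw [a1, ← h.restrict_diff_eq U]
        refine setIntegral_congr_fun hUo.measurableSet ?_
        intro y hy
        simp only [Set.piecewise_eq_of_mem _ _ _ hy]
      rw [e1, key, e2]

end MinData

/-- **A1, strong form**: absolute minimizers are locally strong quasi-minimizers with a bounded
`C¹` representative. -/
theorem exists_isSQM {Ω : Set E2} (hΩo : IsOpen Ω) {g u : E2 → ℝ} {K : Set E2} {G : E2 → E2}
    (hgm : Measurable g) (hgb : ∃ M : ℝ, ∀ x ∈ Ω, ‖g x‖ ≤ M)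
    (hmin : IsAbsoluteMinimizer Ω g u K G) (hred : IsReduced Ω K) {x0 : E2} (hx0 : x0 ∈ Ω) :
    ∃ R : ℝ, 0 < R ∧ closedBall x0 R ⊆ Ω ∧ ∃ lam M : ℝ, 0 < M ∧ ∃ ut : E2 → ℝ,
      IsSQM (ball x0 R) lam ut (K ∩ ball x0 R) ∧ ∀ y ∈ ball x0 R \ K, |ut y| ≤ M := by
  obtain ⟨ut, M₀, h⟩ := exists_minData hΩo hgm hgb hmin hred
  have hM₀ : 0 ≤ M₀ := (norm_nonneg _).trans (h.gb x0 hx0)
  obtain ⟨R₁, hR₁, hR₁Ω⟩ := Metric.isOpen_iff.1 hΩo x0 hx0
  -- a good radius
  have hgood : ∀ᵐ t : ℝ, t ∈ Ioo 0 R₁ → GoodCirc K (gradient ut) x0 t := by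
    refine ae_goodCirc' ((measure_mono inter_subset_left).trans_lt h.lenK) ?_ ?_
    · exact (measurable_gradient ut).aestronglyMeasurable
    · exact (lintegral_mono_set (sdiff_subset_sdiff_left hR₁Ω)).trans_lt h.dir_fin
  obtain ⟨R, hR, hRg⟩ : ∃ R ∈ Ioo 0 R₁, GoodCirc K (gradient ut) x0 R := by
    by_contra hcon
    push Not at hcon
    have h1 : volume (Ioo (0:ℝ) R₁) = 0 := by
      refine measure_mono_null ?_ (ae_iff.1 hgood)
      intro t ht
      simp only [Classical.not_imp, mem_ofPred_eq]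
      exact ⟨ht, hcon t ht⟩
    rw [Real.volume_Ioo] at h1
    simp only [sub_zero, ENNReal.ofReal_eq_zero] at h1
    linarith
  have hRΩ : closedBall x0 R ⊆ Ω := (closedBall_subset_ball hR.2).trans hR₁Ω
  obtain ⟨M₁, hM₁⟩ := hRg.exists_bound (u := ut) (fun y hy =>
    (h.differentiableAt ⟨hRΩ (sphere_subset_closedBall hy.1), hy.2⟩).hasGradientAt)
  set M' := max (max M₁ M₀) 1 with hM'
  have hb := h.bound_of_sphere hR.1 hRΩ (M' := M')
    ((le_max_right M₁ M₀).trans (le_max_left _ _)) (le_trans zero_le_one (le_max_right _ _))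
    (fun y hy => (hM₁ y hy).trans ((le_max_left M₁ M₀).trans (le_max_left _ _)))
  have hbd : ∀ y ∈ ball x0 R \ K, |ut y| ≤ M' :=
    fun y hy => hb y ⟨ball_subset_closedBall hy.1, hy.2⟩
  refine ⟨R, hR.1, hRΩ, Real.pi * (M' + M₀) ^ 2, M', lt_of_lt_of_le zero_lt_one (le_max_right _ _),
    ut, h.isSQM isOpen_ball (ball_subset_closedBall.trans hRΩ) (le_max_right _ _) hM₀ hbd, hbd⟩

/-- **A1**: absolute minimizers are locally quasi-minimizers with a bounded `C¹`
representative. -/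
theorem exists_isQM {Ω : Set E2} (hΩo : IsOpen Ω) {g u : E2 → ℝ} {K : Set E2} {G : E2 → E2}
    (hgm : Measurable g) (hgb : ∃ M : ℝ, ∀ x ∈ Ω, ‖g x‖ ≤ M)
    (hmin : IsAbsoluteMinimizer Ω g u K G) (hred : IsReduced Ω K) {x0 : E2} (hx0 : x0 ∈ Ω) :
    ∃ R : ℝ, 0 < R ∧ closedBall x0 R ⊆ Ω ∧ ∃ lam M : ℝ, 0 < M ∧ ∃ ut : E2 → ℝ,
      IsQM (ball x0 R) lam ut (K ∩ ball x0 R) ∧ ∀ y ∈ ball x0 R \ K, |ut y| ≤ M := by
  obtain ⟨R, hR, hRΩ, lam, M, hM, ut, h, hb⟩ := exists_isSQM hΩo hgm hgb hmin hred hx0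
  exact ⟨R, hR, hRΩ, lam, M, hM, ut, h.toIsQM, hb⟩

end Crest.Agent.R135
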