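import Mathlib
import Crest.Agent.R135.Core
import Crest.Agent.R135.GMT2
import Crest.Agent.R135.ArcFrame

/-!
# R135, block EPS (helper983): length excess controls flatness (line case, step (E))
-/

set_option autoImplicit false

open MeasureTheory Set Filter Topology Metric
open scoped ENNReal NNReal

namespace Crest.Agent.R135

section Meas

variable {X : Type*} [MeasurableSpace X]

/-- additivity over finitely many disjoint measurable windows, for an arbitrary set `Q` -/
theorem sum_measure_inter_le {ι : Type*} (μ : Measure X) (Q : Set X) (s : Finset ι) (B : ι → Set X)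
    (hB : ∀ i ∈ s, MeasurableSet (B i)) (hd : (s : Set ι).PairwiseDisjoint B) :
    ∑ i ∈ s, μ (Q ∩ B i) ≤ μ Q := by
  have h1 : ∑ i ∈ s, μ (Q ∩ B i) = ∑ i ∈ s, (μ.restrict Q) (B i) := by
    apply Finset.sum_congr rfl
    intro i hi
    rw [Measure.restrict_apply (hB i hi), inter_comm]
  rw [h1, ← measure_biUnion_finset hd hB]
  exact (measure_mono (subset_univ _)).trans_eq (by rw [Measure.restrict_apply_univ])

theorem measure_inter_three_le (μ : Measure X) (Q : Set X) {B1 B2 B3 : Set X}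
    (h1 : MeasurableSet B1) (h2 : MeasurableSet B2) (h3 : MeasurableSet B3)
    (d12 : Disjoint B1 B2) (d13 : Disjoint B1 B3) (d23 : Disjoint B2 B3) :
    μ (Q ∩ B1) + μ (Q ∩ B2) + μ (Q ∩ B3) ≤ μ Q := by
  have := sum_measure_inter_le μ Q (Finset.univ : Finset (Fin 3)) ![B1, B2, B3]
    (by intro i _; fin_cases i <;> assumption)
    (by
      intro i _ j _ hij
      fin_cases i <;> fin_cases j <;> simp [Function.onFun] at hij ⊢ <;>
        first | assumption | (exact Disjoint.symm (by assumption)))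
  simpa [Fin.sum_univ_three] using this

end Meas

/-- **Three point lemma** (balls only). -/
theorem three_point_length {Q : Set E2} (hQ : IsPreconnected Q) {p q z : E2} (hp : p ∈ Q)
    (hq : q ∈ Q) (hz : z ∈ Q) {L1 L2 δ : ℝ} (hL1 : 0 ≤ L1) (hL2 : 0 ≤ L2) (hδ : 0 ≤ δ)
    (hpq : L1 + L2 ≤ dist p q) (hpz : L1 + δ ≤ dist p z) (hqz : L2 + δ ≤ dist q z) :
    ENNReal.ofReal (L1 + L2 + δ) ≤ len Q := by
  have hB1 := le_hausdorff_inter_ball_of_isPreconnected Q hQ hp hq (r := L1) (by linarith)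
  have hB2 := le_hausdorff_inter_ball_of_isPreconnected Q hQ hq hp (r := L2)
    (by rw [dist_comm]; linarith)
  have hB3 := le_hausdorff_inter_ball_of_isPreconnected Q hQ hz hp (r := δ)
    (by rw [dist_comm]; linarith)
  have h := measure_inter_three_le (Measure.hausdorffMeasure 1) Q (B1 := ball p L1)
    (B2 := ball q L2) (B3 := ball z δ) measurableSet_ball measurableSet_ball measurableSet_ball
    (ball_disjoint_ball hpq) (ball_disjoint_ball hpz) (ball_disjoint_ball hqz)
  rw [ENNReal.ofReal_add (by positivity) hδ, ENNReal.ofReal_add hL1 hL2]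
  exact (add_le_add (add_le_add hB1 hB2) hB3).trans h

/-- height bound in a frame: `Q` connected from `p` to `q = p + ℓ e`, of length `≤ ℓ + E`; then
every point of `Q` over the open segment has height `≤ √(2 ℓ E + E²)`. -/
theorem height_sq_le {Q : Set E2} (hQ : IsPreconnected Q) {p e z : E2} (he : ‖e‖ = 1) {ℓ E : ℝ}
    (hE : 0 ≤ E) (hp : p ∈ Q) (hq : p + ℓ • e ∈ Q) (hz : z ∈ Q)
    (ha0 : 0 ≤ inner ℝ (z - p) e) (ha1 : inner ℝ (z - p) e ≤ ℓ)
    (hlen : len Q ≤ ENNReal.ofReal (ℓ + E)) :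
    (inner ℝ (z - p) (Arc.J e) : ℝ) ^ 2 ≤ 2 * ℓ * E + E ^ 2 := by
  set a := (inner ℝ (z - p) e : ℝ) with ha
  set b := (inner ℝ (z - p) (Arc.J e) : ℝ) with hb
  have hℓ : 0 ≤ ℓ := ha0.trans ha1
  have hzp : dist p z = Real.sqrt (a ^ 2 + b ^ 2) := by
    have h1 := Arc.frame_eq he (z - p)
    rw [← ha, ← hb] at h1
    rw [dist_comm, dist_eq_norm, h1, ← Real.sqrt_sq (norm_nonneg _), Arc.norm_sq_frame he]
  have hzq : dist (p + ℓ • e) z = Real.sqrt ((ℓ - a) ^ 2 + b ^ 2) := by
    have h1 := Arc.frame_eq he (z - p)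
    rw [← ha, ← hb] at h1
    have h2 : z - (p + ℓ • e) = (a - ℓ) • e + b • Arc.J e := by
      have : z - (p + ℓ • e) = (z - p) - ℓ • e := by abel
      rw [this, h1]; module
    rw [dist_comm, dist_eq_norm, h2, ← Real.sqrt_sq (norm_nonneg _), Arc.norm_sq_frame he]
    congr 1; ring
  have hpq : dist p (p + ℓ • e) = ℓ := by
    rw [dist_self_add_right, norm_smul, he, mul_one, Real.norm_eq_abs, abs_of_nonneg hℓ]
  -- δ
  set δ := min (Real.sqrt (a ^ 2 + b ^ 2) - a) (Real.sqrt ((ℓ - a) ^ 2 + b ^ 2) - (ℓ - a)) with hδ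
  have h1 : 0 ≤ Real.sqrt (a ^ 2 + b ^ 2) - a := by
    have : a ≤ Real.sqrt (a ^ 2 + b ^ 2) := Real.le_sqrt_of_sq_le (by nlinarith [sq_nonneg b])
    linarith
  have h2 : 0 ≤ Real.sqrt ((ℓ - a) ^ 2 + b ^ 2) - (ℓ - a) := by
    have : ℓ - a ≤ Real.sqrt ((ℓ - a) ^ 2 + b ^ 2) :=
      Real.le_sqrt_of_sq_le (by nlinarith [sq_nonneg b])
    linarith
  have hδ0 : 0 ≤ δ := le_min h1 h2
  have h3 := three_point_length hQ hp hq hz (L1 := a) (L2 := ℓ - a) (δ := δ) ha0 (by linarith) hδ0
    (by rw [hpq]; linarith)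
    (by rw [hzp]; have := min_le_left (Real.sqrt (a ^ 2 + b ^ 2) - a)
          (Real.sqrt ((ℓ - a) ^ 2 + b ^ 2) - (ℓ - a)); linarith)
    (by rw [hzq]; have := min_le_right (Real.sqrt (a ^ 2 + b ^ 2) - a)
          (Real.sqrt ((ℓ - a) ^ 2 + b ^ 2) - (ℓ - a)); linarith)
  have h4 : a + (ℓ - a) + δ ≤ ℓ + E := by
    have := h3.trans hlen
    rwa [ENNReal.ofReal_le_ofReal_iff (by linarith)] at this
  have hδE : δ ≤ E := by linarith
  rcases min_le_iff.1 hδE with h | h
  · have h5 : Real.sqrt (a ^ 2 + b ^ 2) ≤ a + E := by linarith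
    have h6 : a ^ 2 + b ^ 2 ≤ (a + E) ^ 2 := by
      rw [← Real.sqrt_le_left (by positivity)]; exact h5
    nlinarith
  · have h5 : Real.sqrt ((ℓ - a) ^ 2 + b ^ 2) ≤ (ℓ - a) + E := by linarith
    have h6 : (ℓ - a) ^ 2 + b ^ 2 ≤ ((ℓ - a) + E) ^ 2 := by
      rw [← Real.sqrt_le_left (by linarith)]; exact h5
    nlinarith

/-- **Length excess controls flatness, line case** (step (E) of the blueprint). -/
theorem exc_line_geo {K Q : Set E2} {y p q : E2} {s E c0 : ℝ} (hs : 0 < s) (hE : 0 ≤ E)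
    (hEs : E ≤ s / 100) (hc0 : 0 < c0) (hEc : E ≤ c0 * s / 16)
    (hps : dist p y = s) (hqs : dist q y = s)
    (hQ : IsPreconnected Q) (hQK : Q ⊆ K ∩ closedBall y s) (hp : p ∈ Q) (hq : q ∈ Q)
    (hlow : ENNReal.ofReal (2 * s) ≤ len (K ∩ closedBall y s))
    (hup : len (K ∩ closedBall y s) ≤ ENNReal.ofReal (dist p q + E))
    (hdens : ∀ z ∈ K, ∀ t, 0 < t → dist z y ≤ s / 2 → t ≤ s / 4 →
      ENNReal.ofReal (c0 * t) ≤ len (K ∩ ball z t)) :
    ∃ e, Arc.Flat K y e (s / 2) (4 * Real.sqrt (s * E) + 2 * E / c0) := by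
  set ℓ := dist p q with hℓ
  have hℓ1 : 2 * s ≤ ℓ + E := by
    have := hlow.trans hup
    rwa [ENNReal.ofReal_le_ofReal_iff (by positivity)] at this
  have hℓ2 : ℓ ≤ 2 * s := by
    have := dist_triangle p y q
    rw [dist_comm y q] at this
    linarith
  have hℓ0 : 0 < ℓ := by linarith
  set e : E2 := (1 / ℓ) • (q - p) with he'
  have he : ‖e‖ = 1 := by
    rw [he', norm_smul, ← dist_eq_norm, dist_comm, ← hℓ, Real.norm_eq_abs, abs_of_pos (by positivity)]
    field_simp
  have hqe : p + ℓ • e = q := by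
    rw [he', smul_smul, mul_one_div_cancel hℓ0.ne', one_smul]; abel
  have hqQ : p + ℓ • e ∈ Q := hqe ▸ hq
  have hlenQ : len Q ≤ ENNReal.ofReal (ℓ + E) := (measure_mono hQK).trans hup
  set S := Real.sqrt (s * E) with hS
  have hS0 : 0 ≤ S := Real.sqrt_nonneg _
  have hS2 : S ^ 2 = s * E := Real.sq_sqrt (by positivity)
  have hS10 : S ≤ s / 10 := by
    rw [hS]; apply Real.sqrt_le_iff.2; constructor
    · positivity
    · nlinarith
  -- the centre in the frame based at `p`
  set α := (inner ℝ (y - p) e : ℝ) with hα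
  set β := (inner ℝ (y - p) (Arc.J e) : ℝ) with hβ
  have hyfr : y - p = α • e + β • Arc.J e := Arc.frame_eq he (y - p)
  have hy1 : α ^ 2 + β ^ 2 = s ^ 2 := by
    rw [← Arc.norm_sq_frame he, ← hyfr, ← dist_eq_norm, dist_comm, hps]
  have hy2 : (α - ℓ) ^ 2 + β ^ 2 = s ^ 2 := by
    have : y - q = (α - ℓ) • e + β • Arc.J e := by
      rw [← hqe]
      have : y - (p + ℓ • e) = (y - p) - ℓ • e := by abel
      rw [this, hyfr]; module
    rw [← Arc.norm_sq_frame he, ← this, ← dist_eq_norm, dist_comm, hqs]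
  have hαℓ : α = ℓ / 2 := by
    have : ℓ * (2 * α - ℓ) = 0 := by nlinarith
    rcases mul_eq_zero.1 this with h | h
    · exact absurd h hℓ0.ne'
    · linarith
  have hβS : |β| ≤ S := by
    have h3 : β ^ 2 ≤ S ^ 2 := by
      rw [hS2]
      rw [hαℓ] at hy1
      nlinarith
    exact abs_le_of_sq_le_sq h3 hS0
  -- height bound for points of `Q`
  have hheight : ∀ z ∈ Q, 0 ≤ (inner ℝ (z - p) e : ℝ) → (inner ℝ (z - p) e : ℝ) ≤ ℓ →
      |(inner ℝ (z - p) (Arc.J e) : ℝ)| ≤ 21 / 10 * S := by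
    intro z hz h0 h1
    have h2 := height_sq_le hQ he hE hp hqQ hz h0 h1 hlenQ
    have h3 : (inner ℝ (z - p) (Arc.J e) : ℝ) ^ 2 ≤ (21 / 10 * S) ^ 2 := by
      rw [mul_pow, hS2]
      nlinarith
    exact abs_le_of_sq_le_sq h3 (by positivity)
  have hyz : ∀ z : E2, (inner ℝ (z - p) e : ℝ) = inner ℝ (z - y) e + ℓ / 2 := by
    intro z
    rw [← hαℓ, hα, ← inner_add_left]; congr 1; abel
  have hyzJ : ∀ z : E2, (inner ℝ (z - y) (Arc.J e) : ℝ) = inner ℝ (z - p) (Arc.J e) - β := by
    intro z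
    rw [hβ, ← inner_sub_left]; congr 1; abel
  have hinn : ∀ z : E2, |(inner ℝ (z - y) e : ℝ)| ≤ dist z y := by
    intro z
    have := abs_real_inner_le_norm (z - y) e
    rwa [he, mul_one, ← dist_eq_norm] at this
  refine ⟨e, he, ?_, ?_⟩
  · -- all points of `K` are near `Q`
    intro z hz hzy
    have hnear : ∀ t, 0 < t → t ≤ s / 4 → E < c0 * t → ∃ z' ∈ Q, dist z' z < t := by
      intro t ht hts hEt
      by_contra hcon
      push Not at hcon
      have h1 := hdens z hz t ht hzy hts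
      have h2 : len (K ∩ ball z t) + len Q ≤ len (K ∩ closedBall y s) := by
        have h3 : K ∩ ball z t ⊆ (K ∩ closedBall y s) ∩ ball z t := by
          rintro w ⟨hw, hwt⟩
          refine ⟨⟨hw, ?_⟩, hwt⟩
          rw [mem_ball] at hwt
          rw [mem_closedBall]
          have := dist_triangle w z y
          linarith
        have h4 : Q ⊆ (K ∩ closedBall y s) \ ball z t := by
          intro w hw
          refine ⟨hQK hw, ?_⟩
          rw [mem_ball, not_lt]
          exact hcon w hw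
        calc len (K ∩ ball z t) + len Q
            ≤ len ((K ∩ closedBall y s) ∩ ball z t) + len ((K ∩ closedBall y s) \ ball z t) :=
              add_le_add (measure_mono h3) (measure_mono h4)
          _ = len (K ∩ closedBall y s) := measure_inter_add_sdiff _ measurableSet_ball
      have h5 : ENNReal.ofReal ℓ ≤ len Q := dist_le_hausdorff_of_isPreconnected Q hQ hp hq
      have h6 : ENNReal.ofReal (c0 * t + ℓ) ≤ ENNReal.ofReal (ℓ + E) := by
        rw [ENNReal.ofReal_add (by positivity) hℓ0.le]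
        exact ((add_le_add h1 h5).trans h2).trans hup
      rw [ENNReal.ofReal_le_ofReal_iff (by positivity)] at h6
      linarith
    have hfin : |(inner ℝ (z - y) (Arc.J e) : ℝ)| ≤ 31 / 10 * S + E / c0 := by
      apply le_of_forall_pos_le_add
      intro ε hε
      have hmin : 0 < min ε (s / 8) := lt_min hε (by positivity)
      have hEc' : E / c0 ≤ s / 16 := by
        rw [div_le_iff₀ hc0]; linarith
      obtain ⟨z', hz', hd⟩ := hnear (E / c0 + min ε (s / 8)) (by positivity)
        (by have := min_le_right ε (s / 8); linarith)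
        (by
          rw [mul_add, mul_div_cancel₀ _ hc0.ne']
          have : 0 < c0 * min ε (s / 8) := by positivity
          linarith)
      have hz'y : dist z' y ≤ 3 / 4 * s := by
        have h1 := dist_triangle z' z y
        have := min_le_right ε (s / 8)
        linarith
      have h1 := abs_le.1 ((hinn z').trans hz'y)
      have h2 := hheight z' hz' (by rw [hyz]; linarith [h1.1]) (by rw [hyz]; linarith [h1.2])
      have h3 : (inner ℝ (z - y) (Arc.J e) : ℝ)
          = (inner ℝ (z' - p) (Arc.J e) - β) + inner ℝ (z - z') (Arc.J e) := by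
        rw [← hyzJ, ← inner_add_left]; congr 1; abel
      have h4 : |(inner ℝ (z - z') (Arc.J e) : ℝ)| ≤ dist z z' := by
        have := abs_real_inner_le_norm (z - z') (Arc.J e)
        rwa [Arc.norm_J, he, mul_one, ← dist_eq_norm] at this
      rw [h3]
      have h5 := abs_add_le ((inner ℝ (z' - p) (Arc.J e) : ℝ) - β) (inner ℝ (z - z') (Arc.J e))
      have h6 := abs_sub (inner ℝ (z' - p) (Arc.J e) : ℝ) β
      rw [dist_comm] at hd
      have := min_le_left ε (s / 8)
      linarith
    have h7 : E / c0 ≤ 2 * E / c0 := by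
      rw [mul_div_assoc]
      have : 0 ≤ E / c0 := by positivity
      linarith
    linarith
  · intro t ht
    -- intermediate value on `Q`
    have hcont : Continuous (fun z : E2 => (inner ℝ (z - y) e : ℝ)) := by fun_prop
    have himg : IsPreconnected ((fun z : E2 => (inner ℝ (z - y) e : ℝ)) '' Q) :=
      hQ.image _ hcont.continuousOn
    have hpv : (inner ℝ (p - y) e : ℝ) = -(ℓ / 2) := by
      have := hyz p
      rw [sub_self, inner_zero_left] at this
      linarith
    have hqv : (inner ℝ (q - y) e : ℝ) = ℓ / 2 := by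
      have := hyz q
      rw [← hqe, add_sub_cancel_left, inner_smul_left, real_inner_self_eq_norm_sq, he] at this
      rw [← hqe]
      simp at this
      linarith
    have ht' := abs_le.1 ht
    have hmem : t ∈ Icc (inner ℝ (p - y) e : ℝ) (inner ℝ (q - y) e) := by
      rw [hpv, hqv]; constructor <;> linarith [ht'.1, ht'.2]
    obtain ⟨z, hzQ, hzt⟩ := himg.ordConnected.out ⟨p, hp, rfl⟩ ⟨q, hq, rfl⟩ hmem
    simp only at hzt
    refine ⟨z, (hQK hzQ).1, ?_⟩
    have h1 := hheight z hzQ (by rw [hyz, hzt]; linarith [ht'.1]) (by rw [hyz, hzt]; linarith [ht'.2])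
    have h2 : dist z (y + t • e) = |(inner ℝ (z - y) (Arc.J e) : ℝ)| := by
      have h3 := Arc.frame_eq he (z - y)
      rw [hzt] at h3
      have h4 : z - (y + t • e) = (0:ℝ) • e + (inner ℝ (z - y) (Arc.J e) : ℝ) • Arc.J e := by
        have : z - (y + t • e) = (z - y) - t • e := by abel
        rw [this]
        nth_rewrite 1 [h3]
        module
      rw [dist_eq_norm, h4, ← Real.sqrt_sq (norm_nonneg _), Arc.norm_sq_frame he]
      simp [Real.sqrt_sq_eq_abs]
    rw [h2, hyzJ]
    calc |(inner ℝ (z - p) (Arc.J e) : ℝ) - β| ≤ |(inner ℝ (z - p) (Arc.J e) : ℝ)| + |β| :=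
          abs_sub _ _
      _ ≤ 21 / 10 * S + S := add_le_add h1 hβS
      _ ≤ 4 * S + 2 * E / c0 := by
          have : 0 ≤ 2 * E / c0 := by positivity
          linarith

end Crest.Agent.R135
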