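import Mathlib
import Crest.Agent.R135.Core

/-!
# R135, block EPS (helper983): geometry of lines and propellers, closeness between scales
-/

set_option autoImplicit false

open Set Filter Topology Metric

namespace Crest.Agent.R135

/-- straight line through `x` with direction `dir θ` -/
def lineAt (x : E2) (θ : ℝ) : Set E2 := ray x (dir θ) ∪ ray x (-dir θ)

/-- propeller with centre `x` -/
def propAt (x : E2) (θ : ℝ) : Set E2 :=
  ray x (dir θ) ∪ ray x (dir (θ + 2 * Real.pi / 3)) ∪ ray x (dir (θ - 2 * Real.pi / 3))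

/-- lines and propellers -/
def IsModel (Y : Set E2) : Prop := (∃ x θ, Y = lineAt x θ) ∨ ∃ x θ, Y = propAt x θ

lemma isProp_iff {K : Set E2} {x : E2} : IsProp K x ↔ ∃ θ, K = propAt x θ := Iff.rfl

lemma mem_ray {x e y : E2} : y ∈ ray x e ↔ ∃ s : ℝ, 0 ≤ s ∧ y = x + s • e := Iff.rfl

lemma add_mem_ray (x e : E2) {s : ℝ} (hs : 0 ≤ s) : x + s • e ∈ ray x e := ⟨s, hs, rfl⟩

lemma self_mem_ray (x e : E2) : x ∈ ray x e := ⟨0, le_rfl, by simp⟩

lemma self_mem_lineAt (x : E2) (θ : ℝ) : x ∈ lineAt x θ := Or.inl (self_mem_ray _ _)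

lemma self_mem_propAt (x : E2) (θ : ℝ) : x ∈ propAt x θ := Or.inl (Or.inl (self_mem_ray _ _))

lemma mem_lineAt {x y : E2} {θ : ℝ} : y ∈ lineAt x θ ↔ ∃ s : ℝ, y = x + s • dir θ := by
  constructor
  · rintro (⟨s, hs, rfl⟩ | ⟨s, hs, rfl⟩)
    · exact ⟨s, rfl⟩
    · exact ⟨-s, by simp⟩
  · rintro ⟨s, rfl⟩
    rcases le_total 0 s with h | h
    · exact Or.inl ⟨s, h, rfl⟩
    · exact Or.inr ⟨-s, by linarith, by simp⟩

/-- the three directions of a propeller -/
noncomputable def arm (θ : ℝ) (k : Fin 3) : ℝ :=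
  θ + (k : ℕ) * (2 * Real.pi / 3)

lemma dir_sub_two_thirds (θ : ℝ) : dir (θ - 2 * Real.pi / 3) = dir (arm θ 2) := by
  have : arm θ 2 = (θ - 2 * Real.pi / 3) + 2 * Real.pi := by
    simp only [arm]; norm_num; ring
  rw [this]
  apply ext_E2 <;> simp

lemma mem_propAt {x y : E2} {θ : ℝ} :
    y ∈ propAt x θ ↔ ∃ k : Fin 3, ∃ s : ℝ, 0 ≤ s ∧ y = x + s • dir (arm θ k) := by
  rw [propAt, dir_sub_two_thirds]
  have h0 : arm θ 0 = θ := by simp [arm]
  have h1 : arm θ 1 = θ + 2 * Real.pi / 3 := by simp only [arm]; norm_num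
  constructor
  · rintro ((⟨s, hs, rfl⟩ | ⟨s, hs, rfl⟩) | ⟨s, hs, rfl⟩)
    · exact ⟨0, s, hs, by rw [h0]⟩
    · exact ⟨1, s, hs, by rw [h1]⟩
    · exact ⟨2, s, hs, rfl⟩
  · rintro ⟨k, s, hs, rfl⟩
    fin_cases k
    · left; left; exact ⟨s, hs, by simp [h0]⟩
    · left; right; exact ⟨s, hs, by simp [h1]⟩
    · right; exact ⟨s, hs, rfl⟩

lemma cos_two_pi_div_three : Real.cos (2 * Real.pi / 3) = -1 / 2 := by
  have : (2 * Real.pi / 3) = Real.pi - Real.pi / 3 := by ring
  rw [this, Real.cos_pi_sub, Real.cos_pi_div_three]; norm_num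

lemma sin_two_pi_div_three : Real.sin (2 * Real.pi / 3) = Real.sqrt 3 / 2 := by
  have : (2 * Real.pi / 3) = Real.pi - Real.pi / 3 := by ring
  rw [this, Real.sin_pi_sub, Real.sin_pi_div_three]

lemma cos_four_pi_div_three : Real.cos (4 * Real.pi / 3) = -1 / 2 := by
  have : (4 * Real.pi / 3) = Real.pi / 3 + Real.pi := by ring
  rw [this, Real.cos_add_pi, Real.cos_pi_div_three]; norm_num

lemma sin_four_pi_div_three : Real.sin (4 * Real.pi / 3) = -(Real.sqrt 3 / 2) := by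
  have : (4 * Real.pi / 3) = Real.pi / 3 + Real.pi := by ring
  rw [this, Real.sin_add_pi, Real.sin_pi_div_three]

/-- inner product of two different arms -/
lemma inner_arm (θ : ℝ) {j k : Fin 3} (h : j ≠ k) :
    inner ℝ (dir (arm θ j)) (dir (arm θ k)) = -1 / 2 := by
  rw [inner_dir_dir]
  have e : ∀ a b : ℝ, arm θ j - arm θ k = (j : ℕ) * (2 * Real.pi / 3) - (k : ℕ) * (2 * Real.pi / 3) := by
    intro _ _; simp [arm]
  rw [e 0 0]
  fin_cases j <;> fin_cases k <;> simp at h ⊢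
  · rw [← cos_two_pi_div_three]
  · rw [show 2 * (2 * Real.pi / 3) = 4 * Real.pi / 3 by ring, cos_four_pi_div_three]
  · exact cos_two_pi_div_three
  · rw [show 2 * Real.pi / 3 - 2 * (2 * Real.pi / 3) = -(2 * Real.pi / 3) by ring, Real.cos_neg,
      cos_two_pi_div_three]
  · rw [show 2 * (2 * Real.pi / 3) = 4 * Real.pi / 3 by ring, cos_four_pi_div_three]
  · rw [show 2 * (2 * Real.pi / 3) - 2 * Real.pi / 3 = (2 * Real.pi / 3) by ring,
      cos_two_pi_div_three]

/-- among the three arms, one has a component of size `≥ 1/√2` along any unit vector -/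
lemma exists_arm_inner_sq_ge (θ φ : ℝ) :
    ∃ k : Fin 3, 1 / 2 ≤ (inner ℝ (dir (arm θ k)) (tau φ)) ^ 2 := by
  have h0 : arm θ 0 = θ := by simp [arm]
  have h1 : arm θ 1 = θ + 2 * Real.pi / 3 := by simp only [arm]; norm_num
  have h2 : arm θ 2 = θ + 4 * Real.pi / 3 := by simp only [arm]; norm_num; ring
  by_contra hcon
  push Not at hcon
  have a0 := hcon 0
  have a1 := hcon 1
  have a2 := hcon 2
  rw [h0] at a0
  rw [h1] at a1
  rw [h2] at a2
  simp only [inner_E2, dir_zero, dir_one, tau_zero, tau_one] at a0 a1 a2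
  rw [Real.cos_add, Real.sin_add, cos_two_pi_div_three, sin_two_pi_div_three] at a1
  rw [Real.cos_add, Real.sin_add, cos_four_pi_div_three, sin_four_pi_div_three] at a2
  have s3 : Real.sqrt 3 ^ 2 = 3 := Real.sq_sqrt (by norm_num)
  have p1 := Real.sin_sq_add_cos_sq θ
  have p2 := Real.sin_sq_add_cos_sq φ
  set c := Real.cos θ
  set s := Real.sin θ
  set C := Real.cos φ
  set S := Real.sin φ
  set q := Real.sqrt 3
  have key : (c * -S + s * C) ^ 2
      + ((c * (-1 / 2) - s * (q / 2)) * -S + (s * (-1 / 2) + c * (q / 2)) * C) ^ 2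
      + ((c * (-1 / 2) - s * (-(q / 2))) * -S + (s * (-1 / 2) + c * (-(q / 2))) * C) ^ 2 = 3 / 2 := by
    have : (c * -S + s * C) ^ 2
      + ((c * (-1 / 2) - s * (q / 2)) * -S + (s * (-1 / 2) + c * (q / 2)) * C) ^ 2
      + ((c * (-1 / 2) - s * (-(q / 2))) * -S + (s * (-1 / 2) + c * (-(q / 2))) * C) ^ 2
      = 3 / 2 * (c * S - s * C) ^ 2 + q ^ 2 / 2 * (s * S + c * C) ^ 2 := by ring
    rw [this, s3]
    have : 3 / 2 * (c * S - s * C) ^ 2 + 3 / 2 * (s * S + c * C) ^ 2
      = 3 / 2 * ((s ^ 2 + c ^ 2) * (S ^ 2 + C ^ 2)) := by ring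
    rw [this, p1, p2]; norm_num
  linarith

/-- squared distance between two arm points -/
lemma dist_sq_arm (x : E2) (θ : ℝ) {j k : Fin 3} (h : j ≠ k) (s t : ℝ) :
    dist (x + s • dir (arm θ j)) (x + t • dir (arm θ k)) ^ 2 = s ^ 2 + t ^ 2 + s * t := by
  rw [dist_eq_norm, add_sub_add_left_eq_sub, @norm_sub_sq ℝ]
  rw [norm_smul, norm_smul, norm_dir, norm_dir, inner_smul_left, inner_smul_right, inner_arm θ h]
  simp
  ring

lemma dist_arm_same (x : E2) (φ : ℝ) (s t : ℝ) :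
    dist (x + s • dir φ) (x + t • dir φ) = |s - t| := by
  rw [dist_eq_norm, add_sub_add_left_eq_sub, ← sub_smul, norm_smul, norm_dir, mul_one,
    Real.norm_eq_abs]

/-- distance of a point of another arm, or of the opposite ray, to an arm point -/
lemma le_dist_arm (x : E2) (θ : ℝ) {j k : Fin 3} (h : j ≠ k) {s t : ℝ} (hs : 0 ≤ s) (ht : 0 ≤ t) :
    s ≤ dist (x + s • dir (arm θ j)) (x + t • dir (arm θ k)) := by
  have h1 := dist_sq_arm x θ h s t
  have h2 := dist_nonneg (x := x + s • dir (arm θ j)) (y := x + t • dir (arm θ k))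
  nlinarith [mul_nonneg hs ht, sq_nonneg t]

/-! ### Midpoint property of the model sets -/

lemma midpoint_line {x a b : E2} {θ : ℝ} (ha : a ∈ lineAt x θ) (hb : b ∈ lineAt x θ) :
    ∃ m ∈ lineAt x θ, dist a m ≤ 29 / 50 * dist a b ∧ dist m b ≤ 29 / 50 * dist a b := by
  rw [mem_lineAt] at ha hb
  obtain ⟨s, rfl⟩ := ha
  obtain ⟨t, rfl⟩ := hb
  refine ⟨x + ((s + t) / 2) • dir θ, mem_lineAt.2 ⟨_, rfl⟩, ?_, ?_⟩
  · rw [dist_arm_same, dist_arm_same, show s - (s + t) / 2 = (s - t) / 2 by ring, abs_div, abs_two]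
    have := abs_nonneg (s - t)
    linarith
  · rw [dist_arm_same, dist_arm_same, show (s + t) / 2 - t = (s - t) / 2 by ring, abs_div, abs_two]
    have := abs_nonneg (s - t)
    linarith

lemma midpoint_prop_aux (x : E2) (θ : ℝ) {j k : Fin 3} (h : j ≠ k) {s t : ℝ} (ht : 0 ≤ t)
    (hst : t ≤ s) :
    ∃ m ∈ propAt x θ, dist (x + s • dir (arm θ j)) m ≤
        29 / 50 * dist (x + s • dir (arm θ j)) (x + t • dir (arm θ k)) ∧
      dist m (x + t • dir (arm θ k)) ≤
        29 / 50 * dist (x + s • dir (arm θ j)) (x + t • dir (arm θ k)) := by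
  have h1 := dist_sq_arm x θ h s t
  set d := dist (x + s • dir (arm θ j)) (x + t • dir (arm θ k)) with hd
  have hd0 : 0 ≤ d := dist_nonneg
  have hkey : (s + t) / 2 ≤ 29 / 50 * d := by
    have h3 : ((s + t) / 2) ^ 2 ≤ (29 / 50 * d) ^ 2 := by
      rw [mul_pow, h1]; nlinarith [sq_nonneg (s - t), mul_nonneg ht (ht.trans hst)]
    exact (abs_le_of_sq_le_sq' h3 (by positivity)).2
  refine ⟨x + ((s - t) / 2) • dir (arm θ j), mem_propAt.2 ⟨j, _, by linarith, rfl⟩, ?_, ?_⟩
  · rw [dist_arm_same, show s - (s - t) / 2 = (s + t) / 2 by ring, abs_of_nonneg (by linarith)]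
    exact hkey
  · have h2 := dist_sq_arm x θ h ((s - t) / 2) t
    have h4 : dist (x + ((s - t) / 2) • dir (arm θ j)) (x + t • dir (arm θ k)) ≤ (s + t) / 2 := by
      apply abs_le_of_sq_le_sq' _ (by linarith) |>.2
      rw [h2]; nlinarith [mul_nonneg ht (sub_nonneg.2 hst)]
    exact h4.trans hkey

lemma midpoint_prop {x a b : E2} {θ : ℝ} (ha : a ∈ propAt x θ) (hb : b ∈ propAt x θ) :
    ∃ m ∈ propAt x θ, dist a m ≤ 29 / 50 * dist a b ∧ dist m b ≤ 29 / 50 * dist a b := by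
  rw [mem_propAt] at ha hb
  obtain ⟨j, s, hs, rfl⟩ := ha
  obtain ⟨k, t, ht, rfl⟩ := hb
  by_cases hjk : j = k
  · subst hjk
    refine ⟨x + ((s + t) / 2) • dir (arm θ j), mem_propAt.2 ⟨j, _, by linarith, rfl⟩, ?_, ?_⟩
    · rw [dist_arm_same, dist_arm_same, show s - (s + t) / 2 = (s - t) / 2 by ring, abs_div, abs_two]
      have := abs_nonneg (s - t)
      linarith
    · rw [dist_arm_same, dist_arm_same, show (s + t) / 2 - t = (s - t) / 2 by ring, abs_div, abs_two]
      have := abs_nonneg (s - t)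
      linarith
  · rcases le_total t s with hts | hts
    · exact midpoint_prop_aux x θ hjk ht hts
    · obtain ⟨m, hm, h1, h2⟩ := midpoint_prop_aux x θ (Ne.symm hjk) hs hts
      refine ⟨m, hm, ?_, ?_⟩
      · rw [dist_comm _ m, dist_comm (x + s • dir (arm θ j))]; exact h2
      · rw [dist_comm m, dist_comm (x + s • dir (arm θ j))]; exact h1

/-- midpoint property of a line or a propeller -/
theorem IsModel.midpoint {Y : Set E2} (hY : IsModel Y) {a b : E2} (ha : a ∈ Y) (hb : b ∈ Y) :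
    ∃ m ∈ Y, dist a m ≤ 29 / 50 * dist a b ∧ dist m b ≤ 29 / 50 * dist a b := by
  rcases hY with ⟨x, θ, rfl⟩ | ⟨x, θ, rfl⟩
  · exact midpoint_line ha hb
  · exact midpoint_prop ha hb

/-! ### Basic properties of `HClose` -/

lemma HClose.mono_eps {ε ε' : ℝ} {x : E2} {R : ℝ} {K K' : Set E2} (h : HClose ε x R K K')
    (hε : ε ≤ ε') : HClose ε' x R K K' :=
  ⟨fun y hy => let ⟨z, hz, hd⟩ := h.1 y hy; ⟨z, hz, hd.trans_le hε⟩,
    fun y hy => let ⟨z, hz, hd⟩ := h.2 y hy; ⟨z, hz, hd.trans_le hε⟩⟩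

lemma HClose.mono_ball {ε : ℝ} {x x' : E2} {R R' : ℝ} {K K' : Set E2} (h : HClose ε x R K K')
    (hb : ball x' R' ⊆ ball x R) : HClose ε x' R' K K' :=
  ⟨fun y hy => h.1 y ⟨hy.1, hb hy.2⟩, fun y hy => h.2 y ⟨hy.1, hb hy.2⟩⟩

lemma HClose.mono_ball' {ε ε' : ℝ} {x x' : E2} {R R' : ℝ} {K K' : Set E2} (h : HClose ε x R K K')
    (hε : ε ≤ ε') (hb : dist x' x + R' ≤ R) : HClose ε' x' R' K K' := by
  apply (h.mono_eps hε).mono_ball
  intro z hz
  rw [mem_ball] at hz ⊢
  have := dist_triangle z x' x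
  linarith

lemma HClose.swap {ε : ℝ} {x : E2} {R : ℝ} {K K' : Set E2} (h : HClose ε x R K K') :
    HClose ε x R K' K := ⟨h.2, h.1⟩

/-- transitivity with loss of radius -/
lemma HClose.trans {ε ε' : ℝ} {x : E2} {R : ℝ} {Y K Y' : Set E2} (h : HClose ε x R Y K)
    (h' : HClose ε' x R K Y') (hε : 0 ≤ ε) (_hε' : 0 ≤ ε') :
    HClose (ε + ε') x (R - max ε ε') Y Y' := by
  have m1 := le_max_left ε ε'
  have m2 := le_max_right ε ε'
  constructor
  · rintro y ⟨hy, hyb⟩
    rw [mem_ball] at hyb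
    obtain ⟨z, hz, hd⟩ := h.1 y ⟨hy, by rw [mem_ball]; linarith⟩
    obtain ⟨w, hw, hd'⟩ := h'.1 z ⟨hz, by
      rw [mem_ball]
      have h1 := dist_triangle z y x
      rw [dist_comm z y] at h1
      linarith⟩
    exact ⟨w, hw, by have := dist_triangle y z w; linarith⟩
  · rintro y ⟨hy, hyb⟩
    rw [mem_ball] at hyb
    obtain ⟨z, hz, hd⟩ := h'.2 y ⟨hy, by rw [mem_ball]; linarith⟩
    obtain ⟨w, hw, hd'⟩ := h.2 z ⟨hz, by
      rw [mem_ball]
      have h1 := dist_triangle z y x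
      rw [dist_comm z y] at h1
      linarith⟩
    exact ⟨w, hw, by have := dist_triangle y z w; linarith⟩

/-- moving the base point of a line -/
lemma lineAt_translate {x x' y : E2} {θ : ℝ} (hy : y ∈ lineAt x θ) :
    ∃ z ∈ lineAt x' θ, dist y z ≤ dist x x' := by
  rw [mem_lineAt] at hy
  obtain ⟨s, rfl⟩ := hy
  exact ⟨x' + s • dir θ, mem_lineAt.2 ⟨s, rfl⟩, by rw [dist_add_right]⟩

lemma propAt_translate {x x' y : E2} {θ : ℝ} (hy : y ∈ propAt x θ) :
    ∃ z ∈ propAt x' θ, dist y z ≤ dist x x' := by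
  rw [mem_propAt] at hy
  obtain ⟨k, s, hs, rfl⟩ := hy
  exact ⟨x' + s • dir (arm θ k), mem_propAt.2 ⟨k, s, hs, rfl⟩, by rw [dist_add_right]⟩

/-- the line `lineAt x θ` is unchanged when the base point moves along it -/
lemma lineAt_eq_of_mem {x y : E2} {θ : ℝ} (hy : y ∈ lineAt x θ) : lineAt y θ = lineAt x θ := by
  rw [mem_lineAt] at hy
  obtain ⟨s, rfl⟩ := hy
  ext z
  rw [mem_lineAt, mem_lineAt]
  constructor
  · rintro ⟨t, rfl⟩; exact ⟨s + t, by module⟩
  · rintro ⟨t, rfl⟩; exact ⟨t - s, by module⟩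

/-- moving the centre of the model set in a closeness statement -/
lemma HClose.line_move {ε : ℝ} {y x x' : E2} {R : ℝ} {K : Set E2} {θ : ℝ}
    (h : HClose ε y R K (lineAt x θ)) {t : ℝ} (ht : dist x x' ≤ t) :
    HClose (ε + t) y (R - t) K (lineAt x' θ) := by
  have ht0 : 0 ≤ t := dist_nonneg.trans ht
  constructor
  · rintro z ⟨hz, hzb⟩
    rw [mem_ball] at hzb
    obtain ⟨w, hw, hd⟩ := h.1 z ⟨hz, by rw [mem_ball]; linarith⟩
    obtain ⟨w', hw', hd'⟩ := lineAt_translate (x' := x') hw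
    exact ⟨w', hw', by have := dist_triangle z w w'; linarith⟩
  · rintro z ⟨hz, hzb⟩
    rw [mem_ball] at hzb
    obtain ⟨w, hw, hd⟩ := lineAt_translate (x' := x) hz
    obtain ⟨w', hw', hd'⟩ := h.2 w ⟨hw, by
      rw [mem_ball]
      have := dist_triangle w z y
      rw [dist_comm w z] at this
      rw [dist_comm x' x] at hd
      linarith⟩
    rw [dist_comm x' x] at hd
    exact ⟨w', hw', by have := dist_triangle z w w'; linarith⟩

lemma HClose.prop_move {ε : ℝ} {y x x' : E2} {R : ℝ} {K : Set E2} {θ : ℝ}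
    (h : HClose ε y R K (propAt x θ)) {t : ℝ} (ht : dist x x' ≤ t) :
    HClose (ε + t) y (R - t) K (propAt x' θ) := by
  have ht0 : 0 ≤ t := dist_nonneg.trans ht
  constructor
  · rintro z ⟨hz, hzb⟩
    rw [mem_ball] at hzb
    obtain ⟨w, hw, hd⟩ := h.1 z ⟨hz, by rw [mem_ball]; linarith⟩
    obtain ⟨w', hw', hd'⟩ := propAt_translate (x' := x') hw
    exact ⟨w', hw', by have := dist_triangle z w w'; linarith⟩
  · rintro z ⟨hz, hzb⟩
    rw [mem_ball] at hzb
    obtain ⟨w, hw, hd⟩ := propAt_translate (x' := x) hz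
    obtain ⟨w', hw', hd'⟩ := h.2 w ⟨hw, by
      rw [mem_ball]
      have := dist_triangle w z y
      rw [dist_comm w z] at this
      rw [dist_comm x' x] at hd
      linarith⟩
    rw [dist_comm x' x] at hd
    exact ⟨w', hw', by have := dist_triangle z w w'; linarith⟩

/-! ### A propeller is not close to a line -/

lemma inner_tau_of_mem_lineAt {p z : E2} {φ : ℝ} (hz : z ∈ lineAt p φ) :
    inner ℝ (z - p) (tau φ) = 0 := by
  rw [mem_lineAt] at hz
  obtain ⟨s, rfl⟩ := hz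
  rw [add_sub_cancel_left, inner_smul_left, inner_dir_tau]; simp

lemma abs_inner_tau_lt_of_near {p z z' : E2} {φ δ : ℝ} (hz' : z' ∈ lineAt p φ)
    (hd : dist z z' < δ) : |inner ℝ (z - p) (tau φ)| < δ := by
  have h1 : (inner ℝ (z - p) (tau φ) : ℝ) = inner ℝ (z - z') (tau φ) := by
    have : z - p = (z - z') + (z' - p) := by abel
    rw [this, inner_add_left, inner_tau_of_mem_lineAt hz', add_zero]
  rw [h1]
  calc |(inner ℝ (z - z') (tau φ) : ℝ)| ≤ ‖z - z'‖ * ‖tau φ‖ := abs_real_inner_le_norm _ _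
    _ = dist z z' := by rw [norm_tau, mul_one, dist_eq_norm]
    _ < δ := hd

/-- If the centre `c` and the three points at distance `s` on the arms are `δ`-close to a line,
then `s < 3 δ`. -/
theorem not_propAt_near_line {c p : E2} {θ φ s δ : ℝ}
    (hc : ∃ z' ∈ lineAt p φ, dist c z' < δ)
    (h : ∀ k : Fin 3, ∃ z' ∈ lineAt p φ, dist (c + s • dir (arm θ k)) z' < δ) : s < 3 * δ := by
  obtain ⟨k, hk⟩ := exists_arm_inner_sq_ge θ φ
  obtain ⟨z0, hz0, hd0⟩ := hc
  obtain ⟨z1, hz1, hd1⟩ := h k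
  have e0 := abs_inner_tau_lt_of_near hz0 hd0
  have e1 := abs_inner_tau_lt_of_near hz1 hd1
  have e2 : (inner ℝ (c + s • dir (arm θ k) - p) (tau φ) : ℝ)
      = inner ℝ (c - p) (tau φ) + s * inner ℝ (dir (arm θ k)) (tau φ) := by
    rw [show c + s • dir (arm θ k) - p = (c - p) + s • dir (arm θ k) by abel, inner_add_left,
      inner_smul_left]
    simp
  rw [e2] at e1
  set u := (inner ℝ (c - p) (tau φ) : ℝ)
  set w := (inner ℝ (dir (arm θ k)) (tau φ) : ℝ)
  have hδ : 0 < δ := (abs_nonneg _).trans_lt e0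
  have e3 : |s * w| < 2 * δ := by
    have : s * w = (u + s * w) - u := by ring
    rw [this]
    exact (abs_sub _ _).trans_lt (by linarith)
  by_contra hcon
  push Not at hcon
  have e4 : (s * w) ^ 2 < (2 * δ) ^ 2 := by
    rw [sq_lt_sq, abs_of_pos (by linarith : (0:ℝ) < 2 * δ)]; exact e3
  rw [mul_pow] at e4
  have e5 : (3 * δ) ^ 2 ≤ s ^ 2 := pow_le_pow_left₀ (by positivity) hcon 2
  nlinarith [sq_nonneg s, mul_le_mul e5 hk (by norm_num) (sq_nonneg s)]

/-- Far from its centre, and near one of its points, a propeller is a line. -/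
theorem propAt_far {c y q : E2} {θ δ t R' : ℝ} (hq : q ∈ propAt c θ) (hyq : dist y q ≤ δ)
    (hcy : t ≤ dist c y) (hR : R' ≤ t - 2 * δ) :
    ∃ φ, ∀ z ∈ ball y R', z ∈ propAt c θ ↔ z ∈ lineAt c φ := by
  rw [mem_propAt] at hq
  obtain ⟨i, s, hs, rfl⟩ := hq
  refine ⟨arm θ i, fun z hz => ?_⟩
  rw [mem_ball] at hz
  have hcq : dist c (c + s • dir (arm θ i)) = s := by
    rw [dist_self_add_right, norm_smul, norm_dir, mul_one, Real.norm_eq_abs, abs_of_nonneg hs]
  have hs' : t - δ ≤ s := by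
    have := dist_triangle c (c + s • dir (arm θ i)) y
    rw [dist_comm (c + s • dir (arm θ i)) y] at this
    linarith
  have hzq : dist z (c + s • dir (arm θ i)) < R' + δ := by
    have := dist_triangle z y (c + s • dir (arm θ i))
    linarith
  constructor
  · intro hzp
    rw [mem_propAt] at hzp
    obtain ⟨j, r, hr, rfl⟩ := hzp
    by_cases hij : i = j
    · subst hij; exact mem_lineAt.2 ⟨r, rfl⟩
    · exfalso
      have := le_dist_arm c θ hij hs hr
      rw [dist_comm] at this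
      linarith
  · intro hzl
    rw [mem_lineAt] at hzl
    obtain ⟨r, rfl⟩ := hzl
    rcases le_total 0 r with hr | hr
    · exact mem_propAt.2 ⟨i, r, hr, rfl⟩
    · exfalso
      rw [dist_arm_same, abs_sub_comm, abs_of_nonneg (by linarith)] at hzq
      linarith

/-- Two propellers close to each other in a ball around the centre of the first have close
centres. -/
theorem propAt_center_close {c c' y : E2} {θ θ' ρ s δ : ℝ} (hδ : 0 < δ) (hcs : dist c y + s ≤ ρ)
    (hs : 3 * δ < s)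
    (h : ∀ z ∈ propAt c θ ∩ ball y ρ, ∃ z' ∈ propAt c' θ', dist z z' < δ) :
    dist c c' ≤ 6 * δ := by
  by_contra hcon
  push Not at hcon
  have hcb : c ∈ ball y ρ := by rw [mem_ball]; linarith
  obtain ⟨q, hq, hcq⟩ := h c ⟨self_mem_propAt _ _, hcb⟩
  obtain ⟨φ, hφ⟩ := propAt_far (y := c) (t := dist c' c) (δ := δ) (R' := dist c' c - 2 * δ) hq
    hcq.le le_rfl le_rfl
  rw [dist_comm c' c] at hφ
  -- choose s'
  set s' := min ((s + 3 * δ) / 2) (dist c c' - 3 * δ) with hs'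
  have h1 : 3 * δ ≤ s' := by
    rw [hs', le_min_iff]; constructor <;> linarith
  have h2 : s' < s := (min_le_left _ _).trans_lt (by linarith)
  have h3 : s' + δ ≤ dist c c' - 2 * δ := by
    have := min_le_right ((s + 3 * δ) / 2) (dist c c' - 3 * δ)
    linarith
  have hs0 : 0 ≤ s' := by linarith
  have := not_propAt_near_line (c := c) (p := c') (θ := θ) (φ := φ) (s := s') (δ := δ)
    ⟨q, (hφ q (by rw [mem_ball, dist_comm]; linarith)).1 hq, hcq⟩ (by
      intro k
      obtain ⟨z', hz', hd⟩ := h (c + s' • dir (arm θ k)) ⟨mem_propAt.2 ⟨k, s', hs0, rfl⟩, by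
        rw [mem_ball]
        have e1 := dist_triangle (c + s' • dir (arm θ k)) c y
        have e2 : dist (c + s' • dir (arm θ k)) c = s' := by
          rw [dist_comm, dist_self_add_right, norm_smul, norm_dir, mul_one, Real.norm_eq_abs,
            abs_of_nonneg hs0]
        linarith⟩
      refine ⟨z', (hφ z' ?_).1 hz', hd⟩
      rw [mem_ball]
      have e1 := dist_triangle z' (c + s' • dir (arm θ k)) c
      have e2 : dist (c + s' • dir (arm θ k)) c = s' := by
        rw [dist_comm, dist_self_add_right, norm_smul, norm_dir, mul_one, Real.norm_eq_abs,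
          abs_of_nonneg hs0]
      rw [dist_comm z' (c + s' • dir (arm θ k))] at e1
      linarith)
  linarith

/-- midpoint property of a set close to a model at scale `2 |a - b|` -/
theorem HClose.midpoint {K Y : Set E2} (hY : IsModel Y) {a b : E2} (ha : a ∈ K) (hb : b ∈ K)
    (hab : 0 < dist a b) (h : HClose (dist a b / 50) a (2 * dist a b) K Y) :
    ∃ c ∈ K, dist a c ≤ 13 / 20 * dist a b ∧ dist c b ≤ 13 / 20 * dist a b := by
  set d := dist a b with hd
  obtain ⟨a', ha', hda⟩ := h.1 a ⟨ha, mem_ball_self (by linarith)⟩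
  obtain ⟨b', hb', hdb⟩ := h.1 b ⟨hb, by rw [mem_ball, dist_comm]; linarith⟩
  obtain ⟨m, hm, h1, h2⟩ := hY.midpoint ha' hb'
  have hab' : dist a' b' ≤ d + d / 50 + d / 50 := by
    have e1 := dist_triangle a' a b'
    have e2 := dist_triangle a b b'
    rw [dist_comm a' a] at e1
    linarith
  have ham : dist a m ≤ d / 50 + 29 / 50 * (d + d / 50 + d / 50) := by
    have e1 := dist_triangle a a' m
    linarith
  have hbm : dist m b ≤ d / 50 + 29 / 50 * (d + d / 50 + d / 50) := by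
    have e1 := dist_triangle m b' b
    rw [dist_comm b' b] at e1
    linarith
  obtain ⟨c, hc, hmc⟩ := h.2 m ⟨hm, by rw [mem_ball, dist_comm]; linarith⟩
  refine ⟨c, hc, ?_, ?_⟩
  · have e1 := dist_triangle a m c
    linarith
  · have e1 := dist_triangle c m b
    rw [dist_comm c m] at e1
    linarith

end Crest.Agent.R135
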