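import Mathlib
import Crest.Agent.R135.EpsGeo1
import Crest.Agent.R135.EpsConn

/-!
# R135, block EPS (helper983): the line / propeller dichotomy from flatness at all scales

If `K` is, at all points near `x0` and all small scales, very close to a line or a propeller, then
either all points near `x0` are line-like at all small scales, or `x0` is propeller-like at all small
scales and the points `y ≠ x0` are line-like at the scales `≤ dist y x0 / 40`.
-/

set_option autoImplicit false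

open Set Filter Topology Metric

namespace Crest.Agent.R135

/-- closeness to some model (line or propeller), relative precision `η` -/
def Fl (η : ℝ) (K : Set E2) (y : E2) (ρ : ℝ) : Prop := ∃ Y, IsModel Y ∧ HClose (η * ρ) y ρ K Y

/-- closeness to a propeller with centre at distance `≤ ρ / 4` -/
def Tr (η : ℝ) (K : Set E2) (y : E2) (ρ : ℝ) : Prop :=
  ∃ c θ, dist c y ≤ ρ / 4 ∧ HClose (η * ρ) y ρ K (propAt c θ)

/-- closeness to a line through `y` -/
def Ln (η : ℝ) (K : Set E2) (y : E2) (ρ : ℝ) : Prop := ∃ θ, HClose (η * ρ) y ρ K (lineAt y θ)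

/-- closeness to a propeller centred at `y` -/
def Pr (η : ℝ) (K : Set E2) (y : E2) (ρ : ℝ) : Prop := ∃ θ, HClose (η * ρ) y ρ K (propAt y θ)

lemma Fl.of_Ln {η : ℝ} {K : Set E2} {y : E2} {ρ : ℝ} (h : Ln η K y ρ) : Fl η K y ρ := by
  obtain ⟨θ, h⟩ := h
  exact ⟨_, Or.inl ⟨y, θ, rfl⟩, h⟩

lemma Fl.of_Pr {η : ℝ} {K : Set E2} {y : E2} {ρ : ℝ} (h : Pr η K y ρ) : Fl η K y ρ := by
  obtain ⟨θ, h⟩ := h
  exact ⟨_, Or.inr ⟨y, θ, rfl⟩, h⟩

lemma Fl.mono {η η' : ℝ} {K : Set E2} {y : E2} {ρ : ℝ} (h : Fl η K y ρ) (hη : η ≤ η')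
    (hρ : 0 ≤ ρ) : Fl η' K y ρ := by
  obtain ⟨Y, hY, h⟩ := h
  exact ⟨Y, hY, h.mono_eps (mul_le_mul_of_nonneg_right hη hρ)⟩

lemma Ln.mono {η η' : ℝ} {K : Set E2} {y : E2} {ρ : ℝ} (h : Ln η K y ρ) (hη : η ≤ η')
    (hρ : 0 ≤ ρ) : Ln η' K y ρ := by
  obtain ⟨θ, h⟩ := h
  exact ⟨θ, h.mono_eps (mul_le_mul_of_nonneg_right hη hρ)⟩

lemma Pr.mono {η η' : ℝ} {K : Set E2} {y : E2} {ρ : ℝ} (h : Pr η K y ρ) (hη : η ≤ η')
    (hρ : 0 ≤ ρ) : Pr η' K y ρ := by
  obtain ⟨θ, h⟩ := h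
  exact ⟨θ, h.mono_eps (mul_le_mul_of_nonneg_right hη hρ)⟩

lemma dist_arm_center (c : E2) (φ : ℝ) {s : ℝ} (hs : 0 ≤ s) : dist (c + s • dir φ) c = s := by
  rw [dist_comm, dist_self_add_right, norm_smul, norm_dir, mul_one, Real.norm_eq_abs,
    abs_of_nonneg hs]

/-- a propeller-like ball is not line-like -/
theorem Tr.not_line {η : ℝ} {K : Set E2} {y : E2} {ρ : ℝ} (hρ : 0 < ρ) (hη : 0 ≤ η)
    (hη1 : η ≤ 1 / 100) (h : Tr η K y ρ) {δ R : ℝ} {x p : E2} {φ : ℝ} (hδ : 0 ≤ δ)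
    (hδ1 : δ ≤ ρ / 50) (hb : dist y x + ρ ≤ R) : ¬ HClose δ x R K (lineAt p φ) := by
  intro hl
  obtain ⟨c, θ, hc, hT⟩ := h
  have h1 : HClose δ y ρ K (lineAt p φ) := hl.mono_ball' le_rfl hb
  have h2 := hT.swap.trans h1 (by positivity) hδ
  have hmax : max (η * ρ) δ ≤ ρ / 50 := max_le (by nlinarith) hδ1
  have h3 : ρ / 2 < 3 * (η * ρ + δ) := by
    apply not_propAt_near_line (c := c) (p := p) (θ := θ) (φ := φ)
    · exact h2.1 c ⟨self_mem_propAt _ _, by rw [mem_ball]; linarith⟩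
    · intro k
      apply h2.1 _ ⟨mem_propAt.2 ⟨k, ρ / 2, by positivity, rfl⟩, _⟩
      rw [mem_ball]
      have e1 := dist_triangle (c + (ρ / 2) • dir (arm θ k)) c y
      rw [dist_arm_center c _ (by positivity)] at e1
      linarith
  nlinarith

/-- centres of propeller-like balls at comparable scales are close -/
theorem Tr.center_close {η : ℝ} {K : Set E2} {y : E2} {ρ ρ' : ℝ} (hρ : 0 < ρ) (hη : 0 < η)
    (hη1 : η ≤ 1 / 1000) {c c' : E2} {θ θ' : ℝ} (hc : dist c y ≤ ρ / 4)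
    (hT : HClose (η * ρ) y ρ K (propAt c θ)) (hle : ρ ≤ ρ') (hle' : ρ' ≤ 3 * ρ)
    (hT' : HClose (η * ρ') y ρ' K (propAt c' θ')) : dist c c' ≤ 24 * η * ρ := by
  have h1 : HClose (η * ρ') y ρ K (propAt c' θ') := hT'.mono_ball' le_rfl (by simpa using hle)
  have hρ' : 0 < ρ' := by linarith
  have h2 := hT.swap.trans h1 (by positivity) (by positivity)
  have hmax : max (η * ρ) (η * ρ') ≤ 3 / 1000 * ρ := max_le (by nlinarith) (by nlinarith)
  have h3 := propAt_center_close (c := c) (c' := c') (y := y) (θ := θ) (θ' := θ')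
    (ρ := ρ - max (η * ρ) (η * ρ')) (s := ρ / 2) (δ := 4 * η * ρ) (by positivity) (by linarith)
    (by nlinarith) (by
      intro z hz
      obtain ⟨w, hw, hd⟩ := h2.1 z hz
      exact ⟨w, hw, by nlinarith⟩)
  linarith

/-- a propeller-like ball propagates to larger scales -/
theorem Tr.up {η : ℝ} {K : Set E2} {y : E2} {ρ ρ' : ℝ} (hρ : 0 < ρ) (hη : 0 < η)
    (hη1 : η ≤ 1 / 1000) (h : Tr η K y ρ) (hle : 3 / 2 * ρ ≤ ρ') (hle' : ρ' ≤ 3 * ρ)
    (hF : Fl η K y ρ') : Tr η K y ρ' := by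
  obtain ⟨Y, hY, hc⟩ := hF
  rcases hY with ⟨p, φ, rfl⟩ | ⟨c', θ', rfl⟩
  · exfalso
    refine h.not_line hρ hη.le (by linarith) (δ := η * ρ') (R := ρ') (x := y) (by nlinarith)
      (by nlinarith) (by rw [dist_self]; linarith) hc
  · obtain ⟨c, θ, hcy, hT⟩ := h
    have h1 := Tr.center_close hρ hη hη1 hcy hT (by linarith) hle' hc
    refine ⟨c', θ', ?_, hc⟩
    have h2 := dist_triangle c' c y
    rw [dist_comm c' c] at h2
    nlinarith

/-- iterated version: propeller-like at a small scale gives propeller-like in each dyadic window -/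
theorem Tr.up_to {η : ℝ} {K : Set E2} {y : E2} {ρ M : ℝ} (hρ : 0 < ρ) (hη : 0 < η)
    (hη1 : η ≤ 1 / 1000) (h : Tr η K y ρ) (hM : ρ ≤ M)
    (hF : ∀ ρ', 0 < ρ' → ρ' ≤ M → Fl η K y ρ') : ∃ ρ', M / 2 < ρ' ∧ ρ' ≤ M ∧ Tr η K y ρ' := by
  have key : ∀ n : ℕ, ∀ ρ : ℝ, 0 < ρ → ρ ≤ M → M < 2 ^ (n + 1) * ρ → Tr η K y ρ →
      ∃ ρ', M / 2 < ρ' ∧ ρ' ≤ M ∧ Tr η K y ρ' := by
    intro n
    induction n with
    | zero =>
      intro ρ _ h1 h2 h3
      exact ⟨ρ, by simp at h2; linarith, h1, h3⟩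
    | succ n ih =>
      intro ρ h0 h1 h2 h3
      by_cases hlt : M / 2 < ρ
      · exact ⟨ρ, hlt, h1, h3⟩
      · push Not at hlt
        apply ih (2 * ρ) (by linarith) (by linarith) (by rw [pow_succ] at h2; linarith)
        exact h3.up h0 hη hη1 (by linarith) (by linarith) (hF _ (by linarith) (by linarith))
  obtain ⟨n, hn⟩ := pow_unbounded_of_one_lt (M / ρ) (one_lt_two (α := ℝ))
  apply key n ρ hρ hM _ h
  rw [div_lt_iff₀ hρ] at hn
  rw [pow_succ]
  nlinarith [pow_pos (two_pos (α := ℝ)) n]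

/-- not propeller-like (with nearby centre) implies line-like at a comparable scale -/
theorem Fl.line_of_not_Tr {η : ℝ} {K : Set E2} {y : E2} {ρ : ℝ} (hρ : 0 < ρ) (_hη : 0 < η)
    (hη1 : η ≤ 1 / 1000) (hy : y ∈ K) (hF : Fl η K y ρ) (hT : ¬ Tr η K y ρ) :
    Ln (16 * η) K y (ρ / 8) := by
  obtain ⟨Y, hY, h⟩ := hF
  have hηρ : η * ρ ≤ ρ / 1000 := by nlinarith
  obtain ⟨q, hq, hyq⟩ := h.1 y ⟨hy, mem_ball_self hρ⟩
  -- in both cases we get closeness to a line through `q`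
  have key : ∃ φ, HClose (η * ρ) y (ρ / 6) K (lineAt q φ) := by
    rcases hY with ⟨p, φ, rfl⟩ | ⟨c, θ, rfl⟩
    · refine ⟨φ, ?_⟩
      rw [lineAt_eq_of_mem hq]
      exact h.mono_ball' le_rfl (by rw [dist_self]; linarith)
    · have hcy : ρ / 4 ≤ dist c y := by
        by_contra hcon
        push Not at hcon
        exact hT ⟨c, θ, hcon.le, h⟩
      obtain ⟨φ, hφ⟩ := propAt_far hq hyq.le hcy le_rfl
      have hqb : q ∈ ball y (ρ / 4 - 2 * (η * ρ)) := by
        rw [mem_ball, dist_comm]; linarith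
      refine ⟨φ, ?_⟩
      rw [lineAt_eq_of_mem ((hφ q hqb).1 hq)]
      constructor
      · rintro z ⟨hz, hzb⟩
        rw [mem_ball] at hzb
        obtain ⟨w, hw, hd⟩ := h.1 z ⟨hz, by rw [mem_ball]; linarith⟩
        refine ⟨w, (hφ w ?_).1 hw, hd⟩
        rw [mem_ball]
        have := dist_triangle w z y
        rw [dist_comm w z] at this
        linarith
      · rintro z ⟨hz, hzb⟩
        rw [mem_ball] at hzb
        exact h.2 z ⟨(hφ z (by rw [mem_ball]; linarith)).2 hz, by rw [mem_ball]; linarith⟩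
  obtain ⟨φ, hφ⟩ := key
  refine ⟨φ, ?_⟩
  have h2 := hφ.line_move (x' := y) (t := η * ρ) (by rw [dist_comm]; exact hyq.le)
  exact h2.mono_ball' (by linarith) (by rw [dist_self]; linarith)

/-- **Dichotomy** (step (2.4)): from flatness at all scales to line-like points / one propeller. -/
theorem line_or_propeller {η : ℝ} {K : Set E2} {x0 : E2} {r0 : ℝ} (hη : 0 < η)
    (hη1 : η ≤ 1 / 1000000) (hx0 : x0 ∈ K) (hr0 : 0 < r0)
    (hF : ∀ y ∈ K ∩ ball x0 r0, ∀ ρ, 0 < ρ → ρ ≤ r0 → Fl η K y ρ) :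
    (∃ r1, 0 < r1 ∧ ∀ y ∈ K ∩ ball x0 r1, ∀ ρ, 0 < ρ → ρ ≤ r1 → Ln (20 * η) K y ρ) ∨
    (∃ r1, 0 < r1 ∧ (∀ ρ, 0 < ρ → ρ ≤ r1 → Pr (60 * η) K x0 ρ) ∧
      ∀ y ∈ K ∩ ball x0 r1, y ≠ x0 → ∀ ρ, 0 < ρ → ρ ≤ dist y x0 / 40 → Ln (20 * η) K y ρ) := by
  have hη2 : η ≤ 1 / 1000 := by linarith
  have hF0 : ∀ ρ, 0 < ρ → ρ ≤ r0 → Fl η K x0 ρ := hF x0 ⟨hx0, mem_ball_self hr0⟩
  by_cases hcase : ∃ ρs, 0 < ρs ∧ ρs ≤ r0 ∧ ∀ ρ, 0 < ρ → ρ ≤ ρs → ¬ Tr η K x0 ρ
  · left
    obtain ⟨ρs, hs0, hsr, hs⟩ := hcase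
    obtain ⟨φ, hφ⟩ := (hF0 ρs hs0 hsr).line_of_not_Tr hs0 hη hη2 hx0 (hs ρs hs0 le_rfl)
    refine ⟨ρs / 200, by positivity, ?_⟩
    rintro y ⟨hyK, hyb⟩ ρ hρ hρ1
    rw [mem_ball] at hyb
    have hyr0 : y ∈ K ∩ ball x0 r0 := ⟨hyK, by rw [mem_ball]; linarith⟩
    have hnT : ¬ Tr η K y (8 * ρ) := by
      intro hT
      obtain ⟨ρ', h1, h2, hT'⟩ := hT.up_to (M := ρs / 16) (by positivity) hη hη2 (by linarith)
        (fun ρ' h1 h2 => hF y hyr0 ρ' h1 (by linarith))
      refine hT'.not_line (by linarith) hη.le (by linarith) (by positivity) ?_ ?_ hφ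
      · nlinarith
      · linarith
    have := (hF y hyr0 (8 * ρ) (by positivity) (by linarith)).line_of_not_Tr (by positivity) hη hη2
      hyK hnT
    rw [mul_div_cancel_left₀ ρ (by norm_num : (8:ℝ) ≠ 0)] at this
    exact this.mono (by linarith) hρ.le
  · right
    push Not at hcase
    -- propeller-like at all scales
    have hall : ∀ σ, 0 < σ → σ ≤ r0 → Tr η K x0 σ := by
      intro σ hσ hσr
      obtain ⟨ρ, h1, h2, hT⟩ := hcase (σ * (2 / 3)) (by positivity) (by linarith)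
      obtain ⟨ρ', h3, h4, hT'⟩ := hT.up_to (M := σ * (2 / 3)) h1 hη hη2 h2
        (fun ρ' h1 h2 => hF0 ρ' h1 (by linarith))
      exact hT'.up (by linarith) hη hη2 (by linarith) (by linarith) (hF0 σ hσ hσr)
    -- centres are close to x0
    have hcen : ∀ σ, 0 < σ → σ ≤ r0 → ∃ c θ, dist c x0 ≤ 24 * η * σ ∧
        HClose (η * σ) x0 σ K (propAt c θ) := by
      intro σ hσ hσr
      have hσn : ∀ n : ℕ, 0 < σ * (1 / 2) ^ n ∧ σ * (1 / 2) ^ n ≤ r0 := by
        intro n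
        refine ⟨by positivity, ?_⟩
        have : (1 / 2 : ℝ) ^ n ≤ 1 := pow_le_one₀ (by norm_num) (by norm_num)
        nlinarith
      choose c θ hc hT using fun n : ℕ => hall (σ * (1 / 2) ^ n) (hσn n).1 (hσn n).2
      have hstep : ∀ n, dist (c (n + 1)) (c n) ≤ 24 * η * (σ * (1 / 2) ^ (n + 1)) := by
        intro n
        have e : σ * (1 / 2) ^ n = 2 * (σ * (1 / 2) ^ (n + 1)) := by rw [pow_succ]; ring
        have hp := (hσn (n + 1)).1
        exact Tr.center_close (hσn (n + 1)).1 hη hη2 (hc (n + 1)) (hT (n + 1)) (by linarith)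
          (by linarith) (hT n)
      have hind : ∀ n : ℕ, dist (c 0) x0 ≤ dist (c n) x0 + 24 * η * σ * (1 - (1 / 2) ^ n) := by
        intro n
        induction n with
        | zero => simp
        | succ n ih =>
          have h1 := hstep n
          have h2 := dist_triangle (c n) (c (n + 1)) x0
          rw [dist_comm (c n) (c (n + 1))] at h2
          have h3 : 24 * η * (σ * (1 / 2) ^ (n + 1)) = 24 * η * σ * ((1 / 2) ^ n - (1 / 2) ^ (n + 1)) := by
            rw [pow_succ]; ring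
          rw [h3] at h1
          nlinarith
      refine ⟨c 0, θ 0, ?_, by simpa using hT 0⟩
      have hlim : Tendsto (fun n : ℕ => σ * (1 / 2 : ℝ) ^ n / 4 + 24 * η * σ) atTop
          (𝓝 (σ * 0 / 4 + 24 * η * σ)) := by
        refine ((Tendsto.const_mul σ ?_).div_const 4).add_const _
        exact tendsto_pow_atTop_nhds_zero_of_lt_one (by norm_num) (by norm_num)
      rw [mul_zero, zero_div, zero_add] at hlim
      refine ge_of_tendsto' hlim fun n => ?_
      have h1 := hind n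
      have h2 := hc n
      have h3 : (0:ℝ) ≤ (1 / 2) ^ n := by positivity
      have h4 : 0 ≤ 24 * η * σ := by positivity
      nlinarith
    refine ⟨r0 / 8, by positivity, ?_, ?_⟩
    · intro ρ hρ hρr
      obtain ⟨c, θ, hc, hT⟩ := hcen (2 * ρ) (by positivity) (by linarith)
      refine ⟨θ, ?_⟩
      have h2 := hT.prop_move (x' := x0) hc
      exact h2.mono_ball' (by nlinarith) (by rw [dist_self]; nlinarith)
    · rintro y ⟨hyK, hyb⟩ hne ρ hρ hρ1
      rw [mem_ball] at hyb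
      set D := dist y x0 with hD
      have hD0 : 0 < D := dist_pos.2 hne
      have hyr0 : y ∈ K ∩ ball x0 r0 := ⟨hyK, by rw [mem_ball]; linarith⟩
      have hηD : η * D ≤ D / 1000000 := by nlinarith
      -- near y the set is line-like
      have hline : ∃ φ, HClose (104 * η * D) y (D / 4) K (lineAt x0 φ) := by
        obtain ⟨c, θ, hc, hT⟩ := hcen (4 * D) (by positivity) (by linarith)
        have h2 := hT.prop_move (x' := x0) hc
        have h3 : HClose (104 * η * D) x0 (3 * D) K (propAt x0 θ) :=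
          h2.mono_ball' (by nlinarith) (by rw [dist_self]; nlinarith)
        obtain ⟨q, hq, hyq⟩ := h3.1 y ⟨hyK, by rw [mem_ball, ← hD]; linarith⟩
        obtain ⟨φ, hφ⟩ := propAt_far (t := D) hq hyq.le (by rw [dist_comm]) le_rfl
        refine ⟨φ, ?_, ?_⟩
        · rintro z ⟨hz, hzb⟩
          rw [mem_ball] at hzb
          have hzx : dist z x0 < 3 * D := by
            have := dist_triangle z y x0
            linarith
          obtain ⟨w, hw, hd⟩ := h3.1 z ⟨hz, by rw [mem_ball]; exact hzx⟩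
          refine ⟨w, (hφ w ?_).1 hw, hd⟩
          rw [mem_ball]
          have := dist_triangle w z y
          rw [dist_comm w z] at this
          nlinarith
        · rintro z ⟨hz, hzb⟩
          rw [mem_ball] at hzb
          have hzx : dist z x0 < 3 * D := by
            have := dist_triangle z y x0
            linarith
          exact h3.2 z ⟨(hφ z (by rw [mem_ball]; nlinarith)).2 hz, by rw [mem_ball]; exact hzx⟩
      obtain ⟨φ, hφ⟩ := hline
      have hnT : ¬ Tr η K y (8 * ρ) := by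
        intro hT
        obtain ⟨ρ', h1, h2, hT'⟩ := hT.up_to (M := D / 5) (by positivity) hη hη2 (by linarith)
          (fun ρ' h1 h2 => hF y hyr0 ρ' h1 (by linarith))
        refine hT'.not_line (by linarith) hη.le (by linarith) (by positivity) ?_ ?_ hφ
        · nlinarith
        · rw [dist_self]; linarith
      have := (hF y hyr0 (8 * ρ) (by positivity) (by linarith)).line_of_not_Tr (by positivity) hη
        hη2 hyK hnT
      rw [mul_div_cancel_left₀ ρ (by norm_num : (8:ℝ) ≠ 0)] at this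
      exact this.mono (by linarith) hρ.le

/-- **Connectedness** (step (2.6)) from flatness at all scales inside `closedBall y (5 ρ)`. -/
theorem connected_of_flat {K : Set E2} {y : E2} {ρ : ℝ}
    (hK : IsCompact (K ∩ closedBall y (5 * ρ)))
    (hF : ∀ a ∈ K, dist a y < 5 * ρ → ∀ σ, 0 < σ → σ ≤ 5 * ρ - dist a y → Fl (1 / 100) K a σ)
    (hρ : 0 < ρ) {a b : E2} (ha : a ∈ K) (hb : b ∈ K) (hay : dist a y ≤ ρ) (hby : dist b y ≤ ρ) :
    b ∈ connectedComponentIn (K ∩ closedBall y (5 * ρ)) a := by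
  apply connected_of_midpoint_ball hK _ hρ ha hb hay hby
  intro p hp q hq hpy hpq
  rcases eq_or_ne p q with rfl | hne
  · exact ⟨p, hp, by simp, by simp⟩
  have hd : 0 < dist p q := dist_pos.2 hne
  obtain ⟨Y, hY, h⟩ := hF p hp hpy (2 * dist p q) (by positivity) (by linarith)
  refine HClose.midpoint hY hp hq hd ?_
  have e : 1 / 100 * (2 * dist p q) = dist p q / 50 := by ring
  rwa [e] at h

end Crest.Agent.R135
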