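import Crest.Prelude.Def_MumfordShah

/-! R135 (S0185): conclusion (2) follows from conclusion (1) (helper391). -/

set_option autoImplicit false
open MeasureTheory Set
open Crest.AnalysisR.PDE.MumfordShah

namespace Crest.Agent.R135

local notation "E2" => EuclideanSpace ℝ (Fin 2)

lemma holderArc_contOn {α : NNReal} {γ γ' : ℝ → E2} (h : IsHolderArc α γ γ') :
    ContinuousOn γ (Icc 0 1) := fun t ht => (h.2.1 t ht).continuousWithinAt

/-- near a point of one of the three shapes, `K` is connected. -/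
lemma exists_nhd_preconnected {Ω K : Set E2} {x : E2}
    (h : IsArcInteriorPoint Ω K x ∨ IsArcEndPoint Ω K x ∨ IsTripleJunctionPoint Ω K x) :
    ∃ N : Set E2, IsOpen N ∧ N ⊆ Ω ∧ x ∈ N ∧ x ∈ K ∩ N ∧ IsPreconnected (K ∩ N) := by
  rcases h with ⟨N, hN, hNΩ, hxN, α, -, γ, γ', hγ, hK, hx⟩ |
    ⟨N, hN, hNΩ, hxN, α, -, γ, γ', hγ, hK, hx⟩ |
    ⟨N, hN, hNΩ, hxN, α, -, γ, γ', hγ, hx, hK, -, -⟩
  · refine ⟨N, hN, hNΩ, hxN, hK ▸ hx, ?_⟩
    rw [hK]
    exact isPreconnected_Ioo.image _ ((holderArc_contOn hγ).mono Ioo_subset_Icc_self)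
  · refine ⟨N, hN, hNΩ, hxN, ?_, ?_⟩
    · rw [hK]; exact ⟨0, by simp, hx⟩
    · rw [hK]
      exact isPreconnected_Ico.image _ ((holderArc_contOn hγ).mono Ico_subset_Icc_self)
  · refine ⟨N, hN, hNΩ, hxN, ?_, ?_⟩
    · rw [hK]; exact mem_iUnion.2 ⟨0, 0, by simp, hx 0⟩
    · rw [hK]
      refine isPreconnected_iUnion ⟨x, mem_iInter.2 fun k => ⟨0, by simp, hx k⟩⟩ fun k => ?_
      exact isPreconnected_Ico.image _ ((holderArc_contOn (hγ k)).mono Ico_subset_Icc_self)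

/-- **Conclusion (2) from conclusion (1).** -/
theorem finite_components_of_shapes {Ω K : Set E2} (hcl : closure K ∩ Ω ⊆ K)
    (h1 : ∀ x ∈ K, IsArcInteriorPoint Ω K x ∨ IsArcEndPoint Ω K x ∨ IsTripleJunctionPoint Ω K x)
    (U : Set E2) (hUc : IsCompact (closure U)) (hUΩ : closure U ⊆ Ω) :
    Set.Finite {C : Set E2 | ∃ x ∈ K ∩ U, C = connectedComponentIn K x} := by
  have hN : ∀ x ∈ K, ∃ N : Set E2, IsOpen N ∧ N ⊆ Ω ∧ x ∈ N ∧ x ∈ K ∩ N ∧
      IsPreconnected (K ∩ N) := fun x hx => exists_nhd_preconnected (h1 x hx)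
  choose! N hNo hNΩ hxN hxKN hpre using hN
  have hS : K ∩ closure U = closure K ∩ closure U := by
    ext y; constructor
    · rintro ⟨a, b⟩; exact ⟨subset_closure a, b⟩
    · rintro ⟨a, b⟩; exact ⟨hcl ⟨a, hUΩ b⟩, b⟩
  have hScomp : IsCompact (K ∩ closure U) := by
    rw [hS]; exact hUc.inter_left isClosed_closure
  obtain ⟨t, htS, htcov⟩ := hScomp.elim_nhds_subcover N
    (fun x hx => (hNo x hx.1).mem_nhds (hxN x hx.1))
  refine (t.finite_toSet.image (fun z => connectedComponentIn K z)).subset ?_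
  rintro C ⟨y, ⟨hyK, hyU⟩, rfl⟩
  have hy : y ∈ ⋃ z ∈ t, N z := htcov ⟨hyK, subset_closure hyU⟩
  simp only [mem_iUnion] at hy
  obtain ⟨z, hz, hyz⟩ := hy
  refine ⟨z, hz, ?_⟩
  have hzK : z ∈ K := (htS z hz).1
  have hsub : K ∩ N z ⊆ connectedComponentIn K z :=
    (hpre z hzK).subset_connectedComponentIn (hxKN z hzK) inter_subset_left
  exact (connectedComponentIn_eq (hsub ⟨hyK, hyz⟩))

/-- S0185 reduces to its first conclusion. -/
theorem reduce_to_shapes {Ω K : Set E2} (hcl : closure K ∩ Ω ⊆ K)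
    (h1 : ∀ x ∈ K, IsArcInteriorPoint Ω K x ∨ IsArcEndPoint Ω K x ∨ IsTripleJunctionPoint Ω K x) :
    (∀ x ∈ K, IsArcInteriorPoint Ω K x ∨ IsArcEndPoint Ω K x ∨ IsTripleJunctionPoint Ω K x) ∧
      ∀ U : Set (EuclideanSpace ℝ (Fin 2)), IsOpen U → IsCompact (closure U) → closure U ⊆ Ω →
        Set.Finite {C : Set (EuclideanSpace ℝ (Fin 2)) |
          ∃ x ∈ K ∩ U, C = connectedComponentIn K x} :=
  ⟨h1, fun U _ hUc hUΩ => finite_components_of_shapes hcl h1 U hUc hUΩ⟩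

end Crest.Agent.R135
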