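import Crest.Agent.R135.ArcMove
import Crest.Agent.R135.IFDefs
import Crest.Agent.R135.TopC2

/-!
# R135: final geometry (helper560)

* `LineAt`, `PropAt`, `TipAt`: the power-closeness outputs of the analysis at a point of `K`;
* `LineAt.shape`, `PropAt.shape`, `TipAt.shape`: the three shapes of S0185;
* conversions from `HClose` (Core) to `Flat` and `StarAt`;
* localisation of the three shapes.
-/

set_option autoImplicit false

open Set Filter Topology Metric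
open scoped NNReal

namespace Crest.Agent.R135.Arc

open Crest.AnalysisR.PDE.MumfordShah
open Crest.Agent.R135 (dir ray HClose IsLine IsProp IsRay)

/-! ### localisation -/

theorem isArcInteriorPoint_mono {Ω V K : Set E2} {x : E2} (hV : V ⊆ Ω)
    (h : IsArcInteriorPoint V (K ∩ V) x) : IsArcInteriorPoint Ω K x := by
  obtain ⟨N, hN, hNV, hx, α, hα, γ, γ', hγ, hK, hxγ⟩ := h
  refine ⟨N, hN, hNV.trans hV, hx, α, hα, γ, γ', hγ, ?_, hxγ⟩
  rw [← hK, inter_assoc, inter_eq_self_of_subset_right hNV]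

theorem isArcEndPoint_mono {Ω V K : Set E2} {x : E2} (hV : V ⊆ Ω)
    (h : IsArcEndPoint V (K ∩ V) x) : IsArcEndPoint Ω K x := by
  obtain ⟨N, hN, hNV, hx, α, hα, γ, γ', hγ, hK, hxγ⟩ := h
  refine ⟨N, hN, hNV.trans hV, hx, α, hα, γ, γ', hγ, ?_, hxγ⟩
  rw [← hK, inter_assoc, inter_eq_self_of_subset_right hNV]

theorem isTripleJunctionPoint_mono {Ω V K : Set E2} {x : E2} (hV : V ⊆ Ω)
    (h : IsTripleJunctionPoint V (K ∩ V) x) : IsTripleJunctionPoint Ω K x := by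
  obtain ⟨N, hN, hNV, hx, α, hα, γ, γ', hγ, h0, hK, h1, h2⟩ := h
  refine ⟨N, hN, hNV.trans hV, hx, α, hα, γ, γ', hγ, h0, ?_, h1, h2⟩
  rw [← hK, inter_assoc, inter_eq_self_of_subset_right hNV]

/-- `x` has one of the three shapes -/
def Shape (Ω K : Set E2) (x : E2) : Prop :=
  IsArcInteriorPoint Ω K x ∨ IsArcEndPoint Ω K x ∨ IsTripleJunctionPoint Ω K x

theorem Shape.mono {Ω V K : Set E2} {x : E2} (hV : V ⊆ Ω) (h : Shape V (K ∩ V) x) :
    Shape Ω K x :=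
  h.imp (isArcInteriorPoint_mono hV) (Or.imp (isArcEndPoint_mono hV) (isTripleJunctionPoint_mono hV))

/-! ### outputs of the analysis -/

/-- power flatness at all points and all scales near `x` -/
def LineAt (K : Set E2) (x : E2) : Prop :=
  ∃ r C γ : ℝ, 0 < r ∧ 0 < C ∧ 0 < γ ∧ ∀ y ∈ K, dist y x < r → ∀ ρ, 0 < ρ → ρ < r →
    ∃ v, Flat K y v ρ (C * ρ ^ (1 + γ))

/-- power flatness at the points `y ≠ x`, scales `ρ ≤ c |y-x|`, with degenerating constants -/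
def FlatOff (K : Set E2) (x : E2) (r C γ c : ℝ) : Prop :=
  ∀ y ∈ K, y ≠ x → dist y x < r → ∀ ρ, 0 < ρ → ρ ≤ c * dist y x →
    ∃ v, Flat K y v ρ (C * ρ * (ρ / dist y x) ^ γ)

/-- power closeness to a propeller centred at `x` -/
def PropAt (K : Set E2) (x : E2) : Prop :=
  ∃ r C γ c : ℝ, 0 < r ∧ 0 < C ∧ 0 < γ ∧ 0 < c ∧
    (∀ ρ, 0 < ρ → ρ < r → ∃ e, StarAt a3 b3 K x e ρ (C * ρ ^ (1 + γ))) ∧ FlatOff K x r C γ c

/-- power closeness to a half-line issued from `x` -/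
def TipAt (K : Set E2) (x : E2) : Prop :=
  ∃ r C γ c : ℝ, 0 < r ∧ 0 < C ∧ 0 < γ ∧ 0 < c ∧
    (∀ ρ, 0 < ρ → ρ < r → ∃ e, StarAt a1 b1 K x e ρ (C * ρ ^ (1 + γ))) ∧ FlatOff K x r C γ c

theorem StarAt.mono {ι : Type*} {a b : ι → ℝ} {K : Set E2} {x0 e : E2} {ρ E E' : ℝ}
    (h : StarAt a b K x0 e ρ E) (hE : E ≤ E') : StarAt a b K x0 e ρ E' := by
  obtain ⟨h0, h1, h2⟩ := h
  refine ⟨h0, fun z hz hd => ?_, fun k t ht htρ => ?_⟩
  · obtain ⟨k, t, ht, h⟩ := h1 z hz hd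
    exact ⟨k, t, ht, h.trans hE⟩
  · obtain ⟨z, hz, h⟩ := h2 k t ht htρ
    exact ⟨z, hz, h.trans hE⟩

theorem Flat.mono {K : Set E2} {y e : E2} {ρ ρ' E E' : ℝ} (h : Flat K y e ρ E) (hρ : ρ' ≤ ρ)
    (hE : E ≤ E') : Flat K y e ρ' E' := by
  obtain ⟨h0, h1, h2⟩ := h
  refine ⟨h0, fun z hz hd => (h1 z hz (hd.trans hρ)).trans hE, fun t ht => ?_⟩
  obtain ⟨z, hz, h⟩ := h2 t (ht.trans hρ)
  exact ⟨z, hz, h.trans hE⟩

/-- a radius such that the ball is contained in the open set `U` -/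
theorem exists_radius {U : Set E2} (hU : IsOpen U) {x : E2} (hx : x ∈ U) {r : ℝ} (hr : 0 < r) :
    ∃ s, 0 < s ∧ s ≤ r ∧ ball x s ⊆ U := by
  obtain ⟨s, hs, hsU⟩ := Metric.isOpen_iff.1 hU x hx
  exact ⟨min s r, lt_min hs hr, min_le_right _ _, (ball_subset_ball (min_le_left _ _)).trans hsU⟩

theorem LineAt.shape {U K : Set E2} {x : E2} (h : LineAt K x) (hU : IsOpen U)
    (hK : closure K ∩ U ⊆ K) (hxU : x ∈ U) (hx : x ∈ K) : IsArcInteriorPoint U K x := by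
  obtain ⟨r, C, γ, hr, hC, hγ, hF⟩ := h
  obtain ⟨s, hs, hsr, hsU⟩ := exists_radius hU hxU hr
  exact isArcInteriorPoint_of_flat hs hC hγ hx ((inter_subset_inter_right _ hsU).trans hK) hsU
    (fun y hy hd ρ hρ hρs => hF y hy (hd.trans_le hsr) ρ hρ (hρs.trans_le hsr))

theorem PropAt.shape {U K : Set E2} {x : E2} (h : PropAt K x) (hU : IsOpen U)
    (hK : closure K ∩ U ⊆ K) (hxU : x ∈ U) (hx : x ∈ K) : IsTripleJunctionPoint U K x := by
  obtain ⟨r, C, γ, c, hr, hC, hγ, hc, hS, hF⟩ := h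
  obtain ⟨s, hs, hsr, hsU⟩ := exists_radius hU hxU hr
  exact isTripleJunctionPoint_of_moving hs hC hγ hc hx
    ((inter_subset_inter_right _ hsU).trans hK) hsU
    (fun ρ hρ hρs => hS ρ hρ (hρs.trans_le hsr))
    (fun y hy hyx hd ρ hρ hρs => hF y hy hyx (hd.trans_le hsr) ρ hρ hρs)

theorem TipAt.shape {U K : Set E2} {x : E2} (h : TipAt K x) (hU : IsOpen U)
    (hK : closure K ∩ U ⊆ K) (hxU : x ∈ U) (hx : x ∈ K) : IsArcEndPoint U K x := by
  obtain ⟨r, C, γ, c, hr, hC, hγ, hc, hS, hF⟩ := h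
  obtain ⟨s, hs, hsr, hsU⟩ := exists_radius hU hxU hr
  exact isArcEndPoint_of_moving hs hC hγ hc hx
    ((inter_subset_inter_right _ hsU).trans hK) hsU
    (fun ρ hρ hρs => hS ρ hρ (hρs.trans_le hsr))
    (fun y hy hyx hd ρ hρ hρs => hF y hy hyx (hd.trans_le hsr) ρ hρ hρs)

/-- all three together, localised -/
theorem shape_of_local {Ω V K : Set E2} {x : E2} (hV : IsOpen V) (hVΩ : V ⊆ Ω)
    (hcl : closure (K ∩ V) ∩ V ⊆ K ∩ V) (hxK : x ∈ K ∩ V)
    (h : LineAt (K ∩ V) x ∨ TipAt (K ∩ V) x ∨ PropAt (K ∩ V) x) : Shape Ω K x := by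
  refine Shape.mono hVΩ ?_
  rcases h with h | h | h
  · exact Or.inl (h.shape hV hcl hxK.2 hxK)
  · exact Or.inr (Or.inl (h.shape hV hcl hxK.2 hxK))
  · exact Or.inr (Or.inr (h.shape hV hcl hxK.2 hxK))

/-! ### conversions from `HClose` -/

theorem mem_ray_iff {x e z : E2} : z ∈ ray x e ↔ ∃ s : ℝ, 0 ≤ s ∧ z = x + s • e := Iff.rfl

theorem mem_line_iff {x e z : E2} : z ∈ ray x e ∪ ray x (-e) ↔ ∃ s : ℝ, z = x + s • e := by
  constructor
  · rintro (⟨s, -, h⟩ | ⟨s, -, h⟩)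
    · exact ⟨s, h⟩
    · exact ⟨-s, by rw [h, smul_neg, neg_smul]⟩
  · rintro ⟨s, h⟩
    rcases le_total 0 s with hs | hs
    · exact Or.inl ⟨s, hs, h⟩
    · exact Or.inr ⟨-s, by linarith, by rw [h, neg_smul_neg]⟩

/-- closeness to a line in a ball gives `Flat` -/
theorem flat_of_hclose {K : Set E2} {y x e : E2} {R ε ρ : ℝ} (he : ‖e‖ = 1) (hR : 0 < R)
    (hy : y ∈ K) (hρ : ρ + ε < R) (h0ε : 0 ≤ ε)
    (h : HClose ε y R K (ray x e ∪ ray x (-e))) : Flat K y e ρ (2 * ε) := by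
  obtain ⟨h1, h2⟩ := h
  obtain ⟨w0, hw0, hd0⟩ := h1 y ⟨hy, mem_ball_self hR⟩
  obtain ⟨s0, rfl⟩ := mem_line_iff.1 hw0
  have hJ : ∀ v : E2, |inner ℝ v (J e)| ≤ ‖v‖ := fun v => by
    have := abs_real_inner_le_norm v (J e)
    rwa [norm_J, he, mul_one] at this
  refine ⟨he, ?_, ?_⟩
  · intro z hz hd
    obtain ⟨w, hw, hdw⟩ := h1 z ⟨hz, by rw [mem_ball]; linarith⟩
    obtain ⟨s, rfl⟩ := mem_line_iff.1 hw
    have e1 : z - y = (z - (x + s • e)) + (s - s0) • e + ((x + s0 • e) - y) := by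
      rw [sub_smul]; abel
    have e2 : inner ℝ (z - y) (J e) =
        inner ℝ (z - (x + s • e)) (J e) + inner ℝ ((x + s0 • e) - y) (J e) := by
      rw [e1, inner_add_left, inner_add_left, inner_smul_left, inner_J_self, mul_zero, add_zero]
    rw [e2]
    have a1 := hJ (z - (x + s • e))
    have a2 := hJ ((x + s0 • e) - y)
    rw [← dist_eq_norm] at a1 a2
    rw [dist_comm] at a2
    have := abs_add_le (inner ℝ (z - (x + s • e)) (J e)) (inner ℝ ((x + s0 • e) - y) (J e))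
    linarith
  · intro t ht
    have hnt : dist (x + s0 • e + t • e) (x + s0 • e) = |t| := by
      rw [dist_eq_norm, add_sub_cancel_left, norm_smul, he, mul_one, Real.norm_eq_abs]
    have hball : x + s0 • e + t • e ∈ ball y R := by
      rw [mem_ball]
      have := dist_triangle (x + s0 • e + t • e) (x + s0 • e) y
      rw [dist_comm (x + s0 • e) y] at this
      linarith
    obtain ⟨z, hz, hdz⟩ := h2 (x + s0 • e + t • e) ⟨mem_line_iff.2 ⟨s0 + t, by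
      rw [add_smul]; abel⟩, hball⟩
    refine ⟨z, hz, ?_⟩
    have h3 : dist (x + s0 • e + t • e) (y + t • e) = dist (x + s0 • e) y := by
      rw [dist_add_right]
    have h4 := dist_triangle z (x + s0 • e + t • e) (y + t • e)
    rw [dist_comm z (x + s0 • e + t • e), h3, dist_comm (x + s0 • e) y] at h4
    linarith

theorem dir_rot_pos (θ : ℝ) : rt (a3 1) (b3 1) (dir θ) = dir (θ + 2 * Real.pi / 3) := by
  have hc : Real.cos (2 * Real.pi / 3) = -(1/2) := by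
    have : 2 * Real.pi / 3 = Real.pi - Real.pi / 3 := by ring
    rw [this, Real.cos_pi_sub, Real.cos_pi_div_three]
  have hs : Real.sin (2 * Real.pi / 3) = Real.sqrt 3 / 2 := by
    have : 2 * Real.pi / 3 = Real.pi - Real.pi / 3 := by ring
    rw [this, Real.sin_pi_sub, Real.sin_pi_div_three]
  ext i
  fin_cases i
  · simp [rt, a3, b3, Real.cos_add, hc, hs]; ring
  · simp [rt, a3, b3, Real.sin_add, hc, hs]; ring

theorem dir_rot_neg (θ : ℝ) : rt (a3 2) (b3 2) (dir θ) = dir (θ - 2 * Real.pi / 3) := by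
  have hc : Real.cos (2 * Real.pi / 3) = -(1/2) := by
    have : 2 * Real.pi / 3 = Real.pi - Real.pi / 3 := by ring
    rw [this, Real.cos_pi_sub, Real.cos_pi_div_three]
  have hs : Real.sin (2 * Real.pi / 3) = Real.sqrt 3 / 2 := by
    have : 2 * Real.pi / 3 = Real.pi - Real.pi / 3 := by ring
    rw [this, Real.sin_pi_sub, Real.sin_pi_div_three]
  ext i
  fin_cases i
  · simp [rt, a3, b3, Real.cos_sub, hc, hs]; ring
  · simp [rt, a3, b3, Real.sin_sub, hc, hs]; ring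

theorem rt3_zero (e : E2) : rt (a3 0) (b3 0) e = e := by simp [rt, a3, b3]

/-- the propeller in terms of the rotations `a3, b3` -/
theorem mem_prop_iff {x z : E2} {θ : ℝ} :
    z ∈ ray x (dir θ) ∪ ray x (dir (θ + 2 * Real.pi / 3)) ∪ ray x (dir (θ - 2 * Real.pi / 3)) ↔
      ∃ k, ∃ s : ℝ, 0 ≤ s ∧ z = x + s • rt (a3 k) (b3 k) (dir θ) := by
  constructor
  · rintro ((⟨s, hs, h⟩ | ⟨s, hs, h⟩) | ⟨s, hs, h⟩)
    · exact ⟨0, s, hs, by rw [rt3_zero]; exact h⟩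
    · exact ⟨1, s, hs, by rw [dir_rot_pos]; exact h⟩
    · exact ⟨2, s, hs, by rw [dir_rot_neg]; exact h⟩
  · rintro ⟨k, s, hs, h⟩
    fin_cases k
    · refine Or.inl (Or.inl ⟨s, hs, ?_⟩)
      have : z = x + s • rt (a3 0) (b3 0) (dir θ) := h
      rwa [rt3_zero] at this
    · refine Or.inl (Or.inr ⟨s, hs, ?_⟩)
      have : z = x + s • rt (a3 1) (b3 1) (dir θ) := h
      rwa [dir_rot_pos] at this
    · refine Or.inr ⟨s, hs, ?_⟩
      have : z = x + s • rt (a3 2) (b3 2) (dir θ) := h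
      rwa [dir_rot_neg] at this

/-- closeness to a star centred at a nearby point gives `StarAt` -/
theorem starAt_of_hclose {ι : Type*} {a b : ι → ℝ} (hu : ∀ k, a k ^ 2 + b k ^ 2 = 1)
    {K S : Set E2} {x0 x e : E2} {R ε ρ : ℝ} (he : ‖e‖ = 1)
    (hS : ∀ z, z ∈ S ↔ ∃ k, ∃ s : ℝ, 0 ≤ s ∧ z = x + s • rt (a k) (b k) e)
    (hε : dist x x0 ≤ ε) (hρ : ρ + ε < R) (h : HClose ε x0 R K S) :
    StarAt a b K x0 e ρ (2 * ε) := by
  obtain ⟨h1, h2⟩ := h
  have h0 : 0 ≤ ε := dist_nonneg.trans hε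
  refine ⟨he, ?_, ?_⟩
  · intro z hz hd
    obtain ⟨w, hw, hdw⟩ := h1 z ⟨hz, by rw [mem_ball]; linarith⟩
    obtain ⟨k, s, hs, rfl⟩ := (hS w).1 hw
    refine ⟨k, s, hs, ?_⟩
    have h3 := dist_triangle z (x + s • rt (a k) (b k) e) (x0 + s • rt (a k) (b k) e)
    rw [dist_add_right] at h3
    linarith
  · intro k t ht htρ
    have hn : ‖rt (a k) (b k) e‖ = 1 := by rw [norm_rt (hu k), he]
    have hball : x + t • rt (a k) (b k) e ∈ ball x0 R := by
      rw [mem_ball]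
      have h3 := dist_triangle (x + t • rt (a k) (b k) e) x x0
      have h4 : dist (x + t • rt (a k) (b k) e) x = t := by
        rw [dist_eq_norm, add_sub_cancel_left, norm_smul, hn, mul_one, Real.norm_eq_abs,
          abs_of_nonneg ht]
      linarith
    obtain ⟨z, hz, hdz⟩ := h2 _ ⟨(hS _).2 ⟨k, t, ht, rfl⟩, hball⟩
    refine ⟨z, hz, ?_⟩
    have h3 := dist_triangle z (x + t • rt (a k) (b k) e) (x0 + t • rt (a k) (b k) e)
    rw [dist_add_right, dist_comm z (x + t • rt (a k) (b k) e)] at h3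
    linarith

/-- closeness to a propeller centred near `x0` -/
theorem starAt_of_hclose_prop {K : Set E2} {x0 x : E2} {θ R ε ρ : ℝ}
    (hε : dist x x0 ≤ ε) (hρ : ρ + ε < R)
    (h : HClose ε x0 R K
      (ray x (dir θ) ∪ ray x (dir (θ + 2 * Real.pi / 3)) ∪ ray x (dir (θ - 2 * Real.pi / 3)))) :
    StarAt a3 b3 K x0 (dir θ) ρ (2 * ε) :=
  starAt_of_hclose rotGroup3.unit (by simp) (fun _ => mem_prop_iff) hε hρ h

/-- closeness to a half-line issued from a point near `x0` -/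
theorem starAt_of_hclose_ray {K : Set E2} {x0 x e : E2} {R ε ρ : ℝ} (he : ‖e‖ = 1)
    (hε : dist x x0 ≤ ε) (hρ : ρ + ε < R) (h : HClose ε x0 R K (ray x e)) :
    StarAt a1 b1 K x0 e ρ (2 * ε) := by
  refine starAt_of_hclose rotGroup1.unit he (fun z => ?_) hε hρ h
  have h1 : ∀ k, rt (a1 k) (b1 k) e = e := fun k => by simp [rt, a1, b1]
  simp only [h1]
  constructor
  · rintro ⟨s, hs, h⟩; exact ⟨0, s, hs, h⟩
  · rintro ⟨_, s, hs, h⟩; exact ⟨s, hs, h⟩

/-- perturbation of the directions: closeness to three rays which are almost at 120 degrees -/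
theorem starAt_of_dirs {ι : Type*} {a b : ι → ℝ} {K : Set E2} {x0 e : E2} {ρ E δ : ℝ}
    (he : ‖e‖ = 1) (d : ι → E2) (hd1 : ∀ k, ‖d k‖ = 1)
    (hd : ∀ k, dist (d k) (rt (a k) (b k) e) ≤ δ) (hE : E ≤ ρ)
    (h1 : ∀ z ∈ K, dist z x0 ≤ ρ → ∃ k, ∃ t : ℝ, 0 ≤ t ∧ dist z (x0 + t • d k) ≤ E)
    (h2 : ∀ k, ∀ t : ℝ, 0 ≤ t → t ≤ ρ → ∃ z ∈ K, dist z (x0 + t • d k) ≤ E) :
    StarAt a b K x0 e ρ (E + 2 * ρ * δ) := by
  have key : ∀ k, ∀ t : ℝ, 0 ≤ t → t ≤ 2 * ρ → ∀ z, dist z (x0 + t • d k) ≤ E →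
      dist z (x0 + t • rt (a k) (b k) e) ≤ E + 2 * ρ * δ := by
    intro k t ht htρ z hz
    have h3 := dist_triangle z (x0 + t • d k) (x0 + t • rt (a k) (b k) e)
    have h4 : dist (x0 + t • d k) (x0 + t • rt (a k) (b k) e) ≤ 2 * ρ * δ := by
      rw [dist_add_left, dist_smul₀, Real.norm_eq_abs, abs_of_nonneg ht]
      have := hd k
      have : 0 ≤ dist (d k) (rt (a k) (b k) e) := dist_nonneg
      exact mul_le_mul htρ (hd k) this (ht.trans htρ)
    linarith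
  refine ⟨he, fun z hz hdz => ?_, fun k t ht htρ => ?_⟩
  · obtain ⟨k, t, ht, h⟩ := h1 z hz hdz
    refine ⟨k, t, ht, key k t ht ?_ z h⟩
    have h5 : dist (x0 + t • d k) x0 = t := by
      rw [dist_eq_norm, add_sub_cancel_left, norm_smul, hd1, mul_one, Real.norm_eq_abs,
        abs_of_nonneg ht]
    have h6 := dist_triangle_left (x0 + t • d k) x0 z
    linarith
  · obtain ⟨z, hz, h⟩ := h2 k t ht htρ
    refine ⟨z, hz, key k t ht ?_ z h⟩
    have : 0 ≤ dist z (x0 + t • d k) := dist_nonneg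
    linarith

end Crest.Agent.R135.Arc
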