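import Crest.Agent.R135.EpsLoc1

/-!
# R135, block EPS (helper983): spheres meet `K` on both sides; `K ∩ closedBall z t` is connected
-/

set_option autoImplicit false

open MeasureTheory Set Filter Topology Metric
open scoped ENNReal NNReal ContDiff Gradient

namespace Crest.Agent.R135.EpsLoc

open Crest.Agent.R135

/-- in the strip, outside the ball `ball z t`, the first coordinate does not vanish -/
lemma inner_ne_zero_of_strip {z v e : E2} {t : ℝ} (he : ‖e‖ = 1) (ht : 0 < t)
    (hJ : |(inner ℝ (v - z) (Arc.J e) : ℝ)| ≤ t / 20) (hv : t ≤ dist v z) :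
    (inner ℝ (v - z) e : ℝ) ≠ 0 := by
  intro h0
  have h1 : ‖v - z‖ ^ 2 = (inner ℝ (v - z) e : ℝ) ^ 2 + (inner ℝ (v - z) (Arc.J e) : ℝ) ^ 2 := by
    conv_lhs => rw [Arc.frame_eq he (v - z)]
    exact Arc.norm_sq_frame he _ _
  rw [h0, ← dist_eq_norm] at h1
  have h2 : (inner ℝ (v - z) (Arc.J e) : ℝ) ^ 2 ≤ (t / 20) ^ 2 := sq_le_sq' (by linarith [(abs_le.1 hJ).1]) (abs_le.1 hJ).2
  nlinarith

lemma continuous_inner_sub (z e : E2) : Continuous fun v : E2 => (inner ℝ (v - z) e : ℝ) := by
  fun_prop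

/-- the sphere `sphere z t` meets `K` on the positive side -/
theorem exists_pos_side {K : Set E2} {z e : E2} {t : ℝ} (ht : 0 < t)
    (hF : Arc.Flat K z e (10 * t) (t / 20))
    (hconn : ∀ b ∈ K, dist b z ≤ 2 * t → b ∈ connectedComponentIn (K ∩ closedBall z (10 * t)) z)
    (hz : z ∈ K) : ∃ p ∈ K ∩ sphere z t, 0 < (inner ℝ (p - z) e : ℝ) := by
  obtain ⟨he, h1, h2⟩ := hF
  by_contra hcon
  push Not at hcon
  obtain ⟨w, hw, hwd⟩ := h2 (3 / 2 * t) (by rw [abs_of_pos (by positivity)]; linarith)
  have hd1 : dist (z + (3 / 2 * t) • e) z = 3 / 2 * t := by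
    rw [dist_eq_norm, add_sub_cancel_left, norm_smul, he, mul_one, Real.norm_eq_abs,
      abs_of_pos (by positivity)]
  have hwz : dist w z ≤ 2 * t := by
    have := dist_triangle w (z + (3 / 2 * t) • e) z
    linarith
  have hwz' : t ≤ dist w z := by
    have := dist_triangle_left (z + (3 / 2 * t) • e) z w
    linarith
  have hwe : 0 ≤ (inner ℝ (w - z) e : ℝ) := by
    have e1 : w - z = (w - (z + (3 / 2 * t) • e)) + (3 / 2 * t) • e := by abel
    have e2 := abs_real_inner_le_norm (w - (z + (3 / 2 * t) • e)) e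
    rw [he, mul_one, ← dist_eq_norm] at e2
    rw [e1, inner_add_left, inner_smul_left, real_inner_self_eq_norm_sq, he]
    simp only [conj_trivial]
    have := (abs_le.1 e2).1
    nlinarith
  set C := connectedComponentIn (K ∩ closedBall z (10 * t)) z with hC
  have hCp : IsPreconnected C := isPreconnected_connectedComponentIn
  have hCK : C ⊆ K ∩ closedBall z (10 * t) := connectedComponentIn_subset _ _
  have hzC : z ∈ C := mem_connectedComponentIn ⟨hz, mem_closedBall_self (by positivity)⟩
  have hwC : w ∈ C := hconn w hw hwz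
  rw [isPreconnected_closed_iff] at hCp
  obtain ⟨v, hvC, hvA, hvB⟩ := hCp
    ({v | t ≤ dist v z} ∩ {v | 0 ≤ (inner ℝ (v - z) e : ℝ)})
    (closedBall z t ∪ {v | (inner ℝ (v - z) e : ℝ) ≤ 0})
    ((isClosed_le continuous_const (continuous_id.dist continuous_const)).inter
      (isClosed_le continuous_const (continuous_inner_sub z e)))
    (isClosed_closedBall.union (isClosed_le (continuous_inner_sub z e) continuous_const))
    (by
      intro v _
      by_cases hv : dist v z ≤ t
      · exact Or.inr (Or.inl hv)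
      · rcases le_total 0 (inner ℝ (v - z) e : ℝ) with h | h
        · exact Or.inl ⟨(not_le.1 hv).le, h⟩
        · exact Or.inr (Or.inr h))
    ⟨w, hwC, hwz', hwe⟩
    ⟨z, hzC, Or.inl (mem_closedBall_self ht.le)⟩
  have hvK := hCK hvC
  have hJ := h1 v hvK.1 hvK.2
  have hne := inner_ne_zero_of_strip he ht hJ hvA.1
  have hpos : 0 < (inner ℝ (v - z) e : ℝ) := lt_of_le_of_ne hvA.2 (Ne.symm hne)
  rcases hvB with hvB | hvB
  · have hvs : v ∈ sphere z t := by
      rw [mem_sphere]
      exact le_antisymm hvB hvA.1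
    exact absurd hpos (not_lt.2 (hcon v ⟨hvK.1, hvs⟩))
  · exact absurd hpos (not_lt.2 hvB)

lemma flat_neg {K : Set E2} {z e : E2} {ρ E : ℝ} (h : Arc.Flat K z e ρ E) :
    Arc.Flat K z (-e) ρ E := by
  obtain ⟨he, h1, h2⟩ := h
  refine ⟨by rw [norm_neg, he], fun w hw hd => ?_, fun t ht => ?_⟩
  · rw [Arc.J_neg, inner_neg_right, abs_neg]
    exact h1 w hw hd
  · obtain ⟨w, hw, hd⟩ := h2 (-t) (by rwa [abs_neg])
    refine ⟨w, hw, ?_⟩
    rwa [smul_neg, ← neg_smul]

theorem exists_neg_side {K : Set E2} {z e : E2} {t : ℝ} (ht : 0 < t)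
    (hF : Arc.Flat K z e (10 * t) (t / 20))
    (hconn : ∀ b ∈ K, dist b z ≤ 2 * t → b ∈ connectedComponentIn (K ∩ closedBall z (10 * t)) z)
    (hz : z ∈ K) : ∃ q ∈ K ∩ sphere z t, (inner ℝ (q - z) e : ℝ) < 0 := by
  obtain ⟨q, hq, h⟩ := exists_pos_side ht (flat_neg hF) hconn hz
  refine ⟨q, hq, ?_⟩
  rw [inner_neg_right] at h
  linarith

/-- if the sphere meets `K` in exactly two points, `K ∩ closedBall z t` is connected -/
theorem preconnected_of_two {K : Set E2} {z e p q : E2} {t : ℝ} (ht : 0 < t)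
    (hK : IsCompact (K ∩ closedBall z (10 * t)))
    (hF : Arc.Flat K z e (10 * t) (t / 20))
    (hconn : ∀ a ∈ K, dist a z ≤ t → ∀ b ∈ K, dist b z ≤ t →
      b ∈ connectedComponentIn (K ∩ closedBall z (10 * t)) a)
    (hpq : K ∩ sphere z t = {p, q}) (hp : 0 < (inner ℝ (p - z) e : ℝ))
    (hq : (inner ℝ (q - z) e : ℝ) < 0) : IsPreconnected (K ∩ closedBall z t) := by
  obtain ⟨he, h1, h2⟩ := hF
  have hpK : p ∈ K ∩ sphere z t := by rw [hpq]; simp
  have hqK : q ∈ K ∩ sphere z t := by rw [hpq]; simp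
  have hR : t ≤ 10 * t := by linarith
  have hopen : (K ∩ closedBall z (10 * t)) \ ball z t =
      (K ∩ closedBall z (10 * t)) ∩ {v | t ≤ dist v z} := by
    ext v
    simp only [Set.mem_sdiff, mem_ball, not_lt, mem_inter_iff, mem_ofPred_eq]
  have hout : IsClosed ((K ∩ closedBall z (10 * t)) ∩ {v | t ≤ dist v z}) :=
    hK.isClosed.inter (isClosed_le continuous_const (continuous_id.dist continuous_const))
  let P : Bool → Set E2 := fun b => ((K ∩ closedBall z (10 * t)) ∩ {v | t ≤ dist v z}) ∩
    (if b then {v | 0 ≤ (inner ℝ (v - z) e : ℝ)} else {v | (inner ℝ (v - z) e : ℝ) ≤ 0})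
  let pp : Bool → E2 := fun b => if b then p else q
  refine isPreconnected_inter_closedBall hR hK (fun a ha b hb => hconn a ha.1 ha.2 b hb.1 hb.2)
    P pp ?_ ?_ ?_ ?_ ?_
  · intro b
    refine hout.inter ?_
    cases b
    · simp only [Bool.false_eq_true, ↓reduceIte]
      exact isClosed_le (continuous_inner_sub z e) continuous_const
    · simp only [↓reduceIte]
      exact isClosed_le continuous_const (continuous_inner_sub z e)
  · have key : Disjoint (P true) (P false) := by
      rw [Set.disjoint_left]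
      intro v hv hv'
      simp only [P, ↓reduceIte, Bool.false_eq_true] at hv hv'
      have h3 : (inner ℝ (v - z) e : ℝ) = 0 := le_antisymm hv'.2 hv.2
      exact inner_ne_zero_of_strip he ht (h1 v hv.1.1.1 hv.1.1.2) hv.1.2 h3
    intro i j hij
    cases i <;> cases j
    · exact absurd rfl hij
    · exact key.symm
    · exact key
    · exact absurd rfl hij
  · rw [hopen]
    intro v hv
    rcases le_total 0 (inner ℝ (v - z) e : ℝ) with h | h
    · exact mem_iUnion.2 ⟨true, hv, by simpa using h⟩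
    · exact mem_iUnion.2 ⟨false, hv, by simpa using h⟩
  · intro b v hv
    exact hv.1.1
  · intro b
    ext v
    constructor
    · rintro ⟨hv, hvt⟩
      have hvs : v ∈ K ∩ sphere z t := ⟨hv.1.1.1, le_antisymm hvt hv.1.2⟩
      rw [hpq] at hvs
      cases b
      · simp only [P, Bool.false_eq_true, ↓reduceIte, mem_inter_iff, mem_ofPred_eq] at hv
        rcases hvs with rfl | rfl
        · exact absurd hp (not_lt.2 hv.2)
        · simp [pp]
      · simp only [P, ↓reduceIte, mem_inter_iff, mem_ofPred_eq] at hv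
        rcases hvs with rfl | rfl
        · simp [pp]
        · exact absurd hq (not_lt.2 hv.2)
    · intro hv
      cases b
      · simp only [pp, Bool.false_eq_true, ↓reduceIte, mem_singleton_iff] at hv
        subst hv
        have hd : dist v z = t := hqK.2
        refine ⟨⟨⟨⟨hqK.1, ?_⟩, ?_⟩, ?_⟩, ?_⟩
        · rw [mem_closedBall]; linarith
        · simp only [mem_ofPred_eq]; linarith
        · simpa using hq.le
        · rw [mem_closedBall]; linarith
      · simp only [pp, ↓reduceIte, mem_singleton_iff] at hv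
        subst hv
        have hd : dist v z = t := hpK.2
        refine ⟨⟨⟨⟨hpK.1, ?_⟩, ?_⟩, ?_⟩, ?_⟩
        · rw [mem_closedBall]; linarith
        · simp only [mem_ofPred_eq]; linarith
        · simpa using hp.le
        · rw [mem_closedBall]; linarith

end Crest.Agent.R135.EpsLoc
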