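import Crest.Agent.R135.EpsLoc2
import Crest.Agent.R135.GMT1
import Crest.Agent.R135.QMCirc4

/-!
# R135, block EPS (helper983): length from the number of crossings, selection of good radii
-/

set_option autoImplicit false

open MeasureTheory Set Filter Topology Metric
open scoped ENNReal NNReal ContDiff Gradient

namespace Crest.Agent.R135.EpsLoc

open Crest.Agent.R135

lemma lipschitz_dist_right (z : E2) (K : Set E2) : LipschitzOnWith 1 (fun w : E2 => dist w z) K :=
  (LipschitzWith.dist_left z).lipschitzOnWith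

/-- length of the part of `K` in the annuli `dist w z ∈ A` -/
theorem mul_volume_le_len {K : Set E2} {z : E2} {A : Set ℝ} (hA : MeasurableSet A) (m : ℕ)
    (hm : ∀ t ∈ A, (m : ℕ∞) ≤ (K ∩ sphere z t).encard) :
    (m : ℝ≥0∞) * volume A ≤ len (K ∩ (fun w => dist w z) ⁻¹' A) := by
  refine mul_volume_le_hausdorffMeasure (fun w => dist w z) K (lipschitz_dist_right z K) A hA m ?_
  intro t ht
  exact hm t ht

/-- `m` crossings of every small sphere give length at least `m R` -/
theorem ofReal_mul_le_len {K : Set E2} {z : E2} {R : ℝ} (m : ℕ)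
    (hm : ∀ t ∈ Ioo 0 R, (m : ℕ∞) ≤ (K ∩ sphere z t).encard) :
    ENNReal.ofReal (m * R) ≤ len (K ∩ ball z R) := by
  have h1 := mul_volume_le_len measurableSet_Ioo m hm
  rw [Real.volume_Ioo, sub_zero, ← ENNReal.ofReal_natCast, ← ENNReal.ofReal_mul (by positivity)]
    at h1
  refine h1.trans (measure_mono ?_)
  rintro w ⟨hw, hwt⟩
  exact ⟨hw, hwt.2⟩

theorem mul_le_Lr {U : Set E2} {lam : ℝ} {u : E2 → ℝ} {K : Set E2} {z : E2} {R : ℝ}
    (hq : IsQM U lam u K) (hR : closedBall z R ⊆ U) (m : ℕ)
    (hm : ∀ t ∈ Ioo 0 R, (m : ℕ∞) ≤ (K ∩ sphere z t).encard) : m * R ≤ Lr K z R := by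
  have h1 := (ofReal_mul_le_len m hm).trans
    (measure_mono (inter_subset_inter_right _ ball_subset_closedBall))
  exact (ENNReal.ofReal_le_iff_le_toReal (hq.len_fin z R hR).ne).1 h1

/-- the set of radii where `cirE` is large is small -/
theorem volume_cirE_gt_le {U : Set E2} {lam : ℝ} {u : E2 → ℝ} {K : Set E2} {z : E2} {R s : ℝ}
    (hq : IsQM U lam u K) (hR : closedBall z R ⊆ U) (hR0 : 0 ≤ R) (hs : 0 < s) :
    volume {t ∈ Ioo 0 R | Dr u K z R / s < cirE u z t} ≤ ENNReal.ofReal s := by
  have hint := QMC.intervalIntegrable_cirE hq hR hR0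
  have hsub := QMC.Dr_sub hq hR le_rfl hR0 le_rfl
  rw [QMC.Dr_of_nonpos u K z le_rfl, sub_zero, intervalIntegral.integral_of_le hR0,
    integral_Ioc_eq_integral_Ioo] at hsub
  rw [intervalIntegrable_iff_integrableOn_Ioo_of_le hR0] at hint
  set μ := volume.restrict (Ioo 0 R) with hμ
  have hnn : 0 ≤ᵐ[μ] fun t => cirE u z t := by
    rw [EventuallyLE, hμ, ae_restrict_iff' measurableSet_Ioo]
    exact Eventually.of_forall fun t ht => QMC.cirE_nonneg u z ht.1.le
  have hD0 : 0 ≤ Dr u K z R := QMC.Dr_nonneg u K z R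
  have hset : {t ∈ Ioo 0 R | Dr u K z R / s < cirE u z t}
      = {t | Dr u K z R / s < cirE u z t} ∩ Ioo 0 R := by
    ext t; simp [and_comm]
  rcases hD0.lt_or_eq with hD | hD
  · have h1 := mul_meas_ge_le_integral_of_nonneg hnn hint (Dr u K z R / s)
    rw [← hsub] at h1
    have h2 : μ.real {t | Dr u K z R / s ≤ cirE u z t} ≤ s := by
      have : 0 < Dr u K z R / s := by positivity
      by_contra hcon
      push Not at hcon
      have h3 : Dr u K z R / s * s < Dr u K z R / s * μ.real {t | Dr u K z R / s ≤ cirE u z t} :=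
        mul_lt_mul_of_pos_left hcon this
      rw [div_mul_cancel₀ _ hs.ne'] at h3
      linarith
    have hfin : μ {t | Dr u K z R / s ≤ cirE u z t} ≠ ⊤ := by
      apply ne_top_of_le_ne_top _ (measure_mono (subset_univ _))
      rw [hμ, Measure.restrict_apply_univ, Real.volume_Ioo]
      exact ENNReal.ofReal_ne_top
    calc volume {t ∈ Ioo 0 R | Dr u K z R / s < cirE u z t}
        ≤ μ {t | Dr u K z R / s < cirE u z t} := by
          rw [hset]
          exact Measure.le_restrict_apply _ _
      _ ≤ μ {t | Dr u K z R / s ≤ cirE u z t} := by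
          refine measure_mono ?_
          intro t ht
          have ht' : Dr u K z R / s < cirE u z t := ht
          exact ht'.le
      _ = ENNReal.ofReal (μ.real {t | Dr u K z R / s ≤ cirE u z t}) := by
          rw [measureReal_def, ENNReal.ofReal_toReal hfin]
      _ ≤ ENNReal.ofReal s := ENNReal.ofReal_le_ofReal h2
  · rw [← hD, zero_div]
    have h0 : ∫ t, cirE u z t ∂μ = 0 := by rw [← hsub, ← hD]
    rw [integral_eq_zero_iff_of_nonneg_ae hnn hint] at h0
    have h1 : μ {t | 0 < cirE u z t} = 0 := by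
      have : {t | 0 < cirE u z t} ⊆ {t | ¬ (cirE u z t = (0 : ℝ → ℝ) t)} := by
        intro t (ht : 0 < cirE u z t)
        exact ht.ne'
      exact measure_mono_null this h0
    calc volume {t ∈ Ioo 0 R | 0 < cirE u z t}
        ≤ μ {t | 0 < cirE u z t} := by
          have : {t ∈ Ioo 0 R | 0 < cirE u z t} = {t | 0 < cirE u z t} ∩ Ioo 0 R := by
            ext t; simp [and_comm]
          rw [this]
          exact Measure.le_restrict_apply _ _
      _ = 0 := h1
      _ ≤ _ := bot_le

/-- **Selection of a good radius.** If all spheres meet `K` in at least `m` points and the length is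
less than `(4 m + 1) s`, then some good sphere of radius `t ∈ (2s, 4s)` meets `K` in exactly `m`
points and carries little energy. -/
theorem exists_good_radius {U : Set E2} {lam : ℝ} {u : E2 → ℝ} {K : Set E2} {z : E2} {s : ℝ}
    (hq : IsQM U lam u K) (hs : 0 < s) (hR : closedBall z (4 * s) ⊆ U) (m : ℕ)
    (hm : ∀ t ∈ Ioo 0 (4 * s), (m : ℕ∞) ≤ (K ∩ sphere z t).encard)
    (hL : Lr K z (4 * s) < (4 * m + 1) * s) :
    ∃ t ∈ Ioo (2 * s) (4 * s), (K ∩ sphere z t).encard = m ∧
      GoodCirc K (fun y => gradient u y) z t ∧ cirE u z t ≤ Dr u K z (4 * s) / s := by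
  by_contra hcon
  push Not at hcon
  set R := 4 * s with hRdef
  have hR0 : 0 < R := by positivity
  -- the bad set
  set B : Set ℝ := {t ∈ Ioo 0 R | Dr u K z R / s < cirE u z t} with hB
  set N : Set ℝ := {t | ¬ (t ∈ Ioo 0 R → GoodCirc K (fun y => gradient u y) z t)} with hN
  have hN0 : volume N = 0 := QMC.ae_goodCirc_qm hq hR
  have hBs : volume B ≤ ENNReal.ofReal s := volume_cirE_gt_le hq hR hR0.le hs
  set T := toMeasurable volume (B ∪ N) with hT
  have hTm : MeasurableSet T := measurableSet_toMeasurable _ _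
  have hTv : volume T ≤ ENNReal.ofReal s := by
    rw [hT, measure_toMeasurable]
    refine (measure_union_le _ _).trans ?_
    rw [hN0, add_zero]
    exact hBs
  set A := Ioo (2 * s) R \ T with hA
  have hAm : MeasurableSet A := measurableSet_Ioo.diff hTm
  have hAR : A ⊆ Ioo 0 R := fun t ht => ⟨by have := ht.1.1; linarith, ht.1.2⟩
  have hAv : ENNReal.ofReal s ≤ volume A := by
    have h1 : volume (Ioo (2 * s) R) ≤ volume A + volume T := by
      refine (measure_mono ?_).trans (measure_union_le _ _)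
      intro t ht
      by_cases h : t ∈ T
      · exact Or.inr h
      · exact Or.inl ⟨ht, h⟩
    rw [Real.volume_Ioo] at h1
    have h2 : ENNReal.ofReal (R - 2 * s) = ENNReal.ofReal s + ENNReal.ofReal s := by
      rw [← ENNReal.ofReal_add hs.le hs.le]
      congr 1
      rw [hRdef]; ring
    rw [h2] at h1
    have h3 : ENNReal.ofReal s + ENNReal.ofReal s ≤ volume A + ENNReal.ofReal s :=
      h1.trans (by gcongr)
    exact (ENNReal.add_le_add_iff_right ENNReal.ofReal_ne_top).1 h3
  have hAfin : volume A ≠ ⊤ := by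
    apply ne_top_of_le_ne_top _ (measure_mono hAR)
    rw [Real.volume_Ioo]
    exact ENNReal.ofReal_ne_top
  -- more crossings on `A`
  have hAm1 : ∀ t ∈ A, ((m + 1 : ℕ) : ℕ∞) ≤ (K ∩ sphere z t).encard := by
    intro t ht
    have htT : t ∉ B ∪ N := fun h => ht.2 (subset_toMeasurable _ _ h)
    have htR := hAR ht
    have hgood : GoodCirc K (fun y => gradient u y) z t := by
      by_contra hbad
      exact htT (Or.inr (fun h => hbad (h htR)))
    have hcir : cirE u z t ≤ Dr u K z R / s := by
      by_contra hbad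
      exact htT (Or.inl ⟨htR, not_le.1 hbad⟩)
    have hne : (K ∩ sphere z t).encard ≠ m := by
      intro h
      exact absurd hcir (not_le.2 (hcon t ht.1 h hgood))
    have h1 := hm t htR
    have h2 : (m : ℕ∞) < (K ∩ sphere z t).encard := lt_of_le_of_ne h1 (Ne.symm hne)
    rw [Nat.cast_add, Nat.cast_one]
    exact Order.add_one_le_of_lt h2
  have h1 := mul_volume_le_len hAm (m + 1) hAm1
  have h2 := mul_volume_le_len (K := K) (z := z) (measurableSet_Ioo.diff hAm) m
    (fun t (ht : t ∈ Ioo 0 R \ A) => hm t ht.1)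
  have hdisj : Disjoint (K ∩ (fun w => dist w z) ⁻¹' A)
      (K ∩ (fun w => dist w z) ⁻¹' (Ioo 0 R \ A)) := by
    rw [Set.disjoint_left]
    rintro w ⟨-, hw⟩ ⟨-, hw'⟩
    exact hw'.2 hw
  have hmeas : MeasurableSet ((fun w : E2 => dist w z) ⁻¹' A) :=
    (measurable_id.dist measurable_const) hAm
  have h3 : len (K ∩ (fun w => dist w z) ⁻¹' A) + len (K ∩ (fun w => dist w z) ⁻¹' (Ioo 0 R \ A))
      ≤ len (K ∩ closedBall z R) := by
    have h4 := measure_inter_add_sdiff (μ := Measure.hausdorffMeasure 1) (K ∩ closedBall z R) hmeas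
    unfold len
    rw [← h4]
    refine add_le_add (measure_mono ?_) (measure_mono ?_)
    · rintro w ⟨hw, hwA⟩
      exact ⟨⟨hw, (hAR hwA).2.le⟩, hwA⟩
    · rintro w ⟨hw, hwA⟩
      exact ⟨⟨hw, hwA.1.2.le⟩, hwA.2⟩
  have h5 : volume (Ioo 0 R \ A) = ENNReal.ofReal R - volume A := by
    rw [measure_sdiff hAR hAm.nullMeasurableSet hAfin, Real.volume_Ioo, sub_zero]
  have h6 : ((m + 1 : ℕ) : ℝ≥0∞) * volume A + m * volume (Ioo 0 R \ A) ≤ len (K ∩ closedBall z R) :=
    (add_le_add h1 h2).trans h3
  have h7 : (m : ℝ≥0∞) * ENNReal.ofReal R + ENNReal.ofReal s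
      ≤ ((m + 1 : ℕ) : ℝ≥0∞) * volume A + m * volume (Ioo 0 R \ A) := by
    have hle : volume A ≤ ENNReal.ofReal R := by
      have := measure_mono (μ := volume) hAR
      rwa [Real.volume_Ioo, sub_zero] at this
    rw [h5]
    have : (m : ℝ≥0∞) * ENNReal.ofReal R
        = m * volume A + m * (ENNReal.ofReal R - volume A) := by
      rw [← mul_add, add_tsub_cancel_of_le hle]
    rw [this]
    push_cast
    rw [add_mul, one_mul]
    calc (m : ℝ≥0∞) * volume A + m * (ENNReal.ofReal R - volume A) + ENNReal.ofReal s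
        ≤ (m : ℝ≥0∞) * volume A + m * (ENNReal.ofReal R - volume A) + volume A := by gcongr
      _ = _ := by ring
  have h8 : ENNReal.ofReal ((4 * m + 1) * s) ≤ len (K ∩ closedBall z R) := by
    refine le_trans (le_of_eq ?_) (h7.trans h6)
    rw [← ENNReal.ofReal_natCast, ← ENNReal.ofReal_mul (by positivity),
      ← ENNReal.ofReal_add (by positivity) hs.le]
    congr 1
    rw [hRdef]; ring
  have h9 := (ENNReal.ofReal_le_iff_le_toReal (hq.len_fin z R hR).ne).1 h8
  unfold Lr at hL
  linarith

end Crest.Agent.R135.EpsLoc
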