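import Crest.Agent.R135.StarComp5
import Crest.Agent.R135.IFDefs2

/-!
# R135: star competitor (helper560), part 6: circles without crack points, final interface form
-/

set_option autoImplicit false

open MeasureTheory Set Filter Topology Metric
open scoped ENNReal NNReal ContDiff Gradient

namespace Crest.Agent.R135

/-- circle without crack points -/
theorem IsQM.enE_le_radial_empty {U K : Set E2} {lam : ℝ} {u : E2 → ℝ} (hq : IsQM U lam u K)
    {y : E2} {ρ : ℝ} (hρ : 0 < ρ) (hball : closedBall y ρ ⊆ U) (hemp : K ∩ sphere y ρ = ∅) :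
    enE u K (closedBall y ρ) ≤
      ENNReal.ofReal (500 * ρ ^ 2) *
        (∫⁻ θ in Ioo (-Real.pi) Real.pi, ‖∇ u (cpt y ρ θ)‖ₑ ^ 2) +
      ENNReal.ofReal (lam * ρ ^ 2) := by
  have hsub : (K ∩ sphere y ρ).Subsingleton := by rw [hemp]; exact subsingleton_empty
  set c : ℝ := u (cpt y ρ 0) with hc
  set h : ℝ := 1 / 2 with hhdef
  have hh : 0 < h := by norm_num
  have hh1 : h < 1 := by norm_num
  set I := ∫⁻ θ in Ioo (-Real.pi) Real.pi, ‖∇ u (cpt y ρ θ)‖ₑ ^ 2 with hI
  have hfree : ∀ θ : ℝ, cpt y ρ θ ∉ K := by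
    intro θ hθ
    have : cpt y ρ θ ∈ K ∩ sphere y ρ := ⟨hθ, cpt_mem_sphere hρ.le⟩
    rw [hemp] at this
    exact this
  have hseg0 : {x : E2 | (1 - h) * ρ ≤ dist x y ∧ dist x y ≤ ρ ∧ radProj y ρ x ∈ K} = ∅ := by
    rw [eq_empty_iff_forall_notMem]
    rintro x ⟨h1, h2, h3⟩
    have hxy : x ≠ y := by
      rintro rfl
      rw [dist_self] at h1
      have : 0 < (1 - h) * ρ := by
        apply mul_pos _ hρ; linarith
      linarith
    have : radProj y ρ x ∈ K ∩ sphere y ρ := ⟨h3, radProj_mem_sphere hρ.le hxy⟩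
    rw [hemp] at this
    exact this
  have hlenL : len (radL K y ρ h ∩ closedBall y ρ) = 0 := by
    have h1 : radL K y ρ h ∩ closedBall y ρ = ∅ := by
      rw [eq_empty_iff_forall_notMem]
      rintro x ⟨hx | hx, hxb⟩
      · have h2 := hx.2
        rw [mem_ball, not_lt] at h2
        have : x ∈ K ∩ sphere y ρ := ⟨hx.1, le_antisymm hxb h2⟩
        rw [hemp] at this
        exact this
      · rw [hseg0] at hx; exact hx
    rw [h1]
    exact measure_empty
  have hLopen : IsOpen (U \ radL K y ρ h) := isOpen_diff_radL hq.isOpen hq.closed hρ hh1 hball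
  have hcomp : IsComp U u K y ρ (radW u y ρ h c) (radL K y ρ h) := by
    refine ⟨?_, closure_radL_inter hq.closed hρ hh1 hball, ?_, ?_, ?_, ?_, keeps_radL hρ hball hsub⟩
    · rintro x (hx | hx)
      · exact hq.sub hx.1
      · exact hball (mem_closedBall.2 hx.2.1)
    · rw [hlenL]; simp
    · ext x
      constructor
      · rintro ⟨hx | hx, hxb⟩
        · exact ⟨hx.1, hxb⟩
        · exact absurd (mem_closedBall.2 hx.2.1) hxb
      · rintro ⟨hx, hxb⟩
        exact ⟨Or.inl ⟨hx, fun hc => hxb (ball_subset_closedBall hc)⟩, hxb⟩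
    · exact locallyLipschitzOn_radW hρ hh hh1 hball (fun x hx => hq.contDiffAt hx) hLopen
    · rintro z ⟨_, hz⟩
      apply radW_of_le
      by_contra hlt
      exact hz (Or.inr (mem_closedBall.2 (not_le.1 hlt).le))
  refine (hq.min y ρ hρ hball _ _ hcomp).trans ?_
  gcongr
  unfold enE
  rw [hlenL, add_zero]
  unfold dirE
  refine (lintegral_mono_set sdiff_subset).trans ?_
  have hsph : (closedBall y ρ : Set E2) =ᵐ[volume] ball y ρ := by
    have h1 : volume (sphere y ρ) = 0 := Measure.addHaar_sphere volume y ρ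
    rw [← ball_union_sphere]
    exact union_ae_eq_left_of_ae_eq_empty (ae_eq_empty.2 h1)
  rw [setLIntegral_congr hsph]
  refine (lintegral_radW_le hρ hh hh1 (ae_of_all _ fun θ =>
    hq.contDiffAt ⟨hball (sphere_subset_closedBall (cpt_mem_sphere hρ.le)), hfree θ⟩)).trans ?_
  have hpi := Real.pi_pos
  have hosc : ∫⁻ θ in Ioo (-Real.pi) Real.pi, ‖u (cpt y ρ θ) - c‖ₑ ^ 2 ≤
      ENNReal.ofReal (4 * Real.pi ^ 2 * ρ ^ 2) * I := by
    calc ∫⁻ θ in Ioo (-Real.pi) Real.pi, ‖u (cpt y ρ θ) - c‖ₑ ^ 2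
        ≤ ∫⁻ θ in Ioo (-Real.pi) Real.pi, ENNReal.ofReal (2 * Real.pi * ρ ^ 2) * I := by
          apply lintegral_mono_ae
          filter_upwards [ae_restrict_mem measurableSet_Ioo] with θ hθ
          exact StarC.osc_arc hq hρ hball (α := -Real.pi) (β := Real.pi) (by linarith)
            (fun φ _ => hfree φ) hθ ⟨by linarith, by linarith⟩
      _ = ENNReal.ofReal (4 * Real.pi ^ 2 * ρ ^ 2) * I := by
          rw [lintegral_const, Measure.restrict_apply_univ, Real.volume_Ioo, mul_right_comm,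
            ← ENNReal.ofReal_mul (by positivity)]
          congr 2; ring
  have hpi2 : Real.pi ^ 2 < 10 := by
    have h3 := Real.pi_lt_d2
    nlinarith
  calc ENNReal.ofReal (1 / h) * (∫⁻ θ in Ioo (-Real.pi) Real.pi, ‖u (cpt y ρ θ) - c‖ₑ ^ 2) +
        ENNReal.ofReal (h * ρ ^ 2 / (1 - h)) * I
      ≤ ENNReal.ofReal (1 / h) * (ENNReal.ofReal (4 * Real.pi ^ 2 * ρ ^ 2) * I) +
        ENNReal.ofReal (h * ρ ^ 2 / (1 - h)) * I := by gcongr
    _ = ENNReal.ofReal (1 / h * (4 * Real.pi ^ 2 * ρ ^ 2) + h * ρ ^ 2 / (1 - h)) * I := by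
        rw [← mul_assoc, ← ENNReal.ofReal_mul (by positivity), ← add_mul,
          ← ENNReal.ofReal_add (by positivity) (by
            rw [hhdef]; norm_num; positivity)]
    _ ≤ ENNReal.ofReal (500 * ρ ^ 2) * I := by
        have e : 1 / h * (4 * Real.pi ^ 2 * ρ ^ 2) + h * ρ ^ 2 / (1 - h) ≤ 500 * ρ ^ 2 := by
          rw [hhdef]; norm_num; nlinarith [sq_nonneg ρ]
        exact mul_le_mul_left (ENNReal.ofReal_le_ofReal e) _

/-- cone competitor with free vertex, interface form -/
theorem cone_competitor_proof : ∃ C : ℝ, 0 < C ∧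
    ∀ {U : Set E2} {lam : ℝ} {u : E2 → ℝ} {K : Set E2}, IsSQM U lam u K →
      ∀ (y : E2) (s : ℝ), 0 < s → closedBall y s ⊆ U →
        ∀ F : Finset E2, K ∩ sphere y s = F →
        IntegrableOn (fun θ => ‖gradient u (cpt y s θ)‖ ^ 2) (Ioo (-Real.pi) Real.pi) →
        ∀ p₀ ∈ closedBall y (s / 2),
          Dr u K y s + Lr K y s ≤
            ∑ p ∈ F, dist p p₀ + C * (s * cirE u y s) + lam * s ^ 2 := by
  refine ⟨500, by norm_num, ?_⟩
  intro U lam u K h y s hs hball F hF hint p₀ hp₀
  rcases (K ∩ sphere y s).eq_empty_or_nonempty with hemp | hne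
  · have hF0 : F = ∅ := by
      rw [hemp] at hF
      exact Finset.coe_eq_empty.1 hF.symm
    rw [hF0, Finset.sum_empty, zero_add]
    have h1 := h.toIsQM.enE_le_radial_empty hs hball hemp
    rw [ofReal_circI_norm_sq hint] at h1
    have hc0 : 0 ≤ circI (fun z => ‖gradient u z‖ ^ 2) y s := by
      rw [circI]
      exact intervalIntegral.integral_nonneg (by linarith [Real.pi_pos]) fun _ _ => by positivity
    have hlam := h.toIsQM.lam_nonneg
    rw [← ENNReal.ofReal_mul (by positivity), ← ENNReal.ofReal_add (by positivity) (by positivity)]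
      at h1
    have hD : dirE u K (ball y s) ≤ dirE u K (closedBall y s) := by
      unfold dirE
      exact lintegral_mono_set (sdiff_subset_sdiff_left ball_subset_closedBall)
    have hDfin : dirE u K (closedBall y s) ≠ ⊤ := (h.toIsQM.dir_fin y s hball).ne
    have hLfin : len (K ∩ closedBall y s) ≠ ⊤ := (h.toIsQM.len_fin y s hball).ne
    have h2 : ENNReal.ofReal (Dr u K y s + Lr K y s) ≤ enE u K (closedBall y s) := by
      rw [Dr, Lr, ENNReal.ofReal_add ENNReal.toReal_nonneg ENNReal.toReal_nonneg,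
        ENNReal.ofReal_toReal (ne_top_of_le_ne_top hDfin hD), ENNReal.ofReal_toReal hLfin]
      unfold enE
      gcongr
    have h3 := (ENNReal.ofReal_le_ofReal_iff (by positivity)).1 (h2.trans h1)
    refine h3.trans (le_of_eq ?_)
    rw [cirE]; ring
  · have hfin : (K ∩ sphere y s).Finite := by rw [hF]; exact F.finite_toSet
    have h1 := h.star_comp_real hs hball hfin hne (z := p₀) (mem_closedBall.1 hp₀) hint
    have hFe : hfin.toFinset = F := by
      ext p
      rw [Finite.mem_toFinset, hF, Finset.mem_coe]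
    rw [hFe] at h1
    have h2 : ∑ p ∈ F, dist p₀ p = ∑ p ∈ F, dist p p₀ :=
      Finset.sum_congr rfl fun p _ => dist_comm _ _
    rw [h2] at h1
    linarith

end Crest.Agent.R135
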