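import Crest.Agent.R135.IFDefs2
import Crest.Agent.R135.StarComp6

/-! INTERFACE cone_competitor: proved in StarComp6.lean (helper560). -/

set_option autoImplicit false

open MeasureTheory Set Filter Topology Metric
open scoped ENNReal NNReal ContDiff Gradient
open Crest.AnalysisR.PDE.OnePhase Crest.AnalysisR.PDE.MumfordShah

namespace Crest.Agent.R135

/-- cone competitor with free vertex: `K ∩ ∂B_s(y)` finite, any `p₀ ∈ closedBall y (s/2)` -/
theorem cone_competitor : ∃ C : ℝ, 0 < C ∧
    ∀ {U : Set E2} {lam : ℝ} {u : E2 → ℝ} {K : Set E2}, IsSQM U lam u K →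
      ∀ (y : E2) (s : ℝ), 0 < s → closedBall y s ⊆ U →
        ∀ F : Finset E2, K ∩ sphere y s = F →
        IntegrableOn (fun θ => ‖gradient u (cpt y s θ)‖ ^ 2) (Ioo (-Real.pi) Real.pi) →
        ∀ p₀ ∈ closedBall y (s / 2),
          Dr u K y s + Lr K y s ≤
            ∑ p ∈ F, dist p p₀ + C * (s * cirE u y s) + lam * s ^ 2 :=
  cone_competitor_proof

end Crest.Agent.R135
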