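import Crest.Agent.R135.EpsLoc3

/-!
# R135, block EPS (helper983): the propeller regime, sectors, connectedness, good radii
-/

set_option autoImplicit false

open MeasureTheory Set Filter Topology Metric
open scoped ENNReal NNReal ContDiff Gradient

namespace Crest.Agent.R135.EpsLoc

open Crest.Agent.R135

/-- the three directions of a propeller -/
noncomputable def d3 (e : E2) (k : Fin 3) : E2 := Arc.rt (Arc.a3 k) (Arc.b3 k) e

lemma norm_d3 {e : E2} (he : ‖e‖ = 1) (k : Fin 3) : ‖d3 e k‖ = 1 := by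
  rw [d3, Arc.norm_rt (Arc.rotGroup3.unit k), he]

lemma inner_rt {e : E2} (he : ‖e‖ = 1) (a b a' b' : ℝ) :
    (inner ℝ (Arc.rt a b e) (Arc.rt a' b' e) : ℝ) = a * a' + b * b' := by
  have h : e 0 ^ 2 + e 1 ^ 2 = 1 := by rw [← Arc.norm_sq_eq, he]; norm_num
  rw [Arc.inner_eq]
  simp only [Arc.rt, PiLp.add_apply, PiLp.smul_apply, smul_eq_mul, Arc.J_zero', Arc.J_one']
  linear_combination (a * a' + b * b') * h

lemma inner_d3 {e : E2} (he : ‖e‖ = 1) {j k : Fin 3} (h : j ≠ k) :
    (inner ℝ (d3 e j) (d3 e k) : ℝ) = -(1 / 2) := by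
  have h3 : Real.sqrt 3 * Real.sqrt 3 = 3 := Real.mul_self_sqrt (by norm_num)
  rw [d3, d3, inner_rt he]
  fin_cases j <;> fin_cases k <;> first | exact absurd rfl h | (simp [Arc.a3, Arc.b3]; try nlinarith)

lemma inner_d3_self {e : E2} (he : ‖e‖ = 1) (k : Fin 3) :
    (inner ℝ (d3 e k) (d3 e k) : ℝ) = 1 := by
  rw [real_inner_self_eq_norm_sq, norm_d3 he]; norm_num

/-- a point near the arm `j`, outside `ball x t`: its position with respect to the directions -/
lemma arm_pos {x v e : E2} {t τ : ℝ} (he : ‖e‖ = 1) (ht : 0 < t) {j : Fin 3} (hτ : 0 ≤ τ)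
    (hd : dist v (x + τ • d3 e j) ≤ t / 200) (hv : t ≤ dist v x) :
    |dist v x - τ| ≤ t / 200 ∧ 0 < (inner ℝ (v - x) (d3 e j) : ℝ) ∧
      ∀ k, k ≠ j → (inner ℝ (v - x) (d3 e k) : ℝ) < 0 := by
  have h1 : dist (x + τ • d3 e j) x = τ := by
    rw [dist_eq_norm, add_sub_cancel_left, norm_smul, norm_d3 he, mul_one, Real.norm_eq_abs,
      abs_of_nonneg hτ]
  have h2 := dist_triangle v (x + τ • d3 e j) x
  have h3 := dist_triangle_left (x + τ • d3 e j) x v
  rw [h1] at h2 h3
  have h4 : ∀ k, |(inner ℝ (v - (x + τ • d3 e j)) (d3 e k) : ℝ)| ≤ t / 200 := by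
    intro k
    have := abs_real_inner_le_norm (v - (x + τ • d3 e j)) (d3 e k)
    rw [norm_d3 he, mul_one, ← dist_eq_norm] at this
    linarith
  have h5 : ∀ k, (inner ℝ (v - x) (d3 e k) : ℝ)
      = inner ℝ (v - (x + τ • d3 e j)) (d3 e k) + τ * inner ℝ (d3 e j) (d3 e k) := by
    intro k
    have : v - x = (v - (x + τ • d3 e j)) + τ • d3 e j := by abel
    rw [this, inner_add_left, inner_smul_left]
    simp
  refine ⟨abs_le.2 ⟨by linarith, by linarith⟩, ?_, ?_⟩
  · rw [h5 j, inner_d3_self he]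
    have := (abs_le.1 (h4 j)).1
    linarith
  · intro k hk
    rw [h5 k, inner_d3 he (Ne.symm hk)]
    have := (abs_le.1 (h4 k)).2
    linarith

/-- the sphere `sphere x t` meets `K` near each arm -/
theorem exists_arm_point {K : Set E2} {x e : E2} {t : ℝ} (ht : 0 < t)
    (hF : Arc.StarAt Arc.a3 Arc.b3 K x e (10 * t) (t / 200))
    (hconn : ∀ b ∈ K, dist b x ≤ 2 * t → b ∈ connectedComponentIn (K ∩ closedBall x (10 * t)) x)
    (hx : x ∈ K) (k : Fin 3) : ∃ p ∈ K ∩ sphere x t, dist p (x + t • d3 e k) ≤ t / 100 := by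
  obtain ⟨he, h1, h2⟩ := hF
  obtain ⟨w, hw, hwd⟩ := h2 k (3 / 2 * t) (by positivity) (by linarith)
  have hwd' : dist w (x + (3 / 2 * t) • d3 e k) ≤ t / 200 := hwd
  have hd1 : dist (x + (3 / 2 * t) • d3 e k) x = 3 / 2 * t := by
    rw [dist_eq_norm, add_sub_cancel_left, norm_smul, norm_d3 he, mul_one, Real.norm_eq_abs,
      abs_of_pos (by positivity)]
  have hwx : dist w x ≤ 2 * t := by
    have := dist_triangle w (x + (3 / 2 * t) • d3 e k) x
    linarith
  have hwx' : t ≤ dist w x := by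
    have := dist_triangle_left (x + (3 / 2 * t) • d3 e k) x w
    linarith
  have hwe : 0 ≤ (inner ℝ (w - x) (d3 e k) : ℝ) :=
    (arm_pos he ht (by positivity) hwd' hwx').2.1.le
  set C := connectedComponentIn (K ∩ closedBall x (10 * t)) x with hC
  have hCp : IsPreconnected C := isPreconnected_connectedComponentIn
  have hCK : C ⊆ K ∩ closedBall x (10 * t) := connectedComponentIn_subset _ _
  have hxC : x ∈ C := mem_connectedComponentIn ⟨hx, mem_closedBall_self (by positivity)⟩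
  have hwC : w ∈ C := hconn w hw hwx
  rw [isPreconnected_closed_iff] at hCp
  obtain ⟨v, hvC, hvA, hvB⟩ := hCp
    ({v | t ≤ dist v x} ∩ {v | 0 ≤ (inner ℝ (v - x) (d3 e k) : ℝ)})
    (closedBall x t ∪ {v | (inner ℝ (v - x) (d3 e k) : ℝ) ≤ 0})
    ((isClosed_le continuous_const (continuous_id.dist continuous_const)).inter
      (isClosed_le continuous_const (continuous_inner_sub x _)))
    (isClosed_closedBall.union (isClosed_le (continuous_inner_sub x _) continuous_const))
    (by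
      intro v _
      by_cases hv : dist v x ≤ t
      · exact Or.inr (Or.inl hv)
      · rcases le_total 0 (inner ℝ (v - x) (d3 e k) : ℝ) with h | h
        · exact Or.inl ⟨(not_le.1 hv).le, h⟩
        · exact Or.inr (Or.inr h))
    ⟨w, hwC, hwx', hwe⟩
    ⟨x, hxC, Or.inl (mem_closedBall_self ht.le)⟩
  have hvK := hCK hvC
  obtain ⟨j, τ, hτ, hvj⟩ := h1 v hvK.1 hvK.2
  have hvj' : dist v (x + τ • d3 e j) ≤ t / 200 := hvj
  obtain ⟨h3, h4, h5⟩ := arm_pos he ht hτ hvj' hvA.1
  have hjk : j = k := by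
    by_contra hne
    have := h5 k (fun h => hne h.symm)
    exact absurd this (not_lt.2 hvA.2)
  subst hjk
  rcases hvB with hvB | hvB
  · have hvs : dist v x = t := le_antisymm hvB hvA.1
    refine ⟨v, ⟨hvK.1, hvs⟩, ?_⟩
    rw [hvs] at h3
    have h6 : dist (x + τ • d3 e j) (x + t • d3 e j) = |t - τ| := by
      rw [dist_add_left, dist_eq_norm, ← sub_smul, norm_smul, norm_d3 he, mul_one,
        Real.norm_eq_abs, abs_sub_comm]
    have h7 := dist_triangle v (x + τ • d3 e j) (x + t • d3 e j)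
    rw [h6] at h7
    linarith
  · exact absurd h4 (not_lt.2 hvB)

/-- choice of the three crossing points -/
theorem exists_three {K : Set E2} {x e : E2} {t : ℝ} (ht : 0 < t)
    (hF : Arc.StarAt Arc.a3 Arc.b3 K x e (10 * t) (t / 200))
    (hconn : ∀ b ∈ K, dist b x ≤ 2 * t → b ∈ connectedComponentIn (K ∩ closedBall x (10 * t)) x)
    (hx : x ∈ K) : ∃ p : Fin 3 → E2, Function.Injective p ∧
      ∀ k, p k ∈ K ∩ sphere x t ∧ dist (p k) (x + t • d3 e k) ≤ t / 100 := by
  choose p hp hpd using exists_arm_point ht hF hconn hx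
  refine ⟨p, ?_, fun k => ⟨hp k, hpd k⟩⟩
  intro j k hjk
  by_contra hne
  have he := hF.1
  have h1 := dist_triangle_left (x + t • d3 e j) (x + t • d3 e k) (p j)
  have h2 : dist (x + t • d3 e j) (x + t • d3 e k) ^ 2 = 3 * t ^ 2 := by
    rw [dist_add_left, dist_eq_norm, ← smul_sub, norm_smul, mul_pow, norm_sub_sq_real,
      norm_d3 he, norm_d3 he, inner_d3 he hne, Real.norm_eq_abs, sq_abs]
    ring
  have h3 := hpd j
  have h4 := hpd k
  rw [← hjk] at h4
  have h5 : dist (x + t • d3 e j) (x + t • d3 e k) ≤ t / 50 := by linarith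
  have h6 : dist (x + t • d3 e j) (x + t • d3 e k) ^ 2 ≤ (t / 50) ^ 2 :=
    pow_le_pow_left₀ dist_nonneg h5 2
  nlinarith

theorem three_le_encard {S : Set E2} {p : Fin 3 → E2} (hp : Function.Injective p)
    (hS : ∀ k, p k ∈ S) : ((3 : ℕ) : ℕ∞) ≤ S.encard := by
  have h1 : range p ⊆ S := by
    rintro _ ⟨k, rfl⟩
    exact hS k
  have h2 : (range p).encard = ((3 : ℕ) : ℕ∞) := by
    rw [← image_univ, hp.encard_image, encard_univ]
    simp
  rw [← h2]
  exact encard_le_encard h1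

/-- if the sphere meets `K` in exactly three points, `K ∩ closedBall x t` is connected -/
theorem preconnected_of_three {K : Set E2} {x e : E2} {t : ℝ} {p : Fin 3 → E2} (ht : 0 < t)
    (hK : IsCompact (K ∩ closedBall x (10 * t)))
    (hF : Arc.StarAt Arc.a3 Arc.b3 K x e (10 * t) (t / 200))
    (hconn : ∀ a ∈ K, dist a x ≤ t → ∀ b ∈ K, dist b x ≤ t →
      b ∈ connectedComponentIn (K ∩ closedBall x (10 * t)) a)
    (hpK : K ∩ sphere x t = range p) (hp : ∀ k, dist (p k) (x + t • d3 e k) ≤ t / 100) :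
    IsPreconnected (K ∩ closedBall x t) := by
  obtain ⟨he, h1, h2⟩ := hF
  have hpm : ∀ k, p k ∈ K ∩ sphere x t := fun k => by rw [hpK]; exact mem_range_self k
  have hR : t ≤ 10 * t := by linarith
  -- positions of the points `p k`
  have hpos : ∀ j k, (inner ℝ (p j - x) (d3 e k) : ℝ)
      = inner ℝ (p j - (x + t • d3 e j)) (d3 e k) + t * inner ℝ (d3 e j) (d3 e k) := by
    intro j k
    have : p j - x = (p j - (x + t • d3 e j)) + t • d3 e j := by abel
    rw [this, inner_add_left, inner_smul_left]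
    simp
  have hsm : ∀ j k, |(inner ℝ (p j - (x + t • d3 e j)) (d3 e k) : ℝ)| ≤ t / 100 := by
    intro j k
    have := abs_real_inner_le_norm (p j - (x + t • d3 e j)) (d3 e k)
    rw [norm_d3 he, mul_one, ← dist_eq_norm] at this
    linarith [hp j]
  have hpp : ∀ k, 0 < (inner ℝ (p k - x) (d3 e k) : ℝ) := by
    intro k
    rw [hpos k k, inner_d3_self he]
    have := (abs_le.1 (hsm k k)).1
    linarith
  have hpn : ∀ j k, j ≠ k → (inner ℝ (p j - x) (d3 e k) : ℝ) < 0 := by
    intro j k hjk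
    rw [hpos j k, inner_d3 he hjk]
    have := (abs_le.1 (hsm j k)).2
    linarith
  have hopen : (K ∩ closedBall x (10 * t)) \ ball x t =
      (K ∩ closedBall x (10 * t)) ∩ {v | t ≤ dist v x} := by
    ext v
    simp only [Set.mem_sdiff, mem_ball, not_lt, mem_inter_iff, mem_ofPred_eq]
  have hout : IsClosed ((K ∩ closedBall x (10 * t)) ∩ {v | t ≤ dist v x}) :=
    hK.isClosed.inter (isClosed_le continuous_const (continuous_id.dist continuous_const))
  let P : Fin 3 → Set E2 := fun k => ((K ∩ closedBall x (10 * t)) ∩ {v | t ≤ dist v x}) ∩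
    {v | 0 ≤ (inner ℝ (v - x) (d3 e k) : ℝ)}
  refine isPreconnected_inter_closedBall hR hK (fun a ha b hb => hconn a ha.1 ha.2 b hb.1 hb.2)
    P p ?_ ?_ ?_ ?_ ?_
  · intro k
    exact hout.inter (isClosed_le continuous_const (continuous_inner_sub x _))
  · intro i j hij
    rw [Set.disjoint_left]
    intro v hv hv'
    obtain ⟨m, τ, hτ, hvm⟩ := h1 v hv.1.1.1 hv.1.1.2
    obtain ⟨-, -, h5⟩ := arm_pos he ht hτ (show dist v (x + τ • d3 e m) ≤ t / 200 from hvm) hv.1.2
    have hi : i = m := by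
      by_contra hne
      exact absurd (h5 i hne) (not_lt.2 hv.2)
    have hj : j = m := by
      by_contra hne
      exact absurd (h5 j hne) (not_lt.2 hv'.2)
    exact hij (hi.trans hj.symm)
  · rw [hopen]
    intro v hv
    obtain ⟨m, τ, hτ, hvm⟩ := h1 v hv.1.1 hv.1.2
    obtain ⟨-, h4, -⟩ := arm_pos he ht hτ (show dist v (x + τ • d3 e m) ≤ t / 200 from hvm) hv.2
    exact mem_iUnion.2 ⟨m, hv, h4.le⟩
  · intro k v hv
    exact hv.1.1
  · intro k
    ext v
    constructor
    · rintro ⟨hv, hvt⟩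
      have hvs : v ∈ K ∩ sphere x t := ⟨hv.1.1.1, le_antisymm hvt hv.1.2⟩
      rw [hpK] at hvs
      obtain ⟨j, rfl⟩ := hvs
      have : j = k := by
        by_contra hne
        exact absurd (hpn j k hne) (not_lt.2 hv.2)
      rw [this]
      exact mem_singleton _
    · intro hv
      rw [mem_singleton_iff] at hv
      subst hv
      have hd : dist (p k) x = t := (hpm k).2
      refine ⟨⟨⟨⟨(hpm k).1, ?_⟩, ?_⟩, ?_⟩, ?_⟩
      · rw [mem_closedBall]; linarith
      · exact hd.ge
      · exact (hpp k).le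
      · rw [mem_closedBall]; linarith

/-! ### the regime `PropReg` -/

theorem conn_prop_aux' {U : Set E2} {lam ε : ℝ} {u : E2 → ℝ} {K : Set E2} {x : E2} {r t : ℝ}
    (hε : 0 < ε) (hε' : ε ≤ 1 / 2000) (hq : IsQM U lam u K) (hP : PropReg ε U lam u K x r)
    (ht : 0 < t) (h10 : 10 * t ≤ r) {a b : E2} (ha : a ∈ K) (hb : b ∈ K)
    (hax : dist a x ≤ 2 * t) (hbx : dist b x ≤ 2 * t) :
    b ∈ connectedComponentIn (K ∩ closedBall x (10 * t)) a := by
  have hr := hP.pos
  have h5 : 5 * (2 * t) = 10 * t := by ring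
  have hsub : closedBall x (5 * (2 * t)) ⊆ U := by
    apply Subset.trans _ hP.sub
    exact closedBall_subset_closedBall (by linarith)
  rw [← h5]
  refine connected_of_flat (hq.isCompact_inter_closedBall hsub) ?_ (by positivity) ha hb hax hbx
  intro w hw hwz σ hσ hσ2
  exact (fl_of_propReg hε hP hw hσ (by linarith)).mono (by linarith) hσ.le

theorem prop_isCompact {U : Set E2} {lam ε : ℝ} {u : E2 → ℝ} {K : Set E2} {x : E2} {r t : ℝ}
    (hq : IsQM U lam u K) (hP : PropReg ε U lam u K x r) (h10 : 10 * t ≤ r) :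
    IsCompact (K ∩ closedBall x (10 * t)) := by
  have hr := hP.pos
  exact hq.isCompact_inter_closedBall
    ((closedBall_subset_closedBall (by linarith)).trans hP.sub)

/-- closeness to the propeller at scale `10 t` -/
theorem prop_star {U : Set E2} {lam ε : ℝ} {u : E2 → ℝ} {K : Set E2} {x : E2} {r t : ℝ}
    (hε' : ε ≤ 1 / 2000) (hP : PropReg ε U lam u K x r)
    (ht : 0 < t) (h10 : 10 * t ≤ r) :
    ∃ e : E2, Arc.StarAt Arc.a3 Arc.b3 K x e (10 * t) (t / 200) := by
  obtain ⟨e, he⟩ := hP.prop (10 * t) (by positivity) h10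
  exact ⟨e, he.mono (by nlinarith)⟩

/-- (i) the three crossing points, for every direction `e` of a propeller close to `K` -/
theorem prop_three {U : Set E2} {lam ε : ℝ} {u : E2 → ℝ} {K : Set E2} {x e : E2} {r t : ℝ}
    (hε : 0 < ε) (hε' : ε ≤ 1 / 2000) (hq : IsQM U lam u K) (hP : PropReg ε U lam u K x r)
    (ht : 0 < t) (h10 : 10 * t ≤ r) (hF : Arc.StarAt Arc.a3 Arc.b3 K x e (10 * t) (t / 200)) :
    ∃ p : Fin 3 → E2, Function.Injective p ∧
      ∀ k, p k ∈ K ∩ sphere x t ∧
        dist (p k) (x + t • Arc.rt (Arc.a3 k) (Arc.b3 k) e) ≤ t / 100 :=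
  exists_three ht hF (fun b hb hbx => conn_prop_aux' hε hε' hq hP ht h10 hP.mem hb
    (by rw [dist_self]; positivity) hbx) hP.mem

theorem prop_three_le {U : Set E2} {lam ε : ℝ} {u : E2 → ℝ} {K : Set E2} {x : E2} {r t : ℝ}
    (hε : 0 < ε) (hε' : ε ≤ 1 / 2000) (hq : IsQM U lam u K) (hP : PropReg ε U lam u K x r)
    (ht : 0 < t) (h10 : 10 * t ≤ r) : ((3 : ℕ) : ℕ∞) ≤ (K ∩ sphere x t).encard := by
  obtain ⟨e, he⟩ := prop_star hε' hP ht h10
  obtain ⟨p, hp, h⟩ := prop_three hε hε' hq hP ht h10 he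
  exact three_le_encard hp fun k => (h k).1

/-- (ii) with exactly three crossing points the ball is connected; the crossing points are those
of (i) -/
theorem prop_preconnected {U : Set E2} {lam ε : ℝ} {u : E2 → ℝ} {K : Set E2} {x e : E2} {r t : ℝ}
    (hε : 0 < ε) (hε' : ε ≤ 1 / 2000) (hq : IsQM U lam u K) (hP : PropReg ε U lam u K x r)
    (ht : 0 < t) (h10 : 10 * t ≤ r) (h3 : (K ∩ sphere x t).encard = 3)
    (hF : Arc.StarAt Arc.a3 Arc.b3 K x e (10 * t) (t / 200)) :
    IsPreconnected (K ∩ closedBall x t) ∧ ∃ p : Fin 3 → E2, Function.Injective p ∧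
      K ∩ sphere x t = range p ∧
      ∀ k, dist (p k) (x + t • Arc.rt (Arc.a3 k) (Arc.b3 k) e) ≤ t / 100 := by
  obtain ⟨p, hp, h⟩ := prop_three hε hε' hq hP ht h10 hF
  have hrange : K ∩ sphere x t = range p := by
    have h1 : range p ⊆ K ∩ sphere x t := by
      rintro _ ⟨k, rfl⟩
      exact (h k).1
    have h2 : (range p).encard = 3 := by
      rw [← image_univ, hp.encard_image, encard_univ]
      simp
    exact ((finite_range p).eq_of_subset_of_encard_le h1 (by rw [h2, h3])).symm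
  refine ⟨?_, p, hp, hrange, fun k => (h k).2⟩
  exact preconnected_of_three ht (prop_isCompact hq hP h10) hF
    (fun a ha hax b hb hbx => conn_prop_aux' hε hε' hq hP ht h10 ha hb (by linarith)
      (by linarith)) hrange (fun k => (h k).2)

/-- (iii) good radii -/
theorem prop_good_radius {U : Set E2} {lam ε : ℝ} {u : E2 → ℝ} {K : Set E2} {x : E2} {r s : ℝ}
    (hε : 0 < ε) (hε' : ε ≤ 1 / 2000) (hq : IsQM U lam u K) (hP : PropReg ε U lam u K x r)
    (hs : 0 < s) (hsr : 40 * s ≤ r) :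
    ∃ t ∈ Ioo (2 * s) (4 * s), (K ∩ sphere x t).encard = 3 ∧
      GoodCirc K (fun y => gradient u y) x t ∧ cirE u x t ≤ Dr u K x (4 * s) / s := by
  have hr := hP.pos
  have hsub : closedBall x (4 * s) ⊆ U :=
    (closedBall_subset_closedBall (by linarith)).trans hP.sub
  have hLr : Lr K x (4 * s) < (4 * ((3 : ℕ) : ℝ) + 1) * s := by
    have h1 := hP.len_le (4 * s) (by positivity) (by linarith)
    push_cast
    nlinarith
  obtain ⟨t, ht, h1, h2, h3⟩ := exists_good_radius hq hs hsub 3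
    (fun t ht => prop_three_le hε hε' hq hP ht.1 (by linarith [ht.2])) hLr
  exact ⟨t, ht, h1, h2, h3⟩

/-- lower bound for the length at the centre -/
theorem prop_len_ge {U : Set E2} {lam ε : ℝ} {u : E2 → ℝ} {K : Set E2} {x : E2} {r t : ℝ}
    (hε : 0 < ε) (hε' : ε ≤ 1 / 2000) (hq : IsQM U lam u K) (hP : PropReg ε U lam u K x r)
    (h10 : 10 * t ≤ r) : ENNReal.ofReal (3 * t) ≤ len (K ∩ ball x t) := by
  have h1 := ofReal_mul_le_len (K := K) (z := x) (R := t) 3
    (fun τ hτ => prop_three_le hε hε' hq hP hτ.1 (by linarith [hτ.2]))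
  exact_mod_cast h1

end Crest.Agent.R135.EpsLoc
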