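import Crest.Agent.R135.FV1
import Crest.Agent.R135.PolarB
import Crest.Agent.R135.Wirt

/-!
# R135 (FV): radial test functions; flux and energy identities on almost every circle
-/

set_option autoImplicit false
open MeasureTheory Set Metric Filter Topology
open Crest.AnalysisR.PDE.OnePhase Crest.AnalysisR.PDE.MumfordShah
open scoped Real ContDiff ENNReal RealInnerProductSpace Gradient

namespace Crest.Agent.R135.Gl

theorem radial_contDiff {χ : ℝ → ℝ} (hχ : ContDiff ℝ ∞ χ) {a c : ℝ} (ha : 0 < a)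
    (hc : ∀ t < a, χ t = c) (x₀ : P) : ContDiff ℝ ∞ (fun x : P => χ ‖x - x₀‖) := by
  refine contDiff_iff_contDiffAt.2 fun x => ?_
  by_cases h : x = x₀
  · have : (fun x : P => χ ‖x - x₀‖) =ᶠ[𝓝 x] fun _ => c := by
      filter_upwards [ball_mem_nhds x ha] with y hy
      apply hc
      rw [h, mem_ball, dist_eq_norm] at hy
      exact hy
    exact contDiffAt_const.congr_of_eventuallyEq this
  · have h1 : ContDiffAt ℝ ∞ (fun x : P => ‖x - x₀‖) x :=
      ContDiffAt.norm ℝ (contDiffAt_id.sub contDiffAt_const) (sub_ne_zero.2 h)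
    exact hχ.contDiffAt.comp x h1

theorem hasFDerivAt_norm_sub {x x₀ : P} (h : x ≠ x₀) :
    HasFDerivAt (fun y : P => ‖y - x₀‖) (‖x - x₀‖⁻¹ • innerSL ℝ (x - x₀)) x := by
  have h0 : ‖x - x₀‖ ≠ 0 := norm_ne_zero_iff.2 (sub_ne_zero.2 h)
  have h1 : HasFDerivAt (fun y : P => ‖y - x₀‖ ^ 2) (2 • innerSL ℝ (x - x₀)) x := by
    have := (hasStrictFDerivAt_norm_sq (x - x₀)).hasFDerivAt.comp x
      ((hasFDerivAt_id x).sub_const x₀)
    exact this
  have h2 := h1.sqrt (by positivity)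
  have e : (fun y : P => √(‖y - x₀‖ ^ 2)) = fun y : P => ‖y - x₀‖ := by
    ext y; exact Real.sqrt_sq (norm_nonneg _)
  rw [e] at h2
  refine h2.congr_fderiv ?_
  rw [Real.sqrt_sq (norm_nonneg _)]
  ext v
  simp
  field_simp

theorem grad_radial {χ : ℝ → ℝ} (hχ : Differentiable ℝ χ) {x x₀ : P} (h : x ≠ x₀) :
    ∇ (fun y : P => χ ‖y - x₀‖) x = deriv χ ‖x - x₀‖ • (‖x - x₀‖⁻¹ • (x - x₀)) := by
  have h1 := (hχ ‖x - x₀‖).hasDerivAt.comp_hasFDerivAt x (hasFDerivAt_norm_sub h)
  unfold gradient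
  have h2 : fderiv ℝ (fun y : P => χ ‖y - x₀‖) x
      = deriv χ ‖x - x₀‖ • (‖x - x₀‖⁻¹ • innerSL ℝ (x - x₀)) := h1.fderiv
  rw [h2, map_smul, map_smul]
  congr 2
  rw [LinearIsometryEquiv.symm_apply_eq]
  rfl

theorem memLp_of_zero_off {F : Type*} [NormedAddCommGroup F] {f : P → F} {s t : Set P}
    (hs : MeasurableSet s)
    (h0 : ∀ x, x ∉ s → f x = 0) (hf : MemLp f 2 (volume.restrict s)) :
    MemLp f 2 (volume.restrict t) := by
  have h1 : s.indicator f = f := by
    ext x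
    by_cases hx : x ∈ s
    · rw [indicator_of_mem hx]
    · rw [indicator_of_notMem hx, h0 x hx]
  have h2 : MemLp (s.indicator f) 2 volume := (memLp_indicator_iff_restrict hs).2 hf
  rw [h1] at h2
  exact h2.restrict t

/-- primitive with compactly supported derivative -/
theorem exists_radial_prim {R : ℝ} {k : ℝ → ℝ} (hk : ContDiff ℝ ∞ k)
    (hs : tsupport k ⊆ Ioo 0 R) (hc : HasCompactSupport k) :
    ∃ (χ : ℝ → ℝ) (a b c : ℝ), 0 < a ∧ b < R ∧ ContDiff ℝ ∞ χ ∧ (∀ t, HasDerivAt χ (- k t) t) ∧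
      (∀ t < a, χ t = c) ∧ (∀ t, b ≤ t → χ t = 0) ∧ (∀ t, b ≤ t → k t = 0) ∧
      (∀ t ≤ a, k t = 0) := by
  obtain ⟨δ, hδ, hδs⟩ := hc.isCompact.exists_cthickening_subset_open isOpen_Ioo hs
  have hmem : ∀ t, t ∈ tsupport k → δ < t ∧ t < R - δ := by
    intro t ht
    have h1 : t - δ ∈ cthickening δ (tsupport k) :=
      mem_cthickening_of_dist_le _ t _ _ ht (by simp [abs_of_pos hδ])
    have h2 : t + δ ∈ cthickening δ (tsupport k) :=
      mem_cthickening_of_dist_le _ t _ _ ht (by simp [abs_of_pos hδ])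
    have h3 := hδs h1
    have h4 := hδs h2
    exact ⟨by linarith [h3.1], by linarith [h4.2]⟩
  have hk0 : ∀ t, t ≤ δ → k t = 0 := fun t ht =>
    image_eq_zero_of_notMem_tsupport fun h => by linarith [(hmem t h).1]
  have hk1 : ∀ t, R - δ ≤ t → k t = 0 := fun t ht =>
    image_eq_zero_of_notMem_tsupport fun h => by linarith [(hmem t h).2]
  have hd : ∀ t, HasDerivAt (fun t => - ∫ s in R..t, k s) (- k t) t := fun t =>
    (intervalIntegral.integral_hasDerivAt_right (hk.continuous.intervalIntegrable _ _)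
      hk.continuous.stronglyMeasurable.stronglyMeasurableAtFilter
      hk.continuous.continuousAt).neg
  refine ⟨fun t => - ∫ s in R..t, k s, δ, R - δ, - ∫ s in R..0, k s, hδ, by linarith, ?_, hd,
    ?_, ?_, hk1, hk0⟩
  · rw [contDiff_infty_iff_deriv]
    refine ⟨fun t => (hd t).differentiableAt, ?_⟩
    have : deriv (fun t => - ∫ s in R..t, k s) = fun t => - k t := by
      ext t; exact (hd t).deriv
    rw [this]
    exact hk.neg
  · intro t ht
    simp only
    have h1 : ∫ s in (0:ℝ)..t, k s = 0 := by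
      rw [intervalIntegral.integral_congr (g := fun _ => (0 : ℝ)) (fun s hs => ?_),
        intervalIntegral.integral_zero]
      apply hk0
      rcases le_total 0 t with h | h
      · rw [uIcc_of_le h] at hs; linarith [hs.2]
      · rw [uIcc_of_ge h] at hs; linarith [hs.2]
    rw [← intervalIntegral.integral_add_adjacent_intervals
      (hk.continuous.intervalIntegrable R 0) (hk.continuous.intervalIntegrable 0 t), h1, add_zero]
  · intro t ht
    simp only
    have h1 : ∫ s in R..t, k s = 0 := by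
      rw [intervalIntegral.integral_congr (g := fun _ => (0 : ℝ)) (fun s hs => ?_),
        intervalIntegral.integral_zero]
      apply hk1
      rcases le_total R t with h | h
      · rw [uIcc_of_le h] at hs; linarith [hs.1]
      · rw [uIcc_of_ge h] at hs; linarith [hs.1]
    rw [h1, neg_zero]

/-- the outer unit normal of circles about `x₀` -/
noncomputable def nrm (x₀ y : P) : P := ‖y - x₀‖⁻¹ • (y - x₀)

theorem norm_nrm_le (x₀ y : P) : ‖nrm x₀ y‖ ≤ 1 := by
  unfold nrm
  rw [norm_smul, norm_inv, norm_norm]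
  rcases eq_or_ne ‖y - x₀‖ 0 with h | h
  · rw [h]; simp
  · rw [inv_mul_cancel₀ h]

theorem cpt_sub (x₀ : P) (t θ : ℝ) : cpt x₀ t θ - x₀ = t • dir θ := by
  unfold cpt; exact add_sub_cancel_left _ _

theorem norm_cpt_sub (x₀ : P) {t : ℝ} (ht : 0 ≤ t) (θ : ℝ) : ‖cpt x₀ t θ - x₀‖ = t := by
  rw [cpt_sub, norm_smul, norm_dir, mul_one, Real.norm_eq_abs, abs_of_nonneg ht]

theorem nrm_cpt (x₀ : P) {t : ℝ} (ht : 0 < t) (θ : ℝ) : nrm x₀ (cpt x₀ t θ) = dir θ := by
  unfold nrm
  rw [norm_cpt_sub x₀ ht.le, cpt_sub, smul_smul, inv_mul_cancel₀ ht.ne', one_smul]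

theorem measurable_nrm (x₀ : P) : Measurable (nrm x₀) := by
  unfold nrm
  exact ((measurable_id.sub_const x₀).norm.inv).smul (measurable_id.sub_const x₀)

end Crest.Agent.R135.Gl
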