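import Crest.Agent.R135.FV2

/-!
# R135 (FV): the radial identity on almost every circle
-/

set_option autoImplicit false
open MeasureTheory Set Metric Filter Topology
open Crest.AnalysisR.PDE.OnePhase Crest.AnalysisR.PDE.MumfordShah
open scoped Real ContDiff ENNReal RealInnerProductSpace Gradient

namespace Crest.Agent.R135.Gl

theorem restrict_sdiff_null {s K : Set P} (hK : volume K = 0) :
    (volume : Measure P).restrict (s \ K) = volume.restrict s :=
  Measure.restrict_congr_set (sdiff_null_ae_eq_self hK)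

theorem isPrim_ball (x₀ : P) {R : ℝ} (hR : 0 ≤ R) {f : P → ℝ}
    (hf : IntegrableOn f (ball x₀ R)) :
    IsPrim 0 R (fun t => ∫ y in ball x₀ t, f y) (fun t => t * circI f x₀ t) := by
  refine ⟨intervalIntegrable_radial x₀ hR hf, fun x hx => ?_⟩
  simp only [ball_zero, Measure.restrict_empty, integral_zero_measure, zero_add]
  exact integral_ball_polar x₀ hx.1 (hf.mono_set (ball_subset_ball hx.2))

theorem memLp_smul_bdd {F : Type*} [NormedAddCommGroup F] [NormedSpace ℝ F] {η : P → ℝ}
    {H : P → F} {s : Set P} (hs : MeasurableSet s) (hη : Continuous η) {C : ℝ}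
    (hC : ∀ x ∈ s, ‖η x‖ ≤ C) (hH : MemLp H 2 (volume.restrict s)) :
    MemLp (fun y => η y • H y) 2 (volume.restrict s) := by
  refine hH.of_le_mul (c := C) (hη.aestronglyMeasurable.smul hH.1) ?_
  rw [ae_restrict_iff' hs]
  filter_upwards with y hy
  rw [norm_smul]
  exact mul_le_mul_of_nonneg_right (hC y hy) (norm_nonneg _)

theorem memLp_smul_bdd' {F : Type*} [NormedAddCommGroup F] [NormedSpace ℝ F] {w : P → ℝ}
    {Z : P → F} {s : Set P} (hs : MeasurableSet s) (hZ : Continuous Z) {C : ℝ}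
    (hC : ∀ x ∈ s, ‖Z x‖ ≤ C) (hw : MemLp w 2 (volume.restrict s)) :
    MemLp (fun y => w y • Z y) 2 (volume.restrict s) := by
  refine hw.of_le_mul (c := C) (hw.1.smul hZ.aestronglyMeasurable) ?_
  rw [ae_restrict_iff' hs]
  filter_upwards with y hy
  rw [norm_smul, mul_comm]
  exact mul_le_mul_of_nonneg_right (hC y hy) (norm_nonneg _)

/-- **Radial identity, abstract form.** If `∫_{B_R} χ(|y-x₀|) h - k(|y-x₀|) q = 0` for all smooth
radial `χ` vanishing near `∂B_R`, constant near the centre, `χ' = -k`, then for a.e. `t`: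
`t ∫_θ q = ∫_{B_t} h`. -/
theorem radial_core {x₀ : P} {R : ℝ} (hR : 0 < R) {h q : P → ℝ}
    (hh_int : IntegrableOn h (ball x₀ R)) (hq_int : IntegrableOn q (ball x₀ R))
    (hkey : ∀ (χ k : ℝ → ℝ) (a b c : ℝ), 0 < a → 0 < b → b < R → ContDiff ℝ ∞ χ →
      ContDiff ℝ ∞ k →
      (∀ t, HasDerivAt χ (- k t) t) → (∀ t < a, χ t = c) → (∀ t, b ≤ t → χ t = 0) →
      (∀ t, b ≤ t → k t = 0) → (∀ t ≤ a, k t = 0) →
      ∫ y in ball x₀ R, (χ ‖y - x₀‖ * h y - k ‖y - x₀‖ * q y) = 0) :
    ∀ᵐ t ∂(volume.restrict (Ioo (0:ℝ) R)), t * circI q x₀ t = ∫ y in ball x₀ t, h y := by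
  have hA := intervalIntegrable_radial x₀ hR.le hq_int
  have hD := isPrim_ball x₀ hR.le hh_int
  have hDc := continuousOn_ball_integral x₀ hR.le hh_int
  have hA' : IntegrableOn (fun t => t * circI q x₀ t) (Ioo 0 R) := by
    rw [intervalIntegrable_iff_integrableOn_Ioo_of_le hR.le] at hA
    exact hA
  have hD' : IntegrableOn (fun t => ∫ y in ball x₀ t, h y) (Ioo 0 R) :=
    (hDc.integrableOn_compact isCompact_Icc).mono_set Ioo_subset_Icc_self
  have main : ∀ k : ℝ → ℝ, ContDiff ℝ ∞ k → HasCompactSupport k → tsupport k ⊆ Ioo 0 R →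
      ∫ t, k t • ((∫ y in ball x₀ t, h y) - t * circI q x₀ t) = 0 := by
    intro k hk hc hs
    obtain ⟨χ, a, b, c, ha, hb, hχ, hdχ, hχa, hχb, hkb, hka⟩ := exists_radial_prim hk hs hc
    have hb' : max b (R / 2) < R := max_lt hb (by linarith)
    have key := hkey χ k a (max b (R / 2)) c ha (lt_max_of_lt_right (by linarith)) hb' hχ hk hdχ hχa
      (fun t ht => hχb t ((le_max_left _ _).trans ht))
      (fun t ht => hkb t ((le_max_left _ _).trans ht)) hka
    obtain ⟨C₁, hC₁⟩ := (isCompact_closedBall x₀ R).exists_bound_of_continuousOn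
      (radial_contDiff hχ ha hχa x₀).continuous.continuousOn
    have i1 : IntegrableOn (fun y => χ ‖y - x₀‖ * h y) (ball x₀ R) := by
      refine hh_int.bdd_mul (c := C₁)
        (radial_contDiff hχ ha hχa x₀).continuous.aestronglyMeasurable ?_
      rw [ae_restrict_iff' measurableSet_ball]
      exact Eventually.of_forall fun y hy => hC₁ y (ball_subset_closedBall hy)
    have i2 : IntegrableOn (fun y => k ‖y - x₀‖ * q y) (ball x₀ R) := by
      obtain ⟨C₃, hC₃⟩ := hk.continuous.bounded_above_of_compact_support hc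
      exact hq_int.bdd_mul (c := C₃)
        (hk.continuous.comp (continuous_id.sub continuous_const).norm).aestronglyMeasurable
        (Eventually.of_forall fun y => hC₃ _)
    rw [integral_sub i1 i2, integral_ball_polar x₀ hR.le i1, integral_ball_polar x₀ hR.le i2] at key
    have c1 : ∀ t, 0 ≤ t → circI (fun y => χ ‖y - x₀‖ * h y) x₀ t = χ t * circI h x₀ t := by
      intro t ht
      unfold circI
      simp only [norm_cpt_sub x₀ ht, intervalIntegral.integral_const_mul]
    have c2 : ∀ t, 0 ≤ t → circI (fun y => k ‖y - x₀‖ * q y) x₀ t = k t * circI q x₀ t := by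
      intro t ht
      unfold circI
      simp only [norm_cpt_sub x₀ ht, intervalIntegral.integral_const_mul]
    have c3 : ∫ t in (0:ℝ)..R, t • circI (fun y => χ ‖y - x₀‖ * h y) x₀ t
        = ∫ t in (0:ℝ)..R, χ t * (t * circI h x₀ t) := by
      refine intervalIntegral.integral_congr fun t ht => ?_
      rw [uIcc_of_le hR.le] at ht
      simp only [c1 t ht.1, smul_eq_mul]
      ring
    have c4 : ∫ t in (0:ℝ)..R, t • circI (fun y => k ‖y - x₀‖ * q y) x₀ t
        = ∫ t in (0:ℝ)..R, k t * (t * circI q x₀ t) := by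
      refine intervalIntegral.integral_congr fun t ht => ?_
      rw [uIcc_of_le hR.le] at ht
      simp only [c2 t ht.1, smul_eq_mul]
      ring
    have hP : IsPrim 0 R χ (fun t => - k t) := by
      refine ⟨(hk.continuous.neg).intervalIntegrable _ _, fun x hx => ?_⟩
      have := intervalIntegral.integral_eq_sub_of_hasDerivAt (f := χ) (f' := fun t => - k t)
        (a := 0) (b := x) (fun t _ => hdχ t) ((hk.continuous.neg).intervalIntegrable _ _)
      rw [this]; ring
    have hibp := IsPrim.ibp hR.le hD hP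
    rw [c3, c4] at key
    have hχR : χ R = 0 := hχb R hb.le
    simp only [hχR, zero_mul, ball_zero, Measure.restrict_empty, integral_zero_measure, mul_zero,
      sub_zero, zero_sub] at hibp
    have e1 : ∫ t, k t • ((∫ y in ball x₀ t, h y) - t * circI q x₀ t)
        = ∫ t in (0:ℝ)..R, (k t * (∫ y in ball x₀ t, h y) - k t * (t * circI q x₀ t)) := by
      rw [intervalIntegral.integral_of_le hR.le, integral_Ioc_eq_integral_Ioo]
      rw [← setIntegral_eq_integral_of_forall_compl_eq_zero (s := Ioo 0 R)]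
      · refine integral_congr_ae (Eventually.of_forall fun t => ?_)
        simp only [smul_eq_mul]; ring
      · intro t ht
        rw [image_eq_zero_of_notMem_tsupport (fun h => ht (hs h)), zero_smul]
    rw [e1, intervalIntegral.integral_sub]
    · have e2 : ∫ t in (0:ℝ)..R, -k t * (∫ y in ball x₀ t, h y)
          = - ∫ t in (0:ℝ)..R, k t * (∫ y in ball x₀ t, h y) := by
        rw [← intervalIntegral.integral_neg]
        refine intervalIntegral.integral_congr fun t _ => ?_
        ring
      linarith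
    · have h5 : IntervalIntegrable (fun t => ∫ y in ball x₀ t, h y) volume 0 R :=
        hDc.intervalIntegrable_of_Icc hR.le
      exact h5.continuousOn_mul hk.continuous.continuousOn
    · have := hA.continuousOn_mul (hk.continuous.continuousOn)
      exact this
  have hli : LocallyIntegrableOn (fun t => (∫ y in ball x₀ t, h y) - t * circI q x₀ t) (Ioo 0 R) :=
    (hD'.sub hA').locallyIntegrableOn
  have hz := isOpen_Ioo.ae_eq_zero_of_integral_contDiff_smul_eq_zero hli main
  rw [ae_restrict_iff' measurableSet_Ioo]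
  filter_upwards [hz] with t ht htm
  have := ht htm
  linarith

/-- properties of the radial cut-off `x ↦ χ ‖x - x₀‖` -/
theorem radial_cutoff {x₀ : P} {χ k : ℝ → ℝ} {a b c : ℝ} (ha : 0 < a) (hχ : ContDiff ℝ ∞ χ)
    (hdχ : ∀ t, HasDerivAt χ (- k t) t) (hχa : ∀ t < a, χ t = c) (hχb : ∀ t, b ≤ t → χ t = 0)
    (hkb : ∀ t, b ≤ t → k t = 0) :
    ContDiff ℝ ∞ (fun x : P => χ ‖x - x₀‖) ∧
    (∀ y : P, ∇ (fun x : P => χ ‖x - x₀‖) y = (- k ‖y - x₀‖) • nrm x₀ y) ∧
    (∀ y, y ∉ closedBall x₀ b → χ ‖y - x₀‖ = 0) ∧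
    (∀ y, y ∉ closedBall x₀ b → ∇ (fun x : P => χ ‖x - x₀‖) y = 0) := by
  have hχd : deriv χ = fun t => - k t := by ext t; exact (hdχ t).deriv
  have hηs : ContDiff ℝ ∞ (fun x : P => χ ‖x - x₀‖) := radial_contDiff hχ ha hχa x₀
  have hgη : ∀ y : P, ∇ (fun x : P => χ ‖x - x₀‖) y = (- k ‖y - x₀‖) • nrm x₀ y := by
    intro y
    by_cases hy : y = x₀
    · have h1 : (fun x : P => χ ‖x - x₀‖) =ᶠ[𝓝 y] fun _ => c := by
        filter_upwards [ball_mem_nhds y ha] with z hz
        apply hχa
        rw [hy, mem_ball, dist_eq_norm] at hz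
        exact hz
      rw [gradient_congr_of_eventuallyEq h1]
      have h2 : nrm x₀ y = 0 := by unfold nrm; rw [hy, sub_self, smul_zero]
      rw [h2, smul_zero]
      unfold gradient
      simp
    · rw [grad_radial (hχ.differentiable (by simp)) hy, hχd]
      rfl
  refine ⟨hηs, hgη, ?_, ?_⟩
  · intro y hy
    rw [mem_closedBall, dist_eq_norm, not_le] at hy
    exact hχb _ hy.le
  · intro y hy
    rw [mem_closedBall, dist_eq_norm, not_le] at hy
    rw [hgη, hkb _ hy.le, neg_zero, zero_smul]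

theorem memLp_inner_nrm {x₀ : P} {R : ℝ} {G : P → P} (hG : MemLp G 2 (volume.restrict (ball x₀ R))) :
    MemLp (fun y => ⟪G y, nrm x₀ y⟫) 2 (volume.restrict (ball x₀ R)) := by
  refine hG.mono (hG.1.inner (measurable_nrm x₀).aestronglyMeasurable) ?_
  refine Eventually.of_forall fun y => ?_
  refine (norm_inner_le_norm (𝕜 := ℝ) (G y) (nrm x₀ y)).trans ?_
  calc ‖G y‖ * ‖nrm x₀ y‖ ≤ ‖G y‖ * 1 :=
        mul_le_mul_of_nonneg_left (norm_nrm_le x₀ y) (norm_nonneg _)
    _ = ‖G y‖ := mul_one _

/-- **Radial identity.** For a solution `G` of the weak Neumann problem and `w` with weak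
gradient `H` off `K`: for a.e. radius `t`,
`t ∫_θ w ⟪G, ν⟫ = ∫_{B_t} ⟪G, H⟫ + f w`. -/
theorem radial_identity {Ω K : Set P} (hΩ : IsOpen Ω) (hΩK : IsOpen (Ω \ K)) (hK0 : volume K = 0)
    {G : P → P} {f : P → ℝ} (hN : IsNeumann Ω K G f) {x₀ : P} {R : ℝ} (hR : 0 < R)
    (hB : ball x₀ R ⊆ Ω) {w : P → ℝ} {H : P → P} (hwH : IsWeakGradOn (Ω \ K) w H)
    (hG : MemLp G 2 (volume.restrict (ball x₀ R))) (hf : MemLp f 2 (volume.restrict (ball x₀ R)))
    (hw : MemLp w 2 (volume.restrict (ball x₀ R)))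
    (hH : MemLp H 2 (volume.restrict (ball x₀ R))) :
    ∀ᵐ t ∂(volume.restrict (Ioo (0:ℝ) R)),
      t * circI (fun y => w y * ⟪G y, nrm x₀ y⟫) x₀ t
        = ∫ y in ball x₀ t, (⟪G y, H y⟫ + f y * w y) := by
  refine radial_core hR ((integrable_inner2 hG hH).add (hf.integrable_mul hw))
    (hw.integrable_mul (memLp_inner_nrm hG)) ?_
  intro χ k a b c ha hb0 hb hχ hk hdχ hχa hχb hkb hka
  obtain ⟨hηs, hgη, hη0, hgη0⟩ := radial_cutoff (x₀ := x₀) ha hχ hdχ hχa hχb hkb
  set η : P → ℝ := fun x => χ ‖x - x₀‖ with hη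
  have hcb : closedBall x₀ b ⊆ ball x₀ R := closedBall_subset_ball hb
  obtain ⟨C₁, hC₁⟩ := (isCompact_closedBall x₀ R).exists_bound_of_continuousOn
    hηs.continuous.continuousOn
  obtain ⟨C₂, hC₂⟩ := (isCompact_closedBall x₀ R).exists_bound_of_continuousOn
    (continuous_grad hηs).continuousOn
  have hηw : MemLp (fun y => η y * w y) 2 (volume.restrict (ball x₀ R)) :=
    memLp_smul_bdd measurableSet_ball hηs.continuous
      (fun y hy => hC₁ y (ball_subset_closedBall hy)) hw
  have hΨ : MemLp (fun y => η y • H y + w y • ∇ η y) 2 (volume.restrict (ball x₀ R)) :=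
    (memLp_smul_bdd measurableSet_ball hηs.continuous
      (fun y hy => hC₁ y (ball_subset_closedBall hy)) hH).add
    (memLp_smul_bdd' measurableSet_ball (continuous_grad hηs)
      (fun y hy => hC₂ y (ball_subset_closedBall hy)) hw)
  have hwg := weakGrad_mul_smooth hΩK hwH hηs
  have hη0' : ∀ y, y ∉ closedBall x₀ b → η y = 0 := hη0
  have key := hN (fun y => η y * w y) (fun y => η y • H y + w y • ∇ η y) (closedBall x₀ b)
    (isCompact_closedBall _ _) (hcb.trans hB) (fun y hy => by simp only [hη0' y hy, zero_mul])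
    (fun y hy => by simp only [hη0' y hy, hgη0 y hy, zero_smul, smul_zero, add_zero]) hwg
    (memLp_of_zero_off measurableSet_ball
      (fun y hy => by simp only [hη0' y (fun h => hy (hcb h)), zero_mul]) hηw)
    (memLp_of_zero_off measurableSet_ball
      (fun y hy => by simp only [hη0' y (fun h => hy (hcb h)), hgη0 y (fun h => hy (hcb h)),
        zero_smul, smul_zero, add_zero]) hΨ)
  rw [restrict_sdiff_null hK0] at key
  have k1 : ∫ x in Ω, ⟪G x, η x • H x + w x • ∇ η x⟫
      = ∫ x in ball x₀ R, ⟪G x, η x • H x + w x • ∇ η x⟫ := by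
    refine setIntegral_eq_of_subset_of_forall_sdiff_eq_zero hΩ.measurableSet hB fun y hy => ?_
    have : y ∉ closedBall x₀ b := fun h => hy.2 (hcb h)
    simp only [hη0' y this, hgη0 y this, zero_smul, smul_zero, add_zero, inner_zero_right]
  have k2 : ∫ x in Ω, f x * (η x * w x) = ∫ x in ball x₀ R, f x * (η x * w x) := by
    refine setIntegral_eq_of_subset_of_forall_sdiff_eq_zero hΩ.measurableSet hB fun y hy => ?_
    have : y ∉ closedBall x₀ b := fun h => hy.2 (hcb h)
    simp only [hη0' y this, zero_mul, mul_zero]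
  have k4 : Integrable (fun x => f x * (η x * w x)) (volume.restrict (ball x₀ R)) :=
    hf.integrable_mul hηw
  rw [k1, k2, ← integral_add (integrable_inner2 hG hΨ) k4] at key
  rw [← key]
  refine integral_congr_ae (Eventually.of_forall fun y => ?_)
  simp only
  rw [inner_add_right, inner_smul_right, inner_smul_right, hgη, inner_smul_right]
  ring

end Crest.Agent.R135.Gl
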