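import Crest.Agent.R135.IF_LOC

/-!
# R135: local structure at every point of the crack of a strong quasi-minimizer (helper253)
-/

set_option autoImplicit false

open MeasureTheory Set Filter Topology Metric
open scoped ENNReal NNReal ContDiff Gradient
open Crest.AnalysisR.PDE.OnePhase Crest.AnalysisR.PDE.MumfordShah

namespace Crest.Agent.R135

theorem local_main {U : Set E2} {lam M : ℝ} {u : E2 → ℝ} {K : Set E2} (h : IsSQM U lam u K)
    (hM : ∀ y ∈ U \ K, |u y| ≤ M) {x : E2} (hx : x ∈ K) :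
    IsArcInteriorPoint U K x ∨ IsArcEndPoint U K x ∨ IsTripleJunctionPoint U K x := by
  obtain ⟨ε₀, hε₀, key⟩ := arc_or_triple
  have hxU : x ∈ U := h.sub hx
  obtain ⟨R, hR, hRU⟩ := Metric.isOpen_iff.1 h.isOpen x hxU
  have hlam : 0 ≤ lam := h.lam_nonneg
  -- a small radius `R₁` with `closedBall x R₁ ⊆ U`, `R₁ ≤ 1`, `lam * R₁ ≤ ε₀`
  obtain ⟨R₁, hR₁, hR₁1, hR₁R, hR₁l⟩ : ∃ R₁ : ℝ, 0 < R₁ ∧ R₁ ≤ 1 ∧ R₁ < R ∧ lam * R₁ ≤ ε₀ := by
    refine ⟨min (min 1 (R / 2)) (ε₀ / (lam + 1)), ?_, ?_, ?_, ?_⟩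
    · exact lt_min (lt_min one_pos (by linarith)) (div_pos hε₀ (by linarith))
    · exact (min_le_left _ _).trans (min_le_left _ _)
    · have : min (min 1 (R / 2)) (ε₀ / (lam + 1)) ≤ R / 2 :=
        (min_le_left _ _).trans (min_le_right _ _)
      linarith
    · have h1 : min (min 1 (R / 2)) (ε₀ / (lam + 1)) ≤ ε₀ / (lam + 1) := min_le_right _ _
      calc lam * min (min 1 (R / 2)) (ε₀ / (lam + 1)) ≤ lam * (ε₀ / (lam + 1)) :=
            mul_le_mul_of_nonneg_left h1 hlam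
        _ = ε₀ * (lam / (lam + 1)) := by ring
        _ ≤ ε₀ * 1 := by
            apply mul_le_mul_of_nonneg_left _ hε₀.le
            rw [div_le_one (by linarith)]; linarith
        _ = ε₀ := mul_one _
  by_cases hD : ∀ r : ℝ, 0 < r → r ≤ R₁ → ε₀ * r ≤ Dr u K x r
  · exact Or.inr (Or.inl (arc_end h hM hx hR₁
      ((closedBall_subset_ball hR₁R).trans hRU) hε₀ hD))
  · push Not at hD
    obtain ⟨r, hr, hr1, hr2⟩ := hD
    have hrU : closedBall x r ⊆ U :=
      (closedBall_subset_closedBall hr1).trans ((closedBall_subset_ball hR₁R).trans hRU)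
    rcases key h x hx r hr (hr1.trans hR₁1) hrU
      ((mul_le_mul_of_nonneg_left hr1 hlam).trans hR₁l) hr2.le with h1 | h1
    · exact Or.inl h1
    · exact Or.inr (Or.inr h1)

end Crest.Agent.R135
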