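import Crest.Agent.R135.IF_A1
import Crest.Agent.R135.IF_MAIN
import Crest.Agent.R135.FlatLine
import Crest.Agent.R135.TopC2

/-!
# R135: final assembly (helper823)
-/

set_option autoImplicit false

open MeasureTheory Set Filter Topology Metric
open scoped ENNReal NNReal
open Crest.AnalysisR.PDE.OnePhase Crest.AnalysisR.PDE.MumfordShah

namespace Crest.Agent.R135

theorem main_shapes {Ω : Set E2} (hΩo : IsOpen Ω) {g u : E2 → ℝ} {K : Set E2} {G : E2 → E2}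
    (hgm : Measurable g) (hgb : ∃ M : ℝ, ∀ x ∈ Ω, ‖g x‖ ≤ M)
    (hmin : IsAbsoluteMinimizer Ω g u K G) (hred : IsReduced Ω K) :
    ∀ x ∈ K, IsArcInteriorPoint Ω K x ∨ IsArcEndPoint Ω K x ∨ IsTripleJunctionPoint Ω K x := by
  intro x hx
  have hKΩ : K ⊆ Ω := hmin.1.1
  obtain ⟨R, hR, hRΩ, lam, M, -, ut, hQ, hM⟩ := exists_isSQM hΩo hgm hgb hmin hred (hKΩ hx)
  have hxV : x ∈ ball x R := mem_ball_self hR
  have hM' : ∀ y ∈ ball x R \ (K ∩ ball x R), |ut y| ≤ M := fun y hy =>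
    hM y ⟨hy.1, fun hyK => hy.2 ⟨hyK, hy.1⟩⟩
  have h := local_main hQ hM' (x := x) ⟨hx, hxV⟩
  exact Arc.Shape.mono (ball_subset_closedBall.trans hRΩ) h

theorem main {Ω : Set E2} (hΩo : IsOpen Ω) {g u : E2 → ℝ} {K : Set E2} {G : E2 → E2}
    (hgm : Measurable g) (hgb : ∃ M : ℝ, ∀ x ∈ Ω, ‖g x‖ ≤ M)
    (hmin : IsAbsoluteMinimizer Ω g u K G) (hred : IsReduced Ω K) :
    (∀ x ∈ K, IsArcInteriorPoint Ω K x ∨ IsArcEndPoint Ω K x ∨ IsTripleJunctionPoint Ω K x) ∧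
      ∀ U : Set (EuclideanSpace ℝ (Fin 2)), IsOpen U → IsCompact (closure U) → closure U ⊆ Ω →
        Set.Finite {C : Set (EuclideanSpace ℝ (Fin 2)) |
          ∃ x ∈ K ∩ U, C = connectedComponentIn K x} :=
  reduce_to_shapes hmin.1.2.1 (main_shapes hΩo hgm hgb hmin hred)

end Crest.Agent.R135
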