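import Mathlib

/-!
# R135 (T6): private polar coordinates for the gluing lemma
-/

set_option autoImplicit false
open MeasureTheory Set Metric Filter Topology
open scoped Real

namespace Crest.Agent.R135.Gl

/-- the Euclidean plane -/
abbrev P := EuclideanSpace ℝ (Fin 2)

/-- unit vector at angle `θ` -/
noncomputable def uv (θ : ℝ) : P := !₂[Real.cos θ, Real.sin θ]

@[simp] theorem uv_zero_apply (θ : ℝ) : uv θ 0 = Real.cos θ := rfl
@[simp] theorem uv_one_apply (θ : ℝ) : uv θ 1 = Real.sin θ := rfl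

@[simp] theorem norm_uv (θ : ℝ) : ‖uv θ‖ = 1 := by
  rw [EuclideanSpace.norm_eq]; simp

theorem continuous_uv : Continuous uv := by
  unfold uv
  refine (PiLp.continuous_toLp 2 _).comp ?_
  refine continuous_pi fun i => ?_
  fin_cases i
  · exact Real.continuous_cos
  · exact Real.continuous_sin

/-- the measurable equivalence `P ≃ ℝ × ℝ` -/
noncomputable def toProd : P ≃ᵐ ℝ × ℝ :=
  (MeasurableEquiv.toLp 2 (Fin 2 → ℝ)).symm.trans MeasurableEquiv.finTwoArrow

theorem toProd_symm_apply (p : ℝ × ℝ) : toProd.symm p = !₂[p.1, p.2] := by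
  rfl

theorem measurePreserving_toProd : MeasurePreserving toProd := by
  have h1 := EuclideanSpace.volume_preserving_symm_measurableEquiv_toLp (Fin 2)
  have h2 := MeasureTheory.volume_preserving_finTwoArrow ℝ
  exact h2.comp h1

theorem polar_symm (p : ℝ × ℝ) : toProd.symm (polarCoord.symm p) = p.1 • uv p.2 := by
  rw [toProd_symm_apply]
  ext i
  fin_cases i <;> simp [polarCoord, uv]

/-- polar coordinates around the origin -/
theorem integral_polar {F : Type*} [NormedAddCommGroup F] [NormedSpace ℝ F] (f : P → F) :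
    ∫ x, f x = ∫ p in Ioi (0 : ℝ) ×ˢ Ioo (-π) π, p.1 • f (p.1 • uv p.2) := by
  have h1 : ∫ x, f x = ∫ p : ℝ × ℝ, f (toProd.symm p) :=
    (measurePreserving_toProd.symm.integral_comp' f).symm
  rw [h1, ← integral_comp_polarCoord_symm]
  simp only [polar_symm]
  rfl

theorem integral_polar_at {F : Type*} [NormedAddCommGroup F] [NormedSpace ℝ F] (x₀ : P)
    (f : P → F) :
    ∫ x, f x = ∫ p in Ioi (0 : ℝ) ×ˢ Ioo (-π) π, p.1 • f (x₀ + p.1 • uv p.2) := by
  rw [← integral_polar (fun y => f (x₀ + y))]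
  exact (integral_add_left_eq_self f x₀).symm

theorem lintegral_polar (f : P → ENNReal) :
    ∫⁻ x, f x = ∫⁻ p in Ioi (0 : ℝ) ×ˢ Ioo (-π) π, ENNReal.ofReal p.1 * f (p.1 • uv p.2) := by
  have h1 : ∫⁻ x, f x = ∫⁻ p : ℝ × ℝ, f (toProd.symm p) :=
    (measurePreserving_toProd.symm.lintegral_comp_emb toProd.symm.measurableEmbedding f).symm
  rw [h1, ← lintegral_comp_polarCoord_symm]
  simp only [polar_symm]
  rfl

theorem lintegral_polar_at (x₀ : P) (f : P → ENNReal) :
    ∫⁻ x, f x = ∫⁻ p in Ioi (0 : ℝ) ×ˢ Ioo (-π) π, ENNReal.ofReal p.1 * f (x₀ + p.1 • uv p.2) := by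
  rw [← lintegral_polar (fun y => f (x₀ + y))]
  exact (lintegral_add_left_eq_self f x₀).symm

end Crest.Agent.R135.Gl
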