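import Crest.Prelude.Def_OnePhase
import Crest.Agent.R135.GlPolar

/-!
# R135 (T6): weak gradients glue across a circle where the function is continuous
-/

set_option autoImplicit false
open MeasureTheory Set Metric Filter Topology
open Crest.AnalysisR.PDE.OnePhase
open scoped Real ContDiff

namespace Crest.Agent.R135.Gl

/-- cut-off vanishing on `[-1,1]`, equal to one off `[-2,2]` -/
noncomputable def kin (t : ℝ) : ℝ := Real.smoothTransition (-t - 1)
noncomputable def kout (t : ℝ) : ℝ := Real.smoothTransition (t - 1)
noncomputable def kap (t : ℝ) : ℝ := kin t + kout t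

theorem kin_smooth : ContDiff ℝ ∞ kin :=
  Real.smoothTransition.contDiff.comp (by fun_prop)
theorem kout_smooth : ContDiff ℝ ∞ kout :=
  Real.smoothTransition.contDiff.comp (by fun_prop)
theorem kap_smooth : ContDiff ℝ ∞ kap := kin_smooth.add kout_smooth

theorem kin_zero {t : ℝ} (h : -1 ≤ t) : kin t = 0 :=
  Real.smoothTransition.zero_of_nonpos (by linarith)
theorem kin_one {t : ℝ} (h : t ≤ -2) : kin t = 1 :=
  Real.smoothTransition.one_of_one_le (by linarith)
theorem kout_zero {t : ℝ} (h : t ≤ 1) : kout t = 0 :=
  Real.smoothTransition.zero_of_nonpos (by linarith)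
theorem kout_one {t : ℝ} (h : 2 ≤ t) : kout t = 1 :=
  Real.smoothTransition.one_of_one_le (by linarith)
theorem kin_nonneg (t : ℝ) : 0 ≤ kin t := Real.smoothTransition.nonneg _
theorem kout_nonneg (t : ℝ) : 0 ≤ kout t := Real.smoothTransition.nonneg _
theorem kin_le (t : ℝ) : kin t ≤ 1 := Real.smoothTransition.le_one _
theorem kout_le (t : ℝ) : kout t ≤ 1 := Real.smoothTransition.le_one _

theorem kap_one {t : ℝ} (h : 2 ≤ |t|) : kap t = 1 := by
  unfold kap
  rcases le_abs.1 h with h | h
  · rw [kin_zero (by linarith), kout_one h, zero_add]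
  · rw [kin_one (by linarith), kout_zero (by linarith), add_zero]

theorem kap_zero {t : ℝ} (h : |t| ≤ 1) : kap t = 0 := by
  unfold kap
  obtain ⟨h1, h2⟩ := abs_le.1 h
  rw [kin_zero h1, kout_zero h2, add_zero]

theorem dkap_cont : Continuous (deriv kap) :=
  kap_smooth.continuous_deriv (by simp)

theorem dkap_zero {t : ℝ} (h : 2 ≤ |t|) : deriv kap t = 0 := by
  rcases eq_or_lt_of_le h with h | h
  · -- boundary points by continuity
    have h1 : ∀ t : ℝ, 2 < |t| → deriv kap t = 0 := by
      intro t ht
      have : kap =ᶠ[𝓝 t] fun _ => (1 : ℝ) := by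
        have := (continuous_abs.tendsto t).eventually (lt_mem_nhds ht)
        filter_upwards [this] with s hs
        exact kap_one hs.le
      rw [this.deriv_eq, deriv_const]
    have hcl : IsClosed {t | deriv kap t = 0} := isClosed_eq dkap_cont continuous_const
    have hsub : closure {t : ℝ | 2 < |t|} ⊆ {t | deriv kap t = 0} :=
      closure_minimal (fun t ht => h1 t ht) hcl
    apply hsub
    rw [Metric.mem_closure_iff]
    intro ε hε
    rcases le_total 0 t with h0 | h0
    · refine ⟨t + ε / 2, ?_, ?_⟩
      · rw [mem_setOf_eq]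
        rw [abs_of_nonneg h0] at h
        rw [abs_of_nonneg (by linarith)]; linarith
      · rw [Real.dist_eq]; rw [show t - (t + ε / 2) = -(ε/2) by ring, abs_neg, abs_of_pos (by linarith)]
        linarith
    · refine ⟨t - ε / 2, ?_, ?_⟩
      · rw [mem_setOf_eq]
        rw [abs_of_nonpos h0] at h
        rw [abs_of_nonpos (by linarith)]; linarith
      · rw [Real.dist_eq]; rw [show t - (t - ε / 2) = (ε/2) by ring, abs_of_pos (by linarith)]
        linarith
  · have : kap =ᶠ[𝓝 t] fun _ => (1 : ℝ) := by
      have := (continuous_abs.tendsto t).eventually (lt_mem_nhds h)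
      filter_upwards [this] with s hs
      exact kap_one hs.le
    rw [this.deriv_eq, deriv_const]

theorem dkap_bdd : ∃ C : ℝ, 0 ≤ C ∧ ∀ t, |deriv kap t| ≤ C := by
  have hcs : HasCompactSupport (deriv kap) := by
    refine HasCompactSupport.of_support_subset_isCompact (isCompact_Icc (a := (-2:ℝ)) (b := 2)) ?_
    intro t ht
    by_contra hcon
    apply ht
    apply dkap_zero
    rw [mem_Icc, not_and_or, not_le, not_le] at hcon
    rcases hcon with h | h
    · exact le_trans (by linarith) (neg_le_abs t)
    · exact le_trans h.le (le_abs_self t)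
  obtain ⟨C, hC⟩ := hcs.exists_bound_of_continuous dkap_cont
  refine ⟨C, (norm_nonneg _).trans (hC 0), fun t => ?_⟩
  simpa using hC t

end Crest.Agent.R135.Gl
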