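import Crest.Agent.R135.Glue1

/-!
# R135 (T6): the limit of the boundary term in the gluing lemma
-/

set_option autoImplicit false
open MeasureTheory Set Metric Filter Topology
open Crest.AnalysisR.PDE.OnePhase
open scoped Real ContDiff

namespace Crest.Agent.R135.Gl

/-- normalised defect of the squared radius -/
noncomputable def sd (x₀ : P) (ρ δ : ℝ) (y : P) : ℝ := (‖y - x₀‖ ^ 2 - ρ ^ 2) / δ

theorem sd_smooth (x₀ : P) (ρ δ : ℝ) : ContDiff ℝ ∞ (sd x₀ ρ δ) := by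
  unfold sd
  exact ((contDiff_norm_sq ℝ).comp (contDiff_id.sub contDiff_const)).sub contDiff_const
    |>.div_const δ

theorem hasFDerivAt_sd (x₀ : P) (ρ δ : ℝ) (y : P) :
    HasFDerivAt (sd x₀ ρ δ) ((2 / δ) • innerSL ℝ (y - x₀)) y := by
  have h1 : HasFDerivAt (fun y : P => ‖y - x₀‖ ^ 2) (2 • innerSL ℝ (y - x₀)) y := by
    have := (hasStrictFDerivAt_norm_sq (y - x₀)).hasFDerivAt.comp y
      ((hasFDerivAt_id y).sub_const x₀)
    rw [ContinuousLinearMap.comp_id] at this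
    exact this
  have h2 := (h1.sub_const (ρ ^ 2)).mul_const (δ⁻¹)
  unfold sd
  simp only [div_eq_mul_inv]
  have e : δ⁻¹ • (2 • innerSL ℝ (y - x₀)) = (2 * δ⁻¹) • innerSL ℝ (y - x₀) := by
    rw [two_nsmul, ← two_smul ℝ, smul_smul, mul_comm]
  rw [e] at h2
  exact h2

theorem partialD_comp_sd {κ : ℝ → ℝ} (hκ : ContDiff ℝ ∞ κ) (x₀ : P) (ρ δ : ℝ) (i : Fin 2) (y : P) :
    partialD (fun y => κ (sd x₀ ρ δ y)) i y
      = deriv κ (sd x₀ ρ δ y) * (2 * (y i - x₀ i) / δ) := by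
  unfold partialD
  have h1 : HasFDerivAt (fun y => κ (sd x₀ ρ δ y))
      ((deriv κ (sd x₀ ρ δ y)) • ((2 / δ) • innerSL ℝ (y - x₀))) y := by
    have h3 : HasDerivAt κ (deriv κ (sd x₀ ρ δ y)) (sd x₀ ρ δ y) :=
      (hκ.differentiable (by simp) _).hasDerivAt
    exact h3.comp_hasFDerivAt y (hasFDerivAt_sd x₀ ρ δ y)
  rw [h1.fderiv]
  have h4 : innerSL ℝ (y - x₀) (EuclideanSpace.single i (1 : ℝ)) = y i - x₀ i := by
    simp [EuclideanSpace.inner_single_right]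
  simp only [smul_apply, smul_eq_mul, h4]
  ring

theorem radial_zero {ρ δ : ℝ} (hδ : 0 < δ) (hδ2 : 2 * δ ≤ ρ ^ 2) :
    ∫ r in Ioi (0 : ℝ), deriv kap ((r ^ 2 - ρ ^ 2) / δ) * (2 * r / δ) = 0 := by
  have hd : ∀ r : ℝ, HasDerivAt (fun r : ℝ => kap ((r ^ 2 - ρ ^ 2) / δ))
      (deriv kap ((r ^ 2 - ρ ^ 2) / δ) * (2 * r / δ)) r := by
    intro r
    have h3 : HasDerivAt kap (deriv kap ((r ^ 2 - ρ ^ 2) / δ)) ((r ^ 2 - ρ ^ 2) / δ) :=
      (kap_smooth.differentiable (by simp) _).hasDerivAt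
    have h4 : HasDerivAt (fun r : ℝ => (r ^ 2 - ρ ^ 2) / δ) (2 * r / δ) r := by
      have := ((hasDerivAt_pow 2 r).sub_const (ρ ^ 2)).div_const δ
      simpa using this
    exact h3.comp r h4
  have hcs : HasCompactSupport (fun r : ℝ => deriv kap ((r ^ 2 - ρ ^ 2) / δ) * (2 * r / δ)) := by
    refine HasCompactSupport.of_support_subset_isCompact
      (isCompact_Icc (a := -(ρ ^ 2 + 2 * δ + 1)) (b := ρ ^ 2 + 2 * δ + 1)) ?_
    intro r hr
    by_contra hcon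
    apply hr
    have h1 : 2 ≤ |(r ^ 2 - ρ ^ 2) / δ| := by
      refine le_trans ?_ (le_abs_self _)
      rw [le_div_iff₀ hδ]
      rw [mem_Icc, not_and_or, not_le, not_le] at hcon
      have hr1 : ρ ^ 2 + 2 * δ + 1 < |r| := by
        rcases hcon with h | h
        · exact lt_of_lt_of_le (by linarith) (neg_le_abs r)
        · exact lt_of_lt_of_le h (le_abs_self r)
      have h2 : |r| ≤ r ^ 2 := by
        rw [← sq_abs]; nlinarith [sq_nonneg ρ]
      linarith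
    simp only [dkap_zero h1, zero_mul]
  have hcont : Continuous (fun r : ℝ => deriv kap ((r ^ 2 - ρ ^ 2) / δ) * (2 * r / δ)) := by
    have := dkap_cont
    fun_prop
  have h := integral_Ioi_of_hasDerivAt_of_tendsto (a := 0) (m := 1)
    (f := fun r : ℝ => kap ((r ^ 2 - ρ ^ 2) / δ)) (hd 0).continuousAt.continuousWithinAt
    (fun r _ => hd r) (hcont.integrable_of_hasCompactSupport hcs).integrableOn ?_
  · rw [h]
    have : kap ((0 ^ 2 - ρ ^ 2) / δ) = 1 := by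
      apply kap_one
      refine le_trans ?_ (neg_le_abs _)
      rw [← neg_div, le_div_iff₀ hδ]; linarith
    rw [this]; norm_num
  · refine tendsto_const_nhds.congr' ?_
    filter_upwards [eventually_ge_atTop (ρ ^ 2 + 2 * δ + 1)] with r hr
    symm
    apply kap_one
    refine le_trans ?_ (le_abs_self _)
    rw [le_div_iff₀ hδ]
    nlinarith [sq_nonneg ρ]

/-- radial extension of the values on the circle -/
noncomputable def rext (x₀ : P) (ρ : ℝ) (ψ : P → ℝ) (y : P) : ℝ :=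
  ρ / ‖y - x₀‖ * ψ (x₀ + (ρ / ‖y - x₀‖) • (y - x₀))

theorem integral_rext_zero {x₀ : P} {ρ δ : ℝ} (hδ : 0 < δ) (hδ2 : 2 * δ ≤ ρ ^ 2)
    (ψ : P → ℝ) (i : Fin 2) :
    ∫ y, rext x₀ ρ ψ y * (deriv kap (sd x₀ ρ δ y) * (2 * (y i - x₀ i) / δ)) = 0 := by
  rw [integral_polar_at x₀]
  have h1 : ∀ p ∈ Ioi (0 : ℝ) ×ˢ Ioo (-π) π,
      p.1 • (rext x₀ ρ ψ (x₀ + p.1 • uv p.2) *
        (deriv kap (sd x₀ ρ δ (x₀ + p.1 • uv p.2)) *
          (2 * ((x₀ + p.1 • uv p.2) i - x₀ i) / δ)))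
      = (deriv kap ((p.1 ^ 2 - ρ ^ 2) / δ) * (2 * p.1 / δ)) *
        (ρ * ψ (x₀ + ρ • uv p.2) * uv p.2 i) := by
    rintro ⟨r, θ⟩ ⟨hr, -⟩
    have hr : 0 < r := hr
    have e1 : ‖r • uv θ‖ = r := by
      rw [norm_smul, norm_uv, mul_one, Real.norm_of_nonneg hr.le]
    have e2 : (ρ / r) • (r • uv θ) = ρ • uv θ := by
      rw [smul_smul, div_mul_cancel₀ _ hr.ne']
    simp only [rext, sd, add_sub_cancel_left, e1, e2, smul_eq_mul, PiLp.add_apply,
      PiLp.smul_apply]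
    field_simp
  rw [setIntegral_congr_fun (measurableSet_Ioi.prod measurableSet_Ioo) h1,
    Measure.volume_eq_prod, setIntegral_prod_mul
      (fun r => deriv kap ((r ^ 2 - ρ ^ 2) / δ) * (2 * r / δ))
      (fun θ => ρ * ψ (x₀ + ρ • uv θ) * uv θ i), radial_zero hδ hδ2, zero_mul]

end Crest.Agent.R135.Gl
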