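import Crest.Agent.R135.Glue2

/-!
# R135 (T6): the boundary term in the gluing lemma tends to zero
-/

set_option autoImplicit false
open MeasureTheory Set Metric Filter Topology
open Crest.AnalysisR.PDE.OnePhase
open scoped Real ContDiff

namespace Crest.Agent.R135.Gl

theorem rext_continuousAt {x₀ : P} {ρ : ℝ} (hρ : 0 < ρ) {ψ : P → ℝ}
    (hc : ∀ s ∈ sphere x₀ ρ, ContinuousAt ψ s) {y : P} (hy : y ≠ x₀) :
    ContinuousAt (rext x₀ ρ ψ) y := by
  have hn : ‖y - x₀‖ ≠ 0 := by rwa [norm_ne_zero_iff, sub_ne_zero]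
  have h1 : ContinuousAt (fun y : P => ρ / ‖y - x₀‖) y := by
    refine ContinuousAt.div continuousAt_const ?_ hn
    fun_prop
  have h2 : ContinuousAt (fun y : P => x₀ + (ρ / ‖y - x₀‖) • (y - x₀)) y := by
    refine continuousAt_const.add (h1.smul ?_)
    fun_prop
  have h3 : x₀ + (ρ / ‖y - x₀‖) • (y - x₀) ∈ sphere x₀ ρ := by
    rw [mem_sphere, dist_eq_norm, add_sub_cancel_left, norm_smul, norm_div, norm_norm,
      Real.norm_of_nonneg hρ.le]
    field_simp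
  have h4 : ContinuousAt (fun y : P => ψ (x₀ + (ρ / ‖y - x₀‖) • (y - x₀))) y :=
    ContinuousAt.comp (f := fun y : P => x₀ + (ρ / ‖y - x₀‖) • (y - x₀)) (hc _ h3) h2
  exact h1.mul h4

theorem rext_eq {x₀ : P} {ρ : ℝ} (hρ : 0 < ρ) {ψ : P → ℝ} {s : P} (hs : s ∈ sphere x₀ ρ) :
    rext x₀ ρ ψ s = ψ s := by
  rw [mem_sphere, dist_eq_norm] at hs
  rw [rext, hs, div_self hρ.ne', one_mul, one_smul, add_sub_cancel]

theorem annulus_volume {x₀ : P} {ρ δ : ℝ} (hδ : 0 < δ) (hδ2 : 2 * δ ≤ ρ ^ 2) :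
    volume.real (closedBall x₀ (√(ρ ^ 2 + 2 * δ)) \ ball x₀ (√(ρ ^ 2 - 2 * δ))) = 4 * π * δ := by
  have h1 : ball x₀ (√(ρ ^ 2 - 2 * δ)) ⊆ closedBall x₀ (√(ρ ^ 2 + 2 * δ)) :=
    (ball_subset_closedBall).trans (closedBall_subset_closedBall (Real.sqrt_le_sqrt (by linarith)))
  rw [measureReal_sdiff h1 measurableSet_ball measure_closedBall_lt_top.ne]
  have e1 : volume.real (closedBall x₀ (√(ρ ^ 2 + 2 * δ))) = π * (ρ ^ 2 + 2 * δ) := by
    rw [Measure.real, EuclideanSpace.volume_closedBall_fin_two, ENNReal.toReal_mul, ENNReal.toReal_pow,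
      ENNReal.toReal_ofReal (Real.sqrt_nonneg _), Real.sq_sqrt (by positivity)]
    simp [mul_comm, Real.pi_pos.le]
  have e2 : volume.real (ball x₀ (√(ρ ^ 2 - 2 * δ))) = π * (ρ ^ 2 - 2 * δ) := by
    rw [Measure.real, EuclideanSpace.volume_ball_fin_two, ENNReal.toReal_mul, ENNReal.toReal_pow,
      ENNReal.toReal_ofReal (Real.sqrt_nonneg _), Real.sq_sqrt (by linarith)]
    simp [mul_comm, Real.pi_pos.le]
  rw [e1, e2]; ring

/-- the weight of the boundary term -/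
noncomputable def bw (x₀ : P) (ρ δ : ℝ) (i : Fin 2) (y : P) : ℝ :=
  deriv kap (sd x₀ ρ δ y) * (2 * (y i - x₀ i) / δ)

theorem bw_cont (x₀ : P) (ρ δ : ℝ) (i : Fin 2) : Continuous (bw x₀ ρ δ i) := by
  unfold bw
  refine (dkap_cont.comp (sd_smooth x₀ ρ δ).continuous).mul ?_
  fun_prop

theorem bw_zero {x₀ : P} {ρ δ : ℝ} (hδ : 0 < δ) (i : Fin 2) {y : P}
    (hy : 2 * δ ≤ |‖y - x₀‖ ^ 2 - ρ ^ 2|) : bw x₀ ρ δ i y = 0 := by
  unfold bw sd
  rw [dkap_zero, zero_mul]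
  rw [abs_div, abs_of_pos hδ, le_div_iff₀ hδ]
  exact hy

theorem bw_cs {x₀ : P} {ρ δ : ℝ} (hδ : 0 < δ) (i : Fin 2) :
    HasCompactSupport (bw x₀ ρ δ i) := by
  refine HasCompactSupport.of_support_subset_isCompact
    (isCompact_closedBall x₀ (ρ ^ 2 + 2 * δ + 1)) ?_
  intro y hy
  by_contra hcon
  apply hy
  apply bw_zero hδ
  rw [mem_closedBall, dist_eq_norm, not_le] at hcon
  refine le_trans ?_ (le_abs_self _)
  nlinarith [sq_nonneg ρ, norm_nonneg (y - x₀)]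

theorem bw_bound {C₁ : ℝ} (hC : ∀ t, |deriv kap t| ≤ C₁) (hC0 : 0 ≤ C₁) {x₀ : P} {ρ δ : ℝ}
    (hρ : 0 < ρ) (hδ : 0 < δ) (hδ2 : 2 * δ ≤ ρ ^ 2) (i : Fin 2) (y : P) :
    |bw x₀ ρ δ i y| ≤ C₁ * (4 * ρ / δ) := by
  by_cases hy : 2 * δ ≤ |‖y - x₀‖ ^ 2 - ρ ^ 2|
  · rw [bw_zero hδ i hy, abs_zero]; positivity
  · rw [not_le, abs_lt] at hy
    have h1 : ‖y - x₀‖ ≤ 2 * ρ := by
      nlinarith [norm_nonneg (y - x₀), hy.2]
    have h2 : |y i - x₀ i| ≤ ‖y - x₀‖ := by
      have := PiLp.norm_apply_le (y - x₀) i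
      simpa using this
    unfold bw
    rw [abs_mul]
    refine mul_le_mul (hC _) ?_ (abs_nonneg _) hC0
    rw [abs_div, abs_mul, abs_of_pos hδ, abs_two]
    have h3 : 2 * |y i - x₀ i| ≤ 4 * ρ := by linarith
    exact div_le_div_of_nonneg_right h3 hδ.le

theorem boundary_small {x₀ : P} {ρ : ℝ} (hρ : 0 < ρ) {ψ : P → ℝ} (hi : LocallyIntegrable ψ)
    (hc : ∀ s ∈ sphere x₀ ρ, ContinuousAt ψ s) (i : Fin 2) {ε : ℝ} (hε : 0 < ε) :
    ∃ δ₀ : ℝ, 0 < δ₀ ∧ ∀ δ, 0 < δ → δ ≤ δ₀ → |∫ y, ψ y * bw x₀ ρ δ i y| ≤ ε := by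
  obtain ⟨C₁, hC0, hC⟩ := dkap_bdd
  set ε' : ℝ := ε / (16 * π * ρ * (C₁ + 1)) with hε'
  have hε'0 : 0 < ε' := by positivity
  have hS : IsCompact (sphere x₀ ρ) := isCompact_sphere x₀ ρ
  have hne : ∀ s ∈ sphere x₀ ρ, s ≠ x₀ := by
    rintro s hs rfl
    rw [mem_sphere, dist_self] at hs
    exact hρ.ne hs
  have hU : {y | |ψ y - rext x₀ ρ ψ y| < ε'} ∈ 𝓝ˢ (sphere x₀ ρ) := by
    rw [mem_nhdsSet_iff_forall]
    intro s hs
    have h1 : ContinuousAt (fun y => |ψ y - rext x₀ ρ ψ y|) s :=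
      ((hc s hs).sub (rext_continuousAt hρ hc (hne s hs))).abs
    have h2 : |ψ s - rext x₀ ρ ψ s| < ε' := by
      rw [rext_eq hρ hs, sub_self, abs_zero]; exact hε'0
    exact h1.eventually (gt_mem_nhds h2)
  obtain ⟨τ, hτ, hτU⟩ := (hasBasis_nhdsSet_thickening hS).mem_iff.1 hU
  refine ⟨min (ρ ^ 2 / 4) (ρ * τ / 4), by positivity, ?_⟩
  intro δ hδ hδle
  have hδ1 : δ ≤ ρ ^ 2 / 4 := hδle.trans (min_le_left _ _)
  have hδ3 : δ ≤ ρ * τ / 4 := hδle.trans (min_le_right _ _)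
  have hδ2 : 2 * δ ≤ ρ ^ 2 := by nlinarith [sq_nonneg ρ]
  have hwi : Integrable (fun y => ψ y * bw x₀ ρ δ i y) := by
    have := hi.integrable_smul_right_of_hasCompactSupport (bw_cont x₀ ρ δ i) (bw_cs hδ i)
    simpa [smul_eq_mul] using this
  have hri : Integrable (fun y => rext x₀ ρ ψ y * bw x₀ ρ δ i y) := by
    apply Continuous.integrable_of_hasCompactSupport
    · rw [continuous_iff_continuousAt]
      intro y
      by_cases hy : y = x₀
      · subst hy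
        have : (fun z => rext y ρ ψ z * bw y ρ δ i z) =ᶠ[𝓝 y] fun _ => (0 : ℝ) := by
          have h1 : ∀ᶠ z in 𝓝 y, ‖z - y‖ ^ 2 < ρ ^ 2 - 2 * δ := by
            have h2 : Continuous fun z : P => ‖z - y‖ ^ 2 := by fun_prop
            apply h2.continuousAt.eventually (gt_mem_nhds _)
            simp only [sub_self, norm_zero]
            nlinarith [sq_nonneg ρ]
          filter_upwards [h1] with z hz
          rw [bw_zero hδ i, mul_zero]
          rw [le_abs]; right; linarith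
        exact continuousAt_const.congr this.symm
      · exact (rext_continuousAt hρ hc hy).mul (bw_cont x₀ ρ δ i).continuousAt
    · exact (bw_cs hδ i).mul_left
  have h0 : ∫ y, rext x₀ ρ ψ y * bw x₀ ρ δ i y = 0 := integral_rext_zero hδ hδ2 ψ i
  have h1 : ∫ y, ψ y * bw x₀ ρ δ i y = ∫ y, (ψ y - rext x₀ ρ ψ y) * bw x₀ ρ δ i y := by
    simp only [sub_mul]
    rw [integral_sub hwi hri, h0, sub_zero]
  rw [h1]
  set A := closedBall x₀ (√(ρ ^ 2 + 2 * δ)) \ ball x₀ (√(ρ ^ 2 - 2 * δ)) with hA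
  have hAm : MeasurableSet A := measurableSet_closedBall.diff measurableSet_ball
  have hAf : volume A ≠ ⊤ :=
    ((measure_mono sdiff_subset).trans_lt measure_closedBall_lt_top).ne
  have h2 : ∀ y, ‖(ψ y - rext x₀ ρ ψ y) * bw x₀ ρ δ i y‖
      ≤ A.indicator (fun _ => ε' * (C₁ * (4 * ρ / δ))) y := by
    intro y
    by_cases hy : 2 * δ ≤ |‖y - x₀‖ ^ 2 - ρ ^ 2|
    · rw [bw_zero hδ i hy, mul_zero, norm_zero]
      exact indicator_nonneg (fun _ _ => by positivity) y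
    · rw [not_le, abs_lt] at hy
      have hyA : y ∈ A := by
        refine ⟨?_, ?_⟩
        · rw [mem_closedBall, dist_eq_norm]
          apply Real.le_sqrt_of_sq_le; linarith
        · rw [mem_ball, dist_eq_norm, not_lt]
          rw [Real.sqrt_le_left (norm_nonneg _)]; linarith
      rw [indicator_of_mem hyA, norm_mul]
      refine mul_le_mul ?_ (bw_bound hC hC0 hρ hδ hδ2 i y) (norm_nonneg _) hε'0.le
      have hyt : y ∈ thickening τ (sphere x₀ ρ) := by
        rw [mem_thickening_iff]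
        have hr0 : 0 < ‖y - x₀‖ := by
          rw [norm_pos_iff, sub_ne_zero]
          rintro rfl
          simp only [sub_self, norm_zero] at hy
          nlinarith [hy.1, sq_nonneg ρ, sq_pos_of_pos hρ]
        refine ⟨x₀ + (ρ / ‖y - x₀‖) • (y - x₀), ?_, ?_⟩
        · rw [mem_sphere, dist_eq_norm, add_sub_cancel_left, norm_smul, norm_div, norm_norm,
            Real.norm_of_nonneg hρ.le]
          field_simp
        · rw [dist_eq_norm]
          have e1 : y - (x₀ + (ρ / ‖y - x₀‖) • (y - x₀))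
              = (1 - ρ / ‖y - x₀‖) • (y - x₀) := by
            rw [sub_smul, one_smul]; abel
          rw [e1, norm_smul, Real.norm_eq_abs]
          have e2 : |1 - ρ / ‖y - x₀‖| * ‖y - x₀‖ = |‖y - x₀‖ - ρ| := by
            rw [← abs_of_pos hr0, ← abs_mul, abs_of_pos hr0]
            congr 1; field_simp
          rw [e2]
          have e3 : |‖y - x₀‖ - ρ| * (‖y - x₀‖ + ρ) < 2 * δ := by
            rw [← abs_of_pos (show 0 < ‖y - x₀‖ + ρ by positivity), ← abs_mul, abs_lt]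
            constructor <;> nlinarith [hy.1, hy.2]
          have e4 : |‖y - x₀‖ - ρ| * ρ < 2 * δ := by
            have := mul_nonneg (abs_nonneg (‖y - x₀‖ - ρ)) hr0.le
            nlinarith
          by_contra hcon
          rw [not_lt] at hcon
          nlinarith
      have := hτU hyt
      exact le_of_lt this
  have h3 : ‖∫ y, (ψ y - rext x₀ ρ ψ y) * bw x₀ ρ δ i y‖
      ≤ ∫ y, A.indicator (fun _ => ε' * (C₁ * (4 * ρ / δ))) y := by
    apply norm_integral_le_of_norm_le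
    · exact (integrable_indicator_iff hAm).2 (integrableOn_const hAf)
    · exact Eventually.of_forall h2
  rw [integral_indicator hAm, setIntegral_const, annulus_volume hδ hδ2, smul_eq_mul] at h3
  rw [Real.norm_eq_abs] at h3
  refine h3.trans ?_
  have h4 : 4 * π * δ * (ε' * (C₁ * (4 * ρ / δ))) = ε' * (16 * π * ρ * C₁) := by
    field_simp; ring
  rw [h4, hε', div_mul_eq_mul_div, div_le_iff₀ (by positivity)]
  have : 0 ≤ 16 * π * ρ := by positivity
  nlinarith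

end Crest.Agent.R135.Gl
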