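import Crest.Agent.R135.Entry5

/-! INTERFACE A1: proved in Entry1-Entry5 (helper140), on top of helper370's RegMin and
helper961's FV1.

* `exists_isQM`  : absolute minimizers are locally quasi-minimizers `IsQM`, bounded representative;
* `exists_isSQM` : the same with the strong class `IsSQM` (no topological condition). -/
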