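import Crest.Agent.R135.IFDefs
import Crest.Agent.R135.DLB6

/-! INTERFACE B2: density lower bound with a universal constant (helper961, proof in DLB1-6).
The second smallness hypothesis is automatic for `r ≤ 1` and for `lam = 0`. -/

set_option autoImplicit false

open MeasureTheory Set Filter Topology Metric
open scoped ENNReal NNReal ContDiff Gradient
open Crest.AnalysisR.PDE.OnePhase Crest.AnalysisR.PDE.MumfordShah

namespace Crest.Agent.R135

theorem density_lower : ∃ c₀ : ℝ, 0 < c₀ ∧ ∀ {U : Set E2} {lam : ℝ} {u : E2 → ℝ} {K : Set E2},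
    IsQM U lam u K → ∀ x ∈ K, ∀ r : ℝ, 0 < r → closedBall x r ⊆ U → lam * r ≤ 1 →
      lam * (r * √r) ≤ 1 → ENNReal.ofReal (c₀ * r) ≤ len (K ∩ closedBall x r) :=
  Gl.density_lower_gen

/-- global minimizers: all radii -/
theorem density_lower_zero : ∃ c₀ : ℝ, 0 < c₀ ∧ ∀ {U : Set E2} {u : E2 → ℝ} {K : Set E2},
    IsQM U 0 u K → ∀ x ∈ K, ∀ r : ℝ, 0 < r → closedBall x r ⊆ U →
      ENNReal.ofReal (c₀ * r) ≤ len (K ∩ closedBall x r) :=
  Gl.density_lower_zero

end Crest.Agent.R135
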