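import Crest.Agent.R135.IFDefs2
import Crest.Agent.R135.EarnMain

/-! INTERFACE no_cluster: proved in `EarnMain` (helper391). -/

set_option autoImplicit false

open MeasureTheory Set Filter Topology Metric
open scoped ENNReal NNReal ContDiff Gradient
open Crest.AnalysisR.PDE.OnePhase Crest.AnalysisR.PDE.MumfordShah

namespace Crest.Agent.R135

/-- C1 (EARN): no compact relatively open part -/
theorem no_cluster {u : E2 → ℝ} {K K1 : Set E2} (h : IsQM univ 0 u K) (h1 : IsCompact K1)
    (h1K : K1 ⊆ K) (h2 : IsClosed (K \ K1)) : K1 = ∅ :=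
  Earn.no_cluster_aux h h1 h1K h2

end Crest.Agent.R135
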