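import Crest.Agent.R135.IFDefs2
import Crest.Agent.R135.TopConn
import Crest.Agent.R135.IF_no_cluster

/-! INTERFACE component_unbounded_gm: proved from `no_cluster`. -/

set_option autoImplicit false

open MeasureTheory Set Filter Topology Metric
open scoped ENNReal NNReal ContDiff Gradient
open Crest.AnalysisR.PDE.OnePhase Crest.AnalysisR.PDE.MumfordShah

namespace Crest.Agent.R135

theorem component_unbounded_gm {u : E2 → ℝ} {K : Set E2} (h : IsQM univ 0 u K) {p : E2}
    (hp : p ∈ K) : ¬ Bornology.IsBounded (connectedComponentIn K p) := by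
  have hK : IsClosed K := by
    have h1 := h.closed
    rw [inter_univ] at h1
    exact isClosed_of_closure_subset h1
  refine component_unbounded hK (fun K1 h1 h2 h3 h4 => ?_) hp
  have h5 : IsClosed (K \ K1) := by
    refine isClosed_of_closure_subset fun x hx => ?_
    refine ⟨?_, fun hx1 => disjoint_left.1 h4 hx1 hx⟩
    exact hK.closure_subset_iff.2 sdiff_subset hx
  exact h2.ne_empty (no_cluster h h1 h3 h5)

end Crest.Agent.R135
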