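import Mathlib

/-! R135, block Tree (helper804), part N: the non-cut-point theorem.
A nondegenerate compact connected Hausdorff space has a non-cut point different from any given
point. -/

set_option autoImplicit false
open Set Topology

namespace Crest.Agent.R135

section NonCut
variable {X : Type*} [TopologicalSpace X]

/-- If the preconnected space `X` minus the point `x` is the disjoint union of the open sets
`U` and `V`, then `insert x U` is preconnected. -/
theorem preconn_insert_of_sep [PreconnectedSpace X] {x : X} {U V : Set X}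
    (hU : IsOpen U) (hV : IsOpen V) (hxU : x ∉ U) (hxV : x ∉ V) (hUV : Disjoint U V)
    (hcov : ∀ y, y ≠ x → y ∈ U ∪ V) : IsPreconnected (insert x U) := by
  have key : ∀ u v : Set X, IsOpen u → IsOpen v → insert x U ⊆ u ∪ v → x ∈ u →
      (insert x U ∩ v).Nonempty → (insert x U ∩ (u ∩ v)).Nonempty := by
    intro u v hu hv hsub hxu hne
    by_contra hcon
    rw [Set.not_nonempty_iff_eq_empty] at hcon
    have hW : IsClopen (U ∩ v) := by
      refine ⟨?_, hU.inter hv⟩
      have : (U ∩ v)ᶜ = V ∪ u := by
        ext y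
        constructor
        · intro hy
          by_cases hyx : y = x
          · right; rw [hyx]; exact hxu
          · rcases hcov y hyx with h | h
            · have h1 : y ∈ u ∪ v := hsub (Or.inr h)
              rcases h1 with h1 | h1
              · exact Or.inr h1
              · exact absurd ⟨h, h1⟩ hy
            · exact Or.inl h
        · rintro (hy | hy) ⟨h1, h2⟩
          · exact Set.disjoint_left.1 hUV h1 hy
          · have : y ∈ insert x U ∩ (u ∩ v) := ⟨Or.inr h1, hy, h2⟩
            rw [hcon] at this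
            exact this
      rw [← isOpen_compl_iff, this]
      exact hV.union hu
    rcases isClopen_iff.1 hW with h | h
    · obtain ⟨y, hy, hyv⟩ := hne
      rcases hy with rfl | hy
      · have : y ∈ insert y U ∩ (u ∩ v) := ⟨Or.inl rfl, hxu, hyv⟩
        rw [hcon] at this
        exact this
      · have : y ∈ U ∩ v := ⟨hy, hyv⟩
        rw [h] at this
        exact this
    · have : x ∈ U ∩ v := by rw [h]; trivial
      exact hxU this.1
  intro u v hu hv hsub hneu hnev
  rcases hsub (Or.inl rfl) with hx | hx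
  · exact key u v hu hv hsub hx hnev
  · have := key v u hv hu (by rwa [Set.union_comm]) hx hneu
    rwa [Set.inter_comm v u] at this

/-- **Non-cut-point theorem**: a compact connected Hausdorff space with at least two points has,
for every point `p`, a non-cut point different from `p`. -/
theorem exists_noncut [T2Space X] [CompactSpace X] [PreconnectedSpace X] {p q : X}
    (hqp : q ≠ p) : ∃ x, x ≠ p ∧ IsPreconnected ({x}ᶜ : Set X) := by
  by_contra! hcut
  -- choice of a separation at each point
  have hsep : ∀ x : X, x ≠ p → ∃ U V : Set X, IsOpen U ∧ IsOpen V ∧ U.Nonempty ∧ p ∈ V ∧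
      x ∉ U ∧ x ∉ V ∧ Disjoint U V ∧ ∀ y, y ≠ x → y ∈ U ∪ V := by
    intro x hx
    have h := hcut x hx
    unfold IsPreconnected at h
    push Not at h
    obtain ⟨u, v, hu, hv, hsub, hsu, hsv, hemp⟩ := h
    have hxo : IsOpen ({x}ᶜ : Set X) := isOpen_compl_singleton
    have hA : IsOpen ({x}ᶜ ∩ u) := hxo.inter hu
    have hB : IsOpen ({x}ᶜ ∩ v) := hxo.inter hv
    have hAB : Disjoint ({x}ᶜ ∩ u) ({x}ᶜ ∩ v) := by
      rw [Set.disjoint_left]
      rintro y ⟨h1, h2⟩ ⟨_, h3⟩
      have : y ∈ {x}ᶜ ∩ (u ∩ v) := ⟨h1, h2, h3⟩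
      rw [hemp] at this
      exact this
    have hc : ∀ y, y ≠ x → y ∈ ({x}ᶜ ∩ u) ∪ ({x}ᶜ ∩ v) := by
      intro y hy
      have hy' : y ∈ ({x}ᶜ : Set X) := hy
      rcases hsub hy' with h | h
      · exact Or.inl ⟨hy', h⟩
      · exact Or.inr ⟨hy', h⟩
    rcases hc p hx.symm with h | h
    · exact ⟨_, _, hB, hA, hsv, h, fun h => h.1 rfl, fun h => h.1 rfl, hAB.symm,
        fun y hy => (Set.union_comm _ _) ▸ hc y hy⟩
    · exact ⟨_, _, hA, hB, hsu, h, fun h => h.1 rfl, fun h => h.1 rfl, hAB, hc⟩
  choose! U V hUo hVo hUne hpV hxU hxV hUV hcov using hsep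
  have hpU : ∀ x, x ≠ p → p ∉ U x := fun x hx h => Set.disjoint_left.1 (hUV x hx) h (hpV x hx)
  -- the nesting property
  have hnest : ∀ x, x ≠ p → ∀ y ∈ U x, insert y (U y) ⊆ U x := by
    intro x hx y hy
    have hyp : y ≠ p := fun h => hpU x hx (h ▸ hy)
    have hyx : y ≠ x := fun h => hxU x hx (h ▸ hy)
    have hconn : IsPreconnected (insert x (V x)) :=
      preconn_insert_of_sep (hVo x hx) (hUo x hx) (hxV x hx) (hxU x hx) (hUV x hx).symm
        (fun z hz => (Set.union_comm _ _) ▸ hcov x hx z hz)
    have hyV : y ∉ insert x (V x) := by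
      rintro (h | h)
      · exact hyx h
      · exact Set.disjoint_left.1 (hUV x hx) hy h
    have hsub : insert x (V x) ⊆ V y := by
      refine hconn.subset_right_of_subset_union (hUo y hyp) (hVo y hyp) (hUV y hyp) ?_
        ⟨p, Or.inr (hpV x hx), hpV y hyp⟩
      intro z hz
      exact hcov y hyp z (fun h => hyV (h ▸ hz))
    intro z hz
    rcases hz with rfl | hz
    · exact hy
    · have hzn : z ∉ insert x (V x) := fun h =>
        Set.disjoint_left.1 (hUV y hyp) hz (hsub h)
      have hzx : z ≠ x := fun h => hzn (Or.inl h)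
      rcases hcov x hx z hzx with h | h
      · exact h
      · exact absurd (Or.inr h) hzn
  have hclosed : ∀ x, x ≠ p → IsClosed (insert x (U x)) := by
    intro x hx
    have : (insert x (U x))ᶜ = V x := by
      ext z
      constructor
      · intro hz
        have hzx : z ≠ x := fun h => hz (Or.inl h)
        rcases hcov x hx z hzx with h | h
        · exact absurd (Or.inr h) hz
        · exact h
      · intro hz hz'
        rcases hz' with rfl | hz'
        · exact hxV z hx hz
        · exact Set.disjoint_left.1 (hUV x hx) hz' hz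
    rw [← isOpen_compl_iff, this]
    exact hVo x hx
  -- Zorn
  let S : Set (Set X) := {F | ∃ x, x ≠ p ∧ F = insert x (U x)}
  obtain ⟨m, hm⟩ : ∃ m, Minimal (· ∈ S) m := by
    apply zorn_superset
    intro c hcS hc
    by_cases hcne : c.Nonempty
    swap
    · rw [Set.not_nonempty_iff_eq_empty] at hcne
      refine ⟨insert q (U q), ⟨q, hqp, rfl⟩, ?_⟩
      intro s hs
      rw [hcne] at hs
      exact absurd hs (Set.notMem_empty _)
    by_cases hleast : ∃ m ∈ c, ∀ s ∈ c, m ⊆ s
    · obtain ⟨m, hmc, hms⟩ := hleast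
      exact ⟨m, hcS hmc, hms⟩
    push Not at hleast
    -- no least element
    have hne : (⋂₀ c).Nonempty := by
      haveI : Nonempty c := hcne.to_subtype
      have : (⋂ s : c, (s : Set X)).Nonempty := by
        apply IsCompact.nonempty_iInter_of_directed_nonempty_isCompact_isClosed
        · intro a b
          rcases hc.total a.2 b.2 with h | h
          · exact ⟨a, subset_rfl, h⟩
          · exact ⟨b, h, subset_rfl⟩
        · rintro ⟨s, hs⟩
          obtain ⟨x, hx, rfl⟩ := hcS hs
          exact ⟨x, Or.inl rfl⟩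
        · rintro ⟨s, hs⟩
          obtain ⟨x, hx, rfl⟩ := hcS hs
          exact (hclosed x hx).isCompact
        · rintro ⟨s, hs⟩
          obtain ⟨x, hx, rfl⟩ := hcS hs
          exact hclosed x hx
      rwa [← Set.sInter_eq_iInter] at this
    obtain ⟨z, hz⟩ := hne
    rw [Set.mem_sInter] at hz
    have hzU : ∀ x, x ≠ p → insert x (U x) ∈ c → z ∈ U x := by
      intro x hx hxc
      obtain ⟨s, hs, hns⟩ := hleast _ hxc
      obtain ⟨x', hx', rfl⟩ := hcS hs
      have hsx : insert x' (U x') ⊆ insert x (U x) := by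
        rcases hc.total hs hxc with h | h
        · exact h
        · exact absurd h hns
      rcases hz _ hxc with rfl | h
      · -- z = x
        exfalso
        rcases hz _ hs with h | h
        · apply hns
          rw [h]
        · exact hns ((hnest x' hx' z h).trans (Set.subset_insert _ _))
      · exact h
    obtain ⟨s0, hs0⟩ := hcne
    obtain ⟨x0, hx0, rfl⟩ := hcS hs0
    have hzp : z ≠ p := fun h => hpU x0 hx0 (h ▸ hzU x0 hx0 hs0)
    refine ⟨insert z (U z), ⟨z, hzp, rfl⟩, ?_⟩
    intro s hs
    obtain ⟨x, hx, rfl⟩ := hcS hs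
    exact (hnest x hx z (hzU x hx hs)).trans (Set.subset_insert _ _)
  obtain ⟨⟨x, hx, hmx⟩, hmin⟩ := hm
  obtain ⟨y, hy⟩ := hUne x hx
  have hyp : y ≠ p := fun h => hpU x hx (h ▸ hy)
  have h1 : insert y (U y) ⊆ m := by
    rw [hmx]
    exact (hnest x hx y hy).trans (Set.subset_insert _ _)
  have h2 := hmin (y := insert y (U y)) ⟨y, hyp, rfl⟩ h1
  have h3 : x ∈ insert y (U y) := h2 (by rw [hmx]; exact Or.inl rfl)
  exact hxU x hx (hnest x hx y hy h3)

/-- Subset version of the non-cut-point theorem. -/
theorem exists_noncut_subset [T2Space X] {C : Set X} (hC : IsCompact C) (hconn : IsPreconnected C)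
    {p q : X} (hp : p ∈ C) (hq : q ∈ C) (hqp : q ≠ p) :
    ∃ x ∈ C, x ≠ p ∧ IsPreconnected (C \ {x}) := by
  haveI : CompactSpace C := isCompact_iff_compactSpace.1 hC
  haveI : PreconnectedSpace C := isPreconnected_iff_preconnectedSpace.1 hconn
  obtain ⟨x, hx, hpre⟩ := exists_noncut (X := C) (p := ⟨p, hp⟩) (q := ⟨q, hq⟩)
    (by intro h; exact hqp (congrArg Subtype.val h))
  refine ⟨x, x.2, fun h => hx (Subtype.ext h), ?_⟩
  have := hpre.image Subtype.val continuous_subtype_val.continuousOn
  have h2 : Subtype.val '' ({x}ᶜ : Set C) = C \ {(x : X)} := by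
    ext y
    constructor
    · rintro ⟨z, hz, rfl⟩
      exact ⟨z.2, fun h => hz (Subtype.ext h)⟩
    · rintro ⟨hy, hyx⟩
      exact ⟨⟨y, hy⟩, fun h => hyx (congrArg Subtype.val h), rfl⟩
  rwa [h2] at this

end NonCut

end Crest.Agent.R135
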