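import Mathlib
import Crest.Agent.R135.TreeN

/-! R135, block Tree (helper804), part J: a separation lemma in the plane obtained from continuous
logarithms (no Jordan curve theorem, no winding numbers).

`HasLogOn K a b`: `(z - a) / (z - b)` has a continuous logarithm on `K`.
* `hasLogOn_of_preconnected`: true if `a, b` lie in a preconnected subset of the complement of the
  closed set `K`.
* `not_preconn_compl_of_noncut`: `K` closed, `x ∈ K`, `e ≠ 0`, the two segments from `x` in the
  directions `e (1 ± i)` avoid `K` near `x`, `K` accumulates at `x` inside the thin cone around `e`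
  and also inside the half plane `Re (·/e) ≤ 0`; if `K \ {x}` is preconnected then the complement
  of `K` is not. -/

set_option autoImplicit false
open Set Topology Filter

namespace Crest.Agent.R135

/-- `(z - a) / (z - b)` has a continuous logarithm on `K`. -/
def HasLogOn (K : Set ℂ) (a b : ℂ) : Prop :=
  ∃ L : ℂ → ℂ, ContinuousOn L K ∧ ∀ z ∈ K, Complex.exp (L z) = (z - a) / (z - b)

theorem hasLogOn_near {K : Set ℂ} (hK : IsClosed K) {b : ℂ} (hb : b ∉ K) :
    ∀ᶠ b' in 𝓝 b, HasLogOn K b' b := by
  have ho : IsOpen Kᶜ := hK.isOpen_compl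
  obtain ⟨δ, hδ, hball⟩ := Metric.isOpen_iff.1 ho b hb
  filter_upwards [Metric.ball_mem_nhds b hδ] with b' hb'
  have hz : ∀ z ∈ K, δ ≤ ‖z - b‖ := by
    intro z hz
    by_contra hcon
    push Not at hcon
    exact hball (by rwa [Metric.mem_ball, dist_eq_norm]) hz
  have hne : ∀ z ∈ K, z - b ≠ 0 := fun z hzK h => by
    have := hz z hzK
    rw [h, norm_zero] at this
    linarith
  have hslit : ∀ z ∈ K, (z - b') / (z - b) ∈ Complex.slitPlane := by
    intro z hzK
    have h1 : (z - b') / (z - b) = 1 + (b - b') / (z - b) := by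
      field_simp [hne z hzK]
      ring
    rw [h1]
    apply Complex.mem_slitPlane_of_norm_lt_one
    rw [norm_div, div_lt_one (norm_pos_iff.2 (hne z hzK))]
    refine lt_of_lt_of_le ?_ (hz z hzK)
    rw [Metric.mem_ball, dist_comm, dist_eq_norm] at hb'
    exact hb'
  refine ⟨fun z => Complex.log ((z - b') / (z - b)), ?_, ?_⟩
  · apply ContinuousOn.clog
    · exact (continuousOn_id.sub continuousOn_const).div (continuousOn_id.sub continuousOn_const)
        hne
    · exact hslit
  · intro z hzK
    exact Complex.exp_log (Complex.slitPlane_ne_zero (hslit z hzK))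

theorem HasLogOn.symm {K : Set ℂ} {a b : ℂ} (h : HasLogOn K a b) : HasLogOn K b a := by
  obtain ⟨L, hL, he⟩ := h
  refine ⟨fun z => - L z, hL.neg, fun z hz => ?_⟩
  rw [Complex.exp_neg, he z hz, inv_div]

theorem HasLogOn.trans {K : Set ℂ} {a b c : ℂ} (hb : b ∉ K) (h : HasLogOn K a b)
    (h' : HasLogOn K b c) : HasLogOn K a c := by
  obtain ⟨L, hL, he⟩ := h
  obtain ⟨L', hL', he'⟩ := h'
  refine ⟨fun z => L z + L' z, hL.add hL', fun z hz => ?_⟩
  have hzb : z - b ≠ 0 := fun h => hb (by rw [sub_eq_zero] at h; rwa [← h])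
  rw [Complex.exp_add, he z hz, he' z hz]
  exact div_mul_div_cancel₀ hzb

theorem hasLogOn_of_preconnected {K S : Set ℂ} (hK : IsClosed K) (hS : IsPreconnected S)
    (hSK : S ⊆ Kᶜ) {a b : ℂ} (ha : a ∈ S) (hb : b ∈ S) : HasLogOn K a b := by
  refine hS.induction₂ (HasLogOn K) ?_ ?_ ?_ ha hb
  · intro x hx
    have := hasLogOn_near hK (hSK hx)
    exact (this.mono fun y hy => hy.symm).filter_mono nhdsWithin_le_nhds
  · intro x y z _ hy _ hxy hyz
    exact hxy.trans (hSK hy) hyz
  · intro x y _ _ h
    exact h.symm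

/-- the branch of `log ((z - a)/(z - b))` cut along the broken line `a - x - b` -/
noncomputable def brk (x a b z : ℂ) : ℂ :=
  Complex.log ((z - a) / (z - x)) + Complex.log ((z - x) / (z - b))

/-- `(z - a)/(z - x)` is in the slit plane unless `z` is on the segment `[a, x]`. -/
theorem div_mem_slitPlane_of_notMem_segment {z a x : ℂ} (h : z ∉ segment ℝ a x) :
    (z - a) / (z - x) ∈ Complex.slitPlane := by
  have hzx : z - x ≠ 0 := fun h' => h (by rw [sub_eq_zero] at h'; rw [h']; exact right_mem_segment ..)
  by_contra hcon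
  rw [Complex.mem_slitPlane_iff] at hcon
  push Not at hcon
  obtain ⟨hre, him⟩ := hcon
  set q : ℂ := (z - a) / (z - x) with hq
  set t : ℝ := -q.re with ht
  have ht0 : 0 ≤ t := by linarith
  have hqt : q = -(t : ℂ) := by
    apply Complex.ext
    · simp [ht]
    · simp [him]
  have h1 : z - a = -(t : ℂ) * (z - x) := by
    rw [← hqt, hq]
    field_simp
  apply h
  rw [segment_eq_image]
  refine ⟨t / (1 + t), ⟨by positivity, by rw [div_le_one (by linarith)]; linarith⟩, ?_⟩
  have h2 : (1 + (t : ℂ)) ≠ 0 := by
    have : (0 : ℝ) < 1 + t := by linarith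
    exact_mod_cast this.ne'
  have h3 : (1 + (t : ℂ)) * z = a + t * x := by linear_combination h1
  simp only [Complex.real_smul]
  push_cast
  field_simp
  linear_combination -h3

theorem brk_continuousAt {x a b z : ℂ} (h1 : z ∉ segment ℝ a x) (h2 : z ∉ segment ℝ x b) :
    ContinuousAt (brk x a b) z := by
  have hzx : z - x ≠ 0 := fun h' => h1 (by rw [sub_eq_zero] at h'; rw [h']; exact right_mem_segment ..)
  have hzb : z - b ≠ 0 := fun h' => h2 (by rw [sub_eq_zero] at h'; rw [h']; exact right_mem_segment ..)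
  unfold brk
  refine ContinuousAt.add ?_ ?_
  · apply ContinuousAt.clog
    · exact (continuousAt_id.sub continuousAt_const).div (continuousAt_id.sub continuousAt_const) hzx
    · exact div_mem_slitPlane_of_notMem_segment h1
  · apply ContinuousAt.clog
    · exact (continuousAt_id.sub continuousAt_const).div (continuousAt_id.sub continuousAt_const) hzb
    · exact div_mem_slitPlane_of_notMem_segment h2

theorem exp_brk {x a b z : ℂ} (hx : z ≠ x) (ha : z ≠ a) (hb : z ≠ b) :
    Complex.exp (brk x a b z) = (z - a) / (z - b) := by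
  have h1 : z - x ≠ 0 := sub_ne_zero.2 hx
  have h2 : z - a ≠ 0 := sub_ne_zero.2 ha
  have h3 : z - b ≠ 0 := sub_ne_zero.2 hb
  unfold brk
  rw [Complex.exp_add, Complex.exp_log (div_ne_zero h2 h1), Complex.exp_log (div_ne_zero h1 h3)]
  exact div_mul_div_cancel₀ h1

/-- In the half plane `Re w ≤ 0` the branch has imaginary part `> -π/2`. -/
theorem im_brk_half {w : ℂ} (hw : w ≠ 0) (hre : w.re ≤ 0) :
    -(Real.pi / 2) < (brk 0 (1 + Complex.I) (1 - Complex.I) w).im := by
  set p := w.re with hp
  set q := w.im with hq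
  have hpq : 0 < p ^ 2 + q ^ 2 := by
    have := Complex.normSq_pos.2 hw
    rw [Complex.normSq_apply] at this
    nlinarith
  have hN1 : 0 < Complex.normSq w := Complex.normSq_pos.2 hw
  have hwb : w - (1 - Complex.I) ≠ 0 := by
    intro h
    have h1 := congrArg Complex.re h
    simp at h1
    linarith
  have hN2 : 0 < Complex.normSq (w - (1 - Complex.I)) := Complex.normSq_pos.2 hwb
  have hX1re : ((w - (1 + Complex.I)) / w).re = (p ^ 2 - p + q ^ 2 - q) / Complex.normSq w := by
    rw [Complex.div_re]
    simp only [Complex.sub_re, Complex.add_re, Complex.one_re, Complex.I_re, Complex.sub_im,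
      Complex.add_im, Complex.one_im, Complex.I_im]
    rw [← add_div]
    congr 1
    ring
  have hX1im : ((w - (1 + Complex.I)) / w).im = (q - p) / Complex.normSq w := by
    rw [Complex.div_im]
    simp only [Complex.sub_re, Complex.add_re, Complex.one_re, Complex.I_re, Complex.sub_im,
      Complex.add_im, Complex.one_im, Complex.I_im]
    rw [← sub_div]
    congr 1
    ring
  have hX2re : (w / (w - (1 - Complex.I))).re =
      (p ^ 2 - p + q ^ 2 + q) / Complex.normSq (w - (1 - Complex.I)) := by
    rw [Complex.div_re]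
    simp only [Complex.sub_re, Complex.one_re, Complex.I_re, Complex.sub_im,
      Complex.one_im, Complex.I_im]
    rw [← add_div]
    congr 1
    ring
  have hX2im : (w / (w - (1 - Complex.I))).im =
      (-(p + q)) / Complex.normSq (w - (1 - Complex.I)) := by
    rw [Complex.div_im]
    simp only [Complex.sub_re, Complex.one_re, Complex.I_re, Complex.sub_im,
      Complex.one_im, Complex.I_im]
    rw [← sub_div]
    congr 1
    ring
  have hpi := Real.pi_pos
  have hsum : (brk 0 (1 + Complex.I) (1 - Complex.I) w).im =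
      ((w - (1 + Complex.I)) / w).arg + (w / (w - (1 - Complex.I))).arg := by
    unfold brk
    rw [Complex.add_im, Complex.log_im, Complex.log_im, sub_zero]
  rw [hsum]
  rcases le_or_gt 0 q with h | h
  · have h1 : 0 ≤ ((w - (1 + Complex.I)) / w).arg := by
      rw [Complex.arg_nonneg_iff, hX1im]
      apply div_nonneg _ hN1.le
      linarith
    have h2 : |(w / (w - (1 - Complex.I))).arg| < Real.pi / 2 := by
      rw [Complex.abs_arg_lt_pi_div_two_iff]
      left
      rw [hX2re]
      apply div_pos _ hN2
      nlinarith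
    have := (abs_lt.1 h2).1
    linarith
  · have h1 : |((w - (1 + Complex.I)) / w).arg| < Real.pi / 2 := by
      rw [Complex.abs_arg_lt_pi_div_two_iff]
      left
      rw [hX1re]
      apply div_pos _ hN1
      nlinarith
    have h2 : 0 ≤ (w / (w - (1 - Complex.I))).arg := by
      rw [Complex.arg_nonneg_iff, hX2im]
      apply div_nonneg _ hN2.le
      linarith
    have := (abs_lt.1 h1).1
    linarith

/-- In the cone `|Im w| ≤ Re w / 2`, close to `0`, the branch has imaginary part `< -π`. -/
theorem im_brk_cone {w : ℂ} (hw : w ≠ 0) (hre : |w.im| ≤ 1 / 2 * w.re) (hsm : ‖w‖ < 2 / 5) :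
    (brk 0 (1 + Complex.I) (1 - Complex.I) w).im < -Real.pi := by
  set p := w.re with hp
  set q := w.im with hq
  have hp0 : 0 < p := by
    rcases eq_or_lt_of_le (abs_nonneg q) with h | h
    · have hq0 : q = 0 := abs_eq_zero.1 h.symm
      have hp0 : 0 ≤ p := by
        rw [← h] at hre
        linarith
      refine lt_of_le_of_ne hp0 ?_
      intro h0
      exact hw (Complex.ext h0.symm hq0)
    · linarith
  have hp2 : p < 2 / 5 := lt_of_le_of_lt ((le_abs_self p).trans (Complex.abs_re_le_norm w)) hsm
  have hq1 := (abs_le.1 hre).1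
  have hq2 := (abs_le.1 hre).2
  have hN1 : 0 < Complex.normSq w := Complex.normSq_pos.2 hw
  have hwb : w - (1 - Complex.I) ≠ 0 := by
    intro h
    have h1 := congrArg Complex.re h
    simp at h1
    linarith
  have hN2 : 0 < Complex.normSq (w - (1 - Complex.I)) := Complex.normSq_pos.2 hwb
  have hX1re : ((w - (1 + Complex.I)) / w).re = (p ^ 2 - p + q ^ 2 - q) / Complex.normSq w := by
    rw [Complex.div_re]
    simp only [Complex.sub_re, Complex.add_re, Complex.one_re, Complex.I_re, Complex.sub_im,
      Complex.add_im, Complex.one_im, Complex.I_im]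
    rw [← add_div]
    congr 1
    ring
  have hX1im : ((w - (1 + Complex.I)) / w).im = (q - p) / Complex.normSq w := by
    rw [Complex.div_im]
    simp only [Complex.sub_re, Complex.add_re, Complex.one_re, Complex.I_re, Complex.sub_im,
      Complex.add_im, Complex.one_im, Complex.I_im]
    rw [← sub_div]
    congr 1
    ring
  have hX2re : (w / (w - (1 - Complex.I))).re =
      (p ^ 2 - p + q ^ 2 + q) / Complex.normSq (w - (1 - Complex.I)) := by
    rw [Complex.div_re]
    simp only [Complex.sub_re, Complex.one_re, Complex.I_re, Complex.sub_im,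
      Complex.one_im, Complex.I_im]
    rw [← add_div]
    congr 1
    ring
  have hX2im : (w / (w - (1 - Complex.I))).im =
      (-(p + q)) / Complex.normSq (w - (1 - Complex.I)) := by
    rw [Complex.div_im]
    simp only [Complex.sub_re, Complex.one_re, Complex.I_re, Complex.sub_im,
      Complex.one_im, Complex.I_im]
    rw [← sub_div]
    congr 1
    ring
  have hsum : (brk 0 (1 + Complex.I) (1 - Complex.I) w).im =
      ((w - (1 + Complex.I)) / w).arg + (w / (w - (1 - Complex.I))).arg := by
    unfold brk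
    rw [Complex.add_im, Complex.log_im, Complex.log_im, sub_zero]
  rw [hsum]
  have h1 : ((w - (1 + Complex.I)) / w).arg < -(Real.pi / 2) := by
    have h1 : ¬ |((w - (1 + Complex.I)) / w).arg| ≤ Real.pi / 2 := by
      rw [Complex.abs_arg_le_pi_div_two_iff, hX1re, not_le]
      apply div_neg_of_neg_of_pos _ hN1
      nlinarith
    have h2 : ((w - (1 + Complex.I)) / w).arg < 0 := by
      rw [Complex.arg_neg_iff, hX1im]
      apply div_neg_of_neg_of_pos _ hN1
      linarith
    rw [abs_of_neg h2, not_le] at h1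
    linarith
  have h2 : (w / (w - (1 - Complex.I))).arg < -(Real.pi / 2) := by
    have h1 : ¬ |(w / (w - (1 - Complex.I))).arg| ≤ Real.pi / 2 := by
      rw [Complex.abs_arg_le_pi_div_two_iff, hX2re, not_le]
      apply div_neg_of_neg_of_pos _ hN2
      nlinarith
    have h2 : (w / (w - (1 - Complex.I))).arg < 0 := by
      rw [Complex.arg_neg_iff, hX2im]
      apply div_neg_of_neg_of_pos _ hN2
      linarith
    rw [abs_of_neg h2, not_le] at h1
    linarith
  linarith

theorem brk_affine {x e z : ℂ} (he : e ≠ 0) :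
    brk x (x + e * (1 + Complex.I)) (x + e * (1 - Complex.I)) z =
      brk 0 (1 + Complex.I) (1 - Complex.I) ((z - x) / e) := by
  unfold brk
  have h1 : (z - (x + e * (1 + Complex.I))) / (z - x) =
      ((z - x) / e - (1 + Complex.I)) / ((z - x) / e - 0) := by
    rw [sub_zero, ← mul_div_mul_right _ ((z - x) / e) he]
    congr 1 <;> field_simp <;> ring
  have h2 : (z - x) / (z - (x + e * (1 - Complex.I))) =
      ((z - x) / e - 0) / ((z - x) / e - (1 - Complex.I)) := by
    rw [sub_zero, ← mul_div_mul_right ((z - x) / e) _ he]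
    congr 1 <;> field_simp <;> ring
  rw [h1, h2]

/-- **Separation lemma.** `K` closed in the plane, `x ∈ K`. The segments from `x` in directions
`e (1 ± i)` avoid `K`, and `K` accumulates at `x` inside the cone `|Im (·/e)| ≤ Re (·/e) / 2` and
inside the half plane `Re (·/e) ≤ 0`. If `K \ {x}` is preconnected, then the two end points of the
segments are not in the same preconnected part of the complement of `K`. -/
theorem sep_of_noncut {K S : Set ℂ} (hK : IsClosed K) {x e : ℂ} (hx : x ∈ K) (he : e ≠ 0)
    (h1 : ∀ t ∈ Ioc (0 : ℝ) 1, x + t * (e * (1 + Complex.I)) ∉ K)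
    (h2 : ∀ t ∈ Ioc (0 : ℝ) 1, x + t * (e * (1 - Complex.I)) ∉ K)
    (hcone : ∃ᶠ z in 𝓝[K \ {x}] x, |((z - x) / e).im| ≤ 1 / 2 * ((z - x) / e).re)
    (hhalf : ∃ᶠ z in 𝓝[K \ {x}] x, ((z - x) / e).re ≤ 0)
    (hnc : IsPreconnected (K \ {x}))
    (hS : IsPreconnected S) (hSK : S ⊆ Kᶜ) (ha : x + e * (1 + Complex.I) ∈ S)
    (hb : x + e * (1 - Complex.I) ∈ S) : False := by
  obtain ⟨L, hL, hexp⟩ := hasLogOn_of_preconnected hK hS hSK ha hb
  set a := x + e * (1 + Complex.I) with hadef
  set b := x + e * (1 - Complex.I) with hbdef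
  have hsega : ∀ z ∈ K \ {x}, z ∉ segment ℝ a x := by
    rintro z ⟨hzK, hzx⟩ hz
    rw [segment_symm, segment_eq_image'] at hz
    obtain ⟨t, ht, rfl⟩ := hz
    rcases eq_or_lt_of_le ht.1 with h0 | h0
    · apply hzx
      simp [← h0]
    · apply h1 t ⟨h0, ht.2⟩
      have : x + (t : ℂ) * (e * (1 + Complex.I)) = x + t • (a - x) := by
        rw [hadef, Complex.real_smul]
        ring
      rw [this]
      exact hzK
  have hsegb : ∀ z ∈ K \ {x}, z ∉ segment ℝ x b := by
    rintro z ⟨hzK, hzx⟩ hz
    rw [segment_eq_image'] at hz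
    obtain ⟨t, ht, rfl⟩ := hz
    rcases eq_or_lt_of_le ht.1 with h0 | h0
    · apply hzx
      simp [← h0]
    · apply h2 t ⟨h0, ht.2⟩
      have : x + (t : ℂ) * (e * (1 - Complex.I)) = x + t • (b - x) := by
        rw [hbdef, Complex.real_smul]
        ring
      rw [this]
      exact hzK
  have hcont : ContinuousOn (fun z => (L z).im - (brk x a b z).im) (K \ {x}) := by
    apply ContinuousOn.sub
    · exact Complex.continuous_im.comp_continuousOn (hL.mono sdiff_subset)
    · intro z hz
      exact (Complex.continuous_im.continuousAt.comp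
        (brk_continuousAt (hsega z hz) (hsegb z hz))).continuousWithinAt
  have hint : ∀ z ∈ K \ {x}, ∃ n : ℤ, (L z).im - (brk x a b z).im = n * (2 * Real.pi) := by
    intro z hz
    have hza : z ≠ a := fun h => hsega z hz (by rw [h]; exact left_mem_segment ..)
    have hzb : z ≠ b := fun h => hsegb z hz (by rw [h]; exact right_mem_segment ..)
    have hE : Complex.exp (L z) = Complex.exp (brk x a b z) := by
      rw [hexp z hz.1, exp_brk hz.2 hza hzb]
    rw [Complex.exp_eq_exp_iff_exists_int] at hE
    obtain ⟨n, hn⟩ := hE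
    refine ⟨n, ?_⟩
    rw [hn]
    simp
  -- the difference is constant
  have hne : (K \ {x}).Nonempty := by
    obtain ⟨z, hz⟩ := (hcone.and_eventually self_mem_nhdsWithin).exists
    exact ⟨z, hz.2⟩
  obtain ⟨z0, hz0⟩ := hne
  obtain ⟨n0, hn0⟩ := hint z0 hz0
  have hconst : ∀ z ∈ K \ {x}, (L z).im - (brk x a b z).im = n0 * (2 * Real.pi) := by
    intro z hz
    by_contra hcon
    obtain ⟨n, hn⟩ := hint z hz
    have hnn : n ≠ n0 := fun h => hcon (by rw [hn, h])
    have hpi := Real.pi_pos
    have himg := hnc.image _ hcont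
    have hord := himg.ordConnected
    rcases lt_or_gt_of_ne hnn with h | h
    · have h' : (n : ℝ) + 1 ≤ n0 := by exact_mod_cast h
      have hm : ((n : ℝ) + 1 / 2) * (2 * Real.pi) ∈
          (fun z => (L z).im - (brk x a b z).im) '' (K \ {x}) := by
        apply hord.out ⟨z, hz, hn⟩ ⟨z0, hz0, hn0⟩
        constructor <;> nlinarith
      obtain ⟨y, hy, hy'⟩ := hm
      obtain ⟨k, hk⟩ := hint y hy
      simp only at hy'
      rw [hk] at hy'
      have h3 : (k : ℝ) = n + 1 / 2 := by
        have := mul_right_cancel₀ (by positivity : (2 * Real.pi) ≠ 0) hy'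
        exact this
      have h4 : (2 * k : ℤ) = 2 * n + 1 := by
        have : (2 * k : ℝ) = 2 * n + 1 := by rw [h3]; ring
        exact_mod_cast this
      omega
    · have h' : (n0 : ℝ) + 1 ≤ n := by exact_mod_cast h
      have hm : ((n0 : ℝ) + 1 / 2) * (2 * Real.pi) ∈
          (fun z => (L z).im - (brk x a b z).im) '' (K \ {x}) := by
        apply hord.out ⟨z0, hz0, hn0⟩ ⟨z, hz, hn⟩
        constructor <;> nlinarith
      obtain ⟨y, hy, hy'⟩ := hm
      obtain ⟨k, hk⟩ := hint y hy
      simp only at hy'
      rw [hk] at hy'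
      have h3 : (k : ℝ) = n0 + 1 / 2 := by
        have := mul_right_cancel₀ (by positivity : (2 * Real.pi) ≠ 0) hy'
        exact this
      have h4 : (2 * k : ℤ) = 2 * n0 + 1 := by
        have : (2 * k : ℝ) = 2 * n0 + 1 := by rw [h3]; ring
        exact_mod_cast this
      omega
  -- limit of the branch along `K`
  have hlim : Tendsto (fun z => (brk x a b z).im) (𝓝[K \ {x}] x)
      (𝓝 ((L x).im - n0 * (2 * Real.pi))) := by
    have hLx : Tendsto (fun z => (L z).im - n0 * (2 * Real.pi)) (𝓝[K \ {x}] x)
        (𝓝 ((L x).im - n0 * (2 * Real.pi))) := by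
      apply Tendsto.sub_const
      have := (hL x hx).mono (sdiff_subset (t := {x}))
      exact (Complex.continuous_im.tendsto _).comp this
    refine hLx.congr' ?_
    filter_upwards [self_mem_nhdsWithin] with z hz
    have := hconst z hz
    linarith
  have hA : (L x).im - n0 * (2 * Real.pi) ≤ -Real.pi := by
    refine le_of_tendsto_of_frequently hlim ?_
    have hsmall : ∀ᶠ z in 𝓝[K \ {x}] x, ‖(z - x) / e‖ < 2 / 5 := by
      have hc : ContinuousAt (fun z : ℂ => ‖(z - x) / e‖) x := by fun_prop
      have : Tendsto (fun z : ℂ => ‖(z - x) / e‖) (𝓝 x) (𝓝 0) := by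
        have := hc.tendsto
        simpa using this
      exact (this.eventually (gt_mem_nhds (by norm_num : (0:ℝ) < 2 / 5))).filter_mono
        nhdsWithin_le_nhds
    refine (hcone.and_eventually (hsmall.and self_mem_nhdsWithin)).mono ?_
    rintro z ⟨hz1, hz2, hz3⟩
    rw [hadef, hbdef, brk_affine he]
    refine (im_brk_cone ?_ hz1 hz2).le
    exact div_ne_zero (sub_ne_zero.2 hz3.2) he
  have hB : -(Real.pi / 2) ≤ (L x).im - n0 * (2 * Real.pi) := by
    refine ge_of_tendsto_of_frequently hlim ?_
    refine (hhalf.and_eventually self_mem_nhdsWithin).mono ?_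
    rintro z ⟨hz1, hz3⟩
    rw [hadef, hbdef, brk_affine he]
    refine (im_brk_half ?_ hz1).le
    exact div_ne_zero (sub_ne_zero.2 hz3.2) he
  have hpi := Real.pi_pos
  linarith

end Crest.Agent.R135
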