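import Mathlib
import Crest.Agent.R135.PolarD
import Crest.Agent.R135.TreeJ

/-!
# R135, block ZFlux (helper638), part 1: the separation lemma

`sep_arc`: `K` closed, `a = cpt x r α`, `b = cpt x r β` two points of `K` whose components in `K` are
unbounded, the open arc between them does not meet `K`. Then the two sides of the open arc are not
joined in the complement of `K ∪ arc`. No Jordan curve theorem: only continuous logarithms (TreeJ).
-/

set_option autoImplicit false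

noncomputable section

open Set Real Topology Filter Metric

namespace Crest.Agent.R135.ZF

/-- identification of the plane with `ℂ` -/
def toC : E2 ≃ₗᵢ[ℝ] ℂ := Complex.orthonormalBasisOneI.repr.symm

lemma toC_apply (y : E2) : toC y = (y 0 : ℂ) + (y 1 : ℂ) * Complex.I := by
  simp [toC, Complex.orthonormalBasisOneI_repr_symm_apply]

lemma toC_dir (θ : ℝ) : toC (dir θ) = Complex.exp (θ * Complex.I) := by
  rw [toC_apply, dir_zero, dir_one, Complex.exp_mul_I]
  push_cast
  rfl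

lemma toC_cpt (x : E2) (s φ : ℝ) :
    toC (cpt x s φ) = toC x + s * Complex.exp (φ * Complex.I) := by
  rw [cpt, map_add, map_smul, toC_dir, Complex.real_smul]

/-- Moebius map sending the arc of centre `x`, radius `r`, angles `[μ-δ, μ+δ]` to the negative
half-line -/
def mob (x : E2) (r μ δ : ℝ) (z : ℂ) : ℂ :=
  Complex.exp (δ * Complex.I) * ((z - toC (cpt x r (μ - δ))) / (z - toC (cpt x r (μ + δ))))

lemma key_formula (s r φ μ δ : ℝ) :
    Complex.exp (δ * Complex.I) *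
      ((s * Complex.exp (φ * Complex.I) - r * Complex.exp ((μ - δ : ℝ) * Complex.I)) *
        (s * Complex.exp (-(φ * Complex.I)) - r * Complex.exp (-((μ + δ : ℝ) * Complex.I)))) =
      (((s ^ 2 + r ^ 2) * Real.cos δ - 2 * s * r * Real.cos (φ - μ) : ℝ) : ℂ) +
        (((s ^ 2 - r ^ 2) * Real.sin δ : ℝ) : ℂ) * Complex.I := by
  have e1 : Complex.exp (δ * Complex.I) * Complex.exp (φ * Complex.I) *
      Complex.exp (-(φ * Complex.I)) = Complex.exp (δ * Complex.I) := by
    rw [← Complex.exp_add, ← Complex.exp_add]; congr 1; ring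
  have e2 : Complex.exp (δ * Complex.I) * Complex.exp (φ * Complex.I) *
      Complex.exp (-((μ + δ : ℝ) * Complex.I)) = Complex.exp ((φ - μ : ℝ) * Complex.I) := by
    rw [← Complex.exp_add, ← Complex.exp_add]; congr 1; push_cast; ring
  have e3 : Complex.exp (δ * Complex.I) * Complex.exp ((μ - δ : ℝ) * Complex.I) *
      Complex.exp (-(φ * Complex.I)) = Complex.exp ((-(φ - μ) : ℝ) * Complex.I) := by
    rw [← Complex.exp_add, ← Complex.exp_add]; congr 1; push_cast; ring
  have e4 : Complex.exp (δ * Complex.I) * Complex.exp ((μ - δ : ℝ) * Complex.I) *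
      Complex.exp (-((μ + δ : ℝ) * Complex.I)) = Complex.exp ((-δ : ℝ) * Complex.I) := by
    rw [← Complex.exp_add, ← Complex.exp_add]; congr 1; push_cast; ring
  have c1 : Complex.exp (δ * Complex.I) = (Real.cos δ : ℂ) + (Real.sin δ : ℂ) * Complex.I := by
    rw [Complex.exp_mul_I]; push_cast; rfl
  have c2 : Complex.exp ((φ - μ : ℝ) * Complex.I) =
      (Real.cos (φ - μ) : ℂ) + (Real.sin (φ - μ) : ℂ) * Complex.I := by
    rw [Complex.exp_mul_I]; push_cast; rfl
  have c3 : Complex.exp ((-(φ - μ) : ℝ) * Complex.I) =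
      (Real.cos (φ - μ) : ℂ) - (Real.sin (φ - μ) : ℂ) * Complex.I := by
    rw [Complex.exp_mul_I, ← Complex.ofReal_cos, ← Complex.ofReal_sin, Real.cos_neg, Real.sin_neg]
    push_cast; ring
  have c4 : Complex.exp ((-δ : ℝ) * Complex.I) =
      (Real.cos δ : ℂ) - (Real.sin δ : ℂ) * Complex.I := by
    rw [Complex.exp_mul_I, ← Complex.ofReal_cos, ← Complex.ofReal_sin, Real.cos_neg, Real.sin_neg]
    push_cast; ring
  rw [c2] at e2
  rw [c3] at e3
  rw [c4] at e4
  push_cast at c1 e1 e2 e3 e4 ⊢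
  linear_combination (s : ℂ) ^ 2 * e1 + (s : ℂ) ^ 2 * c1 - (s : ℂ) * r * e2 - (s : ℂ) * r * e3 +
    (r : ℂ) ^ 2 * e4

lemma mob_eq (x : E2) (r μ δ s φ : ℝ) :
    mob x r μ δ (toC (cpt x s φ)) =
      (((Complex.normSq (toC (cpt x s φ) - toC (cpt x r (μ + δ))))⁻¹ : ℝ) : ℂ) *
      ((((s ^ 2 + r ^ 2) * Real.cos δ - 2 * s * r * Real.cos (φ - μ) : ℝ) : ℂ) +
        (((s ^ 2 - r ^ 2) * Real.sin δ : ℝ) : ℂ) * Complex.I) := by
  rw [← key_formula, mob, div_eq_mul_inv, Complex.inv_def]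
  have h1 : toC (cpt x s φ) - toC (cpt x r (μ - δ)) =
      s * Complex.exp (φ * Complex.I) - r * Complex.exp ((μ - δ : ℝ) * Complex.I) := by
    rw [toC_cpt, toC_cpt]; ring
  have h2 : (starRingEnd ℂ) (toC (cpt x s φ) - toC (cpt x r (μ + δ))) =
      s * Complex.exp (-(φ * Complex.I)) - r * Complex.exp (-((μ + δ : ℝ) * Complex.I)) := by
    rw [toC_cpt, toC_cpt, add_sub_add_left_eq_sub, map_sub, map_mul, map_mul, ← Complex.exp_conj,
      ← Complex.exp_conj, map_mul, map_mul, Complex.conj_ofReal, Complex.conj_ofReal,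
      Complex.conj_ofReal, Complex.conj_ofReal, Complex.conj_I]
    ring_nf
  rw [h1, h2]
  ring

lemma mob_re (x : E2) (r μ δ s φ : ℝ) :
    (mob x r μ δ (toC (cpt x s φ))).re =
      (Complex.normSq (toC (cpt x s φ) - toC (cpt x r (μ + δ))))⁻¹ *
      ((s ^ 2 + r ^ 2) * Real.cos δ - 2 * s * r * Real.cos (φ - μ)) := by
  rw [mob_eq]
  simp [-Complex.ofReal_cos, -Complex.ofReal_sin, -Complex.ofReal_sub, -Complex.ofReal_mul,
    -Complex.ofReal_inv]

lemma mob_im (x : E2) (r μ δ s φ : ℝ) :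
    (mob x r μ δ (toC (cpt x s φ))).im =
      (Complex.normSq (toC (cpt x s φ) - toC (cpt x r (μ + δ))))⁻¹ *
      ((s ^ 2 - r ^ 2) * Real.sin δ) := by
  rw [mob_eq]
  simp [-Complex.ofReal_cos, -Complex.ofReal_sin, -Complex.ofReal_sub, -Complex.ofReal_mul,
    -Complex.ofReal_inv]

/-- off the arc, `mob` takes values in the slit plane -/
lemma mob_mem_slitPlane {x : E2} {r μ δ : ℝ} (hr : 0 < r) (hδ : 0 < δ) (hδ' : δ < π) {y : E2}
    (hy : y ∉ cpt x r '' Icc (μ - δ) (μ + δ)) : mob x r μ δ (toC y) ∈ Complex.slitPlane := by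
  have hb : y ≠ cpt x r (μ + δ) := fun h => hy ⟨μ + δ, ⟨by linarith, le_refl _⟩, h.symm⟩
  have hN : 0 < Complex.normSq (toC y - toC (cpt x r (μ + δ))) := by
    rw [Complex.normSq_pos, sub_ne_zero]
    exact fun h => hb (toC.injective h)
  have hsin : 0 < Real.sin δ := Real.sin_pos_of_pos_of_lt_pi hδ hδ'
  rcases eq_or_ne y x with rfl | hyx
  · have h0 : y = cpt y 0 0 := by simp [cpt]
    rw [Complex.mem_slitPlane_iff]
    right
    rw [h0] at hN ⊢
    have : cpt (cpt y 0 0) r (μ + δ) = cpt y r (μ + δ) := by rw [← h0]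
    rw [show mob (cpt y 0 0) r μ δ (toC (cpt y 0 0)) = mob y r μ δ (toC (cpt y 0 0)) by
      rw [← h0], mob_im]
    rw [this] at hN
    have : (0 ^ 2 - r ^ 2) * Real.sin δ < 0 := by nlinarith [mul_pos (pow_pos hr 2) hsin]
    exact (mul_neg_of_pos_of_neg (inv_pos.2 hN) this).ne
  · have hs : 0 < dist y x := dist_pos.2 hyx
    obtain ⟨φ, hφ, hφy⟩ := exists_cpt_eq (x := x) hs (y := y) (mem_sphere.2 rfl) (μ - δ)
    rw [Complex.mem_slitPlane_iff]
    rw [← hφy] at hN ⊢
    rcases eq_or_ne (dist y x) r with h | h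
    · left
      rw [mob_re, h]
      rw [h] at hN
      apply mul_pos (inv_pos.2 hN)
      have hφ2 : μ + δ < φ := by
        by_contra hcon
        push Not at hcon
        exact hy ⟨φ, ⟨hφ.1, hcon⟩, by rw [← h]; exact hφy⟩
      have hcos : Real.cos (φ - μ) < Real.cos δ := by
        rcases le_or_gt (φ - μ) π with h1 | h1
        · exact Real.cos_lt_cos_of_nonneg_of_le_pi hδ.le h1 (by linarith)
        · have h2 : Real.cos (φ - μ) = Real.cos (2 * π - (φ - μ)) := by
            rw [Real.cos_two_pi_sub]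
          rw [h2]
          exact Real.cos_lt_cos_of_nonneg_of_le_pi hδ.le (by linarith) (by linarith [hφ.2])
      nlinarith [mul_pos (pow_pos hr 2) (sub_pos.2 hcos)]
    · right
      rw [mob_im]
      apply mul_ne_zero (inv_pos.2 hN).ne'
      apply mul_ne_zero _ hsin.ne'
      intro h1
      apply h
      have : (dist y x - r) * (dist y x + r) = 0 := by linarith
      rcases mul_eq_zero.1 this with h2 | h2
      · linarith
      · linarith

/-- A connected unbounded set meets every large sphere. -/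
lemma meets_sphere {C : Set E2} (hC : IsPreconnected C) (hub : ¬ Bornology.IsBounded C) {a : E2}
    (ha : a ∈ C) {c : E2} {R : ℝ} (hR : dist a c < R) : (C ∩ sphere c R).Nonempty := by
  have h1 : ∃ y ∈ C, R < dist y c := by
    by_contra hcon
    push Not at hcon
    exact hub (isBounded_closedBall.subset (fun y hy => mem_closedBall.2 (hcon y hy)))
  obtain ⟨y, hy, hy2⟩ := h1
  have hcont : ContinuousOn (fun z : E2 => dist z c) C := by fun_prop
  have := hC.intermediate_value ha hy hcont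
  obtain ⟨z, hz, hz2⟩ := this ⟨hR.le, hy2.le⟩
  exact ⟨z, hz, mem_sphere.2 hz2⟩

lemma log_const {Γ' : Set ℂ} (hpc : IsPreconnected Γ') {L : ℂ → ℂ} (hL : ContinuousOn L Γ')
    {N : ℂ → ℂ} (hN : ContinuousOn N Γ') (hNs : ∀ z ∈ Γ', N z ∈ Complex.slitPlane) {c : ℂ}
    (hc : ∀ z ∈ Γ', Complex.exp (L z) = Complex.exp c * N z) :
    ∃ C : ℝ, ∀ z ∈ Γ', (L z).im = (N z).arg + C := by
  rcases Γ'.eq_empty_or_nonempty with rfl | ⟨z0, hz0⟩
  · exact ⟨0, by simp⟩
  have hint : ∀ z ∈ Γ', ∃ n : ℤ, (L z).im - (N z).arg = c.im + n * (2 * Real.pi) := by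
    intro z hz
    have hE : Complex.exp (L z) = Complex.exp (c + Complex.log (N z)) := by
      rw [hc z hz, Complex.exp_add, Complex.exp_log (Complex.slitPlane_ne_zero (hNs z hz))]
    rw [Complex.exp_eq_exp_iff_exists_int] at hE
    obtain ⟨n, hn⟩ := hE
    refine ⟨n, ?_⟩
    rw [hn]
    simp [Complex.log_im]
    ring
  have hcont : ContinuousOn (fun z => (L z).im - (N z).arg) Γ' := by
    apply ContinuousOn.sub
    · exact Complex.continuous_im.comp_continuousOn hL
    · intro z hz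
      exact (Complex.continuousAt_arg (hNs z hz)).comp_continuousWithinAt (hN z hz)
  obtain ⟨n0, hn0⟩ := hint z0 hz0
  refine ⟨(L z0).im - (N z0).arg, fun z hz => ?_⟩
  by_contra hcon
  obtain ⟨n, hn⟩ := hint z hz
  have hnn : n ≠ n0 := fun h => hcon (by rw [h] at hn; rw [hn0, ← hn]; ring)
  have hpi := Real.pi_pos
  have hord := (hpc.image _ hcont).ordConnected
  have key : ∀ p q : ℤ, p < q → (c.im + p * (2 * Real.pi)) ∈
      (fun z => (L z).im - (N z).arg) '' Γ' → (c.im + q * (2 * Real.pi)) ∈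
      (fun z => (L z).im - (N z).arg) '' Γ' → False := by
    intro p q hpq hp hq
    have h' : (p : ℝ) + 1 ≤ q := by exact_mod_cast hpq
    have hm : c.im + ((p : ℝ) + 1 / 2) * (2 * Real.pi) ∈
        (fun z => (L z).im - (N z).arg) '' Γ' := by
      apply hord.out hp hq
      constructor <;> nlinarith
    obtain ⟨y, hy, hy'⟩ := hm
    obtain ⟨k, hk⟩ := hint y hy
    simp only at hy'
    rw [hk] at hy'
    have h3 : (k : ℝ) = p + 1 / 2 := by
      have h4 : (k : ℝ) * (2 * Real.pi) = (p + 1 / 2) * (2 * Real.pi) := by linarith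
      exact mul_right_cancel₀ (by positivity) h4
    have h4 : (2 * k : ℤ) = 2 * p + 1 := by
      have : (2 * k : ℝ) = 2 * p + 1 := by rw [h3]; ring
      exact_mod_cast this
    omega
  rcases lt_or_gt_of_ne hnn with h | h
  · exact key n n0 h ⟨z, hz, hn⟩ ⟨z0, hz0, hn0⟩
  · exact key n0 n h ⟨z0, hz0, hn0⟩ ⟨z, hz, hn⟩

/-- **Separation lemma.** -/
theorem sep_arc {K : Set E2} {x : E2} {r α β : ℝ} (hr : 0 < r) (hαβ : α < β)
    (hβ : β < α + 2 * π)
    (haK : cpt x r α ∈ K) (ha : ¬ Bornology.IsBounded (connectedComponentIn K (cpt x r α)))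
    (hbK : cpt x r β ∈ K) (hb : ¬ Bornology.IsBounded (connectedComponentIn K (cpt x r β)))
    {θ : ℝ} (hθ : θ ∈ Ioo α β) {s1 s2 : ℝ} (hs1 : r < s1) (hs2 : s2 < r) (hs0 : 0 ≤ s2)
    (hout : ∀ s ∈ Icc s2 s1, cpt x s θ ∉ K)
    (hJ : JoinedIn (K ∪ cpt x r '' Icc α β)ᶜ (cpt x s1 θ) (cpt x s2 θ)) : False := by
  set μ : ℝ := (α + β) / 2 with hμ
  set δ : ℝ := (β - α) / 2 with hδdef
  have hα' : μ - δ = α := by rw [hμ, hδdef]; ring
  have hβ' : μ + δ = β := by rw [hμ, hδdef]; ring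
  have hδ : 0 < δ := by rw [hδdef]; linarith
  have hδ' : δ < π := by rw [hδdef]; linarith
  have hsin : 0 < Real.sin δ := Real.sin_pos_of_pos_of_lt_pi hδ hδ'
  set S : Set E2 := cpt x r '' Icc α β with hS
  set m : E2 := cpt x r θ with hm
  have hmS : m ∈ S := ⟨θ, ⟨hθ.1.le, hθ.2.le⟩, rfl⟩
  obtain ⟨γ, hγ⟩ := hJ
  -- the closed curve
  set seg : Set E2 := (fun s => cpt x s θ) '' Icc s2 s1 with hseg
  have hcc : Continuous (fun s => cpt x s θ) := by unfold cpt; fun_prop
  have hsegc : IsCompact seg := isCompact_Icc.image hcc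
  set Γ : Set E2 := range γ ∪ seg with hΓ
  have hΓc : IsCompact Γ := (isCompact_range γ.continuous).union hsegc
  have hΓK : Disjoint Γ K := by
    rw [hΓ, disjoint_union_left]
    constructor
    · rw [Set.disjoint_left]
      rintro _ ⟨t, rfl⟩ hK
      exact hγ t (Or.inl hK)
    · rw [Set.disjoint_left]
      rintro _ ⟨s, hs, rfl⟩ hK
      exact hout s hs hK
  -- bounding sphere
  obtain ⟨R, hR⟩ := (hΓc.isBounded.subset_ball_lt (max (dist (cpt x r α) x) (dist (cpt x r β) x)) x)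
  have hRa : dist (cpt x r α) x < R := (le_max_left _ _).trans_lt hR.1
  have hRb : dist (cpt x r β) x < R := (le_max_right _ _).trans_lt hR.1
  have hRpos : 0 ≤ R := dist_nonneg.trans hRa.le
  set Ca := connectedComponentIn K (cpt x r α) with hCa
  set Cb := connectedComponentIn K (cpt x r β) with hCb
  have hCap : IsPreconnected Ca := isPreconnected_connectedComponentIn
  have hCbp : IsPreconnected Cb := isPreconnected_connectedComponentIn
  have haC : cpt x r α ∈ Ca := mem_connectedComponentIn haK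
  have hbC : cpt x r β ∈ Cb := mem_connectedComponentIn hbK
  have hrank : 1 < Module.rank ℝ E2 := by
    rw [← Module.finrank_eq_rank]
    simp
  have hsph : IsPreconnected (sphere x R) := (isConnected_sphere hrank x hRpos).isPreconnected
  obtain ⟨pa, hpa1, hpa2⟩ := meets_sphere hCap ha haC hRa
  obtain ⟨pb, hpb1, hpb2⟩ := meets_sphere hCbp hb hbC hRb
  have hU1 : IsPreconnected (Ca ∪ sphere x R) := hCap.union pa hpa1 hpa2 hsph
  have hU : IsPreconnected (Ca ∪ sphere x R ∪ Cb) := hU1.union pb (Or.inr hpb2) hpb1 hCbp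
  have hUΓ : Disjoint Γ (Ca ∪ sphere x R ∪ Cb) := by
    rw [disjoint_union_right, disjoint_union_right]
    refine ⟨⟨hΓK.mono_right (connectedComponentIn_subset _ _), ?_⟩,
      hΓK.mono_right (connectedComponentIn_subset _ _)⟩
    rw [Set.disjoint_left]
    intro y hy hy2
    have h1 := mem_ball.1 (hR.2 hy)
    have h2 := mem_sphere.1 hy2
    linarith
  -- the logarithm
  have hlog : HasLogOn (toC '' Γ) (toC (cpt x r α)) (toC (cpt x r β)) := by
    refine hasLogOn_of_preconnected (S := toC '' (Ca ∪ sphere x R ∪ Cb))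
      (hΓc.image toC.continuous).isClosed (hU.image _ toC.continuous.continuousOn) ?_
      ⟨_, Or.inl (Or.inl haC), rfl⟩ ⟨_, Or.inr hbC, rfl⟩
    rintro _ ⟨y, hy, rfl⟩ ⟨z, hz, hzy⟩
    rw [toC.injective hzy] at hz
    exact Set.disjoint_left.1 hUΓ hz hy
  obtain ⟨L, hLc, hLe⟩ := hlog
  -- the punctured curve is connected
  set Γ' : Set E2 := (fun s => cpt x s θ) '' Ioc r s1 ∪ range γ ∪ (fun s => cpt x s θ) '' Ico s2 r
    with hΓ'
  have hΓ'Γ : Γ' ⊆ Γ := by
    rintro y ((⟨s, hs, rfl⟩ | h) | ⟨s, hs, rfl⟩)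
    · exact Or.inr ⟨s, ⟨by linarith [hs.1], hs.2⟩, rfl⟩
    · exact Or.inl h
    · exact Or.inr ⟨s, ⟨hs.1, by linarith [hs.2]⟩, rfl⟩
  have hΓ'p : IsPreconnected Γ' := by
    have h1 : IsPreconnected ((fun s => cpt x s θ) '' Ioc r s1) :=
      isPreconnected_Ioc.image _ hcc.continuousOn
    have h2 : IsPreconnected ((fun s => cpt x s θ) '' Ico s2 r) :=
      isPreconnected_Ico.image _ hcc.continuousOn
    have h3 : IsPreconnected (range γ) := isPreconnected_range γ.continuous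
    have m1 : cpt x s1 θ ∈ (fun s => cpt x s θ) '' Ioc r s1 := ⟨s1, ⟨hs1, le_refl _⟩, rfl⟩
    have m2 : cpt x s1 θ ∈ range γ := ⟨0, γ.source⟩
    have m3 : cpt x s2 θ ∈ range γ := ⟨1, γ.target⟩
    have m4 : cpt x s2 θ ∈ (fun s => cpt x s θ) '' Ico s2 r := ⟨s2, ⟨le_refl _, hs2⟩, rfl⟩
    exact (h1.union _ m1 m2 h3).union _ (Or.inr m3) m4 h2
  have hnotS : ∀ s, 0 ≤ s → s ≠ r → ∀ φ, cpt x s φ ∉ S := by
    rintro s hs0 hsr φ ⟨ψ, _, h⟩
    have h1 := congrArg (fun y => dist y x) h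
    simp only [dist_cpt, abs_of_pos hr, abs_of_nonneg hs0] at h1
    exact hsr h1.symm
  have hΓ'S : ∀ y ∈ Γ', y ∉ S := by
    rintro y ((⟨s, hs, rfl⟩ | ⟨t, rfl⟩) | ⟨s, hs, rfl⟩)
    · exact hnotS s (by linarith [hs.1]) (ne_of_gt hs.1) θ
    · intro h
      exact hγ t (Or.inr h)
    · exact hnotS s (by linarith [hs.1]) (ne_of_lt hs.2) θ
  have hSeq : S = cpt x r '' Icc (μ - δ) (μ + δ) := by rw [hα', hβ']
  have hslit : ∀ z ∈ toC '' Γ', mob x r μ δ z ∈ Complex.slitPlane := by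
    rintro _ ⟨y, hy, rfl⟩
    apply mob_mem_slitPlane hr hδ hδ'
    rw [← hSeq]
    exact hΓ'S y hy
  have hmobc : ContinuousOn (mob x r μ δ) (toC '' (Γ' ∪ {m})) := by
    unfold mob
    apply ContinuousOn.mul continuousOn_const
    apply ContinuousOn.div (by fun_prop) (by fun_prop)
    rintro _ ⟨y, hy, rfl⟩ h
    rw [sub_eq_zero] at h
    have hy' : y = cpt x r β := by rw [hβ'] at h; exact toC.injective h
    rcases hy with hy | hy
    · exact hΓ'S y hy (by rw [hy']; exact ⟨β, ⟨hαβ.le, le_refl _⟩, rfl⟩)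
    · rw [mem_singleton_iff] at hy
      have h1 : cpt x r θ = cpt x r β := by rw [← hy', hy]
      have h2 := cpt_injOn (x := x) hr.ne' α (⟨hθ.1.le, by linarith [hθ.2]⟩) (⟨hαβ.le, hβ⟩) h1
      linarith [hθ.2]
  obtain ⟨C, hC⟩ := log_const (Γ' := toC '' Γ') (hΓ'p.image _ toC.continuous.continuousOn)
    (hLc.mono (image_mono hΓ'Γ))
    (hmobc.mono (image_mono subset_union_left)) hslit (c := -(δ * Complex.I)) (by
      rintro _ ⟨y, hy, rfl⟩
      rw [hLe _ ⟨y, hΓ'Γ hy, rfl⟩, mob, hα', hβ', ← mul_assoc, ← Complex.exp_add]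
      simp)
  -- limits along the ray from outside and inside
  have hmb : m ≠ cpt x r (μ + δ) := by
    intro h
    rw [hβ'] at h
    have h2 := cpt_injOn (x := x) hr.ne' α (⟨hθ.1.le, by linarith [hθ.2]⟩) (⟨hαβ.le, hβ⟩) h
    linarith [hθ.2]
  have hNm : 0 < Complex.normSq (toC m - toC (cpt x r (μ + δ))) := by
    rw [Complex.normSq_pos, sub_ne_zero]
    exact fun h => hmb (toC.injective h)
  have hre : (mob x r μ δ (toC m)).re < 0 := by
    rw [hm, mob_re]
    apply mul_neg_of_pos_of_neg (inv_pos.2 hNm)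
    have hcos : Real.cos δ < Real.cos (θ - μ) := by
      rw [← Real.cos_abs (θ - μ)]
      apply Real.cos_lt_cos_of_nonneg_of_le_pi (abs_nonneg _) hδ'.le
      rw [abs_lt]
      constructor
      · linarith [hθ.1]
      · linarith [hθ.2]
    nlinarith [mul_pos (pow_pos hr 2) (sub_pos.2 hcos)]
  have him : (mob x r μ δ (toC m)).im = 0 := by
    rw [hm, mob_im]
    ring
  have hmΓ : m ∈ Γ := Or.inr ⟨r, ⟨hs2.le, hs1.le⟩, rfl⟩
  have hray : Continuous (fun s => toC (cpt x s θ)) := toC.continuous.comp hcc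
  -- general limit statement
  have hlimL : ∀ T : Set ℝ, (∀ s ∈ T, cpt x s θ ∈ Γ') →
      Tendsto (fun s => (L (toC (cpt x s θ))).im) (𝓝[T] r) (𝓝 (L (toC m)).im) := by
    intro T hT
    apply (Complex.continuous_im.tendsto _).comp
    have h1 : Tendsto L (𝓝[toC '' Γ] (toC m)) (𝓝 (L (toC m))) := hLc _ ⟨m, hmΓ, rfl⟩
    apply h1.comp
    rw [tendsto_nhdsWithin_iff]
    refine ⟨(hray.tendsto r).mono_left nhdsWithin_le_nhds, ?_⟩
    filter_upwards [self_mem_nhdsWithin] with s hs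
    exact ⟨_, hΓ'Γ (hT s hs), rfl⟩
  have hlimN : ∀ T : Set ℝ, (∀ s ∈ T, cpt x s θ ∈ Γ') →
      Tendsto (fun s => mob x r μ δ (toC (cpt x s θ))) (𝓝[T] r) (𝓝 (mob x r μ δ (toC m))) := by
    intro T hT
    have h1 : Tendsto (mob x r μ δ) (𝓝[toC '' (Γ' ∪ {m})] (toC m)) (𝓝 (mob x r μ δ (toC m))) :=
      hmobc _ ⟨m, Or.inr rfl, rfl⟩
    apply h1.comp
    rw [tendsto_nhdsWithin_iff]
    refine ⟨(hray.tendsto r).mono_left nhdsWithin_le_nhds, ?_⟩
    filter_upwards [self_mem_nhdsWithin] with s hs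
    exact ⟨_, Or.inl (hT s hs), rfl⟩
  have hT1 : ∀ s ∈ Ioc r s1, cpt x s θ ∈ Γ' := fun s hs => Or.inl (Or.inl ⟨s, hs, rfl⟩)
  have hT2 : ∀ s ∈ Ico s2 r, cpt x s θ ∈ Γ' := fun s hs => Or.inr ⟨s, hs, rfl⟩
  have hne : ∀ s, 0 ≤ s → s ≠ r → cpt x s θ ≠ cpt x r (μ + δ) := by
    intro s hs0 hsr h
    apply hnotS s hs0 hsr θ
    rw [h, hβ']
    exact ⟨β, ⟨hαβ.le, le_refl _⟩, rfl⟩
  have hNs : ∀ s, 0 ≤ s → s ≠ r →
      0 < (Complex.normSq (toC (cpt x s θ) - toC (cpt x r (μ + δ))))⁻¹ := by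
    intro s hs0 hsr
    rw [inv_pos, Complex.normSq_pos, sub_ne_zero]
    exact fun h => hne s hs0 hsr (toC.injective h)
  have hA : (L (toC m)).im = π + C := by
    have : (𝓝[Ioc r s1] r).NeBot := left_nhdsWithin_Ioc_neBot hs1
    refine tendsto_nhds_unique (hlimL _ hT1) ?_
    have h2 : Tendsto (fun s => (mob x r μ δ (toC (cpt x s θ))).arg + C) (𝓝[Ioc r s1] r)
        (𝓝 (π + C)) := by
      apply Tendsto.add_const
      apply (Complex.tendsto_arg_nhdsWithin_im_nonneg_of_re_neg_of_im_zero hre him).comp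
      rw [tendsto_nhdsWithin_iff]
      refine ⟨hlimN _ hT1, ?_⟩
      filter_upwards [self_mem_nhdsWithin] with s hs
      change 0 ≤ (mob x r μ δ (toC (cpt x s θ))).im
      rw [mob_im]
      apply mul_nonneg (hNs s (by linarith [hs.1]) (ne_of_gt hs.1)).le
      apply mul_nonneg _ hsin.le
      nlinarith [hs.1]
    refine h2.congr' ?_
    filter_upwards [self_mem_nhdsWithin] with s hs
    exact (hC _ ⟨_, hT1 s hs, rfl⟩).symm
  have hB : (L (toC m)).im = -π + C := by
    have : (𝓝[Ico s2 r] r).NeBot := right_nhdsWithin_Ico_neBot hs2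
    refine tendsto_nhds_unique (hlimL _ hT2) ?_
    have h2 : Tendsto (fun s => (mob x r μ δ (toC (cpt x s θ))).arg + C) (𝓝[Ico s2 r] r)
        (𝓝 (-π + C)) := by
      apply Tendsto.add_const
      apply (Complex.tendsto_arg_nhdsWithin_im_neg_of_re_neg_of_im_zero hre him).comp
      rw [tendsto_nhdsWithin_iff]
      refine ⟨hlimN _ hT2, ?_⟩
      filter_upwards [self_mem_nhdsWithin] with s hs
      change (mob x r μ δ (toC (cpt x s θ))).im < 0
      rw [mob_im]
      have hs0' : 0 ≤ s := hs0.trans hs.1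
      apply mul_neg_of_pos_of_neg (hNs s hs0' (ne_of_lt hs.2))
      apply mul_neg_of_neg_of_pos _ hsin
      nlinarith [hs.2]
    refine h2.congr' ?_
    filter_upwards [self_mem_nhdsWithin] with s hs
    exact (hC _ ⟨_, hT2 s hs, rfl⟩).symm
  have := Real.pi_pos
  linarith

end Crest.Agent.R135.ZF
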