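import Mathlib
import Crest.Agent.R135.ZFlux1
import Crest.Agent.R135.QMOps
import Crest.Agent.R135.IFDefs

/-!
# R135, block ZFlux (helper638), part 2: the side set `W` of an arc and test functions `1_W ζ`
-/

set_option autoImplicit false

noncomputable section

open MeasureTheory Set Real Topology Filter Metric
open scoped ENNReal NNReal

namespace Crest.Agent.R135.ZF

/-- an open arc of circle off `K` whose two end points are points of `K` with unbounded components -/
structure ArcData (K : Set E2) (x : E2) (r α β : ℝ) : Prop where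
  closed : IsClosed K
  hr : 0 < r
  hαβ : α < β
  hβ : β < α + 2 * π
  haK : cpt x r α ∈ K
  ha : ¬ Bornology.IsBounded (connectedComponentIn K (cpt x r α))
  hbK : cpt x r β ∈ K
  hb : ¬ Bornology.IsBounded (connectedComponentIn K (cpt x r β))
  hI : ∀ θ ∈ Ioo α β, cpt x r θ ∉ K

/-- the closed arc -/
def arcS (x : E2) (r α β : ℝ) : Set E2 := cpt x r '' Icc α β

lemma continuous_cptθ (x : E2) (t : ℝ) : Continuous (fun θ : ℝ => cpt x t θ) :=
  (continuous_cpt x).comp (by fun_prop : Continuous (fun θ : ℝ => (t, θ)))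

lemma isCompact_arcS (x : E2) (r α β : ℝ) : IsCompact (arcS x r α β) :=
  isCompact_Icc.image (continuous_cptθ x r)

lemma arcS_subset_sphere {x : E2} {r α β : ℝ} (hr : 0 < r) : arcS x r α β ⊆ sphere x r := by
  rintro _ ⟨θ, _, rfl⟩
  exact cpt_mem_sphere hr.le

lemma volume_arcS {x : E2} {r α β : ℝ} (hr : 0 < r) : volume (arcS x r α β) = 0 :=
  measure_mono_null (arcS_subset_sphere hr) (Measure.addHaar_sphere volume x r)

lemma dist_cpt_cpt_rad (x : E2) (s t θ : ℝ) : dist (cpt x s θ) (cpt x t θ) = |s - t| := by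
  rw [cpt, cpt, dist_eq_norm, add_sub_add_left_eq_sub, ← sub_smul, norm_smul, norm_dir, mul_one,
    Real.norm_eq_abs]

lemma cpt_notMem_arcS {x : E2} {r α β : ℝ} (hr : 0 < r) {s θ : ℝ} (hs : 0 ≤ s) (hsr : s ≠ r) :
    cpt x s θ ∉ arcS x r α β := by
  intro h
  have h1 := mem_sphere.1 (arcS_subset_sphere hr h)
  rw [dist_cpt, abs_of_nonneg hs] at h1
  exact hsr h1

namespace ArcData

variable {K : Set E2} {x : E2} {r α β : ℝ}

/-- `K`-free thin polar box around a compact part of the open arc -/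
lemma exists_box (d : ArcData K x r α β) {α' β' : ℝ} (h1 : α < α') (h2 : β' < β) :
    ∃ ε > 0, ε < r ∧ ∀ φ ∈ Icc α' β', ∀ s, |s - r| ≤ ε → cpt x s φ ∉ K := by
  have hc : IsCompact (cpt x r '' Icc α' β') := isCompact_Icc.image (continuous_cptθ x r)
  have hsub : cpt x r '' Icc α' β' ⊆ Kᶜ := by
    rintro _ ⟨θ, hθ, rfl⟩
    exact d.hI θ ⟨by linarith [hθ.1], by linarith [hθ.2]⟩
  obtain ⟨ε, hε, hεs⟩ := hc.exists_cthickening_subset_open d.closed.isOpen_compl hsub
  have hr := d.hr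
  refine ⟨min ε (r / 2), lt_min hε (by linarith), lt_of_le_of_lt (min_le_right _ _) (by linarith),
    ?_⟩
  intro φ hφ s hs
  apply hεs
  have hmem : cpt x r φ ∈ cpt x r '' Icc α' β' := mem_image_of_mem _ hφ
  refine mem_cthickening_of_dist_le (cpt x s φ) (cpt x r φ) ε _ hmem ?_
  rw [dist_cpt_cpt_rad]
  exact hs.trans (min_le_left _ _)

lemma isOpen_V (d : ArcData K x r α β) : IsOpen (K ∪ arcS x r α β)ᶜ :=
  (d.closed.union (isCompact_arcS x r α β).isClosed).isOpen_compl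

/-- the outer half boxes are preconnected -/
lemma preconn_box (x : E2) {α' β' a b : ℝ} :
    IsPreconnected ((fun p : ℝ × ℝ => cpt x p.1 p.2) '' (Ioc a b ×ˢ Icc α' β')) :=
  ((isPreconnected_Ioc).prod isPreconnected_Icc).image _ (continuous_cpt x).continuousOn

/-- **The side set.** -/
theorem exists_side (d : ArcData K x r α β) :
    ∃ W : Set E2, IsOpen W ∧ IsOpen ((K ∪ arcS x r α β)ᶜ \ W) ∧ W ⊆ (K ∪ arcS x r α β)ᶜ ∧
      ∀ α' β', α < α' → β' < β → ∃ ε > 0, ε < r ∧ ∀ φ ∈ Icc α' β',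
        (∀ s, |s - r| ≤ ε → cpt x s φ ∉ K) ∧ (∀ s ∈ Ioc r (r + ε), cpt x s φ ∈ W) ∧
        (∀ s ∈ Ico (r - ε) r, cpt x s φ ∉ W) := by
  have hr := d.hr
  set V : Set E2 := (K ∪ arcS x r α β)ᶜ with hV
  have hVo : IsOpen V := d.isOpen_V
  set θ0 : ℝ := (α + β) / 2 with hθ0
  have hαβ := d.hαβ
  have hθ0m : θ0 ∈ Ioo α β := ⟨by rw [hθ0]; linarith, by rw [hθ0]; linarith⟩
  obtain ⟨ε0, hε0, hε0r, hbox0⟩ := d.exists_box (α' := θ0) (β' := θ0) hθ0m.1 hθ0m.2
  set p0 : E2 := cpt x (r + ε0) θ0 with hp0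
  have hVmem : ∀ s φ, 0 ≤ s → s ≠ r → cpt x s φ ∉ K → cpt x s φ ∈ V := by
    intro s φ hs hsr hK h
    rcases h with h | h
    · exact hK h
    · exact cpt_notMem_arcS hr hs hsr h
  have hp0V : p0 ∈ V := hVmem _ _ (by linarith) (by linarith [hε0]) (hbox0 θ0 ⟨le_rfl, le_rfl⟩ _
    (by rw [add_sub_cancel_left, abs_of_pos hε0]))
  set W : Set E2 := connectedComponentIn V p0 with hW
  have hWo : IsOpen W := hVo.connectedComponentIn
  have hWV : W ⊆ V := connectedComponentIn_subset _ _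
  refine ⟨W, hWo, ?_, hWV, ?_⟩
  · -- complement in V is open
    rw [isOpen_iff_mem_nhds]
    rintro y ⟨hyV, hyW⟩
    have h1 : connectedComponentIn V y ∈ 𝓝 y :=
      hVo.connectedComponentIn.mem_nhds (mem_connectedComponentIn hyV)
    filter_upwards [h1] with z hz
    refine ⟨connectedComponentIn_subset _ _ hz, fun hzW => hyW ?_⟩
    have e1 := connectedComponentIn_eq hz
    have e2 := connectedComponentIn_eq hzW
    rw [hW, e2, ← e1]
    exact mem_connectedComponentIn hyV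
  · intro α' β' h1 h2
    -- enlarge the interval so that it contains θ0
    have h1' : α < min α' θ0 := lt_min h1 hθ0m.1
    have h2' : max β' θ0 < β := max_lt h2 hθ0m.2
    obtain ⟨ε, hε, hεr, hbox⟩ := d.exists_box h1' h2'
    have hout : ∀ φ ∈ Icc (min α' θ0) (max β' θ0), ∀ s ∈ Ioc r (r + ε), cpt x s φ ∈ W := by
      -- union of the segment above θ0 and the outer box
      have hpc1 : IsPreconnected ((fun p : ℝ × ℝ => cpt x p.1 p.2) '' (Ioc r (r + ε0) ×ˢ Icc θ0 θ0)) :=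
        preconn_box x
      have hpc2 : IsPreconnected ((fun p : ℝ × ℝ => cpt x p.1 p.2) ''
          (Ioc r (r + ε) ×ˢ Icc (min α' θ0) (max β' θ0))) := preconn_box x
      have hθ0' : θ0 ∈ Icc (min α' θ0) (max β' θ0) := ⟨min_le_right _ _, le_max_right _ _⟩
      have hm : r < min (r + ε0) (r + ε) := lt_min (by linarith) (by linarith)
      have hcom1 : cpt x (min (r + ε0) (r + ε)) θ0 ∈
          ((fun p : ℝ × ℝ => cpt x p.1 p.2) '' (Ioc r (r + ε0) ×ˢ Icc θ0 θ0)) :=
        ⟨(_, θ0), ⟨⟨hm, min_le_left _ _⟩, ⟨le_rfl, le_rfl⟩⟩, rfl⟩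
      have hcom2 : cpt x (min (r + ε0) (r + ε)) θ0 ∈ ((fun p : ℝ × ℝ => cpt x p.1 p.2) ''
          (Ioc r (r + ε) ×ˢ Icc (min α' θ0) (max β' θ0))) :=
        ⟨(_, θ0), ⟨⟨hm, min_le_right _ _⟩, hθ0'⟩, rfl⟩
      have hU := hpc1.union _ hcom1 hcom2 hpc2
      have hsub : ((fun p : ℝ × ℝ => cpt x p.1 p.2) '' (Ioc r (r + ε0) ×ˢ Icc θ0 θ0)) ∪
          ((fun p : ℝ × ℝ => cpt x p.1 p.2) '' (Ioc r (r + ε) ×ˢ Icc (min α' θ0) (max β' θ0))) ⊆ V := by
        rintro _ (⟨⟨s, φ⟩, ⟨hs, hφ⟩, rfl⟩ | ⟨⟨s, φ⟩, ⟨hs, hφ⟩, rfl⟩)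
        · simp only at hs hφ
          refine hVmem _ _ (by linarith [hs.1]) (ne_of_gt hs.1) (hbox0 φ hφ s ?_)
          rw [abs_of_pos (by linarith [hs.1])]
          linarith [hs.2]
        · simp only at hs hφ
          refine hVmem _ _ (by linarith [hs.1]) (ne_of_gt hs.1) (hbox φ hφ s ?_)
          rw [abs_of_pos (by linarith [hs.1])]
          linarith [hs.2]
      have hp0m : p0 ∈ ((fun p : ℝ × ℝ => cpt x p.1 p.2) '' (Ioc r (r + ε0) ×ˢ Icc θ0 θ0)) ∪
          ((fun p : ℝ × ℝ => cpt x p.1 p.2) '' (Ioc r (r + ε) ×ˢ Icc (min α' θ0) (max β' θ0))) :=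
        Or.inl ⟨(r + ε0, θ0), ⟨⟨by simp only; linarith, le_rfl⟩, ⟨le_rfl, le_rfl⟩⟩, rfl⟩
      have hkey := hU.subset_connectedComponentIn hp0m hsub
      intro φ hφ s hs
      exact hkey (Or.inr ⟨(s, φ), ⟨hs, hφ⟩, rfl⟩)
    refine ⟨ε, hε, hεr, fun φ hφ => ?_⟩
    have hφ' : φ ∈ Icc (min α' θ0) (max β' θ0) :=
      ⟨(min_le_left _ _).trans hφ.1, hφ.2.trans (le_max_left _ _)⟩
    refine ⟨hbox φ hφ', hout φ hφ', ?_⟩
    intro s hs hsW
    have hpW : cpt x (r + ε) φ ∈ W := hout φ hφ' _ ⟨by linarith, le_rfl⟩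
    have hWc : IsConnected W := ⟨⟨p0, mem_connectedComponentIn hp0V⟩,
      isPreconnected_connectedComponentIn⟩
    have hWpc : IsPathConnected W := (hWo.isConnected_iff_isPathConnected).1 hWc
    have hJ : JoinedIn V (cpt x (r + ε) φ) (cpt x s φ) := (hWpc.joinedIn _ hpW _ hsW).mono hWV
    have hφα : φ ∈ Ioo α β := ⟨h1.trans_le hφ.1, hφ.2.trans_lt h2⟩
    refine sep_arc (K := K) hr d.hαβ d.hβ d.haK d.ha d.hbK d.hb hφα (s1 := r + ε) (s2 := s)
      (by linarith) hs.2 (by linarith [hs.1]) ?_ hJ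
    intro t ht
    apply hbox φ hφ'
    rw [abs_le]
    constructor
    · linarith [hs.1, ht.1]
    · linarith [ht.2]

end ArcData

/-! ### test functions `1_W ζ` -/

/-- `1_W ζ` -/
def cutF (W : Set E2) (ζ : E2 → ℝ) : E2 → ℝ := fun y => W.indicator ζ y

lemma cutF_eventuallyEq_in {W : Set E2} (hW : IsOpen W) (ζ : E2 → ℝ) {y : E2} (hy : y ∈ W) :
    cutF W ζ =ᶠ[𝓝 y] ζ := by
  filter_upwards [hW.mem_nhds hy] with z hz
  simp [cutF, hz]

lemma cutF_eventually_zero {W V : Set E2} (hVW : IsOpen (V \ W)) (ζ : E2 → ℝ) {y : E2}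
    (hyV : y ∈ V) (hy : y ∉ W) : ∀ᶠ z in 𝓝 y, cutF W ζ z = 0 := by
  filter_upwards [hVW.mem_nhds ⟨hyV, hy⟩] with z hz
  simp [cutF, hz.2]

lemma gradient_cutF_in {W : Set E2} (hW : IsOpen W) (ζ : E2 → ℝ) {y : E2} (hy : y ∈ W) :
    gradient (cutF W ζ) y = gradient ζ y :=
  gradient_congr_of_eventuallyEq (cutF_eventuallyEq_in hW ζ hy)

lemma gradient_cutF_out {W V : Set E2} (hVW : IsOpen (V \ W)) (ζ : E2 → ℝ) {y : E2}
    (hyV : y ∈ V) (hy : y ∉ W) : gradient (cutF W ζ) y = 0 :=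
  gradient_eq_zero_of_eventually_const 0 (cutF_eventually_zero hVW ζ hyV hy)

/-- off `K ∪ S` the function `1_W ζ` is locally Lipschitz -/
lemma lipAt_cutF {W V : Set E2} (hW : IsOpen W) (hVW : IsOpen (V \ W)) {ζ : E2 → ℝ}
    (hζ : ∀ y, LipAt ζ y) {y : E2} (hyV : y ∈ V) : LipAt (cutF W ζ) y := by
  by_cases hy : y ∈ W
  · exact (hζ y).congr (cutF_eventuallyEq_in hW ζ hy).symm
  · exact lipAt_of_eventually_const 0 (cutF_eventually_zero hVW ζ hyV hy)

/-- if `ζ = 0` on `S`, then `1_W ζ` is Lipschitz near each point of `S \ K` -/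
lemma lipAt_cutF_of_zero {K S W : Set E2} (hK : IsClosed K) (hW : IsOpen W)
    (hVW : IsOpen ((K ∪ S)ᶜ \ W)) {ζ : E2 → ℝ} {C : ℝ≥0}
    (hζ : LipschitzWith C ζ) (hζ0 : ∀ y ∈ S, ζ y = 0) {y : E2} (hy : y ∉ K) :
    LipAt (cutF W ζ) y := by
  obtain ⟨ε, hε, hεK⟩ := Metric.isOpen_iff.1 hK.isOpen_compl y hy
  refine ⟨C, ball y ε, ball_mem_nhds y hε, ?_⟩
  -- key : from W to the outside within the ball one crosses S
  have key : ∀ p ∈ ball y ε, ∀ q ∈ ball y ε, p ∈ W → q ∉ W → |ζ p| ≤ C * dist p q := by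
    intro p hp q hq hpW hqW
    have hseg : segment ℝ p q ⊆ ball y ε := (convex_ball y ε).segment_subset hp hq
    have hex : ∃ z ∈ segment ℝ p q, z ∈ S := by
      by_contra hcon
      push Not at hcon
      have hsegV : segment ℝ p q ⊆ (K ∪ S)ᶜ := by
        rintro z hz (h | h)
        · exact hεK (hseg hz) h
        · exact hcon z hz h
      have hpc : IsPreconnected (segment ℝ p q) := (convex_segment p q).isPreconnected
      have h1 := hpc W ((K ∪ S)ᶜ \ W) hW hVW (by
        intro z hz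
        by_cases h : z ∈ W
        · exact Or.inl h
        · exact Or.inr ⟨hsegV hz, h⟩) ⟨p, left_mem_segment ℝ p q, hpW⟩
        ⟨q, right_mem_segment ℝ p q, hsegV (right_mem_segment ℝ p q), hqW⟩
      obtain ⟨z, _, hz1, hz2⟩ := h1
      exact hz2.2 hz1
    obtain ⟨z, hz, hzS⟩ := hex
    have h1 : |ζ p| ≤ C * dist p z := by
      have := hζ.dist_le_mul p z
      rw [hζ0 z hzS, Real.dist_eq, sub_zero] at this
      exact this
    have h2 : dist p z ≤ dist p q := by
      rw [dist_comm p z, dist_comm p q]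
      have := segment_subset_closedBall_left p q hz
      rw [mem_closedBall, dist_comm q p, dist_comm z p] at *
      exact this
    exact h1.trans (mul_le_mul_of_nonneg_left h2 C.coe_nonneg)
  apply LipschitzOnWith.of_dist_le_mul
  intro p hp q hq
  by_cases h1 : p ∈ W <;> by_cases h2 : q ∈ W
  · simp only [cutF, indicator_of_mem h1, indicator_of_mem h2]
    exact hζ.dist_le_mul p q
  · simp only [cutF, indicator_of_mem h1, indicator_of_notMem h2]
    rw [Real.dist_eq, sub_zero]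
    exact key p hp q hq h1 h2
  · simp only [cutF, indicator_of_notMem h1, indicator_of_mem h2]
    rw [Real.dist_eq, zero_sub, abs_neg, dist_comm]
    exact key q hq p hp h2 h1
  · simp only [cutF, indicator_of_notMem h1, indicator_of_notMem h2, dist_self]
    positivity


lemma norm_gradient_le {f : E2 → ℝ} {C : ℝ≥0} (hf : LipschitzWith C f) (y : E2) :
    ‖gradient f y‖ ≤ C := by
  rw [gradient, LinearIsometryEquiv.norm_map]
  exact norm_fderiv_le_of_lipschitz ℝ hf

lemma gradient_zero_off_tsupport {f : E2 → ℝ} {y : E2} (hy : y ∉ tsupport f) :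
    gradient f y = 0 := by
  apply gradient_eq_zero_of_eventually_const 0
  filter_upwards [(isClosed_tsupport f).isOpen_compl.mem_nhds hy] with z hz
  exact image_eq_zero_of_notMem_tsupport hz

/-- the standing data: an open set `W`, relatively clopen in the complement of `K ∪ S` -/
structure Side (K S W : Set E2) : Prop where
  closedK : IsClosed K
  compS : IsCompact S
  volS : volume S = 0
  isOpen : IsOpen W
  isOpen_diff : IsOpen ((K ∪ S)ᶜ \ W)
  sub : W ⊆ (K ∪ S)ᶜ

theorem isTest_cutF {K S W : Set E2} (hs : Side K S W) {ζ : E2 → ℝ} {C : ℝ≥0}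
    (hζ : LipschitzWith C ζ) (hc : HasCompactSupport ζ) (hζ0 : ∀ y ∈ S, ζ y = 0) :
    IsTest univ K (cutF W ζ) := by
  refine ⟨?_, ?_, ?_, ?_⟩
  · rw [← compl_eq_univ_sdiff, locallyLipschitzOn_iff_lipAt hs.closedK.isOpen_compl]
    intro y hy
    exact lipAt_cutF_of_zero hs.closedK hs.isOpen hs.isOpen_diff hζ hζ0 hy
  · obtain ⟨M, hM⟩ := hζ.continuous.bounded_above_of_compact_support hc
    refine ⟨M, fun y => ?_⟩
    by_cases hy : y ∈ W
    · simp only [cutF, indicator_of_mem hy]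
      exact hM y
    · simp only [cutF, indicator_of_notMem hy, abs_zero]
      exact (norm_nonneg _).trans (hM y)
  · refine ⟨tsupport ζ, hc, subset_univ _, fun y hy => ?_⟩
    have h0 : ζ y = 0 := image_eq_zero_of_notMem_tsupport hy
    by_cases hyW : y ∈ W
    · simp only [cutF, indicator_of_mem hyW, h0]
    · simp only [cutF, indicator_of_notMem hyW]
  · have hS : ∀ᵐ y : E2, y ∉ S := measure_eq_zero_iff_ae_notMem.1 hs.volS
    have hle : dirE (cutF W ζ) K univ ≤
        ∫⁻ y, (tsupport ζ).indicator (fun _ => (C : ℝ≥0∞) ^ 2) y := by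
      unfold dirE
      rw [← lintegral_indicator (MeasurableSet.univ.diff hs.closedK.measurableSet)]
      apply lintegral_mono_ae
      filter_upwards [hS] with y hyS
      by_cases hyK : y ∈ K
      · rw [indicator_of_notMem (fun h => h.2 hyK)]
        exact zero_le'
      · rw [indicator_of_mem (show y ∈ univ \ K from ⟨mem_univ _, hyK⟩)]
        have hyV : y ∈ (K ∪ S)ᶜ := fun h => h.elim hyK hyS
        by_cases hyW : y ∈ W
        · rw [gradient_cutF_in hs.isOpen ζ hyW]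
          by_cases hyt : y ∈ tsupport ζ
          · rw [indicator_of_mem hyt]
            gcongr
            rw [← ofReal_norm_eq_enorm, ← ENNReal.ofReal_coe_nnreal]
            exact ENNReal.ofReal_le_ofReal (norm_gradient_le hζ y)
          · rw [gradient_zero_off_tsupport hyt]
            simp
        · rw [gradient_cutF_out hs.isOpen_diff ζ hyV hyW]
          simp
    refine hle.trans_lt ?_
    rw [lintegral_indicator (isClosed_tsupport ζ).measurableSet, setLIntegral_const]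
    exact ENNReal.mul_lt_top (by simp) hc.measure_lt_top

/-- **Euler-Lagrange equation for the side set.** -/
theorem el_cutF {u : E2 → ℝ} {K S W : Set E2} (h : IsQM univ 0 u K) (hs : Side K S W)
    {ζ : E2 → ℝ} {C : ℝ≥0} (hζ : LipschitzWith C ζ) (hc : HasCompactSupport ζ)
    (hζ0 : ∀ y ∈ S, ζ y = 0) :
    ∫ y in W, inner ℝ (gradient u y) (gradient ζ y) = 0 := by
  obtain ⟨f, _, hf, hel⟩ := h.el
  have h1 := hel _ (isTest_cutF hs hζ hc hζ0)
  have hf0 : ∀ y, f y = 0 := fun y => abs_eq_zero.1 (le_antisymm (hf y) (abs_nonneg _))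
  have h2 : ∫ y in univ, f y * cutF W ζ y = 0 := by simp [hf0]
  rw [h2, neg_zero] at h1
  rw [← h1, ← integral_indicator hs.isOpen.measurableSet,
    ← integral_indicator (MeasurableSet.univ.diff hs.closedK.measurableSet)]
  have hS : ∀ᵐ y : E2, y ∉ S := measure_eq_zero_iff_ae_notMem.1 hs.volS
  apply integral_congr_ae
  filter_upwards [hS] with y hyS
  by_cases hyK : y ∈ K
  · rw [indicator_of_notMem (s := univ \ K) (fun h => h.2 hyK),
      indicator_of_notMem (fun h => hs.sub h (Or.inl hyK))]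
  · rw [indicator_of_mem (show y ∈ univ \ K from ⟨mem_univ _, hyK⟩)]
    have hyV : y ∈ (K ∪ S)ᶜ := fun h => h.elim hyK hyS
    by_cases hyW : y ∈ W
    · rw [indicator_of_mem hyW, gradient_cutF_in hs.isOpen ζ hyW]
    · rw [indicator_of_notMem hyW, gradient_cutF_out hs.isOpen_diff ζ hyV hyW, inner_zero_right]

end Crest.Agent.R135.ZF
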