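import Mathlib
import Crest.Agent.R135.ZFlux2
import Crest.Agent.R135.FV0

/-!
# R135, block ZFlux (helper638), part 3: the competitor `(u + t 1_W η, K ∪ S)`
-/

set_option autoImplicit false

noncomputable section

open MeasureTheory Set Real Topology Filter Metric
open scoped ENNReal NNReal

namespace Crest.Agent.R135.ZF

lemma measurable_gradient' (f : E2 → ℝ) : Measurable (gradient f) := by
  unfold gradient
  exact (InnerProductSpace.toDual ℝ E2).symm.continuous.measurable.comp (measurable_fderiv ℝ f)

lemma sdiff_ae_eq {B N : Set E2} (hN : volume N = 0) : (B \ N : Set E2) =ᵐ[volume] B := by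
  refine (ae_eq_set).2 ⟨?_, ?_⟩
  · have : (B \ N) \ B = ∅ := by ext y; constructor
                                 · rintro ⟨h1, h2⟩; exact h2 h1.1
                                 · rintro ⟨⟩
    rw [this]; exact measure_empty
  · refine measure_mono_null ?_ hN
    rintro y ⟨h1, h2⟩
    by_contra h3
    exact h2 ⟨h1, h3⟩

/-- bilinear expansion -/
lemma integral_norm_add_smul_sq {μ : Measure E2} {G H : E2 → E2} (hG : MemLp G 2 μ)
    (hH : MemLp H 2 μ) (t : ℝ) :
    ∫ y, ‖G y + t • H y‖ ^ 2 ∂μ = ∫ y, ‖G y‖ ^ 2 ∂μ + 2 * t * ∫ y, inner ℝ (G y) (H y) ∂μ +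
      t ^ 2 * ∫ y, ‖H y‖ ^ 2 ∂μ := by
  have e : ∀ y, ‖G y + t • H y‖ ^ 2 = ‖G y‖ ^ 2 + (2 * t) * inner ℝ (G y) (H y) +
      t ^ 2 * ‖H y‖ ^ 2 := by
    intro y
    rw [norm_add_sq_real, inner_smul_right, norm_smul, mul_pow, Real.norm_eq_abs, sq_abs]
    ring
  simp_rw [e]
  have i1 := Gl.integrable_normsq hG
  have i2 := (Gl.integrable_inner2 hG hH).const_mul (2 * t)
  have i3 := (Gl.integrable_normsq hH).const_mul (t ^ 2)
  have i12 : Integrable (fun y => ‖G y‖ ^ 2 + (2 * t) * inner ℝ (G y) (H y)) μ := i1.add i2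
  rw [integral_add i12 i3, integral_add i1 i2, integral_const_mul, integral_const_mul]

/-- **The competitor inequality.** -/
theorem comp_ineq {u : E2 → ℝ} {K S W : Set E2} (h : IsQM univ 0 u K) (hs : Side K S W)
    {x : E2} {R : ℝ} (hR : 0 < R) (hSR : S ⊆ closedBall x R) (hSl : len S < ⊤)
    {η : E2 → ℝ} {C : ℝ≥0} (hη : LipschitzWith C η) (hη0 : ∀ y, y ∉ closedBall x R → η y = 0)
    (t : ℝ) :
    0 ≤ (len S).toReal + 2 * t * (∫ y in W, inner ℝ (gradient u y) (gradient η y)) +
      t ^ 2 * (∫ y in W, ‖gradient η y‖ ^ 2) := by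
  set L : Set E2 := K ∪ S with hL
  set B : Set E2 := closedBall x R with hB
  set w : E2 → ℝ := fun y => u y + t * cutF W η y with hw
  have hLo : IsOpen Lᶜ := (hs.closedK.union hs.compS.isClosed).isOpen_compl
  have hKfin : len (K ∩ B) < ⊤ := h.len_fin x R (subset_univ _)
  have hlenL : len (L ∩ B) ≤ len (K ∩ B) + len S := by
    unfold len
    refine (measure_mono ?_).trans (measure_union_le _ _)
    rintro y ⟨h1 | h1, h2⟩
    · exact Or.inl ⟨h1, h2⟩
    · exact Or.inr h1
  have hηLip : ∀ y, LipAt η y := fun y => ⟨C, univ, univ_mem, hη.lipschitzOnWith⟩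
  have hcomp : IsComp univ u K x R w L := by
    refine ⟨subset_univ _, ?_, ?_, ?_, ?_, ?_, ?_⟩
    · rw [(hs.closedK.union hs.compS.isClosed).closure_eq]
      exact inter_subset_left
    · exact hlenL.trans_lt (ENNReal.add_lt_top.2 ⟨hKfin, hSl⟩)
    · ext y
      constructor
      · rintro ⟨h1 | h1, h2⟩
        · exact ⟨h1, h2⟩
        · exact absurd (hSR h1) h2
      · rintro ⟨h1, h2⟩
        exact ⟨Or.inl h1, h2⟩
    · rw [← compl_eq_univ_sdiff, locallyLipschitzOn_iff_lipAt hLo]
      intro y hy
      have hyK : y ∈ univ \ K := ⟨mem_univ _, fun h => hy (Or.inl h)⟩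
      exact (h.lipAt hyK).add ((lipAt_const t y).mul
        (lipAt_cutF hs.isOpen hs.isOpen_diff hηLip hy))
    · rintro y ⟨_, h2⟩
      have h3 : y ∉ closedBall x R := fun h => h2 (Or.inr h)
      have h4 : cutF W η y = 0 := by
        by_cases hyW : y ∈ W
        · simp only [cutF, indicator_of_mem hyW, hη0 y h3]
        · simp only [cutF, indicator_of_notMem hyW]
      simp only [hw, h4]
      ring
    · intro c hc
      exact ⟨c, fun y hy => hc y ⟨hy.1, fun h => hy.2 (Or.inl h)⟩, fun y _ => rfl⟩
  have hmin := h.min x R hR (subset_univ _) w L hcomp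
  -- cancel the length
  have hmin2 : dirE u K B ≤ dirE w L B + len S := by
    have h1 : dirE u K B + len (K ∩ B) ≤ dirE w L B + len S + len (K ∩ B) := by
      have h2 : enE u K B ≤ enE w L B := by simpa using hmin
      unfold enE at h2
      refine h2.trans ?_
      rw [add_assoc, add_comm (len S)]
      gcongr
    exact (ENNReal.add_le_add_iff_right hKfin.ne).1 h1
  -- real form
  set μ : Measure E2 := volume.restrict B with hμ
  set H : E2 → E2 := W.indicator (gradient η) with hH
  have hK0 : volume K = 0 := h.volume_K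
  have hL0 : volume L = 0 := measure_union_null hK0 hs.volS
  have hBm : MeasurableSet B := isClosed_closedBall.measurableSet
  have hG2 : MemLp (gradient u) 2 μ := by
    refine Gl.memLp_two_of_lintegral (measurable_gradient' u).aestronglyMeasurable ?_
    have h1 : dirE u K B < ⊤ := h.dir_fin x R (subset_univ _)
    unfold dirE at h1
    rwa [Measure.restrict_congr_set (sdiff_ae_eq hK0)] at h1
  have hHm : Measurable H := (measurable_gradient' η).indicator hs.isOpen.measurableSet
  have hHb : ∀ y, ‖H y‖ ≤ C := by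
    intro y
    by_cases hy : y ∈ W
    · rw [hH, indicator_of_mem hy]; exact norm_gradient_le hη y
    · rw [hH, indicator_of_notMem hy, norm_zero]; exact C.coe_nonneg
  have hfin : IsFiniteMeasure μ :=
    ⟨by rw [hμ, Measure.restrict_apply_univ]; exact measure_closedBall_lt_top⟩
  have hH2 : MemLp H 2 μ := MemLp.of_bound hHm.aestronglyMeasurable C (ae_of_all _ hHb)
  have hGH : MemLp (fun y => gradient u y + t • H y) 2 μ := hG2.add (hH2.const_smul t)
  have e1 : dirE u K B = ENNReal.ofReal (∫ y, ‖gradient u y‖ ^ 2 ∂μ) := by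
    rw [← Gl.lintegral_sq_eq hG2]
    unfold dirE
    rw [Measure.restrict_congr_set (sdiff_ae_eq hK0)]
  have hηd : ∀ᵐ y : E2, DifferentiableAt ℝ η y := hη.ae_differentiableAt
  have hLm : MeasurableSet L := (hs.closedK.union hs.compS.isClosed).measurableSet
  have e2 : dirE w L B = ENNReal.ofReal (∫ y, ‖gradient u y + t • H y‖ ^ 2 ∂μ) := by
    rw [← Gl.lintegral_sq_eq hGH]
    unfold dirE
    rw [hμ, ← Measure.restrict_congr_set (sdiff_ae_eq (B := B) hL0)]
    apply lintegral_congr_ae
    filter_upwards [ae_restrict_mem (hBm.diff hLm), ae_restrict_of_ae hηd] with y hy hyd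
    have hyV : y ∈ (K ∪ S)ᶜ := hy.2
    have hyK : y ∈ univ \ K := ⟨mem_univ _, fun h => hyV (Or.inl h)⟩
    have hdu : HasGradientAt u (gradient u y) y := h.hasGradientAt hyK
    have : gradient w y = gradient u y + t • H y := by
      by_cases hyW : y ∈ W
      · have h1 : w =ᶠ[𝓝 y] fun z => u z + t * η z := by
          filter_upwards [cutF_eventuallyEq_in hs.isOpen η hyW] with z hz
          simp only [hw, hz]
        rw [gradient_congr_of_eventuallyEq h1, hH, indicator_of_mem hyW]
        have h2 : HasFDerivAt (fun z => u z + t * η z) (fderiv ℝ u y + t • fderiv ℝ η y) y :=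
          hdu.hasFDerivAt.differentiableAt.hasFDerivAt.add (hyd.hasFDerivAt.const_mul t)
        simp only [gradient]
        rw [h2.fderiv, map_add, map_smul]
      · have h1 : w =ᶠ[𝓝 y] u := by
          filter_upwards [cutF_eventually_zero hs.isOpen_diff η hyV hyW] with z hz
          simp only [hw, hz]
          ring
        rw [gradient_congr_of_eventuallyEq h1, hH, indicator_of_notMem hyW, smul_zero, add_zero]
    simp only [this]
  rw [e1, e2, integral_norm_add_smul_sq hG2 hH2 t] at hmin2
  -- identify the integrals over W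
  have hgr0 : ∀ y, y ∉ B → gradient η y = 0 := by
    intro y hy
    apply gradient_eq_zero_of_eventually_const 0
    filter_upwards [isClosed_closedBall.isOpen_compl.mem_nhds hy] with z hz
    exact hη0 z hz
  have i1 : ∫ y, inner ℝ (gradient u y) (H y) ∂μ =
      ∫ y in W, inner ℝ (gradient u y) (gradient η y) := by
    rw [hμ, ← integral_indicator hBm, ← integral_indicator hs.isOpen.measurableSet]
    apply integral_congr_ae
    refine ae_of_all _ fun y => ?_
    by_cases hy : y ∈ B <;> by_cases hyW : y ∈ W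
    · rw [indicator_of_mem hy, indicator_of_mem hyW, hH, indicator_of_mem hyW]
    · rw [indicator_of_mem hy, indicator_of_notMem hyW, hH, indicator_of_notMem hyW,
        inner_zero_right]
    · rw [indicator_of_notMem hy, indicator_of_mem hyW, hgr0 y hy, inner_zero_right]
    · rw [indicator_of_notMem hy, indicator_of_notMem hyW]
  have i2 : ∫ y, ‖H y‖ ^ 2 ∂μ = ∫ y in W, ‖gradient η y‖ ^ 2 := by
    rw [hμ, ← integral_indicator hBm, ← integral_indicator hs.isOpen.measurableSet]
    apply integral_congr_ae
    refine ae_of_all _ fun y => ?_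
    by_cases hy : y ∈ B <;> by_cases hyW : y ∈ W
    · rw [indicator_of_mem hy, indicator_of_mem hyW, hH, indicator_of_mem hyW]
    · rw [indicator_of_mem hy, indicator_of_notMem hyW, hH, indicator_of_notMem hyW,
        norm_zero, zero_pow two_ne_zero]
    · rw [indicator_of_notMem hy, indicator_of_mem hyW, hgr0 y hy, norm_zero,
        zero_pow two_ne_zero]
    · rw [indicator_of_notMem hy, indicator_of_notMem hyW]
  rw [i1, i2] at hmin2
  have hpos : 0 ≤ ∫ y, ‖gradient u y‖ ^ 2 ∂μ := integral_nonneg fun y => by positivity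
  set a := ∫ y, ‖gradient u y‖ ^ 2 ∂μ with ha
  set b := ∫ y in W, inner ℝ (gradient u y) (gradient η y) with hb
  set c := ∫ y in W, ‖gradient η y‖ ^ 2 with hc
  have hnn : 0 ≤ a + 2 * t * b + t ^ 2 * c := by
    have h1 := integral_norm_add_smul_sq hG2 hH2 t
    rw [i1, i2] at h1
    rw [← h1]
    exact integral_nonneg fun y => by positivity
  rw [← ENNReal.ofReal_toReal hSl.ne, ← ENNReal.ofReal_add hnn ENNReal.toReal_nonneg,
    ENNReal.ofReal_le_ofReal_iff (by positivity)] at hmin2
  linarith

/-- The linear term is controlled by the energy of the cut-off. -/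
theorem flux_sq_le {u : E2 → ℝ} {K S W : Set E2} (h : IsQM univ 0 u K) (hs : Side K S W)
    {x : E2} {R : ℝ} (hR : 0 < R) (hSR : S ⊆ closedBall x R) (hSl : len S < ⊤)
    {η : E2 → ℝ} {C : ℝ≥0} (hη : LipschitzWith C η) (hη0 : ∀ y, y ∉ closedBall x R → η y = 0) :
    (∫ y in W, inner ℝ (gradient u y) (gradient η y)) ^ 2 ≤
      (len S).toReal * ∫ y in W, ‖gradient η y‖ ^ 2 := by
  set f := ∫ y in W, inner ℝ (gradient u y) (gradient η y) with hf
  set c := ∫ y in W, ‖gradient η y‖ ^ 2 with hc
  have hc0 : 0 ≤ c := integral_nonneg fun y => by positivity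
  have hl0 : 0 ≤ (len S).toReal := ENNReal.toReal_nonneg
  have key := fun t : ℝ => comp_ineq h hs hR hSR hSl hη hη0 t
  simp only [← hf, ← hc] at key
  have h1 := discrim_le_zero (a := c) (b := 2 * f) (c := (len S).toReal) (fun t => by
    have := key t
    linarith [this, sq t])
  unfold discrim at h1
  nlinarith

/-- **No flux**: `∫_W ⟨∇u, ∇κ⟩ = 0` for all Lipschitz compactly supported `κ` equal to `1` on `S`,
provided cut-offs of arbitrarily small energy exist. -/
theorem flux_zero {u : E2 → ℝ} {K S W : Set E2} (h : IsQM univ 0 u K) (hs : Side K S W)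
    (hSl : len S < ⊤)
    (hcut : ∀ ε > (0 : ℝ), ∃ (x : E2) (R : ℝ) (η : E2 → ℝ) (C : ℝ≥0), 0 < R ∧ S ⊆ closedBall x R ∧
      LipschitzWith C η ∧ (∀ y, y ∉ closedBall x R → η y = 0) ∧ (∀ y ∈ S, η y = 1) ∧
      ∫⁻ y, ‖gradient η y‖ₑ ^ 2 ≤ ENNReal.ofReal ε)
    {κ : E2 → ℝ} {C : ℝ≥0} (hκ : LipschitzWith C κ) (hκc : HasCompactSupport κ)
    (hκ1 : ∀ y ∈ S, κ y = 1) :
    ∫ y in W, inner ℝ (gradient u y) (gradient κ y) = 0 := by
  set f := ∫ y in W, inner ℝ (gradient u y) (gradient κ y) with hf
  have hl0 : 0 ≤ (len S).toReal := ENNReal.toReal_nonneg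
  have key : ∀ ε > (0 : ℝ), f ^ 2 ≤ (len S).toReal * ε := by
    intro ε hε
    obtain ⟨x, R, η, C', hR, hSR, hη, hη0, hη1, hηE⟩ := hcut ε hε
    have hηc : HasCompactSupport η := HasCompactSupport.intro (isCompact_closedBall x R) hη0
    have h1 := flux_sq_le h hs hR hSR hSl hη hη0
    have h2 := el_cutF h hs (hη.sub hκ) (hηc.sub hκc) (fun y hy => by
      simp [hη1 y hy, hκ1 y hy])
    -- relation of the two linear terms
    obtain ⟨R', hR', hsub⟩ : ∃ R', 0 < R' ∧ tsupport κ ∪ closedBall x R ⊆ closedBall x R' := by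
      obtain ⟨R', hR'⟩ := (hκc.isBounded.union isBounded_closedBall).subset_closedBall_lt 0 x
      exact ⟨R', hR'.1, hR'.2⟩
    have hgη : ∀ y, y ∉ closedBall x R' → gradient η y = 0 := by
      intro y hy
      apply gradient_eq_zero_of_eventually_const 0
      have : y ∉ closedBall x R := fun h => hy (hsub (Or.inr h))
      filter_upwards [isClosed_closedBall.isOpen_compl.mem_nhds this] with z hz
      exact hη0 z hz
    have hgκ : ∀ y, y ∉ closedBall x R' → gradient κ y = 0 := fun y hy =>
      gradient_zero_off_tsupport (fun h => hy (hsub (Or.inl h)))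
    have hint : ∀ (g : E2 → E2) (D : ℝ), Measurable g → (∀ y, ‖g y‖ ≤ D) →
        (∀ y, y ∉ closedBall x R' → g y = 0) →
        IntegrableOn (fun y => (inner ℝ (gradient u y) (g y) : ℝ)) W := by
      intro g D hgm hgb hg0
      have hfin : IsFiniteMeasure (volume.restrict (closedBall x R')) :=
        ⟨by rw [Measure.restrict_apply_univ]; exact measure_closedBall_lt_top⟩
      have hG2 : MemLp (gradient u) 2 (volume.restrict (closedBall x R')) := by
        refine Gl.memLp_two_of_lintegral (measurable_gradient' u).aestronglyMeasurable ?_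
        have h1 : dirE u K (closedBall x R') < ⊤ := h.dir_fin x R' (subset_univ _)
        unfold dirE at h1
        rwa [Measure.restrict_congr_set (sdiff_ae_eq h.volume_K)] at h1
      have hH2 : MemLp g 2 (volume.restrict (closedBall x R')) :=
        MemLp.of_bound hgm.aestronglyMeasurable D (ae_of_all _ hgb)
      have h3 : IntegrableOn (fun y => (inner ℝ (gradient u y) (g y) : ℝ)) (closedBall x R') :=
        Gl.integrable_inner2 hG2 hH2
      have h4 : Integrable (fun y => (inner ℝ (gradient u y) (g y) : ℝ)) := by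
        rw [← integrableOn_univ, ← union_compl_self (closedBall x R')]
        refine h3.union ?_
        have h5 : EqOn (fun _ : E2 => (0 : ℝ)) (fun y => (inner ℝ (gradient u y) (g y) : ℝ))
            (closedBall x R')ᶜ := by
          intro y hy
          simp only [hg0 y hy, inner_zero_right]
        exact (integrableOn_zero).congr_fun h5 isClosed_closedBall.measurableSet.compl
      exact h4.integrableOn
    have h3 : ∫ y in W, inner ℝ (gradient u y) (gradient η y) = f := by
      have h5 : ∫ y in W, inner ℝ (gradient u y) (gradient (fun x => η x - κ x) y) =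
          (∫ y in W, inner ℝ (gradient u y) (gradient η y)) - f := by
        rw [hf, ← integral_sub (hint _ C' (measurable_gradient' η) (norm_gradient_le hη) hgη)
          (hint _ C (measurable_gradient' κ) (norm_gradient_le hκ) hgκ)]
        apply integral_congr_ae
        filter_upwards [ae_restrict_of_ae (hη.ae_differentiableAt (μ := volume)),
          ae_restrict_of_ae (hκ.ae_differentiableAt (μ := volume))] with y h1 h2
        rw [← inner_sub_right]
        congr 1
        simp only [gradient]
        rw [fderiv_fun_sub h1 h2, map_sub]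
      rw [h5] at h2
      linarith
    rw [h3] at h1
    have h4 : ∫ y in W, ‖gradient η y‖ ^ 2 ≤ ε := by
      have hη2 : ∫⁻ y in W, ‖gradient η y‖ₑ ^ 2 ≤ ENNReal.ofReal ε :=
        (setLIntegral_le_lintegral _ _).trans hηE
      have hm2 : MemLp (gradient η) 2 (volume.restrict W) :=
        Gl.memLp_two_of_lintegral (measurable_gradient' η).aestronglyMeasurable
          (hη2.trans_lt ENNReal.ofReal_lt_top)
      rw [Gl.lintegral_sq_eq hm2] at hη2
      exact (ENNReal.ofReal_le_ofReal_iff hε.le).1 hη2
    calc f ^ 2 ≤ _ := h1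
      _ ≤ _ := mul_le_mul_of_nonneg_left h4 hl0
  by_contra hne
  have hf2 : 0 < f ^ 2 := by positivity
  have h5 := key (f ^ 2 / (2 * ((len S).toReal + 1))) (by positivity)
  have h6 : (len S).toReal * (f ^ 2 / (2 * ((len S).toReal + 1))) ≤ f ^ 2 / 2 := by
    rw [mul_div_assoc', div_le_div_iff₀ (by positivity) (by positivity)]
    nlinarith
  linarith

end Crest.Agent.R135.ZF
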