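import Mathlib
import Crest.Agent.R135.ZFlux3
import Crest.Agent.R135.PolarG

/-!
# R135, block ZFlux (helper638), part 4: cut-offs near the end points, ramps, angles
-/

set_option autoImplicit false

noncomputable section

open MeasureTheory Set Real Topology Filter Metric
open scoped ENNReal NNReal ContDiff

namespace Crest.Agent.R135.ZF

/-! ### cut-offs at a point -/

/-- fixed smooth bump function -/
def bump0 : ContDiffBump (0 : E2) := ⟨1, 2, zero_lt_one, one_lt_two⟩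

/-- the bump function -/
def chi0 (y : E2) : ℝ := bump0 y

lemma chi0_contDiff : ContDiff ℝ 1 chi0 := bump0.contDiff

lemma chi0_nonneg (y : E2) : 0 ≤ chi0 y := bump0.nonneg

lemma chi0_le_one (y : E2) : chi0 y ≤ 1 := bump0.le_one

lemma chi0_one {y : E2} (hy : ‖y‖ ≤ 1) : chi0 y = 1 :=
  bump0.one_of_mem_closedBall (by rw [mem_closedBall, dist_zero_right]; exact hy)

lemma chi0_zero {y : E2} (hy : 2 ≤ ‖y‖) : chi0 y = 0 :=
  bump0.zero_of_le_dist (by rw [dist_zero_right]; exact hy)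

lemma chi0_lip : ∃ C : ℝ≥0, LipschitzWith C chi0 :=
  chi0_contDiff.lipschitzWith_of_hasCompactSupport bump0.hasCompactSupport (by norm_num)

/-- Lipschitz constant of the bump -/
def C0 : ℝ≥0 := chi0_lip.choose

lemma chi0_lipC : LipschitzWith C0 chi0 := chi0_lip.choose_spec

/-- cut-off vanishing on `closedBall a ρ`, equal to `1` off `ball a (2ρ)` -/
def mz (a : E2) (ρ : ℝ) (y : E2) : ℝ := 1 - chi0 (ρ⁻¹ • (y - a))

lemma mz_nonneg (a : E2) (ρ : ℝ) (y : E2) : 0 ≤ mz a ρ y := by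
  have := chi0_le_one (ρ⁻¹ • (y - a)); unfold mz; linarith

lemma mz_le_one (a : E2) (ρ : ℝ) (y : E2) : mz a ρ y ≤ 1 := by
  have := chi0_nonneg (ρ⁻¹ • (y - a)); unfold mz; linarith

lemma norm_scaled {a : E2} {ρ : ℝ} (hρ : 0 < ρ) (y : E2) :
    ‖ρ⁻¹ • (y - a)‖ = dist y a / ρ := by
  rw [norm_smul, norm_inv, Real.norm_of_nonneg hρ.le, dist_eq_norm, div_eq_inv_mul]

lemma mz_zero {a : E2} {ρ : ℝ} (hρ : 0 < ρ) {y : E2} (hy : dist y a ≤ ρ) : mz a ρ y = 0 := by
  unfold mz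
  rw [chi0_one, sub_self]
  rw [norm_scaled hρ, div_le_one hρ]
  exact hy

lemma mz_one {a : E2} {ρ : ℝ} (hρ : 0 < ρ) {y : E2} (hy : 2 * ρ ≤ dist y a) : mz a ρ y = 1 := by
  unfold mz
  rw [chi0_zero, sub_zero]
  rw [norm_scaled hρ, le_div_iff₀ hρ]
  exact hy

lemma mz_contDiff (a : E2) (ρ : ℝ) : ContDiff ℝ 1 (mz a ρ) := by
  unfold mz
  exact contDiff_const.sub (chi0_contDiff.comp ((contDiff_id.sub contDiff_const).const_smul ρ⁻¹))

lemma mz_lip (a : E2) {ρ : ℝ} (hρ : 0 < ρ) : LipschitzWith (C0 * (Real.toNNReal ρ)⁻¹) (mz a ρ) := by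
  apply LipschitzWith.of_dist_le_mul
  intro y z
  have h1 := chi0_lipC.dist_le_mul (ρ⁻¹ • (y - a)) (ρ⁻¹ • (z - a))
  have h2 : dist (ρ⁻¹ • (y - a)) (ρ⁻¹ • (z - a)) = ρ⁻¹ * dist y z := by
    rw [dist_eq_norm, ← smul_sub, norm_smul, norm_inv, Real.norm_of_nonneg hρ.le,
      sub_sub_sub_cancel_right, dist_eq_norm]
  rw [h2] at h1
  unfold mz
  rw [dist_sub_left, NNReal.coe_mul, NNReal.coe_inv, Real.coe_toNNReal _ hρ.le, mul_assoc]
  exact h1

lemma lip_mul {f g : E2 → ℝ} {Cf Cg : ℝ≥0} (hf : LipschitzWith Cf f) (hg : LipschitzWith Cg g)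
    (hf1 : ∀ y, |f y| ≤ 1) (hg1 : ∀ y, |g y| ≤ 1) :
    LipschitzWith (Cf + Cg) (fun y => f y * g y) := by
  apply LipschitzWith.of_dist_le_mul
  intro y z
  have e : f y * g y - f z * g z = f y * (g y - g z) + g z * (f y - f z) := by ring
  have a1 : |g y - g z| ≤ Cg * dist y z := by rw [← Real.dist_eq]; exact hg.dist_le_mul y z
  have a2 : |f y - f z| ≤ Cf * dist y z := by rw [← Real.dist_eq]; exact hf.dist_le_mul y z
  rw [Real.dist_eq, e]
  calc |f y * (g y - g z) + g z * (f y - f z)|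
      ≤ |f y| * |g y - g z| + |g z| * |f y - f z| := by
        refine (abs_add_le _ _).trans ?_
        rw [abs_mul, abs_mul]
    _ ≤ 1 * (Cg * dist y z) + 1 * (Cf * dist y z) := by
        gcongr
        · exact hf1 y
        · exact hg1 z
    _ = _ := by push_cast; ring

/-- cut-off vanishing near two points -/
def mab (a b : E2) (ρ : ℝ) (y : E2) : ℝ := mz a ρ y * mz b ρ y

lemma mab_nonneg (a b : E2) (ρ : ℝ) (y : E2) : 0 ≤ mab a b ρ y :=
  mul_nonneg (mz_nonneg _ _ _) (mz_nonneg _ _ _)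

lemma mab_le_one (a b : E2) (ρ : ℝ) (y : E2) : mab a b ρ y ≤ 1 :=
  mul_le_one₀ (mz_le_one _ _ _) (mz_nonneg _ _ _) (mz_le_one _ _ _)

lemma abs_mz_le (a : E2) (ρ : ℝ) (y : E2) : |mz a ρ y| ≤ 1 := by
  rw [abs_of_nonneg (mz_nonneg _ _ _)]; exact mz_le_one _ _ _

lemma abs_mab_le (a b : E2) (ρ : ℝ) (y : E2) : |mab a b ρ y| ≤ 1 := by
  rw [abs_of_nonneg (mab_nonneg _ _ _ _)]; exact mab_le_one _ _ _ _

/-- Lipschitz constant of `mab` -/
def Cρ (ρ : ℝ) : ℝ≥0 := C0 * (Real.toNNReal ρ)⁻¹ + C0 * (Real.toNNReal ρ)⁻¹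

lemma mab_lip (a b : E2) {ρ : ℝ} (hρ : 0 < ρ) : LipschitzWith (Cρ ρ) (mab a b ρ) :=
  lip_mul (mz_lip a hρ) (mz_lip b hρ) (abs_mz_le a ρ) (abs_mz_le b ρ)

lemma mab_contDiff (a b : E2) (ρ : ℝ) : ContDiff ℝ 1 (mab a b ρ) :=
  (mz_contDiff a ρ).mul (mz_contDiff b ρ)

lemma mab_ne_zero {a b : E2} {ρ : ℝ} (hρ : 0 < ρ) {y : E2} (hy : mab a b ρ y ≠ 0) :
    ρ < dist y a ∧ ρ < dist y b := by
  constructor
  · by_contra h
    exact hy (by unfold mab; rw [mz_zero hρ (not_lt.1 h), zero_mul])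
  · by_contra h
    exact hy (by unfold mab; rw [mz_zero hρ (not_lt.1 h), mul_zero])

lemma mab_one {a b : E2} {ρ : ℝ} (hρ : 0 < ρ) {y : E2} (ha : 2 * ρ ≤ dist y a)
    (hb : 2 * ρ ≤ dist y b) : mab a b ρ y = 1 := by
  unfold mab; rw [mz_one hρ ha, mz_one hρ hb, mul_one]

lemma gradient_mab_zero {a b : E2} {ρ : ℝ} (hρ : 0 < ρ) {y : E2} (ha : 2 * ρ < dist y a)
    (hb : 2 * ρ < dist y b) : gradient (mab a b ρ) y = 0 := by
  apply gradient_eq_zero_of_eventually_const 1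
  have h1 : ∀ᶠ z in 𝓝 y, 2 * ρ < dist z a :=
    (continuous_id.dist continuous_const).continuousAt.eventually_const_lt ha
  have h2 : ∀ᶠ z in 𝓝 y, 2 * ρ < dist z b :=
    (continuous_id.dist continuous_const).continuousAt.eventually_const_lt hb
  filter_upwards [h1, h2] with z hz1 hz2
  exact mab_one hρ hz1.le hz2.le

/-! ### the ramp -/

/-- ramp: `1` on `S`, `0` at distance `≥ δ` -/
def ramp (S : Set E2) (δ : ℝ) (y : E2) : ℝ := 1 - min 1 (δ⁻¹ * infDist y S)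

lemma ramp_nonneg (S : Set E2) (δ : ℝ) (y : E2) : 0 ≤ ramp S δ y := by
  unfold ramp; linarith [min_le_left 1 (δ⁻¹ * infDist y S)]

lemma ramp_le_one (S : Set E2) {δ : ℝ} (hδ : 0 < δ) (y : E2) : ramp S δ y ≤ 1 := by
  have : 0 ≤ min 1 (δ⁻¹ * infDist y S) :=
    le_min zero_le_one (mul_nonneg (inv_nonneg.2 hδ.le) infDist_nonneg)
  unfold ramp; linarith

lemma ramp_on (S : Set E2) (δ : ℝ) {y : E2} (hy : y ∈ S) : ramp S δ y = 1 := by
  unfold ramp
  rw [infDist_zero_of_mem hy, mul_zero, min_eq_right zero_le_one, sub_zero]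

lemma ramp_ne_zero {S : Set E2} {δ : ℝ} (hδ : 0 < δ) {y : E2} (hy : ramp S δ y ≠ 0) :
    infDist y S < δ := by
  by_contra h
  push Not at h
  apply hy
  unfold ramp
  rw [min_eq_left, sub_self]
  rw [inv_mul_eq_div, le_div_iff₀ hδ, one_mul]
  exact h

lemma ramp_lip (S : Set E2) {δ : ℝ} (hδ : 0 < δ) :
    LipschitzWith (Real.toNNReal δ⁻¹) (ramp S δ) := by
  apply LipschitzWith.of_dist_le_mul
  intro y z
  unfold ramp
  rw [dist_sub_left, Real.coe_toNNReal _ (inv_nonneg.2 hδ.le), Real.dist_eq]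
  have h1 : |infDist y S - infDist z S| ≤ dist y z := by
    have := (lipschitz_infDist_pt S).dist_le_mul y z
    rw [Real.dist_eq] at this
    simpa using this
  calc |min 1 (δ⁻¹ * infDist y S) - min 1 (δ⁻¹ * infDist z S)|
      ≤ |δ⁻¹ * infDist y S - δ⁻¹ * infDist z S| := by
        have := abs_min_sub_min_le_max 1 (δ⁻¹ * infDist y S) 1 (δ⁻¹ * infDist z S)
        rwa [sub_self, abs_zero, max_eq_right (abs_nonneg _)] at this
    _ = δ⁻¹ * |infDist y S - infDist z S| := by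
        rw [← mul_sub, abs_mul, abs_of_pos (inv_pos.2 hδ)]
    _ ≤ _ := mul_le_mul_of_nonneg_left h1 (inv_nonneg.2 hδ.le)

/-! ### angles -/

lemma norm_dir_sub_dir_ge {φ θ : ℝ} (h : |φ - θ| ≤ π) : 2 / π * |φ - θ| ≤ ‖dir φ - dir θ‖ := by
  have h1 : ‖dir φ - dir θ‖ ^ 2 = (2 * Real.sin ((φ - θ) / 2)) ^ 2 := by
    rw [norm_sub_sq_real, norm_dir, norm_dir, inner_dir_dir]
    have := Real.cos_sq' ((φ - θ) / 2)
    have h2 : Real.cos (φ - θ) = 2 * Real.cos ((φ - θ) / 2) ^ 2 - 1 := by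
      rw [← Real.cos_two_mul]; congr 1; ring
    rw [h2, this]; ring
  have h2 : ‖dir φ - dir θ‖ = |2 * Real.sin ((φ - θ) / 2)| := by
    rw [← Real.sqrt_sq (norm_nonneg _), h1, Real.sqrt_sq_eq_abs]
  have h3 := Real.mul_abs_le_abs_sin (x := (φ - θ) / 2) (by
    rw [abs_div, abs_two]; linarith)
  rw [h2, abs_mul, abs_two]
  rw [abs_div, abs_two] at h3
  linarith

/-- the angle of a point close to `cpt x t θ` -/
lemma angle_close (x z : E2) {t : ℝ} (ht : 0 < t) (θ : ℝ) :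
    ∃ φ, cpt x (dist z x) φ = z ∧ |φ - θ| ≤ π * (dist z (cpt x t θ) / t) := by
  have hpi := Real.pi_pos
  rcases eq_or_ne z x with rfl | hzx
  · refine ⟨θ, by simp [cpt], ?_⟩
    rw [sub_self, abs_zero]
    positivity
  · obtain ⟨φ, hφ, hφz⟩ := exists_cpt_eq (x := x) (dist_pos.2 hzx) (y := z) (mem_sphere.2 rfl) (θ - π)
    refine ⟨φ, hφz, ?_⟩
    have h1 : |φ - θ| ≤ π := by
      rw [abs_le]; constructor
      · linarith [hφ.1]
      · linarith [hφ.2]
    have h2 := norm_dir_sub_dir_ge h1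
    have h3 : t * ‖dir φ - dir θ‖ ≤ 2 * dist z (cpt x t θ) := by
      have e1 : t • (dir φ - dir θ) = (cpt x t φ - z) + (z - cpt x t θ) := by
        simp only [cpt, smul_sub]; abel
      have e2 : t * ‖dir φ - dir θ‖ = ‖t • (dir φ - dir θ)‖ := by
        rw [norm_smul, Real.norm_of_nonneg ht.le]
      rw [e2, e1]
      refine (norm_add_le _ _).trans ?_
      have e3 : ‖cpt x t φ - z‖ = |t - dist z x| := by
        rw [← dist_eq_norm]
        conv_lhs => rw [← hφz]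
        rw [dist_cpt_cpt_rad]
      have e4 : |t - dist z x| ≤ dist z (cpt x t θ) := by
        have h5 : t = dist (cpt x t θ) x := by rw [dist_cpt, abs_of_pos ht]
        rw [h5, abs_sub_comm]
        have := abs_dist_sub_le z (cpt x t θ) x
        rw [← h5] at this ⊢
        exact this
      rw [e3, ← dist_eq_norm z]
      linarith
    have h4 : |φ - θ| = (π / 2) * (2 / π * |φ - θ|) := by field_simp
    rw [h4]
    have h5 : ‖dir φ - dir θ‖ ≤ 2 * dist z (cpt x t θ) / t := by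
      rw [le_div_iff₀ ht]; linarith
    calc π / 2 * (2 / π * |φ - θ|) ≤ π / 2 * (2 * dist z (cpt x t θ) / t) :=
          mul_le_mul_of_nonneg_left (h2.trans h5) (by positivity)
      _ = _ := by ring

lemma infDist_arc {x z : E2} {r α β φ : ℝ} (hr : 0 < r) (hφ : φ ∈ Icc α β)
    (hz : cpt x (dist z x) φ = z) : infDist z (arcS x r α β) = |dist z x - r| := by
  have hne : (arcS x r α β).Nonempty := ⟨_, mem_image_of_mem _ hφ⟩
  apply le_antisymm
  · have h1 := infDist_le_dist_of_mem (x := z) (mem_image_of_mem (cpt x r) hφ)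
    rw [show dist z (cpt x r φ) = |dist z x - r| by
      conv_lhs => rw [← hz]
      rw [dist_cpt_cpt_rad]] at h1
    exact h1
  · rw [le_infDist hne]
    intro y hy
    have h2 := mem_sphere.1 (arcS_subset_sphere hr hy)
    rw [← h2]
    have := abs_dist_sub_le z y x
    exact this

end Crest.Agent.R135.ZF
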