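import Mathlib
import Crest.Agent.R135.ZFlux4

/-!
# R135, block ZFlux (helper638), part 5: the flux through the arc as a limit of ramps
-/

set_option autoImplicit false

noncomputable section

open MeasureTheory Set Real Topology Filter Metric
open scoped ENNReal NNReal ContDiff

namespace Crest.Agent.R135.ZF

variable {K : Set E2} {x : E2} {r α β : ℝ}

/-- the side property of `W` -/
def SideProp (K : Set E2) (x : E2) (r α β : ℝ) (W : Set E2) : Prop :=
  ∀ α' β', α < α' → β' < β → ∃ ε > 0, ε < r ∧ ∀ φ ∈ Icc α' β',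
        (∀ s, |s - r| ≤ ε → cpt x s φ ∉ K) ∧ (∀ s ∈ Ioc r (r + ε), cpt x s φ ∈ W) ∧
        (∀ s ∈ Ico (r - ε) r, cpt x s φ ∉ W)

lemma dist_cpt_cpt_ang (x : E2) {r : ℝ} (hr : 0 ≤ r) (φ θ : ℝ) :
    dist (cpt x r φ) (cpt x r θ) ≤ r * |φ - θ| := by
  have := (lipschitz_cpt x hr).dist_le_mul φ θ
  rwa [Real.coe_toNNReal _ hr, Real.dist_eq] at this

/-- the localised ramp -/
def ff (x : E2) (r α β ρ δ : ℝ) (y : E2) : ℝ :=
  mab (cpt x r α) (cpt x r β) ρ y * ramp (arcS x r α β) δ y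

lemma ff_nonneg (x : E2) (r α β ρ δ : ℝ) (y : E2) : 0 ≤ ff x r α β ρ δ y :=
  mul_nonneg (mab_nonneg _ _ _ _) (ramp_nonneg _ _ _)

lemma gradient_ff_zero {ρ δ : ℝ} {y : E2} (h : ff x r α β ρ δ y = 0) :
    gradient (ff x r α β ρ δ) y = 0 := by
  have hmin : IsLocalMin (ff x r α β ρ δ) y := by
    refine Eventually.of_forall fun z => ?_
    rw [h]
    exact ff_nonneg _ _ _ _ _ _ _
  rw [gradient, hmin.fderiv_eq_zero, map_zero]

/-- angle bookkeeping: a point where the localised ramp does not vanish -/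
lemma ff_support_angle (hr : 0 < r) (hαβ : α < β) {ρ δ : ℝ} (hρ : 0 < ρ) (hδ : 0 < δ)
    (hδρ : 10 * δ ≤ ρ) {y : E2} (hy : ff x r α β ρ δ y ≠ 0) :
    ∃ φ ∈ Ioo (α + ρ / (2 * r)) (β - ρ / (2 * r)), cpt x (dist y x) φ = y ∧ |dist y x - r| < δ := by
  have hM : mab (cpt x r α) (cpt x r β) ρ y ≠ 0 := fun h => hy (by unfold ff; rw [h, zero_mul])
  have hR : ramp (arcS x r α β) δ y ≠ 0 := fun h => hy (by unfold ff; rw [h, mul_zero])
  obtain ⟨ha, hb⟩ := mab_ne_zero hρ hM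
  have hne : (arcS x r α β).Nonempty := ⟨_, mem_image_of_mem _ (left_mem_Icc.2 hαβ.le)⟩
  obtain ⟨q, hq, hqd⟩ := (infDist_lt_iff hne).1 (ramp_ne_zero hδ hR)
  obtain ⟨ψ, hψ, rfl⟩ := hq
  obtain ⟨φ, hφ, hφψ⟩ := angle_close x y hr ψ
  have hpi := Real.pi_pos
  have hpi4 : π < 4 := Real.pi_lt_four
  have hψa : ρ - δ < r * (ψ - α) := by
    have h1 := dist_cpt_cpt_ang x hr.le ψ α
    rw [abs_of_nonneg (by linarith [hψ.1])] at h1
    have h2 : dist y (cpt x r α) ≤ dist y (cpt x r ψ) + dist (cpt x r ψ) (cpt x r α) :=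
      dist_triangle _ _ _
    linarith
  have hψb : ρ - δ < r * (β - ψ) := by
    have h1 := dist_cpt_cpt_ang x hr.le ψ β
    rw [abs_sub_comm, abs_of_nonneg (by linarith [hψ.2])] at h1
    have h2 : dist y (cpt x r β) ≤ dist y (cpt x r ψ) + dist (cpt x r ψ) (cpt x r β) :=
      dist_triangle _ _ _
    linarith
  have h3 : r * |φ - ψ| ≤ 4 * δ := by
    have h4 : r * |φ - ψ| ≤ r * (π * (dist y (cpt x r ψ) / r)) :=
      mul_le_mul_of_nonneg_left hφψ hr.le
    have h5 : r * (π * (dist y (cpt x r ψ) / r)) = π * dist y (cpt x r ψ) := by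
      field_simp
    have h6 : π * dist y (cpt x r ψ) ≤ 4 * δ := by
      have h7 : π * dist y (cpt x r ψ) ≤ 4 * dist y (cpt x r ψ) :=
        mul_le_mul_of_nonneg_right hpi4.le dist_nonneg
      linarith
    linarith
  have h8 : r * (ρ / (2 * r)) = ρ / 2 := by field_simp
  have h9 := abs_le.1 (le_refl |φ - ψ|)
  refine ⟨φ, ⟨?_, ?_⟩, hφ, ?_⟩
  · have h10 : r * (α + ρ / (2 * r)) < r * φ := by
      rw [mul_add, h8]
      have h11 : r * (ψ - φ) ≤ r * |φ - ψ| :=
        mul_le_mul_of_nonneg_left (by linarith [h9.1]) hr.le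
      nlinarith
    exact lt_of_mul_lt_mul_left h10 hr.le
  · have h10 : r * φ < r * (β - ρ / (2 * r)) := by
      rw [mul_sub, h8]
      have h11 : r * (φ - ψ) ≤ r * |φ - ψ| :=
        mul_le_mul_of_nonneg_left (by linarith [h9.2]) hr.le
      nlinarith
    exact lt_of_mul_lt_mul_left h10 hr.le
  · have h12 : dist (cpt x r ψ) x = r := by rw [dist_cpt, abs_of_pos hr]
    have h13 := abs_dist_sub_le y (cpt x r ψ) x
    rw [h12] at h13
    linarith

/-- points of `W` where the localised ramp does not vanish are outside the disc -/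
lemma ff_support (hr : 0 < r) (hαβ : α < β) {W : Set E2} (hWS : Disjoint W (arcS x r α β))
    {ρ δ ε : ℝ} (hρ : 0 < ρ) (hδ : 0 < δ) (hδρ : 10 * δ ≤ ρ) (hδε : δ ≤ ε)
    (hW : ∀ φ ∈ Icc (α + ρ / (2 * r)) (β - ρ / (2 * r)), ∀ s ∈ Ico (r - ε) r, cpt x s φ ∉ W)
    {y : E2} (hyW : y ∈ W) (hy : ff x r α β ρ δ y ≠ 0) :
    ∃ φ ∈ Ioo (α + ρ / (2 * r)) (β - ρ / (2 * r)), cpt x (dist y x) φ = y ∧
      dist y x ∈ Ioo r (r + δ) := by
  obtain ⟨φ, hφ, hφy, hd⟩ := ff_support_angle hr hαβ hρ hδ hδρ hy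
  refine ⟨φ, hφ, hφy, ?_, ?_⟩
  · by_contra hle
    push Not at hle
    rcases hle.lt_or_eq with h1 | h1
    · refine hW φ ⟨hφ.1.le, hφ.2.le⟩ (dist y x) ⟨?_, h1⟩ (by rw [hφy]; exact hyW)
      have := (abs_lt.1 hd).1
      linarith
    · have hpos : 0 < ρ / (2 * r) := by positivity
      refine Set.disjoint_left.1 hWS hyW ?_
      rw [← hφy, h1]
      exact mem_image_of_mem _ ⟨by linarith [hφ.1], by linarith [hφ.2]⟩
  · have := (abs_lt.1 hd).2
    linarith

lemma hasGradientAt_dist {x : E2} {t θ : ℝ} (ht : 0 < t) :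
    HasFDerivAt (fun z : E2 => dist z x) (innerSL ℝ (dir θ)) (cpt x t θ) := by
  have h1 : cpt x t θ - x ≠ 0 := by
    rw [sub_ne_zero]
    intro h
    have := dist_cpt x t θ
    rw [h, dist_self, abs_of_pos ht] at this
    linarith
  have h2 : HasFDerivAt (fun z : E2 => ‖z - x‖) (innerSL ℝ (dir θ)) (cpt x t θ) := by
    have h3 : HasStrictFDerivAt (fun z : E2 => ‖z - x‖ ^ 2)
        ((2 : ℕ) • (innerSL ℝ (cpt x t θ - x))) (cpt x t θ) := by
      have h4 := (hasStrictFDerivAt_norm_sq (cpt x t θ - x)).comp (cpt x t θ)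
        ((hasStrictFDerivAt_id (𝕜 := ℝ) (cpt x t θ)).sub_const x)
      simpa using h4
    have h5 : ‖cpt x t θ - x‖ ^ 2 ≠ 0 := by
      have := norm_pos_iff.2 h1
      positivity
    have h6 := h3.hasFDerivAt.sqrt h5
    have h7 : (fun z : E2 => √(‖z - x‖ ^ 2)) = fun z => ‖z - x‖ := by
      ext z
      exact Real.sqrt_sq (norm_nonneg _)
    rw [h7] at h6
    convert! h6 using 1
    have h8 : ‖cpt x t θ - x‖ = t := by
      rw [← dist_eq_norm, dist_cpt, abs_of_pos ht]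
    rw [Real.sqrt_sq (norm_nonneg _), h8]
    ext v
    simp [cpt]
    field_simp
  simpa [dist_eq_norm] using h2

/-- gradient of the localised ramp in the outer box -/
lemma gradient_ff (hr : 0 < r) {ρ δ : ℝ} (hδ : 0 < δ) {θ t : ℝ} (hθ : θ ∈ Ioo α β)
    (ht : t ∈ Ioo r (r + δ)) :
    gradient (ff x r α β ρ δ) (cpt x t θ) =
      (1 - (t - r) / δ) • gradient (mab (cpt x r α) (cpt x r β) ρ) (cpt x t θ) -
        (mab (cpt x r α) (cpt x r β) ρ (cpt x t θ) / δ) • dir θ := by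
  have ht0 : 0 < t := hr.trans ht.1
  set y := cpt x t θ with hy
  have hpi := Real.pi_pos
  -- near y the ramp is explicit
  have hev : ramp (arcS x r α β) δ =ᶠ[𝓝 y] fun z => 1 - δ⁻¹ * (dist z x - r) := by
    obtain ⟨η, hη, hηs⟩ : ∃ η > 0, ∀ φ, |φ - θ| < η → φ ∈ Ioo α β := by
      obtain ⟨η, hη, hs⟩ := Metric.isOpen_iff.1 (isOpen_Ioo (a := α) (b := β)) θ hθ
      exact ⟨η, hη, fun φ hφ => hs (by rwa [mem_ball, Real.dist_eq])⟩
    have e1 : ∀ᶠ z in 𝓝 y, π * (dist z y / t) < η := by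
      have hc : ContinuousAt (fun z : E2 => π * (dist z y / t)) y := by fun_prop
      have h0 : π * (dist y y / t) < η := by simpa using hη
      exact hc.eventually_lt_const h0
    have e2 : ∀ᶠ z in 𝓝 y, dist z x ∈ Ioo r (r + δ) := by
      have hc : ContinuousAt (fun z : E2 => dist z x) y := by fun_prop
      apply hc.eventually_mem
      rw [hy, dist_cpt, abs_of_pos ht0]
      exact Ioo_mem_nhds ht.1 ht.2
    filter_upwards [e1, e2] with z hz1 hz2
    obtain ⟨φ, hφ, hφθ⟩ := angle_close x z ht0 θ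
    have hφm : φ ∈ Ioo α β := hηs φ (hφθ.trans_lt hz1)
    unfold ramp
    rw [infDist_arc hr ⟨hφm.1.le, hφm.2.le⟩ hφ, abs_of_pos (by linarith [hz2.1]), min_eq_right]
    rw [inv_mul_eq_div, div_le_one hδ]
    linarith [hz2.2]
  have hff : ff x r α β ρ δ =ᶠ[𝓝 y]
      fun z => mab (cpt x r α) (cpt x r β) ρ z * (1 - δ⁻¹ * (dist z x - r)) := by
    filter_upwards [hev] with z hz
    simp only [ff, hz]
  rw [gradient_congr_of_eventuallyEq hff]
  have hM : HasFDerivAt (mab (cpt x r α) (cpt x r β) ρ)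
      (fderiv ℝ (mab (cpt x r α) (cpt x r β) ρ) y) y :=
    ((mab_contDiff _ _ ρ).differentiable (by norm_num)).differentiableAt.hasFDerivAt
  have hd : HasFDerivAt (fun z : E2 => 1 - δ⁻¹ * (dist z x - r)) (-(δ⁻¹ • innerSL ℝ (dir θ))) y :=
    (((hasGradientAt_dist ht0).sub_const r).const_mul δ⁻¹).const_sub 1
  have hprod : HasFDerivAt
      (fun z => mab (cpt x r α) (cpt x r β) ρ z * (1 - δ⁻¹ * (dist z x - r)))
      (mab (cpt x r α) (cpt x r β) ρ y • -(δ⁻¹ • (innerSL ℝ) (dir θ)) +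
        (1 - δ⁻¹ * (dist y x - r)) • fderiv ℝ (mab (cpt x r α) (cpt x r β) ρ) y) y := hM.mul hd
  have hdist : dist y x = t := by rw [hy, dist_cpt, abs_of_pos ht0]
  simp only [gradient]
  rw [hprod.fderiv, map_add, hdist]
  simp only [map_smul, map_neg]
  have e3 : (InnerProductSpace.toDual ℝ E2).symm (innerSL ℝ (dir θ)) = dir θ := by
    apply (InnerProductSpace.toDual ℝ E2).injective
    rw [LinearIsometryEquiv.apply_symm_apply]
    ext v
    simp
  rw [e3, smul_neg, smul_smul, neg_add_eq_sub]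
  congr 1
  · congr 1
    field_simp

end Crest.Agent.R135.ZF
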