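import Mathlib
import Crest.Agent.R135.ZFlux5

/-!
# R135, block ZFlux (helper638), part 6: the limit of the ramp integrals
-/

set_option autoImplicit false

noncomputable section

open MeasureTheory Set Real Topology Filter Metric
open scoped ENNReal NNReal ContDiff

namespace Crest.Agent.R135.ZF

variable {K : Set E2} {x : E2} {r α β : ℝ}

lemma continuous_gradient_of_contDiff {f : E2 → ℝ} (hf : ContDiff ℝ 1 f) :
    Continuous (gradient f) := by
  unfold gradient
  exact (InnerProductSpace.toDual ℝ E2).symm.continuous.comp (hf.continuous_fderiv (by norm_num))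

lemma ff_lip (x : E2) (r α β : ℝ) {ρ δ : ℝ} (hρ : 0 < ρ) (hδ : 0 < δ) :
    LipschitzWith (Cρ ρ + Real.toNNReal δ⁻¹) (ff x r α β ρ δ) := by
  refine lip_mul (mab_lip _ _ hρ) (ramp_lip _ hδ) (abs_mab_le _ _ _) (fun y => ?_)
  rw [abs_of_nonneg (ramp_nonneg _ _ _)]
  exact ramp_le_one _ hδ _

/-- integrability on bounded sets of `⟨∇u, H⟩`, `H` bounded -/
lemma integrableOn_inner {u : E2 → ℝ} (h : IsQM univ 0 u K) {H : E2 → E2} (hH : Measurable H)
    {D : ℝ} (hD : ∀ y, ‖H y‖ ≤ D) (x : E2) (R : ℝ) :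
    IntegrableOn (fun y => (inner ℝ (gradient u y) (H y) : ℝ)) (closedBall x R) := by
  have hfin : IsFiniteMeasure (volume.restrict (closedBall x R)) :=
    ⟨by rw [Measure.restrict_apply_univ]; exact measure_closedBall_lt_top⟩
  have hG2 : MemLp (gradient u) 2 (volume.restrict (closedBall x R)) := by
    refine Gl.memLp_two_of_lintegral (measurable_gradient' u).aestronglyMeasurable ?_
    have h1 : dirE u K (closedBall x R) < ⊤ := h.dir_fin x R (subset_univ _)
    unfold dirE at h1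
    rwa [Measure.restrict_congr_set (sdiff_ae_eq h.volume_K)] at h1
  exact Gl.integrable_inner2 hG2 (MemLp.of_bound hH.aestronglyMeasurable D (ae_of_all _ hD))

theorem ramp_limit {u : E2 → ℝ} (h : IsQM univ 0 u K) (hr : 0 < r) (hαβ : α < β)
    (hβ : β < α + 2 * π) {W : Set E2} (hs : Side K (arcS x r α β) W)
    (hW : SideProp K x r α β W) {ρ : ℝ} (hρ : 0 < ρ)
    (hρs : α + ρ / (2 * r) ≤ β - ρ / (2 * r)) {η : ℝ} (hη : 0 < η) :
    ∃ δ0 > 0, ∀ δ ∈ Ioc 0 δ0,
      |(∫ y in W, inner ℝ (gradient u y) (gradient (ff x r α β ρ δ) y)) +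
        ∫ θ in (α + ρ / (2 * r))..(β - ρ / (2 * r)),
          r * (mab (cpt x r α) (cpt x r β) ρ (cpt x r θ) *
            inner ℝ (gradient u (cpt x r θ)) (dir θ))| ≤ η := by
  set α' : ℝ := α + ρ / (2 * r) with hα'
  set β' : ℝ := β - ρ / (2 * r) with hβ'
  set M : E2 → ℝ := mab (cpt x r α) (cpt x r β) ρ with hM
  have hpos : 0 < ρ / (2 * r) := by positivity
  have hαα' : α < α' := by rw [hα']; linarith
  have hβ'β : β' < β := by rw [hβ']; linarith
  obtain ⟨ε, hε, hεr, hbox⟩ := hW α' β' hαα' hβ'β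
  set Pf : ℝ × ℝ → ℝ := fun p =>
    p.1 * inner ℝ (gradient u (cpt x p.1 p.2)) (gradient M (cpt x p.1 p.2)) with hPf
  set Qf : ℝ × ℝ → ℝ := fun p =>
    p.1 * (M (cpt x p.1 p.2) * inner ℝ (gradient u (cpt x p.1 p.2)) (dir p.2)) with hQf
  set Kc : Set (ℝ × ℝ) := Icc r (r + ε) ×ˢ Icc α' β' with hKc
  have hKcc : IsCompact Kc := isCompact_Icc.prod isCompact_Icc
  have hoff : ∀ p ∈ Kc, cpt x p.1 p.2 ∉ K := by
    rintro ⟨t, θ⟩ ⟨ht, hθ⟩
    simp only at ht hθ
    refine (hbox θ hθ).1 t ?_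
    rw [abs_of_nonneg (by linarith [ht.1])]
    linarith [ht.2]
  have hgu : ContinuousOn (fun p : ℝ × ℝ => gradient u (cpt x p.1 p.2)) Kc := by
    have h1 := h.continuousOn_gradient
    exact h1.comp (continuous_cpt x).continuousOn (fun p hp => ⟨mem_univ _, hoff p hp⟩)
  have hgM : Continuous (gradient M) := continuous_gradient_of_contDiff (mab_contDiff _ _ _)
  have hMc : Continuous M := (mab_contDiff _ _ _).continuous
  have hcp := continuous_cpt x
  have hPc : ContinuousOn Pf Kc := by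
    apply ContinuousOn.mul continuousOn_fst
    exact hgu.inner (hgM.comp hcp).continuousOn
  have hQc : ContinuousOn Qf Kc := by
    apply ContinuousOn.mul continuousOn_fst
    apply ContinuousOn.mul (hMc.comp hcp).continuousOn
    exact hgu.inner (continuous_dir.comp continuous_snd).continuousOn
  obtain ⟨A, hA⟩ := hKcc.exists_bound_of_continuousOn hPc
  have huc := hKcc.uniformContinuousOn_of_continuous hQc
  set ℓ : ℝ := β' - α' with hℓ
  have hℓ0 : 0 ≤ ℓ := by rw [hℓ]; linarith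
  obtain ⟨δ1, hδ1, huc1⟩ := Metric.uniformContinuousOn_iff.1 huc (η / (2 * (ℓ + 1))) (by positivity)
  have hA0 : 0 ≤ A := (norm_nonneg _).trans (hA (r, α') ⟨⟨le_rfl, by simp only; linarith⟩,
    ⟨le_rfl, hρs⟩⟩)
  refine ⟨min (min ε (ρ / 10)) (min (δ1 / 2) (η / (2 * ((A + 1) * (ℓ + 1))))), by positivity, ?_⟩
  rintro δ ⟨hδ, hδ0⟩
  have hδε : δ ≤ ε := hδ0.trans ((min_le_left _ _).trans (min_le_left _ _))
  have hδρ : 10 * δ ≤ ρ := by
    have := hδ0.trans ((min_le_left _ _).trans (min_le_right _ _)); linarith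
  have hδ1' : δ < δ1 := by
    have := hδ0.trans ((min_le_right _ _).trans (min_le_left _ _)); linarith
  have hδA : δ * ((A + 1) * (ℓ + 1)) ≤ η / 2 := by
    have h1 := hδ0.trans ((min_le_right _ _).trans (min_le_right _ _))
    have h2 : 0 < (A + 1) * (ℓ + 1) := by positivity
    calc δ * ((A + 1) * (ℓ + 1)) ≤ (η / (2 * ((A + 1) * (ℓ + 1)))) * ((A + 1) * (ℓ + 1)) :=
          mul_le_mul_of_nonneg_right h1 h2.le
      _ = η / 2 := by field_simp
  -- the integrand
  set H : E2 → E2 := W.indicator (gradient (ff x r α β ρ δ)) with hH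
  have hHm : Measurable H := (measurable_gradient' _).indicator hs.isOpen.measurableSet
  have hHb : ∀ y, ‖H y‖ ≤ (Cρ ρ + Real.toNNReal δ⁻¹ : ℝ≥0) := by
    intro y
    by_cases hy : y ∈ W
    · rw [hH, indicator_of_mem hy]; exact norm_gradient_le (ff_lip x r α β hρ hδ) y
    · rw [hH, indicator_of_notMem hy, norm_zero]; exact NNReal.coe_nonneg _
  set g : E2 → ℝ := fun y => inner ℝ (gradient u y) (H y) with hg
  have hWS : Disjoint W (arcS x r α β) := by
    rw [Set.disjoint_left]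
    intro y hy hyS
    exact hs.sub hy (Or.inr hyS)
  have hsupp : ∀ y, g y ≠ 0 → y ∈ W ∧ ∃ φ ∈ Ioo α' β', cpt x (dist y x) φ = y ∧
      dist y x ∈ Ioo r (r + δ) := by
    intro y hy
    have hyW : y ∈ W := by
      by_contra hcon
      exact hy (by simp only [hg, hH, indicator_of_notMem hcon, inner_zero_right])
    have hff : ff x r α β ρ δ y ≠ 0 := by
      intro h0
      exact hy (by simp only [hg, hH, indicator_of_mem hyW, gradient_ff_zero h0, inner_zero_right])
    exact ⟨hyW, ff_support hr hαβ hWS hρ hδ hδρ hδε (fun φ hφ => (hbox φ hφ).2.2) hyW hff⟩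
  have e1 : ∫ y in W, inner ℝ (gradient u y) (gradient (ff x r α β ρ δ) y) = ∫ y, g y := by
    rw [← integral_indicator hs.isOpen.measurableSet]
    congr 1
    ext y
    by_cases hy : y ∈ W
    · rw [indicator_of_mem hy]; simp only [hg, hH, indicator_of_mem hy]
    · rw [indicator_of_notMem hy]; simp only [hg, hH, indicator_of_notMem hy, inner_zero_right]
  have e2 : ∫ y, g y = ∫ y in {y : E2 | dist y x ∈ Ioo r (r + δ)}, g y := by
    rw [setIntegral_eq_integral_of_forall_compl_eq_zero]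
    intro y hy
    by_contra hcon
    obtain ⟨_, φ, _, _, h3⟩ := hsupp y hcon
    exact hy h3
  have hgint : IntegrableOn g {y : E2 | dist y x ∈ Ioo r (r + δ)} := by
    refine (integrableOn_inner h hHm hHb x (r + δ)).mono_set ?_
    intro y hy
    exact mem_closedBall.2 hy.2.le
  have hIoi : Ioi (0 : ℝ) ∩ Ioo r (r + δ) = Ioo r (r + δ) := by
    ext t
    constructor
    · exact fun h => h.2
    · exact fun h => ⟨hr.trans h.1, h⟩
  have e3 := integral_polar_radii x (measurableSet_Ioo (a := r) (b := r + δ)) hgint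
  have hradint := integrableOn_radial x (measurableSet_Ioo (a := r) (b := r + δ)) hgint
  rw [hIoi] at e3 hradint
  -- the circle integrals
  set q : ℝ := ∫ θ in α'..β', r * (M (cpt x r θ) * inner ℝ (gradient u (cpt x r θ)) (dir θ)) with hq
  have hqQ : q = ∫ θ in Ioo α' β', Qf (r, θ) := by
    rw [hq, intervalIntegral.integral_of_le hρs, integral_Ioc_eq_integral_Ioo]
  have hcirc : ∀ t ∈ Ioo r (r + δ), t • ∫ θ in Ioo (-π) π, g (cpt x t θ) =
      ∫ θ in Ioo α' β', ((1 - (t - r) / δ) * Pf (t, θ) - δ⁻¹ * Qf (t, θ)) := by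
    intro t ht
    have ht0 : 0 < t := hr.trans ht.1
    have h1 : ∫ θ in Ioo (-π) π, g (cpt x t θ) = ∫ θ in Ioc α (α + 2 * π), g (cpt x t θ) := by
      have h2 := circI_eq_set g x t
      rw [← h2, circI_eq_shift g x t α, intervalIntegral.integral_of_le (by linarith [pi_pos])]
    have h2 : ∫ θ in Ioc α (α + 2 * π), g (cpt x t θ) = ∫ θ in Ioo α' β', g (cpt x t θ) := by
      apply setIntegral_eq_of_subset_of_forall_sdiff_eq_zero measurableSet_Ioc
      · intro θ hθ
        exact ⟨by linarith [hθ.1], by linarith [hθ.2]⟩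
      · rintro θ ⟨hθ1, hθ2⟩
        by_contra hcon
        obtain ⟨_, φ, hφ, hφy, _⟩ := hsupp _ hcon
        rw [dist_cpt, abs_of_pos ht0] at hφy
        apply hθ2
        rcases hθ1.2.lt_or_eq with h3 | h3
        · have h4 := cpt_injOn (x := x) ht0.ne' α (⟨by linarith [hφ.1], by linarith [hφ.2]⟩)
            (⟨hθ1.1.le, h3⟩) hφy
          rw [← h4]
          exact hφ
        · have h5 : cpt x t θ = cpt x t α := by
            rw [h3]; exact cpt_periodic x t α
          rw [h5] at hφy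
          have h4 := cpt_injOn (x := x) ht0.ne' α (⟨by linarith [hφ.1], by linarith [hφ.2]⟩)
            (⟨le_rfl, by linarith⟩) hφy
          linarith [hφ.1]
    rw [h1, h2, ← integral_smul]
    apply setIntegral_congr_fun measurableSet_Ioo
    intro θ hθ
    have hθ' : θ ∈ Ioo α β := ⟨by linarith [hθ.1], by linarith [hθ.2]⟩
    have hyW : cpt x t θ ∈ W := (hbox θ ⟨hθ.1.le, hθ.2.le⟩).2.1 t ⟨ht.1, by linarith [ht.2]⟩
    simp only [hg, hH, indicator_of_mem hyW, gradient_ff hr hδ hθ' ht, inner_sub_right,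
      inner_smul_right, smul_eq_mul, hPf, hQf]
    ring
  have hℓvol : (volume (Ioo α' β')).toReal = ℓ := by
    rw [Real.volume_Ioo, ENNReal.toReal_ofReal hℓ0]
  have hest : ∀ t ∈ Ioo r (r + δ),
      ‖(t • ∫ θ in Ioo (-π) π, g (cpt x t θ)) + δ⁻¹ * q‖ ≤ (A + δ⁻¹ * (η / (2 * (ℓ + 1)))) * ℓ := by
    intro t ht
    have htK : t ∈ Icc r (r + ε) := ⟨ht.1.le, by linarith [ht.2]⟩
    have hrK : r ∈ Icc r (r + ε) := ⟨le_rfl, by linarith⟩
    have hsl : ∀ {F : ℝ × ℝ → ℝ} {s : ℝ}, ContinuousOn F Kc → s ∈ Icc r (r + ε) →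
        IntegrableOn (fun θ => F (s, θ)) (Ioo α' β') := by
      intro F s hF hs'
      have h1 : ContinuousOn (fun θ => F (s, θ)) (Icc α' β') :=
        hF.comp (by fun_prop) (fun θ hθ => ⟨hs', hθ⟩)
      exact (h1.integrableOn_compact isCompact_Icc).mono_set Ioo_subset_Icc_self
    rw [hcirc t ht, hqQ, ← integral_const_mul, ← integral_add]
    · have hb : ∀ θ ∈ Ioo α' β', ‖((1 - (t - r) / δ) * Pf (t, θ) - δ⁻¹ * Qf (t, θ)) +
          δ⁻¹ * Qf (r, θ)‖ ≤ A + δ⁻¹ * (η / (2 * (ℓ + 1))) := by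
        intro θ hθ
        have hθI : θ ∈ Icc α' β' := ⟨hθ.1.le, hθ.2.le⟩
        have h1 : ‖Pf (t, θ)‖ ≤ A := hA _ ⟨htK, hθI⟩
        have h2 : dist (Qf (t, θ)) (Qf (r, θ)) < η / (2 * (ℓ + 1)) := by
          apply huc1 (t, θ) ⟨htK, hθI⟩ (r, θ) ⟨hrK, hθI⟩
          rw [Prod.dist_eq, dist_self, max_eq_left dist_nonneg, Real.dist_eq,
            abs_of_pos (by linarith [ht.1])]
          linarith [ht.2]
        have e4 : ((1 - (t - r) / δ) * Pf (t, θ) - δ⁻¹ * Qf (t, θ)) + δ⁻¹ * Qf (r, θ) =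
            (1 - (t - r) / δ) * Pf (t, θ) - δ⁻¹ * (Qf (t, θ) - Qf (r, θ)) := by ring
        rw [e4]
        refine (norm_sub_le _ _).trans ?_
        rw [norm_mul (1 - (t - r) / δ) (Pf (t, θ)), norm_mul δ⁻¹ (Qf (t, θ) - Qf (r, θ)), norm_inv,
          Real.norm_of_nonneg hδ.le]
        have h3 : ‖1 - (t - r) / δ‖ ≤ 1 := by
          have h5 : 0 ≤ (t - r) / δ := div_nonneg (by linarith [ht.1]) hδ.le
          have h6 : (t - r) / δ ≤ 1 := by rw [div_le_one hδ]; linarith [ht.2]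
          rw [Real.norm_eq_abs, abs_le]; constructor <;> linarith
        rw [Real.dist_eq, ← Real.norm_eq_abs] at h2
        have h7 : ‖1 - (t - r) / δ‖ * ‖Pf (t, θ)‖ ≤ 1 * A :=
          mul_le_mul h3 h1 (norm_nonneg _) zero_le_one
        have h8 : δ⁻¹ * ‖Qf (t, θ) - Qf (r, θ)‖ ≤ δ⁻¹ * (η / (2 * (ℓ + 1))) :=
          mul_le_mul_of_nonneg_left h2.le (inv_nonneg.2 hδ.le)
        linarith
      have h9 := norm_setIntegral_le_of_norm_le_const (μ := volume) (s := Ioo α' β') (by simp) hb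
      rwa [Measure.real, hℓvol] at h9
    · exact ((hsl hPc htK).const_mul _).sub ((hsl hQc htK).const_mul _)
    · exact (hsl hQc hrK).const_mul _
  have hδvol : (volume (Ioo r (r + δ))).toReal = δ := by
    rw [Real.volume_Ioo, add_sub_cancel_left, ENNReal.toReal_ofReal hδ.le]
  have hfinal : (∫ y in W, inner ℝ (gradient u y) (gradient (ff x r α β ρ δ) y)) + q =
      ∫ t in Ioo r (r + δ), ((t • ∫ θ in Ioo (-π) π, g (cpt x t θ)) + δ⁻¹ * q) := by
    rw [e1, e2, e3, integral_add hradint (integrable_const _), setIntegral_const,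
      Measure.real, hδvol, smul_eq_mul]
    field_simp
  rw [hfinal]
  have h10 := norm_setIntegral_le_of_norm_le_const (μ := volume) (s := Ioo r (r + δ)) (by simp) hest
  rw [Measure.real, hδvol, Real.norm_eq_abs] at h10
  refine h10.trans ?_
  have h11 : (A + δ⁻¹ * (η / (2 * (ℓ + 1)))) * ℓ * δ = δ * (A * ℓ) + (η / 2) * (ℓ / (ℓ + 1)) := by
    field_simp
  rw [h11]
  have h12 : ℓ / (ℓ + 1) ≤ 1 := by rw [div_le_one (by linarith)]; linarith
  have h13 : δ * (A * ℓ) ≤ δ * ((A + 1) * (ℓ + 1)) := by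
    apply mul_le_mul_of_nonneg_left _ hδ.le
    nlinarith
  have h14 : η / 2 * (ℓ / (ℓ + 1)) ≤ η / 2 * 1 := mul_le_mul_of_nonneg_left h12 (by linarith)
  linarith

end Crest.Agent.R135.ZF
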