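import Crest.Agent.R135.PolarB
import Crest.Agent.R135.LocLip

/-!
R135 (helper990, for block ZF of helper638): logarithmic cut-off in the plane.
-/

set_option autoImplicit false

open MeasureTheory Set Real Topology Filter Metric
open scoped ENNReal NNReal Gradient

namespace Crest.Agent.R135

/-- logarithmic cut-off: `1` on `closedBall x R0`, `0` outside `ball x R`. -/
noncomputable def zlog (x : E2) (R0 R : ℝ) (y : E2) : ℝ :=
  max 0 (min 1 (Real.log (R / max (dist y x) R0) / Real.log (R / R0)))

section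

variable {x : E2} {R0 R : ℝ}

lemma zlog_nonneg (x : E2) (R0 R : ℝ) (y : E2) : 0 ≤ zlog x R0 R y := le_max_left _ _

lemma zlog_le_one (x : E2) (R0 R : ℝ) (y : E2) : zlog x R0 R y ≤ 1 :=
  max_le zero_le_one (min_le_left _ _)

lemma zlog_log_pos (h0 : 0 < R0) (h1 : R0 < R) : 0 < Real.log (R / R0) :=
  Real.log_pos ((one_lt_div h0).2 h1)

lemma zlog_eq_one (h0 : 0 < R0) (h1 : R0 < R) {y : E2} (hy : y ∈ closedBall x R0) :
    zlog x R0 R y = 1 := by
  have hl := zlog_log_pos h0 h1
  unfold zlog
  rw [max_eq_right (mem_closedBall.1 hy), div_self hl.ne']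
  simp

lemma zlog_eq_zero (h0 : 0 < R0) (h1 : R0 < R) {y : E2} (hy : y ∉ ball x R) :
    zlog x R0 R y = 0 := by
  have hl := zlog_log_pos h0 h1
  have hy' : R ≤ dist y x := by simpa using hy
  unfold zlog
  rw [max_eq_left (by linarith : R0 ≤ dist y x)]
  apply max_eq_left
  apply (min_le_right _ _).trans
  apply div_nonpos_of_nonpos_of_nonneg _ hl.le
  apply Real.log_nonpos
  · exact div_nonneg (by linarith) dist_nonneg
  · exact (div_le_one (by linarith)).2 hy'

lemma zlog_eq_of_mem (h0 : 0 < R0) {y : E2} (hy1 : R0 ≤ dist y x) (hy2 : dist y x ≤ R) :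
    zlog x R0 R y = Real.log (R / dist y x) / Real.log (R / R0) := by
  have hd : 0 < dist y x := by linarith
  have hl : 0 ≤ Real.log (R / dist y x) := Real.log_nonneg ((one_le_div hd).2 hy2)
  unfold zlog
  rw [max_eq_left hy1]
  have h2 : Real.log (R / dist y x) ≤ Real.log (R / R0) := by
    apply Real.log_le_log (div_pos (by linarith) hd)
    exact div_le_div_of_nonneg_left (by linarith) h0 hy1
  rw [min_eq_right (div_le_one_of_le₀ h2 (hl.trans h2)), max_eq_right (div_nonneg hl (hl.trans h2))]

lemma zlog_lipschitz (h0 : 0 < R0) (h1 : R0 < R) :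
    LipschitzWith (Real.toNNReal (1 / (R0 * Real.log (R / R0)))) (zlog x R0 R) := by
  have hl := zlog_log_pos h0 h1
  have hK : 0 ≤ 1 / (R0 * Real.log (R / R0)) := by positivity
  have hcore : LipschitzWith (Real.toNNReal (1 / (R0 * Real.log (R / R0))))
      (fun y : E2 => Real.log (R / max (dist y x) R0) / Real.log (R / R0)) := by
    apply LipschitzWith.of_dist_le_mul
    intro y z
    rw [Real.coe_toNNReal _ hK]
    set s := max (dist y x) R0 with hs
    set s' := max (dist z x) R0 with hs'
    have hs0 : R0 ≤ s := le_max_right _ _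
    have hs0' : R0 ≤ s' := le_max_right _ _
    have h3 : |s - s'| ≤ dist y z := by
      refine (abs_max_sub_max_le_abs _ _ _).trans ?_
      have := abs_dist_sub_le y z x
      exact this
    have hlog : |Real.log s - Real.log s'| ≤ |s - s'| / R0 := by
      have key : ∀ a b : ℝ, R0 ≤ a → a ≤ b → Real.log b - Real.log a ≤ (b - a) / R0 := by
        intro a b ha hab
        have ha0 : 0 < a := by linarith
        have hb0 : 0 < b := by linarith
        rw [← Real.log_div hb0.ne' ha0.ne']
        have h4 := Real.log_le_sub_one_of_pos (div_pos hb0 ha0)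
        have h5 : b / a - 1 = (b - a) / a := by field_simp
        have h6 : (b - a) / a ≤ (b - a) / R0 :=
          div_le_div_of_nonneg_left (by linarith) h0 ha
        linarith
      rcases le_total s s' with h | h
      · have h4 := key s s' hs0 h
        have h5 : Real.log s ≤ Real.log s' := Real.log_le_log (by linarith) h
        rw [abs_sub_comm, abs_of_nonneg (by linarith), abs_sub_comm, abs_of_nonneg (by linarith)]
        exact h4
      · have h4 := key s' s hs0' h
        have h5 : Real.log s' ≤ Real.log s := Real.log_le_log (by linarith) h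
        rw [abs_of_nonneg (by linarith), abs_of_nonneg (by linarith)]
        exact h4
    rw [Real.dist_eq, Real.log_div (by linarith : R ≠ 0) (by linarith : s ≠ 0),
      Real.log_div (by linarith : R ≠ 0) (by linarith : s' ≠ 0), ← sub_div, abs_div,
      abs_of_pos hl]
    have h7 : |Real.log R - Real.log s - (Real.log R - Real.log s')| =
        |Real.log s - Real.log s'| := by
      rw [abs_sub_comm]; congr 1; ring
    rw [h7, div_le_iff₀ hl]
    calc |Real.log s - Real.log s'| ≤ |s - s'| / R0 := hlog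
      _ ≤ dist y z / R0 := by gcongr
      _ = 1 / (R0 * Real.log (R / R0)) * dist y z * Real.log (R / R0) := by
        field_simp
  exact (hcore.const_min 1).const_max 0

lemma zlog_lipschitz' (h0 : 0 < R0) (h1 : R0 < R) : ∃ C : ℝ≥0, LipschitzWith C (zlog x R0 R) :=
  ⟨_, zlog_lipschitz h0 h1⟩

lemma zlog_hasGradientAt (h0 : 0 < R0) (h1 : R0 < R) {y : E2} (hy1 : R0 < dist y x)
    (hy2 : dist y x < R) :
    HasGradientAt (zlog x R0 R) (-(1 / (Real.log (R / R0) * dist y x ^ 2)) • (y - x)) y := by
  have hl := zlog_log_pos h0 h1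
  have hd : 0 < dist y x := by linarith
  have hev : zlog x R0 R =ᶠ[𝓝 y] fun z => (1 / Real.log (R / R0)) *
      (Real.log R - (1 / 2) * Real.log (‖z - x‖ ^ 2)) := by
    have hc : ContinuousAt (fun z : E2 => dist z x) y := by fun_prop
    filter_upwards [hc.eventually_lt continuousAt_const hy2,
      continuousAt_const.eventually_lt hc hy1] with z hz2 hz1
    rw [zlog_eq_of_mem h0 hz1.le hz2.le, Real.log_div (by linarith) (by linarith), Real.log_pow,
      ← dist_eq_norm]
    push_cast
    ring
  rw [hasGradientAt_iff_hasFDerivAt]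
  refine HasFDerivAt.congr_of_eventuallyEq ?_ hev
  have hne : ‖y - x‖ ^ 2 ≠ 0 := by rw [← dist_eq_norm]; positivity
  have h2 : HasFDerivAt (fun z : E2 => ‖z - x‖ ^ 2) (2 • (innerSL ℝ (y - x))) y := by
    have h3 := (hasStrictFDerivAt_norm_sq (y - x)).hasFDerivAt
    have h4 : HasFDerivAt (fun z : E2 => z - x) (ContinuousLinearMap.id ℝ E2) y :=
      (hasFDerivAt_id y).sub_const x
    have h5 := h3.comp y h4
    rw [ContinuousLinearMap.comp_id] at h5
    exact h5
  have h6 := (((h2.log hne).const_mul (1 / 2)).const_sub (Real.log R)).const_mul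
    (1 / Real.log (R / R0))
  convert! h6 using 1
  ext v
  simp [dist_eq_norm, div_eq_mul_inv]
  ring

lemma zlog_gradient_zero (h0 : 0 < R0) (h1 : R0 < R) {y : E2}
    (hy : dist y x < R0 ∨ R < dist y x) : ∇ (zlog x R0 R) y = 0 := by
  have hc : ContinuousAt (fun z : E2 => dist z x) y := by fun_prop
  rcases hy with hy | hy
  · have hev : zlog x R0 R =ᶠ[𝓝 y] fun _ => 1 := by
      filter_upwards [hc.eventually_lt continuousAt_const hy] with z hz
      exact zlog_eq_one h0 h1 (mem_closedBall.2 hz.le)
    rw [gradient_congr_of_eventuallyEq hev]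
    simp [gradient]
  · have hev : zlog x R0 R =ᶠ[𝓝 y] fun _ => 0 := by
      filter_upwards [continuousAt_const.eventually_lt hc hy] with z hz
      exact zlog_eq_zero h0 h1 (by simp [hz.le])
    rw [gradient_congr_of_eventuallyEq hev]
    simp [gradient]

lemma zlog_norm_gradient (h0 : 0 < R0) (h1 : R0 < R) {y : E2} (hy1 : R0 < dist y x)
    (hy2 : dist y x < R) : ‖∇ (zlog x R0 R) y‖ = 1 / (Real.log (R / R0) * dist y x) := by
  have hl := zlog_log_pos h0 h1
  have hd : 0 < dist y x := by linarith
  rw [(zlog_hasGradientAt h0 h1 hy1 hy2).gradient, norm_smul, norm_neg, ← dist_eq_norm,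
    Real.norm_of_nonneg (by positivity)]
  field_simp

theorem zlog_lintegral (h0 : 0 < R0) (h1 : R0 < R) :
    ∫⁻ y, ‖∇ (zlog x R0 R) y‖ₑ ^ 2 ≤ ENNReal.ofReal (2 * π / Real.log (R / R0)) := by
  have hl := zlog_log_pos h0 h1
  set ℓ := Real.log (R / R0) with hℓ
  set f : E2 → ℝ≥0∞ := fun y => ‖∇ (zlog x R0 R) y‖ₑ ^ 2 with hf
  have hfm : Measurable f := by
    have := measurable_gradient (zlog x R0 R)
    exact (this.enorm).pow_const 2
  rw [lintegral_polar x hfm]
  have hval : ∀ t : ℝ, 0 < t → t ≠ R0 → t ≠ R → ∀ θ : ℝ, f (cpt x t θ) =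
      (Ioo R0 R).indicator (fun t => ENNReal.ofReal ((1 / (ℓ * t)) ^ 2)) t := by
    intro t ht htR0 htR θ
    simp only [hf]
    by_cases hmem : t ∈ Ioo R0 R
    · rw [indicator_of_mem hmem]
      have hd : dist (cpt x t θ) x = t := by rw [dist_cpt, abs_of_pos ht]
      have h2 := zlog_norm_gradient (x := x) (y := cpt x t θ) h0 h1 (by rw [hd]; exact hmem.1)
        (by rw [hd]; exact hmem.2)
      rw [hd] at h2
      rw [← ofReal_norm, h2, ← ENNReal.ofReal_pow (by positivity)]
    · rw [indicator_of_notMem hmem]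
      have hd : dist (cpt x t θ) x = t := by rw [dist_cpt, abs_of_pos ht]
      have h2 : t < R0 ∨ R < t := by
        by_contra hcon
        push Not at hcon
        exact hmem ⟨lt_of_le_of_ne hcon.1 (Ne.symm htR0), lt_of_le_of_ne hcon.2 htR⟩
      rw [zlog_gradient_zero h0 h1 (by rw [hd]; exact h2)]
      simp
  have hae : ∀ᵐ t ∂(volume.restrict (Ioi (0:ℝ))),
      ENNReal.ofReal t * ∫⁻ θ in Ioo (-π) π, f (cpt x t θ) =
      (Ioo R0 R).indicator (fun t => ENNReal.ofReal ((2 * π / ℓ ^ 2) * t⁻¹)) t := by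
    have hne : ∀ᵐ t ∂(volume.restrict (Ioi (0:ℝ))), t ≠ R0 ∧ t ≠ R := by
      have h2 : ∀ᵐ t ∂(volume : Measure ℝ), t ≠ R0 := by
        simp [ae_iff]
      have h3 : ∀ᵐ t ∂(volume : Measure ℝ), t ≠ R := by
        simp [ae_iff]
      filter_upwards [ae_restrict_of_ae h2, ae_restrict_of_ae h3] with t ht2 ht3
      exact ⟨ht2, ht3⟩
    filter_upwards [hne, ae_restrict_mem measurableSet_Ioi] with t ht ht0
    have ht0' : 0 < t := ht0
    have h2 : ∫⁻ θ in Ioo (-π) π, f (cpt x t θ) = ∫⁻ θ in Ioo (-π) π,
        (Ioo R0 R).indicator (fun t => ENNReal.ofReal ((1 / (ℓ * t)) ^ 2)) t :=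
      lintegral_congr fun θ => hval t ht0' ht.1 ht.2 θ
    rw [h2, setLIntegral_const, Real.volume_Ioo]
    by_cases hmem : t ∈ Ioo R0 R
    · rw [indicator_of_mem hmem, indicator_of_mem hmem, ← ENNReal.ofReal_mul (by positivity),
        ← ENNReal.ofReal_mul ht0'.le]
      congr 1
      field_simp
      ring
    · rw [indicator_of_notMem hmem, indicator_of_notMem hmem]
      simp
  rw [lintegral_congr_ae hae, lintegral_indicator measurableSet_Ioo, Measure.restrict_restrict
    measurableSet_Ioo, show Ioo R0 R ∩ Ioi 0 = Ioo R0 R from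
      inter_eq_left.2 fun t ht => lt_trans h0 ht.1]
  have hint : IntegrableOn (fun t : ℝ => (2 * π / ℓ ^ 2) * t⁻¹) (Ioo R0 R) := by
    apply Integrable.const_mul
    have hc : ContinuousOn (fun t : ℝ => t⁻¹) (Icc R0 R) :=
      continuousOn_inv₀.mono fun t ht => by
        have : R0 ≤ t := ht.1
        simp only [mem_compl_iff, mem_singleton_iff]
        linarith
    exact (hc.integrableOn_Icc).mono_set Ioo_subset_Icc_self
  rw [← ofReal_integral_eq_lintegral_ofReal hint ?_]
  · apply ENNReal.ofReal_le_ofReal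
    rw [integral_const_mul, ← integral_Ioc_eq_integral_Ioo,
      ← intervalIntegral.integral_of_le h1.le, integral_inv_of_pos h0 (by linarith)]
    rw [← hℓ]
    apply le_of_eq
    field_simp
  · filter_upwards [ae_restrict_mem measurableSet_Ioo] with t ht
    have : 0 < t := lt_trans h0 ht.1
    simp only [Pi.zero_apply]
    positivity

end

end Crest.Agent.R135
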