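import Mathlib
import Crest.Agent.R135.ZFlux6
import Crest.Agent.R135.ZLog
import Crest.Agent.R135.QMCirc4

/-!
# R135, block ZFlux (helper638), part 7: zero flux through every arc of a good circle
-/

set_option autoImplicit false

noncomputable section

open MeasureTheory Set Real Topology Filter Metric
open scoped ENNReal NNReal ContDiff

namespace Crest.Agent.R135.ZF

variable {K : Set E2} {x : E2} {r α β : ℝ}

lemma ArcData.side_exists (d : ArcData K x r α β) :
    ∃ W, Side K (arcS x r α β) W ∧ SideProp K x r α β W := by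
  obtain ⟨W, h1, h2, h3, h4⟩ := d.exists_side
  exact ⟨W, ⟨d.closed, isCompact_arcS _ _ _ _, volume_arcS d.hr, h1, h2, h3⟩, h4⟩

lemma len_arcS_lt_top (hr : 0 ≤ r) : len (arcS x r α β) < ⊤ :=
  (hausdorff_arc_le x hr α β).trans_lt ENNReal.ofReal_lt_top

/-- cut-offs of small energy -/
lemma exists_cut (hr : 0 < r) {ε : ℝ} (hε : 0 < ε) :
    ∃ (x' : E2) (R : ℝ) (η : E2 → ℝ) (C : ℝ≥0), 0 < R ∧ arcS x r α β ⊆ closedBall x' R ∧
      LipschitzWith C η ∧ (∀ y, y ∉ closedBall x' R → η y = 0) ∧ (∀ y ∈ arcS x r α β, η y = 1) ∧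
      ∫⁻ y, ‖gradient η y‖ₑ ^ 2 ≤ ENNReal.ofReal ε := by
  set R : ℝ := r * Real.exp (2 * π / ε) with hR
  have hpi := Real.pi_pos
  have hexp : 1 < Real.exp (2 * π / ε) := Real.one_lt_exp_iff.2 (by positivity)
  have hrR : r < R := by rw [hR]; nlinarith
  have hsub : arcS x r α β ⊆ closedBall x r :=
    (arcS_subset_sphere hr).trans sphere_subset_closedBall
  obtain ⟨C, hC⟩ := zlog_lipschitz' (x := x) hr hrR
  refine ⟨x, R, zlog x r R, C, hr.trans hrR, hsub.trans (closedBall_subset_closedBall hrR.le), hC,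
    ?_, ?_, ?_⟩
  · intro y hy
    exact zlog_eq_zero hr hrR (fun h => hy (ball_subset_closedBall h))
  · intro y hy
    exact zlog_eq_one hr hrR (hsub hy)
  · refine (zlog_lintegral hr hrR).trans (ENNReal.ofReal_le_ofReal ?_)
    have h1 : R / r = Real.exp (2 * π / ε) := by rw [hR]; field_simp
    rw [h1, Real.log_exp]
    apply le_of_eq
    field_simp

lemma integrableOn_inner_cpt_supp {u : E2 → ℝ} (h : IsQM univ 0 u K) {H : E2 → E2}
    (hH : Measurable H) {D : ℝ} (hD : ∀ y, ‖H y‖ ≤ D) {x : E2} {R : ℝ}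
    (h0 : ∀ y, y ∉ closedBall x R → H y = 0) :
    Integrable (fun y => (inner ℝ (gradient u y) (H y) : ℝ)) := by
  have h3 := integrableOn_inner h hH hD x R
  rw [← integrableOn_univ, ← union_compl_self (closedBall x R)]
  refine h3.union ?_
  have h5 : EqOn (fun _ : E2 => (0 : ℝ)) (fun y => (inner ℝ (gradient u y) (H y) : ℝ))
      (closedBall x R)ᶜ := by
    intro y hy
    simp only [h0 y hy, inner_zero_right]
  exact (integrableOn_zero).congr_fun h5 isClosed_closedBall.measurableSet.compl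

/-- far away the cut-off is `1` -/
lemma mab_far {ρ : ℝ} (hr : 0 < r) {y : E2} (hy : y ∉ closedBall x (r + 2 * ρ)) :
    2 * ρ < dist y (cpt x r α) ∧ 2 * ρ < dist y (cpt x r β) := by
  rw [mem_closedBall, not_le] at hy
  constructor
  · have h1 := dist_triangle y (cpt x r α) x
    rw [dist_cpt, abs_of_pos hr] at h1
    linarith
  · have h1 := dist_triangle y (cpt x r β) x
    rw [dist_cpt, abs_of_pos hr] at h1
    linarith

lemma ramp_far {δ : ℝ} (hr : 0 < r) (hαβ : α < β) (hδ : 0 < δ) {y : E2}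
    (hy : y ∉ closedBall x (r + δ)) : ramp (arcS x r α β) δ y = 0 := by
  by_contra hcon
  have hne : (arcS x r α β).Nonempty := ⟨_, mem_image_of_mem _ (left_mem_Icc.2 hαβ.le)⟩
  obtain ⟨q, hq, hqd⟩ := (infDist_lt_iff hne).1 (ramp_ne_zero hδ hcon)
  apply hy
  have h1 := mem_sphere.1 (arcS_subset_sphere hr hq)
  have h2 := dist_triangle y q x
  rw [mem_closedBall]
  linarith

/-- the ramp integral does not depend on `δ` -/
theorem ramp_const {u : E2 → ℝ} (h : IsQM univ 0 u K) (hr : 0 < r) (hαβ : α < β) {W : Set E2}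
    (hs : Side K (arcS x r α β) W) {ρ δ : ℝ} (hρ : 0 < ρ) (hδ : 0 < δ) :
    ∫ y in W, inner ℝ (gradient u y) (gradient (ff x r α β ρ δ) y) =
      ∫ y in W, inner ℝ (gradient u y) (gradient (mab (cpt x r α) (cpt x r β) ρ) y) := by
  set M : E2 → ℝ := mab (cpt x r α) (cpt x r β) ρ with hM
  set κ : E2 → ℝ := fun y => 1 - M y + ff x r α β ρ δ y with hκdef
  have hMl : LipschitzWith (Cρ ρ) M := mab_lip _ _ hρ
  have hfl := ff_lip x r α β hρ hδ
  have hκl : LipschitzWith (0 + Cρ ρ + (Cρ ρ + Real.toNNReal δ⁻¹)) κ :=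
    ((LipschitzWith.const 1).sub hMl).add hfl
  have hκ0 : ∀ y, y ∉ closedBall x (r + 2 * ρ + δ) → κ y = 0 := by
    intro y hy
    have h1 : y ∉ closedBall x (r + 2 * ρ) := fun h1 =>
      hy (closedBall_subset_closedBall (by linarith) h1)
    have h2 : y ∉ closedBall x (r + δ) := fun h1 =>
      hy (closedBall_subset_closedBall (by linarith) h1)
    obtain ⟨ha, hb⟩ := mab_far (α := α) (β := β) hr h1
    simp only [hκdef, ff, ramp_far hr hαβ hδ h2, hM, mab_one hρ ha.le hb.le]
    ring
  have hκc : HasCompactSupport κ := HasCompactSupport.intro (isCompact_closedBall x _) hκ0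
  have hκ1 : ∀ y ∈ arcS x r α β, κ y = 1 := by
    intro y hy
    simp only [hκdef, ff, ramp_on _ δ hy, hM]
    ring
  have hz := flux_zero h hs (len_arcS_lt_top hr.le) (fun ε hε => exists_cut hr hε) hκl hκc hκ1
  -- integrability
  have i1 : Integrable (fun y => (inner ℝ (gradient u y) (gradient M y) : ℝ)) := by
    refine integrableOn_inner_cpt_supp h (measurable_gradient' M) (norm_gradient_le hMl)
      (x := x) (R := r + 2 * ρ) ?_
    intro y hy
    obtain ⟨ha, hb⟩ := mab_far (α := α) (β := β) hr hy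
    exact gradient_mab_zero hρ ha hb
  have i2 : Integrable (fun y => (inner ℝ (gradient u y) (gradient (ff x r α β ρ δ) y) : ℝ)) := by
    refine integrableOn_inner_cpt_supp h (measurable_gradient' _) (norm_gradient_le hfl)
      (x := x) (R := r + δ) ?_
    intro y hy
    apply gradient_ff_zero
    unfold ff
    rw [ramp_far hr hαβ hδ hy, mul_zero]
  have e1 : ∫ y in W, inner ℝ (gradient u y) (gradient κ y) =
      (∫ y in W, inner ℝ (gradient u y) (gradient (ff x r α β ρ δ) y)) -
      ∫ y in W, inner ℝ (gradient u y) (gradient M y) := by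
    rw [← integral_sub i2.integrableOn i1.integrableOn]
    apply integral_congr_ae
    filter_upwards [ae_restrict_of_ae (hMl.ae_differentiableAt (μ := volume)),
      ae_restrict_of_ae (hfl.ae_differentiableAt (μ := volume))] with y h1 h2
    rw [← inner_sub_right]
    congr 1
    have h3 : HasFDerivAt κ (-fderiv ℝ M y + fderiv ℝ (ff x r α β ρ δ) y) y :=
      (h1.hasFDerivAt.const_sub 1).add h2.hasFDerivAt
    simp only [gradient]
    rw [h3.fderiv, map_add, map_neg]
    abel
  rw [e1] at hz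
  linarith

/-- for each `ρ`: the flux with the cut-off -/
theorem flux_rho {u : E2 → ℝ} (h : IsQM univ 0 u K) (hr : 0 < r) (hαβ : α < β)
    (hβ : β < α + 2 * π) {W : Set E2} (hs : Side K (arcS x r α β) W)
    (hW : SideProp K x r α β W) {ρ : ℝ} (hρ : 0 < ρ)
    (hρs : α + ρ / (2 * r) ≤ β - ρ / (2 * r)) :
    ∫ y in W, inner ℝ (gradient u y) (gradient (mab (cpt x r α) (cpt x r β) ρ) y) =
      - ∫ θ in α..β, r * (mab (cpt x r α) (cpt x r β) ρ (cpt x r θ) *
            inner ℝ (gradient u (cpt x r θ)) (dir θ)) := by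
  set M : E2 → ℝ := mab (cpt x r α) (cpt x r β) ρ with hM
  set F : ℝ → ℝ := fun θ => r * (M (cpt x r θ) * inner ℝ (gradient u (cpt x r θ)) (dir θ)) with hF
  have hpos : 0 < ρ / (2 * r) := by positivity
  set α' : ℝ := α + ρ / (2 * r) with hα'
  set β' : ℝ := β - ρ / (2 * r) with hβ'
  -- the integral over the whole arc is the integral over the shortened arc
  have hq : ∫ θ in α..β, F θ = ∫ θ in α'..β', F θ := by
    rw [intervalIntegral.integral_of_le hαβ.le, intervalIntegral.integral_of_le hρs]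
    apply setIntegral_eq_of_subset_of_forall_sdiff_eq_zero measurableSet_Ioc
    · intro θ hθ
      exact ⟨by linarith [hθ.1], by linarith [hθ.2]⟩
    · rintro θ ⟨h1, h2⟩
      have hM0 : M (cpt x r θ) = 0 := by
        by_contra hcon
        obtain ⟨ha, hb⟩ := mab_ne_zero hρ hcon
        have h3 := dist_cpt_cpt_ang x hr.le θ α
        have h4 := dist_cpt_cpt_ang x hr.le θ β
        rw [abs_of_pos (by linarith [h1.1])] at h3
        rw [abs_sub_comm, abs_of_nonneg (by linarith [h1.2])] at h4
        have h8 : r * (ρ / (2 * r)) = ρ / 2 := by field_simp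
        apply h2
        constructor
        · by_contra h5
          push Not at h5
          have : r * (θ - α) ≤ r * (ρ / (2 * r)) := by
            apply mul_le_mul_of_nonneg_left _ hr.le
            linarith
          linarith
        · by_contra h5
          push Not at h5
          have : r * (β - θ) ≤ r * (ρ / (2 * r)) := by
            apply mul_le_mul_of_nonneg_left _ hr.le
            linarith
          linarith
      simp only [hF, hM0, zero_mul, mul_zero]
  rw [hq]
  set c := ∫ y in W, inner ℝ (gradient u y) (gradient M y) with hc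
  set q := ∫ θ in α'..β', F θ with hqdef
  by_contra hne
  have hη : 0 < |c + q| := abs_pos.2 (fun h0 => hne (by linarith))
  obtain ⟨δ0, hδ0, hlim⟩ := ramp_limit h hr hαβ hβ hs hW hρ hρs (half_pos hη)
  have h1 := hlim δ0 ⟨hδ0, le_rfl⟩
  rw [ramp_const h hr hαβ hs hρ hδ0] at h1
  have h2 : |c + q| ≤ |c + q| / 2 := h1
  linarith

/-- the interior term is small -/
theorem small_term {u : E2 → ℝ} (h : IsQM univ 0 u K) (W : Set E2)
    (a b : E2) {ρ : ℝ} (hρ : 0 < ρ) :
    |∫ y in W, inner ℝ (gradient u y) (gradient (mab a b ρ) y)| ≤ 32 * π * C0 * √ρ := by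
  have hρs : 0 < √ρ := Real.sqrt_pos.2 hρ
  have hpi := Real.pi_pos
  -- energy bounds on the two balls
  have hball : ∀ p : E2, IntegrableOn (fun y => ‖gradient u y‖ ^ 2) (closedBall p (2 * ρ)) ∧
      ∫ y in closedBall p (2 * ρ), ‖gradient u y‖ ^ 2 ≤ 4 * π * ρ := by
    intro p
    have h1 : dirE u K (closedBall p (2 * ρ)) ≤ ENNReal.ofReal (4 * π * ρ) := by
      have h2 := h.energy_le (x := p) (ρ := 2 * ρ) (by positivity) (subset_univ _)
      refine le_trans ?_ (h2.trans (ENNReal.ofReal_le_ofReal (by nlinarith)))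
      exact le_self_add
    have h3 : MemLp (gradient u) 2 (volume.restrict (closedBall p (2 * ρ))) := by
      refine Gl.memLp_two_of_lintegral (measurable_gradient' u).aestronglyMeasurable ?_
      have h4 : dirE u K (closedBall p (2 * ρ)) < ⊤ := h.dir_fin p _ (subset_univ _)
      unfold dirE at h4
      rwa [Measure.restrict_congr_set (sdiff_ae_eq h.volume_K)] at h4
    refine ⟨Gl.integrable_normsq h3, ?_⟩
    unfold dirE at h1
    rw [Measure.restrict_congr_set (sdiff_ae_eq h.volume_K), Gl.lintegral_sq_eq h3] at h1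
    exact (ENNReal.ofReal_le_ofReal_iff (by positivity)).1 h1
  have hvol : ∀ p : E2, volume.real (closedBall p (2 * ρ)) = 4 * π * ρ ^ 2 := by
    intro p
    rw [Measure.real, EuclideanSpace.volume_closedBall_fin_two, ENNReal.toReal_mul,
      ENNReal.toReal_pow, ENNReal.toReal_ofReal (by positivity)]
    rw [ENNReal.toReal_ofReal hpi.le]
    ring
  -- pointwise bound
  set B : Set E2 := closedBall a (2 * ρ) ∪ closedBall b (2 * ρ) with hB
  have hC : ((Cρ ρ : ℝ≥0) : ℝ) = 2 * C0 / ρ := by
    unfold Cρ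
    push_cast
    rw [Real.coe_toNNReal _ hρ.le]
    field_simp
    ring
  have hC0 : (0 : ℝ) ≤ C0 := C0.coe_nonneg
  have hpt : ∀ y, |(inner ℝ (gradient u y) (gradient (mab a b ρ) y) : ℝ)| ≤
      (closedBall a (2 * ρ)).indicator (fun y => (C0 / ρ) * (√ρ * ‖gradient u y‖ ^ 2 + (√ρ)⁻¹)) y +
      (closedBall b (2 * ρ)).indicator (fun y => (C0 / ρ) * (√ρ * ‖gradient u y‖ ^ 2 + (√ρ)⁻¹)) y := by
    intro y
    have hnn : ∀ y : E2, 0 ≤ (C0 / ρ : ℝ) * (√ρ * ‖gradient u y‖ ^ 2 + (√ρ)⁻¹) := by
      intro y; positivity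
    have hin : |(inner ℝ (gradient u y) (gradient (mab a b ρ) y) : ℝ)| ≤
        (C0 / ρ) * (√ρ * ‖gradient u y‖ ^ 2 + (√ρ)⁻¹) := by
      refine (abs_real_inner_le_norm _ _).trans ?_
      have h1 := norm_gradient_le (mab_lip a b hρ) y
      rw [hC] at h1
      have h2 : 2 * ‖gradient u y‖ ≤ √ρ * ‖gradient u y‖ ^ 2 + (√ρ)⁻¹ := by
        have h3 : 0 ≤ (√ρ * ‖gradient u y‖ - 1) ^ 2 * (√ρ)⁻¹ := by positivity
        have h4 : (√ρ * ‖gradient u y‖ - 1) ^ 2 * (√ρ)⁻¹ =
            √ρ * ‖gradient u y‖ ^ 2 - 2 * ‖gradient u y‖ + (√ρ)⁻¹ := by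
          field_simp
          ring
        linarith
      calc ‖gradient u y‖ * ‖gradient (mab a b ρ) y‖ ≤ ‖gradient u y‖ * (2 * C0 / ρ) :=
            mul_le_mul_of_nonneg_left h1 (norm_nonneg _)
        _ = (C0 / ρ) * (2 * ‖gradient u y‖) := by ring
        _ ≤ _ := mul_le_mul_of_nonneg_left h2 (by positivity)
    by_cases hya : y ∈ closedBall a (2 * ρ)
    · rw [indicator_of_mem hya]
      have : 0 ≤ (closedBall b (2 * ρ)).indicator
          (fun y => (C0 / ρ : ℝ) * (√ρ * ‖gradient u y‖ ^ 2 + (√ρ)⁻¹)) y :=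
        indicator_nonneg (fun y _ => hnn y) y
      linarith
    · by_cases hyb : y ∈ closedBall b (2 * ρ)
      · rw [indicator_of_mem hyb, indicator_of_notMem hya, zero_add]
        exact hin
      · rw [indicator_of_notMem hya, indicator_of_notMem hyb, add_zero]
        rw [mem_closedBall, not_le] at hya hyb
        rw [gradient_mab_zero hρ hya hyb, inner_zero_right, abs_zero]
  have hfin : ∀ p : E2, IntegrableOn (fun y => (C0 / ρ : ℝ) * (√ρ * ‖gradient u y‖ ^ 2 + (√ρ)⁻¹))
      (closedBall p (2 * ρ)) := by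
    intro p
    refine (((hball p).1.const_mul _).add ?_).const_mul _
    exact integrableOn_const (measure_closedBall_lt_top.ne)
  have hval : ∀ p : E2, ∫ y in closedBall p (2 * ρ),
      (C0 / ρ : ℝ) * (√ρ * ‖gradient u y‖ ^ 2 + (√ρ)⁻¹) ≤ 16 * π * C0 * √ρ := by
    intro p
    have i1 := (hball p).1.const_mul (√ρ)
    have i2 : IntegrableOn (fun _ : E2 => (√ρ)⁻¹) (closedBall p (2 * ρ)) :=
      integrableOn_const (measure_closedBall_lt_top.ne)
    rw [integral_const_mul, integral_add i1 i2, integral_const_mul, setIntegral_const, hvol p,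
      smul_eq_mul]
    have h1 := (hball p).2
    have h2 : √ρ * ∫ y in closedBall p (2 * ρ), ‖gradient u y‖ ^ 2 ≤ √ρ * (4 * π * ρ) :=
      mul_le_mul_of_nonneg_left h1 hρs.le
    have h3 : 4 * π * ρ ^ 2 * (√ρ)⁻¹ = √ρ * (4 * π * ρ) := by
      have : ρ ^ 2 = ρ * (√ρ * √ρ) := by rw [Real.mul_self_sqrt hρ.le]; ring
      rw [this]
      field_simp
    rw [h3]
    calc (C0 / ρ : ℝ) * (√ρ * (∫ y in closedBall p (2 * ρ), ‖gradient u y‖ ^ 2) +
          √ρ * (4 * π * ρ)) ≤ (C0 / ρ : ℝ) * (√ρ * (4 * π * ρ) + √ρ * (4 * π * ρ)) := by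
          apply mul_le_mul_of_nonneg_left _ (by positivity)
          linarith
      _ = 8 * π * C0 * √ρ := by field_simp; ring
      _ ≤ 16 * π * C0 * √ρ := by
          have : 0 ≤ π * C0 * √ρ := by positivity
          nlinarith
  have hcm : ∀ p : E2, MeasurableSet (closedBall p (2 * ρ)) :=
    fun p => isClosed_closedBall.measurableSet
  calc |∫ y in W, inner ℝ (gradient u y) (gradient (mab a b ρ) y)|
      ≤ ∫ y in W, |(inner ℝ (gradient u y) (gradient (mab a b ρ) y) : ℝ)| :=
        abs_integral_le_integral_abs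
    _ ≤ ∫ y in W, ((closedBall a (2 * ρ)).indicator
          (fun y => (C0 / ρ) * (√ρ * ‖gradient u y‖ ^ 2 + (√ρ)⁻¹)) y +
        (closedBall b (2 * ρ)).indicator
          (fun y => (C0 / ρ) * (√ρ * ‖gradient u y‖ ^ 2 + (√ρ)⁻¹)) y) := by
        apply integral_mono_of_nonneg (ae_of_all _ fun y => abs_nonneg _)
        · exact (((hfin a).integrable_indicator (hcm a)).add
            ((hfin b).integrable_indicator (hcm b))).integrableOn
        · exact ae_of_all _ hpt
    _ ≤ ∫ y, ((closedBall a (2 * ρ)).indicator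
          (fun y => (C0 / ρ) * (√ρ * ‖gradient u y‖ ^ 2 + (√ρ)⁻¹)) y +
        (closedBall b (2 * ρ)).indicator
          (fun y => (C0 / ρ) * (√ρ * ‖gradient u y‖ ^ 2 + (√ρ)⁻¹)) y) := by
        apply setIntegral_le_integral
        · exact ((hfin a).integrable_indicator (hcm a)).add ((hfin b).integrable_indicator (hcm b))
        · refine ae_of_all _ fun y => ?_
          apply add_nonneg <;> exact indicator_nonneg (fun y _ => by positivity) y
    _ = _ + _ := integral_add ((hfin a).integrable_indicator (hcm a))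
          ((hfin b).integrable_indicator (hcm b))
    _ ≤ 16 * π * C0 * √ρ + 16 * π * C0 * √ρ := by
        rw [integral_indicator (hcm a), integral_indicator (hcm b)]
        exact add_le_add (hval a) (hval b)
    _ = _ := by ring

/-- **Zero flux through every arc of a good circle.** -/
theorem arc_flux_zero {u : E2 → ℝ} (h : IsQM univ 0 u K) (d : ArcData K x r α β)
    (hg : GoodCirc K (fun y => gradient u y) x r) :
    ∫ θ in α..β, inner ℝ (gradient u (cpt x r θ)) (dir θ) = 0 := by
  have hr := d.hr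
  have hαβ := d.hαβ
  obtain ⟨W, hs, hW⟩ := d.side_exists
  set G : ℝ → ℝ := fun θ => inner ℝ (gradient u (cpt x r θ)) (dir θ) with hG
  have hGi : IntervalIntegrable G volume α β := hg.intervalIntegrable_dir α β
  set a := cpt x r α with ha
  set b := cpt x r β with hb
  -- a sequence of radii
  set ρ : ℕ → ℝ := fun n => r * (β - α) / (n + 1) with hρdef
  have hba : 0 < β - α := by linarith
  have hρpos : ∀ n, 0 < ρ n := fun n => by positivity
  have hρlim : Tendsto ρ atTop (𝓝 0) := by
    have h1 := tendsto_one_div_add_atTop_nhds_zero_nat (𝕜 := ℝ)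
    have h2 := h1.const_mul (r * (β - α))
    rw [mul_zero] at h2
    refine h2.congr fun n => ?_
    simp only [hρdef]
    ring
  have hρs : ∀ n, α + ρ n / (2 * r) ≤ β - ρ n / (2 * r) := by
    intro n
    have h1 : ρ n / (2 * r) ≤ (β - α) / 2 := by
      rw [hρdef]
      have h2 : r * (β - α) / ((n : ℝ) + 1) / (2 * r) = (β - α) / (2 * ((n : ℝ) + 1)) := by
        field_simp
      simp only
      rw [h2]
      apply div_le_div_of_nonneg_left hba.le (by norm_num)
      have : (0 : ℝ) ≤ n := n.cast_nonneg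
      linarith
    linarith
  have key : ∀ n, |∫ θ in α..β, r * (mab a b (ρ n) (cpt x r θ) * G θ)| ≤
      32 * π * C0 * √(ρ n) := by
    intro n
    have h1 := flux_rho h hr hαβ d.hβ hs hW (hρpos n) (hρs n)
    have h2 := small_term h W a b (hρpos n)
    rw [h1, abs_neg] at h2
    exact h2
  -- dominated convergence
  have hlim : Tendsto (fun n => ∫ θ in α..β, r * (mab a b (ρ n) (cpt x r θ) * G θ)) atTop
      (𝓝 (∫ θ in α..β, r * (1 * G θ))) := by
    apply intervalIntegral.tendsto_integral_filter_of_dominated_convergence (fun θ => r * |G θ|)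
    · refine Eventually.of_forall fun n => ?_
      have hMc : Continuous (fun θ => mab a b (ρ n) (cpt x r θ)) :=
        (mab_contDiff a b (ρ n)).continuous.comp (continuous_cptθ x r)
      have hGm : AEStronglyMeasurable G (volume.restrict (uIoc α β)) :=
        (intervalIntegrable_iff.1 hGi).aestronglyMeasurable
      exact ((hMc.aestronglyMeasurable).mul hGm).const_mul r
    · refine Eventually.of_forall fun n => ae_of_all _ fun θ _ => ?_
      rw [norm_mul, norm_mul, Real.norm_of_nonneg hr.le, Real.norm_eq_abs, Real.norm_eq_abs]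
      apply mul_le_mul_of_nonneg_left _ hr.le
      calc |mab a b (ρ n) (cpt x r θ)| * |G θ| ≤ 1 * |G θ| :=
            mul_le_mul_of_nonneg_right (abs_mab_le _ _ _ _) (abs_nonneg _)
        _ = |G θ| := one_mul _
    · exact (hGi.abs).const_mul r
    · have hb0 : ∀ᵐ θ : ℝ, θ ≠ β := by
        have : (volume : Measure ℝ) {β} = 0 := Real.volume_singleton
        exact measure_eq_zero_iff_ae_notMem.1 this
      filter_upwards [hb0] with θ hθβ hθ
      rw [uIoc_of_le hαβ.le] at hθ
      have hθ' : θ ∈ Ioo α β := ⟨hθ.1, lt_of_le_of_ne hθ.2 hθβ⟩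
      have hda : 0 < dist (cpt x r θ) a := by
        rw [dist_pos]
        intro h1
        have h2 := cpt_injOn (x := x) hr.ne' α (⟨hθ'.1.le, by linarith [hθ'.2, d.hβ]⟩)
          (⟨le_rfl, by linarith [pi_pos]⟩) h1
        linarith [hθ'.1]
      have hdb : 0 < dist (cpt x r θ) b := by
        rw [dist_pos]
        intro h1
        have h2 := cpt_injOn (x := x) hr.ne' α (⟨hθ'.1.le, by linarith [hθ'.2, d.hβ]⟩)
          (⟨hαβ.le, d.hβ⟩) h1
        linarith [hθ'.2]
      have h3 : ∀ᶠ n in atTop, 2 * ρ n < min (dist (cpt x r θ) a) (dist (cpt x r θ) b) := by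
        have h4 : Tendsto (fun n => 2 * ρ n) atTop (𝓝 0) := by
          have := hρlim.const_mul 2
          rwa [mul_zero] at this
        exact h4.eventually_lt_const (lt_min hda hdb)
      apply tendsto_const_nhds.congr'
      filter_upwards [h3] with n hn
      rw [mab_one (hρpos n) (hn.le.trans (min_le_left _ _)) (hn.le.trans (min_le_right _ _))]
  have hlim0 : Tendsto (fun n => ∫ θ in α..β, r * (mab a b (ρ n) (cpt x r θ) * G θ)) atTop
      (𝓝 0) := by
    apply squeeze_zero_norm key
    have h1 : Tendsto (fun n => √(ρ n)) atTop (𝓝 0) := by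
      have := (Real.continuous_sqrt.tendsto 0).comp hρlim
      rwa [Real.sqrt_zero] at this
    have := h1.const_mul (32 * π * C0)
    rwa [mul_zero] at this
  have h5 := tendsto_nhds_unique hlim hlim0
  simp only [one_mul] at h5
  rw [intervalIntegral.integral_const_mul] at h5
  exact (mul_eq_zero.1 h5).resolve_left hr.ne'

/-- **ZERO FLUX THEOREM**, given that all components of `K` are unbounded. -/
theorem zeroFlux_of_unbounded {u : E2 → ℝ} (h : IsQM univ 0 u K)
    (hub : ∀ p ∈ K, ¬ Bornology.IsBounded (connectedComponentIn K p)) (x : E2) :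
    ZeroFlux u K x := by
  have hKc : IsClosed K := by
    have h1 := h.closed
    rw [inter_univ] at h1
    exact closure_eq_iff_isClosed.1 (subset_antisymm h1 subset_closure)
  obtain ⟨f, hf⟩ := QMC.exists_EL h
  have hf0 : ∀ y, f y = 0 := fun y => abs_eq_zero.1 (le_antisymm (hf.bdd y) (abs_nonneg _))
  have h1 : ∀ᵐ t : ℝ, ∀ n : ℕ, t ∈ Ioo (0 : ℝ) n → GoodCirc K (fun y => gradient u y) x t :=
    ae_all_iff.2 fun n => QMC.ae_goodCirc_qm h (subset_univ _)
  have h2 : ∀ᵐ t : ℝ, ∀ n : ℕ, t ∈ Ioo (0 : ℝ) n →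
      t * (∫ θ in (-π)..π, inner ℝ (gradient u (cpt x t θ)) (dir θ)) = ∫ y in ball x t, f y :=
    ae_all_iff.2 fun n => QMC.total_flux h hf n.cast_nonneg (subset_univ _)
  unfold ZeroFlux
  rw [ae_restrict_iff' measurableSet_Ioi]
  filter_upwards [h1, h2] with r hr1 hr2 hr a b hab
  obtain ⟨n, hn⟩ := exists_nat_gt r
  have hr0 : 0 < r := hr
  have hg := hr1 n ⟨hr0, hn⟩
  have htot := hr2 n ⟨hr0, hn⟩
  obtain ⟨hab1, hab2, haK, hbK, hI⟩ := hab
  unfold flux
  rcases hab2.lt_or_eq with hlt | heq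
  · rw [arc_flux_zero h ⟨hKc, hr0, hab1, hlt, haK, hub _ haK, hbK, hub _ hbK, hI⟩ hg, mul_zero]
  · have hper : Function.Periodic
        (fun θ => (inner ℝ (gradient u (cpt x r θ)) (dir θ) : ℝ)) (2 * π) := by
      intro θ
      simp only [cpt_periodic x r θ, dir_periodic θ]
    have h3 := hper.intervalIntegral_add_eq (-π) a
    have h4 : -π + 2 * π = π := by ring
    rw [h4] at h3
    rw [heq, ← h3, htot]
    simp [hf0]

end Crest.Agent.R135.ZF
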