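import Crest.Agent.R135.IFDefs2
import Crest.Agent.R135.ZFlux7
import Crest.Agent.R135.IF_component_unbounded_gm

/-! INTERFACE zero_flux (proved in ZFlux1-7 by helper638). -/

set_option autoImplicit false

open MeasureTheory Set Filter Topology Metric
open scoped ENNReal NNReal ContDiff Gradient
open Crest.AnalysisR.PDE.OnePhase Crest.AnalysisR.PDE.MumfordShah

namespace Crest.Agent.R135

/-- ZF -/
theorem zero_flux {u : E2 → ℝ} {K : Set E2} (h : IsQM univ 0 u K) (x : E2) : ZeroFlux u K x :=
  ZF.zeroFlux_of_unbounded h (fun _ hp => component_unbounded_gm h hp) x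

end Crest.Agent.R135
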