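import Crest.Agent.R135.Inner7
import Crest.Agent.R135.BonCone5
import Crest.Agent.R135.IFDefs2

/-!
# R135, block INNER (helper828), part 8: the normalisation `e = 1` of the cracktip
-/

set_option autoImplicit false

open MeasureTheory Set Filter Topology Metric
open scoped ENNReal NNReal ContDiff Gradient Real

noncomputable section

namespace Crest.Agent.R135

namespace Inner

theorem ray_annulus {x : E2} {ϑ r1 r2 : ℝ} (h1 : 0 < r1) :
    ray x (dir ϑ) ∩ {y | r1 ≤ ‖y - x‖ ∧ ‖y - x‖ ≤ r2} =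
      (fun r => cpt x r ((fun _ : ℝ => ϑ) r)) '' Icc r1 r2 := by
  ext y
  constructor
  · rintro ⟨⟨s, hs, rfl⟩, hy1, hy2⟩
    have e : ‖x + s • dir ϑ - x‖ = s := by
      rw [add_sub_cancel_left, norm_smul, norm_dir, mul_one, Real.norm_eq_abs, abs_of_nonneg hs]
    rw [e] at hy1 hy2
    exact ⟨s, ⟨hy1, hy2⟩, rfl⟩
  · rintro ⟨r, hr, rfl⟩
    have hr0 : 0 < r := h1.trans_le hr.1
    refine ⟨⟨r, hr0.le, rfl⟩, ?_⟩
    have e : ‖cpt x r ϑ - x‖ = r := by rw [← dist_eq_norm, dist_cpt, abs_of_pos hr0]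
    simp only [mem_ofPred_eq, e]
    exact ⟨hr.1, hr.2⟩

theorem isPrim_const {a b : ℝ} (c : ℝ) : IsPrim a b (fun _ => c) (fun _ => 0) :=
  ⟨intervalIntegrable_const, fun x _ => by simp⟩

/-- exact force balance for a half-line crack -/
theorem force_ray {u : E2 → ℝ} {K : Set E2} (h : IsQM univ 0 u K) {x : E2} {ϑ : ℝ}
    (hK : K = ray x (dir ϑ)) {r1 r2 : ℝ} (h1 : 0 < r1) (h12 : r1 < r2) :
    ∀ᵐ r, r ∈ Ioo r1 r2 →
      CrackAlg.cR (cF1 u x r ϑ) (cH u x r ϑ) = 1 ∧ CrackAlg.cT (cF1 u x r ϑ) (cH u x r ϑ) = 0 := by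
  have hA : K ∩ {y | r1 ≤ ‖y - x‖ ∧ ‖y - x‖ ≤ r2} =
      (fun r => cpt x r ((fun _ : ℝ => ϑ) r)) '' Icc r1 r2 := by rw [hK]; exact ray_annulus h1
  filter_upwards [force_components_zero h h1 h12 le_rfl (subset_univ _)
    (isPrim_const (a := r1) (b := r2) ϑ) hA] with r hr hrm
  have := hr hrm
  simpa using this

/-- the gradient of the model function -/
theorem grad_model {u : E2 → ℝ} {K : Set E2} {x : E2} {ϑ σ c : ℝ} (hK : K = ray x (dir ϑ))
    (hu : ∀ y ∉ K, u y = σ * Bon.hf x ϑ y + c) {y : E2} (hy : y ∉ K) :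
    ∇ u y = σ • ∇ (Bon.hf x ϑ) y := by
  have hcl : IsClosed K := by rw [hK]; exact Bon.isClosed_ray x ϑ
  have hy' : y ∉ ray x (dir ϑ) := by rwa [← hK]
  have h1 := Bon.hasGradientAt_hf (Bon.nN_pos_of_not_ray hy')
  have hev : u =ᶠ[𝓝 y] fun z => σ * Bon.hf x ϑ z + c := by
    filter_upwards [hcl.isOpen_compl.mem_nhds hy] with z hz using hu z hz
  have h2 : HasGradientAt (fun z => σ * Bon.hf x ϑ z + c) (σ • ∇ (Bon.hf x ϑ) y) y := by
    rw [hasGradientAt_iff_hasFDerivAt] at h1 ⊢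
    have h3 := (h1.const_mul σ).add_const c
    refine h3.congr_fderiv ?_
    rw [map_smul]
  exact ((h2.congr_of_eventuallyEq hev)).gradient

theorem cF1_model {u : E2 → ℝ} {K : Set E2} {x : E2} {ϑ σ c : ℝ} (hK : K = ray x (dir ϑ))
    (hu : ∀ y ∉ K, u y = σ * Bon.hf x ϑ y + c) {r : ℝ} (hr : 0 < r) {φ : ℝ}
    (hφ : φ ∈ Ioo 0 (2 * π)) :
    inner ℝ (∇ u (cpt x r (ϑ + φ))) (tau (ϑ + φ)) = -(σ / (2 * Real.sqrt r)) * Real.sin (φ / 2) ∧
    inner ℝ (∇ u (cpt x r (ϑ + φ))) (dir (ϑ + φ)) = (σ / (2 * Real.sqrt r)) * Real.cos (φ / 2) := by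
  have hθ : ϑ + φ ∈ Ioo ϑ (ϑ + 2 * π) := ⟨by linarith [hφ.1], by linarith [hφ.2]⟩
  have hnK : cpt x r (ϑ + φ) ∉ K := by rw [hK]; exact Bon.ray_disjoint_cpt hr hθ
  rw [grad_model hK hu hnK, inner_smul_left, inner_smul_left]
  have h1 := Bon.hf_tan x ϑ hr hθ
  have h2 := Bon.hf_rad x ϑ hr hθ
  rw [add_sub_cancel_left] at h1 h2
  have hs : 0 < Real.sqrt r := Real.sqrt_pos.2 hr
  have hss : Real.sqrt r ^ 2 = r := Real.sq_sqrt hr.le
  simp only [conj_trivial]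
  constructor
  · have h3 : inner ℝ (∇ (Bon.hf x ϑ) (cpt x r (ϑ + φ))) (tau (ϑ + φ)) =
        -(1 / (2 * Real.sqrt r)) * Real.sin (φ / 2) := by
      have : r * (-(1 / (2 * Real.sqrt r)) * Real.sin (φ / 2)) =
          -(Real.sqrt r / 2) * Real.sin (φ / 2) := by
        rw [show r * (-(1 / (2 * Real.sqrt r)) * Real.sin (φ / 2)) =
          Real.sqrt r ^ 2 * (-(1 / (2 * Real.sqrt r)) * Real.sin (φ / 2)) by rw [hss]]
        field_simp
      exact mul_left_cancel₀ hr.ne' (h1.trans this.symm)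
    rw [h3]; field_simp
  · have h3 : inner ℝ (∇ (Bon.hf x ϑ) (cpt x r (ϑ + φ))) (dir (ϑ + φ)) =
        (1 / (2 * Real.sqrt r)) * Real.cos (φ / 2) := by
      have : r * ((1 / (2 * Real.sqrt r)) * Real.cos (φ / 2)) =
          (Real.sqrt r / 2) * Real.cos (φ / 2) := by
        rw [show r * ((1 / (2 * Real.sqrt r)) * Real.cos (φ / 2)) =
          Real.sqrt r ^ 2 * ((1 / (2 * Real.sqrt r)) * Real.cos (φ / 2)) by rw [hss]]
        field_simp
      exact mul_left_cancel₀ hr.ne' (h2.trans this.symm)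
    rw [h3]; field_simp

/-- **normalisation of the cracktip** -/
theorem sigma_sq {u : E2 → ℝ} {K : Set E2} (h : IsQM univ 0 u K) {x : E2} {ϑ σ c : ℝ}
    (hK : K = ray x (dir ϑ)) (hu : ∀ y ∉ K, u y = σ * Bon.hf x ϑ y + c) : σ ^ 2 = 2 / π := by
  -- a radius with exact balance
  have hae := force_ray h hK (r1 := 1) (r2 := 2) one_pos (by norm_num)
  have hex : ∃ r ∈ Ioo (1:ℝ) 2, CrackAlg.cR (cF1 u x r ϑ) (cH u x r ϑ) = 1 := by
    have h1 : (volume : Measure ℝ) (Ioo 1 2) ≠ 0 := by simp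
    obtain ⟨r, hr, hrm⟩ := (Filter.Eventually.and_frequently hae
      (frequently_ae_mem_iff.2 h1)).exists
    exact ⟨r, hrm, (hr hrm).1⟩
  obtain ⟨r, hr, hR⟩ := hex
  have hr0 : 0 < r := by linarith [hr.1]
  have hs : 0 < Real.sqrt r := Real.sqrt_pos.2 hr0
  unfold CrackAlg.cR at hR
  have e : ∫ φ in (0:ℝ)..(2*π), ((cH u x r ϑ φ ^ 2 - cF1 u x r ϑ φ ^ 2) * Real.cos φ -
      2 * cH u x r ϑ φ * cF1 u x r ϑ φ * Real.sin φ) = ∫ _φ in (0:ℝ)..(2*π), σ ^ 2 / 4 := by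
    rw [intervalIntegral.integral_of_le (by positivity), intervalIntegral.integral_of_le (by positivity),
      integral_Ioc_eq_integral_Ioo, integral_Ioc_eq_integral_Ioo]
    apply setIntegral_congr_fun measurableSet_Ioo
    intro φ hφ
    obtain ⟨h1, h2⟩ := cF1_model hK hu hr0 hφ
    simp only [cH, cF1]
    rw [h1, h2]
    have c1 : Real.cos φ = Real.cos (φ/2) ^ 2 - Real.sin (φ/2) ^ 2 := by
      rw [← Real.cos_two_mul']; ring_nf
    have s1 : Real.sin φ = 2 * Real.sin (φ/2) * Real.cos (φ/2) := by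
      rw [← Real.sin_two_mul]; ring_nf
    rw [c1, s1]
    have hq := Real.sin_sq_add_cos_sq (φ/2)
    set a := Real.sin (φ/2) with ha
    set b := Real.cos (φ/2) with hb
    have e1 : Real.sqrt r * ((σ / (2 * Real.sqrt r)) * b) = σ / 2 * b := by field_simp
    have e2 : Real.sqrt r * (-(σ / (2 * Real.sqrt r)) * a) = -(σ / 2 * a) := by field_simp
    rw [e1, e2]
    have hq2 : (a^2 + b^2)^2 = 1 := by rw [hq]; norm_num
    linear_combination (σ^2/4) * hq2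
  rw [e, intervalIntegral.integral_const, smul_eq_mul] at hR
  have hpi := Real.pi_pos
  field_simp at hR ⊢
  linarith

/-- cone theorem, final form, from zero flux -/
theorem cone_final {u : E2 → ℝ} {K : Set E2} (h : IsQM univ 0 u K) {x : E2} {e : ℝ}
    (hz : ZeroFlux u K x) (he : ∀ r : ℝ, 0 < r → Dr u K x r = e * r) :
    e = 0 ∨ (e = 1 ∧ IsTip u K x) := by
  have he0 : 0 ≤ e := by
    have h1 := he 1 one_pos
    have h2 : 0 ≤ Dr u K x 1 := ENNReal.toReal_nonneg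
    linarith
  rcases he0.eq_or_lt with h0 | h0
  · exact Or.inl h0.symm
  right
  obtain ⟨ϑ, σ, c, hK, hσ, hu⟩ := Bon.cone_ray h hz h0 he
  have h2 := sigma_sq h hK hu
  have hpi := Real.pi_pos
  refine ⟨?_, ϑ, c, σ, hK, h2, ?_⟩
  · rw [h2] at hσ
    field_simp at hσ
    linarith
  · intro r hr φ hφ
    have hθ : ϑ + φ ∈ Ioo ϑ (ϑ + 2 * π) := ⟨by linarith [hφ.1], by linarith [hφ.2]⟩
    have hnK : cpt x r (ϑ + φ) ∉ K := by rw [hK]; exact Bon.ray_disjoint_cpt hr hθ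
    constructor
    · rw [hu _ hnK, Bon.hf_cpt x ϑ hr hθ, add_sub_cancel_left]
      ring
    · obtain ⟨h3, h4⟩ := cF1_model hK hu hr hφ
      rw [frame_decomp (∇ u (cpt x r (ϑ + φ))) (ϑ + φ), h3, h4]
      rw [smul_sub, smul_smul, smul_smul, sub_eq_add_neg, ← neg_smul, neg_mul]

end Inner

end Crest.Agent.R135
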