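import Crest.Agent.R135.IFDefs2
import Crest.Agent.R135.IF_zero_flux
import Crest.Agent.R135.Inner8

/-! INTERFACE cone_thm (proved: helper898 BonCone1-5, helper828 Inner8; from zero_flux). -/

set_option autoImplicit false

open MeasureTheory Set Filter Topology Metric
open scoped ENNReal NNReal ContDiff Gradient
open Crest.AnalysisR.PDE.OnePhase Crest.AnalysisR.PDE.MumfordShah

namespace Crest.Agent.R135

/-- CONE (C4): constant density -/
theorem cone_thm {u : E2 → ℝ} {K : Set E2} (h : IsQM univ 0 u K) {x : E2} {e : ℝ}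
    (he : ∀ r : ℝ, 0 < r → Dr u K x r = e * r) : e = 0 ∨ (e = 1 ∧ IsTip u K x) :=
  Inner.cone_final h (zero_flux h x) he

end Crest.Agent.R135
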