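import Mathlib
import Crest.Agent.R135.TreeJ
import Crest.Agent.R135.PolarD
import Crest.Agent.R135.Core

/-!
# R135, block NET (helper564), part 1: crossing in a disc and the general `Keeps` criterion

`keeps_preconn`: if `L₀ ⊆ closedBall x R` is compact and preconnected and contains `K ∩ sphere x R`
then `(K \ closedBall x R) ∪ L₀` keeps, outside `closedBall x R`, the separation made by `K`.
No Jordan curve theorem: continuous logarithms of `(z - p)/(z - q)`.
-/

set_option autoImplicit false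

open MeasureTheory Set Filter Topology Metric
open scoped ENNReal NNReal

namespace Crest.Agent.R135

namespace NetC

open Complex

/-- A continuous function on a preconnected set whose exponential is constant is constant. -/
theorem const_of_exp_const {S : Set ℂ} (hS : IsPreconnected S) {g : ℂ → ℂ} (hg : ContinuousOn g S)
    {c : ℂ} (hc : ∀ z ∈ S, Complex.exp (g z) = c) {a b : ℂ} (ha : a ∈ S) (hb : b ∈ S) :
    g a = g b := by
  refine hS.induction₂ (fun x y => g x = g y) ?_ ?_ ?_ ha hb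
  · intro x hx
    have h1 : ∀ᶠ y in 𝓝[S] x, dist (g y) (g x) < 1 := by
      have := (hg x hx)
      exact this (Metric.ball_mem_nhds _ one_pos)
    filter_upwards [h1, self_mem_nhdsWithin] with y hy hyS
    have h2 : Complex.exp (g x) = Complex.exp (g y) := by rw [hc x hx, hc y hyS]
    obtain ⟨n, hn⟩ := Complex.exp_eq_exp_iff_exists_int.1 h2
    have h3 : ‖g x - g y‖ < 1 := by
      rw [dist_comm, dist_eq_norm] at hy
      exact hy
    have h4 : g x - g y = (n : ℂ) * (2 * Real.pi * I) := by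
      rw [hn]; ring
    rw [h4] at h3
    rw [norm_mul] at h3
    have h5 : ‖(2 * (Real.pi : ℂ) * I)‖ = 2 * Real.pi := by
      rw [norm_mul, norm_mul, Complex.norm_I, Complex.norm_real, Real.norm_of_nonneg Real.pi_pos.le]
      simp
    rw [h5] at h3
    have h6 : ‖(n : ℂ)‖ = |(n : ℝ)| := by
      rw [Complex.norm_intCast]
    rw [h6] at h3
    have hn0 : n = 0 := by
      by_contra hne
      have h7 : (1 : ℝ) ≤ |(n : ℝ)| := by
        have : (1 : ℤ) ≤ |n| := Int.one_le_abs hne
        exact_mod_cast this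
      have := Real.pi_gt_three
      nlinarith
    rw [hn0] at h4
    simp at h4
    exact sub_eq_zero.1 h4
  · intro x y z _ _ _ h h'
    exact h.trans h'
  · intro x y _ _ h
    exact h.symm

/-- point of the circle of radius `R` with angle `θ` -/
noncomputable def pt (R θ : ℝ) : ℂ := (R : ℂ) * Complex.exp (θ * I)

theorem norm_pt {R : ℝ} (hR : 0 ≤ R) (θ : ℝ) : ‖pt R θ‖ = R := by
  unfold pt
  rw [norm_mul, Complex.norm_exp_ofReal_mul_I, Complex.norm_real, Real.norm_of_nonneg hR, mul_one]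

theorem pt_ne_zero {R : ℝ} (hR : 0 < R) (θ : ℝ) : pt R θ ≠ 0 := by
  intro h
  have := norm_pt hR.le θ
  rw [h, norm_zero] at this
  exact hR.ne this

theorem conj_pt (R θ : ℝ) : (starRingEnd ℂ) (pt R θ) = (R : ℂ) * Complex.exp (-(θ * I)) := by
  unfold pt
  rw [map_mul, Complex.conj_ofReal, ← Complex.exp_conj]
  congr 2
  simp

/-- the rotation factor -/
noncomputable def om (R : ℝ) (p q : ℂ) : ℂ := q * (starRingEnd ℂ) p - (R : ℂ) ^ 2

theorem re_om_mul {R : ℝ} {p q : ℂ} (hp : ‖p‖ = R) (hq : ‖q‖ = R) (z : ℂ) :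
    (om R p q * ((z - p) * (starRingEnd ℂ) (z - q))).re =
      (R ^ 2 - (q * (starRingEnd ℂ) p).re) * (R ^ 2 - ‖z‖ ^ 2) := by
  have hp' : p.re ^ 2 + p.im ^ 2 = R ^ 2 := by
    rw [← hp, Complex.sq_norm, Complex.normSq_apply]; ring
  have hq' : q.re ^ 2 + q.im ^ 2 = R ^ 2 := by
    rw [← hq, Complex.sq_norm, Complex.normSq_apply]; ring
  rw [Complex.sq_norm, Complex.normSq_apply]
  unfold om
  simp only [Complex.mul_re, Complex.sub_re, Complex.sub_im, Complex.conj_re, Complex.conj_im,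
    Complex.mul_im, map_sub, ← Complex.ofReal_pow, Complex.ofReal_re, Complex.ofReal_im]
  rw [← hp']
  have hq'' : q.re ^ 2 = p.re ^ 2 + p.im ^ 2 - q.im ^ 2 := by linarith
  ring_nf
  simp only [hq'']
  ring

theorem re_om_neg {R : ℝ} {p q : ℂ} (hp : ‖p‖ = R) (hq : ‖q‖ = R) (hpq : p ≠ q) :
    0 < R ^ 2 - (q * (starRingEnd ℂ) p).re := by
  have hp' : p.re ^ 2 + p.im ^ 2 = R ^ 2 := by
    rw [← hp, Complex.sq_norm, Complex.normSq_apply]; ring
  have hq' : q.re ^ 2 + q.im ^ 2 = R ^ 2 := by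
    rw [← hq, Complex.sq_norm, Complex.normSq_apply]; ring
  simp only [Complex.mul_re, Complex.conj_re, Complex.conj_im]
  have h : 0 < (p.re - q.re) ^ 2 + (p.im - q.im) ^ 2 := by
    by_contra hcon
    push Not at hcon
    have h1 : p.re - q.re = 0 := by nlinarith [sq_nonneg (p.re - q.re), sq_nonneg (p.im - q.im)]
    have h2 : p.im - q.im = 0 := by nlinarith [sq_nonneg (p.re - q.re), sq_nonneg (p.im - q.im)]
    exact hpq (Complex.ext (by linarith) (by linarith))
  nlinarith

theorem om_mul_pt (R α β θ : ℝ) :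
    om R (pt R α) (pt R β) * ((pt R θ - pt R α) * (starRingEnd ℂ) (pt R θ - pt R β)) =
      ((8 * R ^ 4 * Real.sin ((β - α) / 2) * Real.sin ((θ - α) / 2) * Real.sin ((θ - β) / 2) : ℝ) : ℂ)
        * I := by
  have hs : ∀ u v : ℝ, Complex.sin (((u : ℂ) - v) / 2) =
      (Complex.exp (u / 2 * I) * Complex.exp (-(v / 2 * I)) -
        Complex.exp (v / 2 * I) * Complex.exp (-(u / 2 * I))) * (-I / 2) := by
    intro u v
    rw [Complex.sin, ← Complex.exp_add, ← Complex.exp_add]
    have h1 : (u : ℂ) / 2 * I + -(v / 2 * I) = (u - v) / 2 * I := by ring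
    have h2 : (v : ℂ) / 2 * I + -(u / 2 * I) = -((u - v) / 2) * I := by ring
    rw [h1, h2]
    ring
  have he : ∀ u : ℝ, pt R u = R * (Complex.exp (u / 2 * I)) ^ 2 := by
    intro u
    unfold pt
    rw [← Complex.exp_nat_mul]
    congr 2
    push_cast
    ring
  have hec : ∀ u : ℝ, (starRingEnd ℂ) (pt R u) = R * (Complex.exp (-(u / 2 * I))) ^ 2 := by
    intro u
    rw [conj_pt, ← Complex.exp_nat_mul]
    congr 2
    push_cast
    ring
  have hi : ∀ u : ℝ, Complex.exp (u / 2 * I) * Complex.exp (-(u / 2 * I)) = 1 := by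
    intro u
    rw [← Complex.exp_add]
    simp
  push_cast
  rw [hs, hs, hs, map_sub]
  unfold om
  rw [hec, hec, hec, he, he, he]
  have ha := hi α
  have hb := hi β
  have ht := hi θ
  have hI : I ^ 2 = -1 := Complex.I_sq
  set a := Complex.exp (α / 2 * I) with haa
  set a' := Complex.exp (-(α / 2 * I)) with haa'
  set b := Complex.exp (β / 2 * I) with hbb
  set b' := Complex.exp (-(β / 2 * I)) with hbb'
  set t := Complex.exp (θ / 2 * I) with htt
  set t' := Complex.exp (-(θ / 2 * I)) with htt'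
  have ha0 : a ≠ 0 := Complex.exp_ne_zero _
  have hb0 : b ≠ 0 := Complex.exp_ne_zero _
  have ht0 : t ≠ 0 := Complex.exp_ne_zero _
  have ha1 : a' = 1 / a := by field_simp; linear_combination ha
  have hb1 : b' = 1 / b := by field_simp; linear_combination hb
  have ht1 : t' = 1 / t := by field_simp; linear_combination ht
  rw [ha1, hb1, ht1]
  have hI4 : I ^ 4 = 1 := by
    calc I ^ 4 = (I ^ 2) ^ 2 := by ring
      _ = 1 := by rw [hI]; norm_num
  field_simp
  ring_nf
  rw [hI4]
  ring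

/-- `ω N` where `N = (z - p)/(z - q)` is in the closed right half plane minus `0` -/
theorem mem_slit_of {R : ℝ} {p q z : ℂ} (hp : ‖p‖ = R) (hq : ‖q‖ = R) (hpq : p ≠ q)
    (hzp : z ≠ p) (hzq : z ≠ q) {s : ℝ} (hs0 : s ≠ 0) (hs : 0 ≤ s * (R ^ 2 - ‖z‖ ^ 2)) :
    (s : ℂ) * (om R p q * ((z - p) / (z - q))) ∈ Complex.slitPlane := by
  have h1 : z - q ≠ 0 := sub_ne_zero.2 hzq
  have h2 : z - p ≠ 0 := sub_ne_zero.2 hzp
  have hN : 0 < Complex.normSq (z - q) := Complex.normSq_pos.2 h1
  have hom : om R p q ≠ 0 := by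
    intro h
    have h3 := re_om_neg hp hq hpq
    have h4 : (om R p q).re = (q * (starRingEnd ℂ) p).re - R ^ 2 := by
      unfold om
      rw [Complex.sub_re, ← Complex.ofReal_pow, Complex.ofReal_re]
    rw [h, Complex.zero_re] at h4
    linarith
  have key : (s : ℂ) * (om R p q * ((z - p) / (z - q))) =
      (((s / Complex.normSq (z - q) : ℝ)) : ℂ) *
        (om R p q * ((z - p) * (starRingEnd ℂ) (z - q))) := by
    have h5 : (z - q) * (starRingEnd ℂ) (z - q) = (Complex.normSq (z - q) : ℂ) :=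
      Complex.mul_conj (z - q)
    have h6 : (Complex.normSq (z - q) : ℂ) ≠ 0 := by exact_mod_cast hN.ne'
    push_cast
    field_simp
    rw [← h5]
    ring
  rw [Complex.mem_slitPlane_iff]
  by_cases hre : 0 < ((s : ℂ) * (om R p q * ((z - p) / (z - q)))).re
  · exact Or.inl hre
  · right
    intro him
    have hre2 : 0 ≤ ((s : ℂ) * (om R p q * ((z - p) / (z - q)))).re := by
      rw [key, Complex.re_ofReal_mul, re_om_mul hp hq]
      have h7 := re_om_neg hp hq hpq
      have : s / Complex.normSq (z - q) *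
          ((R ^ 2 - (q * (starRingEnd ℂ) p).re) * (R ^ 2 - ‖z‖ ^ 2)) =
          (s * (R ^ 2 - ‖z‖ ^ 2)) * (R ^ 2 - (q * (starRingEnd ℂ) p).re) /
            Complex.normSq (z - q) := by ring
      rw [this]
      positivity
    have hre3 : ((s : ℂ) * (om R p q * ((z - p) / (z - q)))).re = 0 := le_antisymm (not_lt.1 hre) hre2
    have h8 : (s : ℂ) * (om R p q * ((z - p) / (z - q))) = 0 :=
      Complex.ext (by rw [hre3]; rfl) (by rw [him]; rfl)
    have hs' : (s : ℂ) ≠ 0 := by exact_mod_cast hs0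
    rcases mul_eq_zero.1 h8 with h9 | h9
    · exact hs' h9
    rcases mul_eq_zero.1 h9 with h9 | h9
    · exact hom h9
    · exact (div_ne_zero h2 h1) h9

theorem pt_ne_of_lt {R : ℝ} (hR : 0 < R) {a b : ℝ} (h1 : a < b) (h2 : b < a + 2 * Real.pi) :
    pt R a ≠ pt R b := by
  intro h
  unfold pt at h
  have hR' : (R : ℂ) ≠ 0 := by exact_mod_cast hR.ne'
  have h3 := mul_left_cancel₀ hR' h
  obtain ⟨n, hn⟩ := Complex.exp_eq_exp_iff_exists_int.1 h3
  have h4 : (a : ℂ) = b + n * (2 * Real.pi) := by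
    have hI := Complex.I_ne_zero
    have : ((a : ℂ) - b - n * (2 * Real.pi)) * I = 0 := by linear_combination hn
    rcases mul_eq_zero.1 this with h5 | h5
    · linear_combination h5
    · exact absurd h5 hI
  have h5 : a = b + n * (2 * Real.pi) := by exact_mod_cast h4
  have hpi := Real.pi_pos
  have h6 : (n : ℝ) < 0 := by
    by_contra hcon
    push Not at hcon
    nlinarith
  have h7 : (-1 : ℝ) < n := by
    by_contra hcon
    push Not at hcon
    nlinarith
  have h8 : n < 0 := by exact_mod_cast h6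
  have h9 : -1 < n := by exact_mod_cast h7
  omega

/-- Crossing theorem in a disc. -/
theorem no_cross {R : ℝ} (hR : 0 < R) {A P A' Q : ℝ} (h1 : A < P) (h2 : P < A') (h3 : A' < Q)
    (h4 : Q < A + 2 * Real.pi) {S Γ : Set ℂ} (hS : IsPreconnected S) (hSR : ∀ z ∈ S, ‖z‖ ≤ R)
    (hP : pt R P ∈ S) (hQ : pt R Q ∈ S) (hΓc : IsClosed Γ) (hΓ : IsPreconnected Γ)
    (hΓR : ∀ z ∈ Γ, ‖z‖ ≤ R) (hA : pt R A ∈ Γ) (hA' : pt R A' ∈ Γ) (hdis : Disjoint Γ S) : False := by
  classical
  have hpi := Real.pi_pos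
  -- the outer route
  let E1 : Set ℂ := (fun t : ℝ => pt t A) '' Icc R (2 * R)
  let E2' : Set ℂ := (fun t : ℝ => pt (2 * R) t) '' Icc A A'
  let E3 : Set ℂ := (fun t : ℝ => pt t A') '' Icc R (2 * R)
  have hc1 : ∀ θ : ℝ, Continuous (fun t : ℝ => pt t θ) := by
    intro θ; unfold pt; fun_prop
  have hc2 : ∀ t : ℝ, Continuous (fun θ : ℝ => pt t θ) := by
    intro t; unfold pt; fun_prop
  have hAA' : A ≤ A' := by linarith
  have hRR : R ≤ 2 * R := by linarith
  have hE1c : IsCompact E1 := isCompact_Icc.image (hc1 A)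
  have hE2c : IsCompact E2' := isCompact_Icc.image (hc2 (2 * R))
  have hE3c : IsCompact E3 := isCompact_Icc.image (hc1 A')
  have hE1p : IsPreconnected E1 := isPreconnected_Icc.image _ (hc1 A).continuousOn
  have hE2p : IsPreconnected E2' := isPreconnected_Icc.image _ (hc2 (2 * R)).continuousOn
  have hE3p : IsPreconnected E3 := isPreconnected_Icc.image _ (hc1 A').continuousOn
  let E : Set ℂ := E1 ∪ E2' ∪ E3
  have hEc : IsClosed E := ((hE1c.union hE2c).union hE3c).isClosed
  have hEp : IsPreconnected E := by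
    refine IsPreconnected.union (pt (2 * R) A') (Or.inr ⟨A', ⟨hAA', le_rfl⟩, rfl⟩)
      ⟨2 * R, ⟨hRR, le_rfl⟩, rfl⟩ ?_ hE3p
    exact IsPreconnected.union (pt (2 * R) A) ⟨2 * R, ⟨hRR, le_rfl⟩, rfl⟩
      ⟨A, ⟨le_rfl, hAA'⟩, rfl⟩ hE1p hE2p
  have hAE : pt R A ∈ E := Or.inl (Or.inl ⟨R, ⟨le_rfl, hRR⟩, rfl⟩)
  have hA'E : pt R A' ∈ E := Or.inr ⟨R, ⟨le_rfl, hRR⟩, rfl⟩
  have hER : ∀ z ∈ E, R ≤ ‖z‖ := by
    rintro z ((⟨t, ht, rfl⟩ | ⟨t, ht, rfl⟩) | ⟨t, ht, rfl⟩)
    · simp only
      rw [norm_pt (hR.le.trans ht.1)]; exact ht.1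
    · simp only
      rw [norm_pt (by linarith)]; exact hRR
    · simp only
      rw [norm_pt (hR.le.trans ht.1)]; exact ht.1
  have hES : Disjoint E S := by
    rw [Set.disjoint_left]
    rintro z hz hzS
    have hzR : ‖z‖ ≤ R := hSR z hzS
    rcases hz with ((⟨t, ht, rfl⟩ | ⟨t, ht, rfl⟩) | ⟨t, ht, rfl⟩)
    · simp only at hzR hzS
      rw [norm_pt (hR.le.trans ht.1)] at hzR
      have : t = R := le_antisymm hzR ht.1
      rw [this] at hzS
      exact Set.disjoint_left.1 hdis hA hzS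
    · simp only at hzR
      rw [norm_pt (by linarith)] at hzR
      linarith
    · simp only at hzR hzS
      rw [norm_pt (hR.le.trans ht.1)] at hzR
      have : t = R := le_antisymm hzR ht.1
      rw [this] at hzS
      exact Set.disjoint_left.1 hdis hA' hzS
  set p := pt R P with hp
  set q := pt R Q with hq
  have hpR : ‖p‖ = R := norm_pt hR.le P
  have hqR : ‖q‖ = R := norm_pt hR.le Q
  have hpq : p ≠ q := pt_ne_of_lt hR (by linarith) (by linarith)
  have hTS : S ⊆ (Γ ∪ E)ᶜ := by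
    intro z hz hz'
    rcases hz' with h | h
    · exact Set.disjoint_left.1 hdis h hz
    · exact Set.disjoint_left.1 hES h hz
  obtain ⟨F, hF, hFe⟩ := hasLogOn_of_preconnected (hΓc.union hEc) hS hTS hP hQ
  have hpT : ∀ z ∈ Γ ∪ E, z ≠ p := by
    rintro z hz rfl
    exact hTS hP hz
  have hqT : ∀ z ∈ Γ ∪ E, z ≠ q := by
    rintro z hz rfl
    exact hTS hQ hz
  -- comparison of branches
  have comp : ∀ (T : Set ℂ) (s : ℝ), T ⊆ Γ ∪ E → s ≠ 0 → IsPreconnected T →
      (∀ z ∈ T, 0 ≤ s * (R ^ 2 - ‖z‖ ^ 2)) → pt R A ∈ T → pt R A' ∈ T →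
      (F (pt R A)).im - (F (pt R A')).im =
        ((s : ℂ) * (om R p q * ((pt R A - p) / (pt R A - q)))).arg -
        ((s : ℂ) * (om R p q * ((pt R A' - p) / (pt R A' - q)))).arg := by
    intro T s hT hs hTp hTs hAT hA'T
    let g : ℂ → ℂ := fun z => F z - Complex.log ((s : ℂ) * (om R p q * ((z - p) / (z - q))))
    have hsl : ∀ z ∈ T, (s : ℂ) * (om R p q * ((z - p) / (z - q))) ∈ Complex.slitPlane :=
      fun z hz => mem_slit_of hpR hqR hpq (hpT z (hT hz)) (hqT z (hT hz)) hs (hTs z hz)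
    have hgc : ContinuousOn g T := by
      refine (hF.mono hT).sub (ContinuousOn.clog ?_ hsl)
      refine continuousOn_const.mul (continuousOn_const.mul ?_)
      exact (continuousOn_id.sub continuousOn_const).div (continuousOn_id.sub continuousOn_const)
        (fun z hz => sub_ne_zero.2 (hqT z (hT hz)))
    have hge : ∀ z ∈ T, Complex.exp (g z) = 1 / ((s : ℂ) * om R p q) := by
      intro z hz
      have hz1 : z - p ≠ 0 := sub_ne_zero.2 (hpT z (hT hz))
      have hz2 : z - q ≠ 0 := sub_ne_zero.2 (hqT z (hT hz))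
      simp only [g]
      rw [Complex.exp_sub, hFe z (hT hz), Complex.exp_log (Complex.slitPlane_ne_zero (hsl z hz))]
      have h5 := Complex.slitPlane_ne_zero (hsl z hz)
      have h6 : (s : ℂ) ≠ 0 := by exact_mod_cast hs
      have h7 : om R p q ≠ 0 := by
        intro h
        rw [h] at h5
        simp at h5
      field_simp
    have h8 := const_of_exp_const hTp hgc hge hAT hA'T
    have h9 := congrArg Complex.im h8
    simp only [g, Complex.sub_im, Complex.log_im] at h9
    linarith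
  have hcΓ := comp Γ 1 subset_union_left one_ne_zero hΓ (by
    intro z hz
    have := hΓR z hz
    rw [one_mul, sub_nonneg]
    exact pow_le_pow_left₀ (norm_nonneg _) this 2) hA hA'
  have hcE := comp E (-1) subset_union_right (by norm_num) hEp (by
    intro z hz
    have := hER z hz
    have : R ^ 2 ≤ ‖z‖ ^ 2 := pow_le_pow_left₀ hR.le this 2
    linarith) hAE hA'E
  -- values at the two points
  have hval : ∀ θ s : ℝ, pt R θ ≠ q →
      (s : ℂ) * (om R p q * ((pt R θ - p) / (pt R θ - q))) =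
      ((s * (8 * R ^ 4 * Real.sin ((Q - P) / 2) * Real.sin ((θ - P) / 2) * Real.sin ((θ - Q) / 2))
        / Complex.normSq (pt R θ - q) : ℝ) : ℂ) * I := by
    intro θ s hθ
    have hne : pt R θ - q ≠ 0 := sub_ne_zero.2 hθ
    have h5 : (pt R θ - q) * (starRingEnd ℂ) (pt R θ - q) = (Complex.normSq (pt R θ - q) : ℂ) :=
      Complex.mul_conj (pt R θ - q)
    have h6 : (Complex.normSq (pt R θ - q) : ℂ) ≠ 0 := by
      exact_mod_cast (Complex.normSq_pos.2 hne).ne'
    have h7 := om_mul_pt R P Q θ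
    rw [← hp, ← hq] at h7
    rw [Complex.ofReal_div, Complex.ofReal_mul s, div_mul_eq_mul_div, mul_assoc (s : ℂ), ← h7,
      ← h5]
    have h8 : (starRingEnd ℂ) (pt R θ - q) ≠ 0 := by
      intro h
      apply hne
      have := congrArg (starRingEnd ℂ) h
      simpa using this
    field_simp
  have hsinPQ : 0 < Real.sin ((Q - P) / 2) :=
    Real.sin_pos_of_pos_of_lt_pi (by linarith) (by linarith)
  have harg_pos : ∀ t : ℝ, 0 < t → ((t : ℂ) * I).arg = Real.pi / 2 := by
    intro t ht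
    rw [Complex.arg_real_mul _ ht, Complex.arg_I]
  have harg_neg : ∀ t : ℝ, t < 0 → ((t : ℂ) * I).arg = -(Real.pi / 2) := by
    intro t ht
    have : (t : ℂ) * I = ((-t : ℝ) : ℂ) * (-I) := by push_cast; ring
    rw [this, Complex.arg_real_mul _ (by linarith : 0 < -t), Complex.arg_neg_I]
  have hA1 : 0 < 8 * R ^ 4 * Real.sin ((Q - P) / 2) * Real.sin ((A - P) / 2) *
      Real.sin ((A - Q) / 2) := by
    have h5 : Real.sin ((A - P) / 2) < 0 := by
      have : (A - P) / 2 = -((P - A) / 2) := by ring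
      rw [this, Real.sin_neg, neg_lt_zero]
      exact Real.sin_pos_of_pos_of_lt_pi (by linarith) (by linarith)
    have h6 : Real.sin ((A - Q) / 2) < 0 := by
      have : (A - Q) / 2 = -((Q - A) / 2) := by ring
      rw [this, Real.sin_neg, neg_lt_zero]
      exact Real.sin_pos_of_pos_of_lt_pi (by linarith) (by linarith)
    have h7 : 0 < 8 * R ^ 4 * Real.sin ((Q - P) / 2) := by positivity
    have := mul_pos_of_neg_of_neg h5 h6
    calc (0 : ℝ) < (8 * R ^ 4 * Real.sin ((Q - P) / 2)) *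
          (Real.sin ((A - P) / 2) * Real.sin ((A - Q) / 2)) := by positivity
      _ = _ := by ring
  have hA2 : 8 * R ^ 4 * Real.sin ((Q - P) / 2) * Real.sin ((A' - P) / 2) *
      Real.sin ((A' - Q) / 2) < 0 := by
    have h5 : 0 < Real.sin ((A' - P) / 2) :=
      Real.sin_pos_of_pos_of_lt_pi (by linarith) (by linarith)
    have h6 : Real.sin ((A' - Q) / 2) < 0 := by
      have : (A' - Q) / 2 = -((Q - A') / 2) := by ring
      rw [this, Real.sin_neg, neg_lt_zero]
      exact Real.sin_pos_of_pos_of_lt_pi (by linarith) (by linarith)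
    have h7 : 0 < 8 * R ^ 4 * Real.sin ((Q - P) / 2) * Real.sin ((A' - P) / 2) := by positivity
    exact mul_neg_of_pos_of_neg h7 h6
  have hAq : pt R A ≠ q := hqT _ (Or.inl hA)
  have hA'q : pt R A' ≠ q := hqT _ (Or.inl hA')
  have hn1 : 0 < Complex.normSq (pt R A - q) := Complex.normSq_pos.2 (sub_ne_zero.2 hAq)
  have hn2 : 0 < Complex.normSq (pt R A' - q) := Complex.normSq_pos.2 (sub_ne_zero.2 hA'q)
  rw [hval A 1 hAq, hval A' 1 hA'q, harg_pos _ (by rw [one_mul]; exact div_pos hA1 hn1),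
    harg_neg _ (by rw [one_mul]; exact div_neg_of_neg_of_pos hA2 hn2)] at hcΓ
  rw [hval A (-1) hAq, hval A' (-1) hA'q,
    harg_neg _ (by
      apply div_neg_of_neg_of_pos _ hn1
      linarith),
    harg_pos _ (by
      apply div_pos _ hn2
      linarith)] at hcE
  linarith

end NetC

/-- complex coordinate centred at `x` -/
noncomputable def toC (x y : E2) : ℂ := ⟨y 0 - x 0, y 1 - x 1⟩

lemma continuous_toC (x : E2) : Continuous (toC x) := by
  unfold toC
  have h0 : Continuous (fun y : E2 => y 0 - x 0) := by fun_prop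
  have h1 : Continuous (fun y : E2 => y 1 - x 1) := by fun_prop
  have : (fun y : E2 => (⟨y 0 - x 0, y 1 - x 1⟩ : ℂ)) =
      fun y : E2 => ((y 0 - x 0 : ℝ) : ℂ) + ((y 1 - x 1 : ℝ) : ℂ) * Complex.I := by
    ext y
    apply Complex.ext <;> simp
  rw [this]
  exact (Complex.continuous_ofReal.comp h0).add
    ((Complex.continuous_ofReal.comp h1).mul continuous_const)

lemma norm_toC (x y : E2) : ‖toC x y‖ = dist y x := by
  have h1 : ‖toC x y‖ ^ 2 = dist y x ^ 2 := by
    rw [Complex.sq_norm, Complex.normSq_apply, dist_eq_norm, norm_E2]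
    simp only [toC, PiLp.sub_apply]
    ring
  exact (pow_left_inj₀ (norm_nonneg _) dist_nonneg two_ne_zero).1 h1

lemma toC_cpt (x : E2) (R θ : ℝ) : toC x (cpt x R θ) = NetC.pt R θ := by
  unfold toC NetC.pt cpt
  rw [Complex.exp_mul_I]
  apply Complex.ext <;>
    simp [Complex.cos_ofReal_re, Complex.sin_ofReal_re, Complex.cos_ofReal_im, Complex.sin_ofReal_im]

lemma toC_injective (x : E2) : Function.Injective (toC x) := by
  intro y z h
  have h0 := congrArg Complex.re h
  have h1 := congrArg Complex.im h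
  simp only [toC] at h0 h1
  exact ext_E2 (by linarith) (by linarith)

/-- A locally constant function is constant along an arc which misses `K`. -/
theorem arc_const {W : Set E2} {c : E2 → ℝ} (hc : LocConstOn W c) {x : E2} {R a b : ℝ}
    (hW : ∀ θ ∈ Icc a b, cpt x R θ ∈ W) (hab : a ≤ b) : c (cpt x R a) = c (cpt x R b) := by
  refine (isPreconnected_Icc (a := a) (b := b)).induction₂
    (fun s t => c (cpt x R s) = c (cpt x R t)) ?_ ?_ ?_ ⟨le_rfl, hab⟩ ⟨hab, le_rfl⟩
  · intro s hs
    have h1 := hc _ (hW s hs)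
    have h2 : Continuous (cpt x R) := by
      unfold cpt
      exact continuous_const.add (continuous_dir.const_smul R)
    have h3 : ∀ᶠ t in 𝓝 s, c (cpt x R t) = c (cpt x R s) := h2.continuousAt.eventually h1
    exact (h3.mono fun t ht => ht.symm).filter_mono nhdsWithin_le_nhds
  · intro s t r _ _ _ h h'
    exact h.trans h'
  · intro s t _ _ h
    exact h.symm

/-- Two points of the circle joined inside the disc off a connected set containing `K ∩ ∂B`
are not separated by `K`. -/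
theorem eq_of_joined {U K L0 : Set E2} {c : E2 → ℝ} {x : E2} {R : ℝ} (hR : 0 < R)
    (hBU : sphere x R ⊆ U) (hc : LocConstOn (U \ K) c) (hL0 : IsPreconnected L0)
    (hsub : L0 ⊆ closedBall x R) (hKL : K ∩ sphere x R ⊆ L0) {Γ : Set E2} (hΓc : IsCompact Γ)
    (hΓ : IsPreconnected Γ) (hΓR : Γ ⊆ closedBall x R) (hd : Disjoint Γ L0) {a b : E2}
    (ha : a ∈ sphere x R) (hb : b ∈ sphere x R) (haΓ : a ∈ Γ) (hbΓ : b ∈ Γ) : c a = c b := by
  obtain ⟨A, hA, hAa⟩ := exists_cpt_eq hR ha 0
  obtain ⟨B, hB, hBb⟩ := exists_cpt_eq hR hb A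
  rcases eq_or_lt_of_le hB.1 with h | hAB
  · rw [← hAa, ← hBb, h]
  by_contra hne
  have hΓK : ∀ y ∈ Γ, y ∈ sphere x R → y ∉ K := fun y hy hys hyK =>
    Set.disjoint_left.1 hd hy (hKL ⟨hyK, hys⟩)
  have hsph : ∀ θ, cpt x R θ ∈ sphere x R := fun θ => cpt_mem_sphere hR.le
  have hper : cpt x R (A + 2 * Real.pi) = a := by
    rw [← hAa]
    unfold cpt
    congr 2
    apply ext_E2 <;> simp
  have h1 : ∃ P ∈ Ioo A B, cpt x R P ∈ K := by
    by_contra hcon
    push Not at hcon
    apply hne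
    rw [← hAa, ← hBb]
    refine arc_const hc ?_ hAB.le
    intro θ hθ
    refine ⟨hBU (hsph θ), ?_⟩
    rcases eq_or_lt_of_le hθ.1 with h | h
    · rw [← h, hAa]; exact hΓK a haΓ ha
    rcases eq_or_lt_of_le hθ.2 with h' | h'
    · rw [h', hBb]; exact hΓK b hbΓ hb
    · exact hcon θ ⟨h, h'⟩
  have h2 : ∃ Q ∈ Ioo B (A + 2 * Real.pi), cpt x R Q ∈ K := by
    by_contra hcon
    push Not at hcon
    apply hne
    rw [← hper, ← hBb]
    refine (arc_const hc ?_ hB.2.le).symm
    intro θ hθ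
    refine ⟨hBU (hsph θ), ?_⟩
    rcases eq_or_lt_of_le hθ.1 with h | h
    · rw [← h, hBb]; exact hΓK b hbΓ hb
    rcases eq_or_lt_of_le hθ.2 with h' | h'
    · rw [h', hper]; exact hΓK a haΓ ha
    · exact hcon θ ⟨h, h'⟩
  obtain ⟨P, hP, hPK⟩ := h1
  obtain ⟨Q, hQ, hQK⟩ := h2
  refine NetC.no_cross hR hP.1 hP.2 hQ.1 hQ.2 (S := toC x '' L0) (Γ := toC x '' Γ)
    (hL0.image _ (continuous_toC x).continuousOn) ?_ ⟨cpt x R P, hKL ⟨hPK, hsph P⟩, toC_cpt x R P⟩
    ⟨cpt x R Q, hKL ⟨hQK, hsph Q⟩, toC_cpt x R Q⟩ (hΓc.image (continuous_toC x)).isClosed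
    (hΓ.image _ (continuous_toC x).continuousOn) ?_ ⟨a, haΓ, by rw [← hAa, toC_cpt]⟩
    ⟨b, hbΓ, by rw [← hBb, toC_cpt]⟩ ?_
  · rintro _ ⟨y, hy, rfl⟩
    rw [norm_toC]
    exact hsub hy
  · rintro _ ⟨y, hy, rfl⟩
    rw [norm_toC]
    exact hΓR hy
  · exact (Set.disjoint_image_iff (toC_injective x)).2 hd

/-- **General `Keeps` criterion.** `L₀` compact, preconnected, in the closed disc, containing the
points of `K` on the circle. -/
theorem keeps_preconn {U K L0 : Set E2} {x : E2} {R : ℝ} (hR : 0 < R)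
    (hBU : sphere x R ⊆ U) (hL0c : IsCompact L0) (hL0 : IsPreconnected L0)
    (hsub : L0 ⊆ closedBall x R) (hKL : K ∩ sphere x R ⊆ L0) :
    Keeps U K ((K \ closedBall x R) ∪ L0) (closedBall x R) := by
  classical
  intro c hc
  let J : E2 → E2 → Prop := fun y a => a ∈ sphere x R ∧ ∃ Γ : Set E2, IsCompact Γ ∧
    IsPreconnected Γ ∧ Γ ⊆ closedBall x R ∧ Disjoint Γ L0 ∧ y ∈ Γ ∧ a ∈ Γ
  have J1 : ∀ y a b, J y a → J y b → c a = c b := by
    rintro y a b ⟨ha, Γ, h1, h2, h3, h4, h5, h6⟩ ⟨hb, Γ', h1', h2', h3', h4', h5', h6'⟩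
    exact eq_of_joined hR hBU hc hL0 hsub hKL (h1.union h1') (h2.union y h5 h5' h2')
      (union_subset h3 h3') (h4.union_left h4') ha hb (Or.inl h6) (Or.inr h6')
  have J2 : ∀ y ∈ sphere x R, y ∉ L0 → J y y := by
    intro y hy hyL
    exact ⟨hy, {y}, isCompact_singleton, isPreconnected_singleton,
      singleton_subset_iff.2 (sphere_subset_closedBall hy), by simpa using hyL, rfl, rfl⟩
  have J3 : ∀ y z a, segment ℝ y z ⊆ closedBall x R → Disjoint (segment ℝ y z) L0 → J y a →
      J z a := by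
    rintro y z a hs hd ⟨ha, Γ, h1, h2, h3, h4, h5, h6⟩
    refine ⟨ha, segment ℝ y z ∪ Γ, ?_, ?_, union_subset hs h3, hd.union_left h4,
      Or.inl (right_mem_segment ℝ y z), Or.inr h6⟩
    · refine IsCompact.union ?_ h1
      rw [segment_eq_image]
      exact isCompact_Icc.image (by fun_prop)
    · exact IsPreconnected.union y (left_mem_segment ℝ y z) h5 (convex_segment y z).isPreconnected h2
  let c' : E2 → ℝ := fun y => if y ∈ closedBall x R then
    (if h : ∃ a, J y a then c h.choose else 0) else c y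
  have hc'in : ∀ y a, y ∈ closedBall x R → J y a → c' y = c a := by
    intro y a hy hJ
    have hex : ∃ a, J y a := ⟨a, hJ⟩
    simp only [c', if_pos hy, dif_pos hex]
    exact J1 y _ _ hex.choose_spec hJ
  have hc'0 : ∀ y, y ∈ closedBall x R → (¬ ∃ a, J y a) → c' y = 0 := by
    intro y hy hJ
    simp only [c', if_pos hy, dif_neg hJ]
  have hc'out : ∀ y, y ∉ closedBall x R → c' y = c y := by
    intro y hy
    simp only [c', if_neg hy]
  refine ⟨c', ?_, fun y hy => hc'out y fun h => hy.2 (Or.inr h)⟩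
  rintro y ⟨hyU, hyL⟩
  by_cases hyB : y ∈ closedBall x R
  · have hyL0 : y ∉ L0 := fun h => hyL (Or.inr h)
    obtain ⟨δ, hδ, hball⟩ := Metric.isOpen_iff.1 hL0c.isClosed.isOpen_compl y hyL0
    have hin : ∀ z ∈ ball y δ, z ∈ closedBall x R → c' z = c' y := by
      intro z hz hzB
      have hs1 : segment ℝ y z ⊆ closedBall x R :=
        (convex_closedBall x R).segment_subset hyB hzB
      have hs2 : Disjoint (segment ℝ y z) L0 := by
        rw [Set.disjoint_left]
        intro w hw hwL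
        exact hball ((convex_ball y δ).segment_subset (mem_ball_self hδ) hz hw) hwL
      by_cases hJ : ∃ a, J y a
      · obtain ⟨a, ha⟩ := hJ
        rw [hc'in y a hyB ha, hc'in z a hzB (J3 y z a hs1 hs2 ha)]
      · rw [hc'0 y hyB hJ, hc'0 z hzB]
        rintro ⟨a, ha⟩
        exact hJ ⟨a, J3 z y a (by rwa [segment_symm]) (by rwa [segment_symm]) ha⟩
    by_cases hyS : y ∈ sphere x R
    · have hyK : y ∉ K := fun h => hyL0 (hKL ⟨h, hyS⟩)
      have hcy := hc y ⟨hyU, hyK⟩
      filter_upwards [hcy, ball_mem_nhds y hδ] with z hz hzb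
      by_cases hzB : z ∈ closedBall x R
      · exact hin z hzb hzB
      · rw [hc'out z hzB, hz, hc'in y y hyB (J2 y hyS hyL0)]
    · have hyb : y ∈ ball x R := by
        rw [mem_ball]
        exact lt_of_le_of_ne hyB hyS
      filter_upwards [isOpen_ball.mem_nhds hyb, ball_mem_nhds y hδ] with z hz hzb
      exact hin z hzb (ball_subset_closedBall hz)
  · have hyK : y ∉ K := fun h => hyL (Or.inl ⟨h, hyB⟩)
    have hcy := hc y ⟨hyU, hyK⟩
    filter_upwards [hcy, isClosed_closedBall.isOpen_compl.mem_nhds hyB] with z hz hzB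
    rw [hc'out z hzB, hz, hc'out y hyB]

/-- closedness of the competitor set -/
theorem closed_preconn {U K L0 : Set E2} {x : E2} {R : ℝ} (hK : closure K ∩ U ⊆ K)
    (hL0c : IsClosed L0) (hKL : K ∩ sphere x R ⊆ L0) :
    closure ((K \ closedBall x R) ∪ L0) ∩ U ⊆ (K \ closedBall x R) ∪ L0 := by
  rintro y ⟨hy, hyU⟩
  rw [closure_union, hL0c.closure_eq] at hy
  rcases hy with hy | hy
  · have h1 : y ∈ K := hK ⟨closure_mono sdiff_subset hy, hyU⟩
    have h2 : y ∉ ball x R := by
      intro h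
      have := mem_closure_iff.1 hy (ball x R) isOpen_ball h
      obtain ⟨z, hz, hz'⟩ := this
      exact hz'.2 (ball_subset_closedBall hz)
    by_cases h3 : y ∈ closedBall x R
    · right
      apply hKL
      refine ⟨h1, ?_⟩
      rw [mem_sphere]
      rw [mem_ball, not_lt] at h2
      exact le_antisymm h3 h2
    · exact Or.inl ⟨h1, h3⟩
  · exact Or.inr hy

end Crest.Agent.R135
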