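import Mathlib
import Crest.Agent.R135.Net1
import Crest.Agent.R135.IFDefs
import Crest.Agent.R135.PolarE
import Crest.Agent.R135.GMT1

/-!
# R135, block NET (helper564), part 2: length comparison for `IsLenMin`

`IsLenMin.le_len`: the length in a closed disc is at most that of any compact preconnected set of
the disc containing `K ∩ ∂B`. Consequences: at least two points on circles centred on `K`; star,
chord and circle competitors; the gain for at least four points.
-/

set_option autoImplicit false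

open MeasureTheory Set Filter Topology Metric
open scoped ENNReal NNReal

namespace Crest.Agent.R135

theorem IsLenMin.le_len {K : Set E2} (h : IsLenMin K) {x : E2} {R : ℝ} (hR : 0 < R) {L0 : Set E2}
    (hc : IsCompact L0) (hp : IsPreconnected L0) (hs : L0 ⊆ closedBall x R)
    (hKL : K ∩ sphere x R ⊆ L0) : len (K ∩ closedBall x R) ≤ len L0 := by
  have hcl : IsClosed ((K \ closedBall x R) ∪ L0) := by
    have h1 := closed_preconn (U := univ) (x := x) (R := R)
      (by rw [h.closed.closure_eq]; exact inter_subset_left) hc.isClosed hKL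
    rw [inter_univ] at h1
    exact isClosed_of_closure_subset h1
  have h2 := h.min x R hR ((K \ closedBall x R) ∪ L0) hcl (by
    ext y
    constructor
    · rintro ⟨(hy | hy), hy'⟩
      · exact hy
      · exact absurd (hs hy) hy'
    · intro hy
      exact ⟨Or.inl hy, hy.2⟩) (keeps_preconn hR (subset_univ _) hc hp hs hKL)
  refine h2.trans (measure_mono ?_)
  rintro y ⟨(hy | hy), hy'⟩
  · exact absurd hy' hy.2
  · exact hy

theorem len_segment (a b : E2) : len (segment ℝ a b) = ENNReal.ofReal (dist a b) := by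
  unfold len
  rw [hausdorffMeasure_segment, edist_dist]

theorem len_subsingleton {A : Set E2} (hA : A.Subsingleton) : len A = 0 := by
  unfold len
  have : NullSingletonClass (Measure.hausdorffMeasure 1 : Measure E2) :=
    Measure.nullSingletonClass_hausdorff E2 one_pos
  exact hA.measure_zero _

theorem IsLenMin.two_le_encard {K : Set E2} (h : IsLenMin K) {x : E2} (hx : x ∈ K) {R : ℝ}
    (hR : 0 < R) : 2 ≤ (K ∩ sphere x R).encard := by
  by_contra hcon
  have h1 : (K ∩ sphere x R).encard ≤ 1 := by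
    have h3 : (K ∩ sphere x R).encard < 2 := not_le.1 hcon
    simpa using h3
  have hsub : (K ∩ sphere x R).Subsingleton := by
    rw [Set.encard_le_one_iff] at h1
    intro a ha b hb
    exact h1 a b ha hb
  have h2 := h.le_len hR (L0 := K ∩ sphere x R)
    ((isCompact_sphere x R).inter_left h.closed) hsub.isPreconnected
    (inter_subset_right.trans sphere_subset_closedBall) Subset.rfl
  rw [len_subsingleton hsub] at h2
  have h3 := h.red x hx R hR
  have h4 : len (K ∩ ball x R) ≤ 0 :=
    (measure_mono (inter_subset_inter_right K ball_subset_closedBall)).trans h2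
  exact absurd h3 (not_lt.2 h4)

theorem IsLenMin.two_mul_le {K : Set E2} (h : IsLenMin K) {x : E2} (hx : x ∈ K) (R : ℝ) :
    ENNReal.ofReal (2 * R) ≤ len (K ∩ ball x R) := by
  have h1 := mul_volume_le_hausdorffMeasure (fun y : E2 => dist y x) K
    ((lipschitzWith_dist_left x).lipschitzOnWith) (Ioo 0 R) measurableSet_Ioo 2 (by
      intro t ht
      exact h.two_le_encard hx ht.1)
  have h2 : len (K ∩ (fun y : E2 => dist y x) ⁻¹' Ioo 0 R) ≤ len (K ∩ ball x R) := by
    apply measure_mono
    rintro y ⟨hy, hy'⟩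
    exact ⟨hy, hy'.2⟩
  refine le_trans ?_ (h1.trans h2)
  rw [Real.volume_Ioo, sub_zero, ENNReal.ofReal_mul (by norm_num)]
  norm_num

/-- the star with centre `z` over a finite set -/
def star (z : E2) (F : Finset E2) : Set E2 := {z} ∪ ⋃ p ∈ F, segment ℝ z p

lemma star_compact (z : E2) (F : Finset E2) : IsCompact (star z F) := by
  refine isCompact_singleton.union ?_
  refine F.isCompact_biUnion fun p _ => ?_
  rw [segment_eq_image]
  exact isCompact_Icc.image (by fun_prop)

lemma star_preconnected (z : E2) (F : Finset E2) : IsPreconnected (star z F) := by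
  rw [isPreconnected_iff_subset_of_disjoint_closed]
  intro u v hu hv hsub hdis
  have hz : z ∈ star z F := Or.inl rfl
  have hseg : ∀ p ∈ F, segment ℝ z p ⊆ star z F := fun p hp =>
    (subset_biUnion_of_mem (u := fun p => segment ℝ z p) hp).trans subset_union_right
  have key : ∀ A : Set E2, A ⊆ star z F → IsPreconnected A → z ∈ A → ∀ u v : Set E2, IsClosed u →
      IsClosed v → star z F ⊆ u ∪ v → star z F ∩ (u ∩ v) = ∅ → z ∈ u → A ⊆ u := by
    intro A hA hAp hzA u v hu hv hsub hdis hzu
    rw [isPreconnected_iff_subset_of_disjoint_closed] at hAp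
    rcases hAp u v hu hv (hA.trans hsub) (by
      rw [← subset_empty_iff, ← hdis]
      exact inter_subset_inter_left _ hA) with h | h
    · exact h
    · exfalso
      have : z ∈ star z F ∩ (u ∩ v) := ⟨hz, hzu, h hzA⟩
      rw [hdis] at this
      exact this
  have main : ∀ u v : Set E2, IsClosed u →
      IsClosed v → star z F ⊆ u ∪ v → star z F ∩ (u ∩ v) = ∅ → z ∈ u → star z F ⊆ u := by
    intro u v hu hv hsub hdis hzu
    unfold star
    refine union_subset (singleton_subset_iff.2 hzu) (iUnion₂_subset fun p hp => ?_)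
    exact key _ (hseg p hp) (convex_segment z p).isPreconnected (left_mem_segment ℝ z p) u v hu hv
      hsub hdis hzu
  rcases hsub hz with h | h
  · exact Or.inl (main u v hu hv hsub hdis h)
  · exact Or.inr (main v u hv hu (by rwa [union_comm]) (by rwa [inter_comm v u]) h)

lemma star_subset {x z : E2} {R : ℝ} (hz : z ∈ closedBall x R) {F : Finset E2}
    (hF : ∀ p ∈ F, p ∈ closedBall x R) : star z F ⊆ closedBall x R := by
  unfold star
  refine union_subset (singleton_subset_iff.2 hz) (iUnion₂_subset fun p hp => ?_)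
  exact (convex_closedBall x R).segment_subset hz (hF p hp)

lemma mem_star {z p : E2} {F : Finset E2} (hp : p ∈ F) : p ∈ star z F :=
  Or.inr (mem_biUnion hp (right_mem_segment ℝ z p))

lemma len_star_le (z : E2) (F : Finset E2) :
    len (star z F) ≤ ENNReal.ofReal (∑ p ∈ F, dist z p) := by
  unfold star
  calc len ({z} ∪ ⋃ p ∈ F, segment ℝ z p) ≤ len {z} + len (⋃ p ∈ F, segment ℝ z p) :=
        measure_union_le _ _
    _ ≤ 0 + ∑ p ∈ F, len (segment ℝ z p) := by
        gcongr
        · rw [len_subsingleton subsingleton_singleton]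
        · exact measure_biUnion_finset_le F _
    _ = ENNReal.ofReal (∑ p ∈ F, dist z p) := by
        rw [zero_add, ENNReal.ofReal_sum_of_nonneg fun _ _ => dist_nonneg]
        exact Finset.sum_congr rfl fun p _ => len_segment z p

theorem IsLenMin.le_star {K : Set E2} (h : IsLenMin K) {x z : E2} {R : ℝ} (hR : 0 < R)
    {F : Finset E2} (hF : K ∩ sphere x R = F) (hz : z ∈ closedBall x R) :
    len (K ∩ closedBall x R) ≤ ENNReal.ofReal (∑ p ∈ F, dist z p) := by
  have hF' : ∀ p ∈ F, p ∈ closedBall x R := by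
    intro p hp
    have : p ∈ K ∩ sphere x R := by rw [hF]; exact hp
    exact sphere_subset_closedBall this.2
  refine (h.le_len hR (star_compact z F) (star_preconnected z F) (star_subset hz hF') ?_).trans
    (len_star_le z F)
  rw [hF]
  intro p hp
  exact mem_star hp

theorem IsLenMin.le_cone {K : Set E2} (h : IsLenMin K) {x : E2} {R : ℝ} (hR : 0 < R)
    {F : Finset E2} (hF : K ∩ sphere x R = F) :
    len (K ∩ closedBall x R) ≤ ENNReal.ofReal (F.card * R) := by
  have h1 := h.le_star hR hF (mem_closedBall_self hR.le)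
  have h2 : ∑ p ∈ F, dist x p = F.card * R := by
    rw [Finset.sum_congr rfl (g := fun _ => R), Finset.sum_const, nsmul_eq_mul]
    intro p hp
    have : p ∈ K ∩ sphere x R := by rw [hF]; exact hp
    rw [dist_comm]
    exact this.2
  rwa [h2] at h1

theorem IsLenMin.le_chord {K : Set E2} (h : IsLenMin K) {x : E2} {R : ℝ} (hR : 0 < R) {p q : E2}
    (hF : K ∩ sphere x R = {p, q}) : len (K ∩ closedBall x R) ≤ ENNReal.ofReal (dist p q) := by
  have hp : p ∈ K ∩ sphere x R := by rw [hF]; exact mem_insert _ _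
  have hq : q ∈ K ∩ sphere x R := by rw [hF]; exact mem_insert_of_mem _ rfl
  rw [← len_segment]
  refine h.le_len hR ?_ (convex_segment p q).isPreconnected
    ((convex_closedBall x R).segment_subset (sphere_subset_closedBall hp.2)
      (sphere_subset_closedBall hq.2)) ?_
  · rw [segment_eq_image]
    exact isCompact_Icc.image (by fun_prop)
  · rw [hF]
    rintro y (rfl | rfl)
    · exact left_mem_segment ..
    · exact right_mem_segment ..

theorem sphere_preconnected (x : E2) {R : ℝ} (hR : 0 < R) : IsPreconnected (sphere x R) := by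
  rw [← cpt_image_Ico hR 0]
  refine isPreconnected_Ico.image _ ?_
  unfold cpt
  exact (continuous_const.add (continuous_dir.const_smul R)).continuousOn

theorem IsLenMin.le_circle {K : Set E2} (h : IsLenMin K) {x : E2} {R : ℝ} (hR : 0 < R) :
    len (K ∩ closedBall x R) ≤ ENNReal.ofReal (2 * Real.pi * R) := by
  refine (h.le_len hR (isCompact_sphere x R) (sphere_preconnected x hR) sphere_subset_closedBall
    inter_subset_right).trans ?_
  have := hausdorff_sphere_le x hR
  exact this

/-! ### At least four points -/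

lemma sign_pigeonhole (a b c : ℝ) : 0 ≤ a * b ∨ 0 ≤ a * c ∨ 0 ≤ b * c := by
  by_contra hcon
  push Not at hcon
  obtain ⟨h1, h2, h3⟩ := hcon
  have h4 : 0 < (a * b) * (a * c) := mul_pos_of_neg_of_neg h1 h2
  have h5 : (a * b) * (a * c) * (b * c) < 0 := mul_neg_of_pos_of_neg h4 h3
  have h6 : (a * b) * (a * c) * (b * c) = (a * b * c) ^ 2 := by ring
  rw [h6] at h5
  exact absurd (sq_nonneg (a * b * c)) (not_le.2 h5)

lemma exists_nonneg_inner {F : Finset E2} (hF : 4 ≤ F.card) {x : E2} {R : ℝ} (hR : 0 < R)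
    (h : ∀ p ∈ F, dist p x = R) :
    ∃ p ∈ F, ∃ q ∈ F, p ≠ q ∧ 0 ≤ inner ℝ (p - x) (q - x) := by
  classical
  by_contra hcon
  push Not at hcon
  have hne : F.Nonempty := Finset.card_pos.1 (by omega)
  obtain ⟨p0, hp0⟩ := hne
  have hG : 2 < (F.erase p0).card := by
    rw [Finset.card_erase_of_mem hp0]
    omega
  obtain ⟨a, ha, b, hb, c, hc, hab, hac, hbc⟩ := Finset.two_lt_card.1 hG
  have hv : 0 < (p0 - x) 0 ^ 2 + (p0 - x) 1 ^ 2 := by
    rw [← norm_E2, ← dist_eq_norm, h p0 hp0]
    positivity
  have key : ∀ w w' : E2, w ∈ F.erase p0 → w' ∈ F.erase p0 → w ≠ w' →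
      ((w - x) 0 * (-(p0 - x) 1) + (w - x) 1 * (p0 - x) 0) *
      ((w' - x) 0 * (-(p0 - x) 1) + (w' - x) 1 * (p0 - x) 0) < 0 := by
    intro w w' hw hw' hne
    have h1 := hcon w (Finset.mem_of_mem_erase hw) p0 hp0 (Finset.ne_of_mem_erase hw)
    have h2 := hcon w' (Finset.mem_of_mem_erase hw') p0 hp0 (Finset.ne_of_mem_erase hw')
    have h3 := hcon w (Finset.mem_of_mem_erase hw) w' (Finset.mem_of_mem_erase hw') hne
    rw [inner_E2] at h1 h2 h3
    have h4 := mul_pos_of_neg_of_neg h1 h2
    have h5 := mul_neg_of_neg_of_pos h3 hv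
    have h6 : ((w - x) 0 * (w' - x) 0 + (w - x) 1 * (w' - x) 1) *
        ((p0 - x) 0 ^ 2 + (p0 - x) 1 ^ 2) =
        ((w - x) 0 * (p0 - x) 0 + (w - x) 1 * (p0 - x) 1) *
        ((w' - x) 0 * (p0 - x) 0 + (w' - x) 1 * (p0 - x) 1) +
        ((w - x) 0 * (-(p0 - x) 1) + (w - x) 1 * (p0 - x) 0) *
      ((w' - x) 0 * (-(p0 - x) 1) + (w' - x) 1 * (p0 - x) 0) := by ring
    linarith
  rcases sign_pigeonhole ((a - x) 0 * (-(p0 - x) 1) + (a - x) 1 * (p0 - x) 0)
    ((b - x) 0 * (-(p0 - x) 1) + (b - x) 1 * (p0 - x) 0)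
    ((c - x) 0 * (-(p0 - x) 1) + (c - x) 1 * (p0 - x) 0) with h1 | h1 | h1
  · exact absurd h1 (not_le.2 (key a b ha hb hab))
  · exact absurd h1 (not_le.2 (key a c ha hc hac))
  · exact absurd h1 (not_le.2 (key b c hb hc hbc))

lemma le_of_sq_le {a b c : ℝ} (hc : 0 < c) (h : a ^ 2 ≤ b) : a ≤ (b + c ^ 2) / (2 * c) := by
  rw [le_div_iff₀ (by positivity)]
  nlinarith [sq_nonneg (a - c)]

/-- length of the small tree joining `x`, `p`, `q` (angle at most 90 degrees) -/
lemma Y_length {x p q : E2} {R : ℝ} (hR : 0 < R) (hp : dist p x = R) (hq : dist q x = R)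
    (hpq : 0 ≤ inner ℝ (p - x) (q - x)) :
    dist (x + (1 / 5 : ℝ) • ((p - x) + (q - x))) x +
      dist (x + (1 / 5 : ℝ) • ((p - x) + (q - x))) p +
      dist (x + (1 / 5 : ℝ) • ((p - x) + (q - x))) q ≤ (2 - 1 / 20) * R := by
  have hp2 : (p - x) 0 ^ 2 + (p - x) 1 ^ 2 = R ^ 2 := by
    rw [← norm_E2, ← dist_eq_norm, hp]
  have hq2 : (q - x) 0 ^ 2 + (q - x) 1 ^ 2 = R ^ 2 := by
    rw [← norm_E2, ← dist_eq_norm, hq]
  rw [inner_E2] at hpq
  simp only [PiLp.sub_apply] at hp2 hq2 hpq
  set s : ℝ := (p 0 - x 0) * (q 0 - x 0) + (p 1 - x 1) * (q 1 - x 1) with hs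
  have h1 : dist (x + (1 / 5 : ℝ) • ((p - x) + (q - x))) x ^ 2 ≤ (2 / 25) * (R ^ 2 + s) := by
    rw [dist_eq_norm, norm_E2]
    simp only [PiLp.sub_apply, PiLp.add_apply, PiLp.smul_apply, smul_eq_mul]
    rw [hs]
    nlinarith [hp2, hq2]
  have h2 : dist (x + (1 / 5 : ℝ) • ((p - x) + (q - x))) p ^ 2 ≤
      R ^ 2 - (8 / 25) * (R ^ 2 + s) := by
    rw [dist_eq_norm, norm_E2]
    simp only [PiLp.sub_apply, PiLp.add_apply, PiLp.smul_apply, smul_eq_mul]
    rw [hs]
    nlinarith [hp2, hq2]
  have h3 : dist (x + (1 / 5 : ℝ) • ((p - x) + (q - x))) q ^ 2 ≤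
      R ^ 2 - (8 / 25) * (R ^ 2 + s) := by
    rw [dist_eq_norm, norm_E2]
    simp only [PiLp.sub_apply, PiLp.add_apply, PiLp.smul_apply, smul_eq_mul]
    rw [hs]
    nlinarith [hp2, hq2]
  have h1' := le_of_sq_le (c := 7 / 25 * R) (by positivity) h1
  have h2' := le_of_sq_le (c := 41 / 50 * R) (by positivity) h2
  have h3' := le_of_sq_le (c := 41 / 50 * R) (by positivity) h3
  have e1 : ((2 / 25) * (R ^ 2 + s) + (7 / 25 * R) ^ 2) / (2 * (7 / 25 * R)) =
      ((2 / 25) / (14 / 25)) * (s / R) + ((2 / 25 + 49 / 625) / (14 / 25)) * R := by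
    field_simp
    ring
  have e2 : (R ^ 2 - (8 / 25) * (R ^ 2 + s) + (41 / 50 * R) ^ 2) / (2 * (41 / 50 * R)) =
      -((8 / 25) / (82 / 50)) * (s / R) + ((17 / 25 + 1681 / 2500) / (82 / 50)) * R := by
    field_simp
    ring
  rw [e1] at h1'
  rw [e2] at h2' h3'
  have hsR : 0 ≤ s / R := div_nonneg hpq hR.le
  nlinarith

theorem IsLenMin.le_Y {K : Set E2} (h : IsLenMin K) {x : E2} {R : ℝ} (hR : 0 < R)
    {F : Finset E2} (hF : K ∩ sphere x R = F) (h4 : 4 ≤ F.card) :
    len (K ∩ closedBall x R) ≤ ENNReal.ofReal ((F.card - 1 / 20) * R) := by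
  classical
  have hmem : ∀ p ∈ F, dist p x = R := by
    intro p hp
    have : p ∈ K ∩ sphere x R := by rw [hF]; exact hp
    exact this.2
  obtain ⟨p, hp, q, hq, hpq, hin⟩ := exists_nonneg_inner h4 hR hmem
  have hYl := Y_length hR (hmem p hp) (hmem q hq) hin
  set b : E2 := x + (1 / 5 : ℝ) • ((p - x) + (q - x)) with hb
  let G : Finset E2 := (F.erase p).erase q
  have hGc : (G.card : ℝ) = F.card - 2 := by
    have hq' : q ∈ F.erase p := Finset.mem_erase.2 ⟨hpq.symm, hq⟩
    have h1 : G.card + 2 = F.card := by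
      simp only [G]
      rw [Finset.card_erase_of_mem hq', Finset.card_erase_of_mem hp]
      omega
    rw [← h1]
    push_cast
    ring
  let T : Finset E2 := {x, p, q}
  have hbB : b ∈ closedBall x R := by
    rw [mem_closedBall]
    have h1 : 0 ≤ dist b p := dist_nonneg
    have h2 : 0 ≤ dist b q := dist_nonneg
    have h3 : ‖(1 / 5 : ℝ) • ((p - x) + (q - x))‖ ≤ 2 / 5 * R := by
      rw [norm_smul]
      have h4 : ‖(p - x) + (q - x)‖ ≤ R + R := by
        refine (norm_add_le _ _).trans ?_
        rw [← dist_eq_norm, ← dist_eq_norm, hmem p hp, hmem q hq]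
      have h5 : ‖(1 / 5 : ℝ)‖ = 1 / 5 := by norm_num
      rw [h5]
      linarith
    have h6 : dist b x = ‖(1 / 5 : ℝ) • ((p - x) + (q - x))‖ := by
      rw [hb, dist_eq_norm, add_sub_cancel_left]
    rw [h6]
    linarith
  have hxB : x ∈ closedBall x R := mem_closedBall_self hR.le
  have hFB : ∀ y ∈ F, y ∈ closedBall x R := fun y hy => (hmem y hy).le
  have hGB : ∀ y ∈ G, y ∈ closedBall x R := fun y hy =>
    hFB y (Finset.mem_of_mem_erase (Finset.mem_of_mem_erase hy))
  have hTB : ∀ y ∈ T, y ∈ closedBall x R := by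
    intro y hy
    simp only [T, Finset.mem_insert, Finset.mem_singleton] at hy
    rcases hy with rfl | rfl | rfl
    · exact hxB
    · exact hFB _ hp
    · exact hFB _ hq
  have hxT : x ∈ star b T := mem_star (by simp [T])
  have hxG : x ∈ star x G := Or.inl rfl
  refine (h.le_len hR (L0 := star x G ∪ star b T) ((star_compact x G).union (star_compact b T))
    (IsPreconnected.union x hxG hxT (star_preconnected x G) (star_preconnected b T))
    (union_subset (star_subset hxB hGB) (star_subset hbB hTB)) ?_).trans ?_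
  · rw [hF]
    intro y hy
    by_cases hyp : y = p
    · exact Or.inr (mem_star (by simp [T, hyp]))
    by_cases hyq : y = q
    · exact Or.inr (mem_star (by simp [T, hyq]))
    · exact Or.inl (mem_star (Finset.mem_erase.2 ⟨hyq, Finset.mem_erase.2 ⟨hyp, hy⟩⟩))
  · have hxp : x ≠ p := by
      intro h0
      have := hmem p hp
      rw [← h0, dist_self] at this
      exact hR.ne this
    have hxq : x ≠ q := by
      intro h0
      have := hmem q hq
      rw [← h0, dist_self] at this
      exact hR.ne this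
    have hsT : ∑ y ∈ T, dist b y = dist b x + (dist b p + dist b q) := by
      simp only [T]
      rw [Finset.sum_insert (by simp [hxp, hxq]), Finset.sum_insert (by simp [hpq]),
        Finset.sum_singleton]
    have hsG : ∑ y ∈ G, dist x y = (F.card - 2) * R := by
      rw [Finset.sum_congr rfl (g := fun _ => R), Finset.sum_const, nsmul_eq_mul, hGc]
      intro y hy
      rw [dist_comm]
      exact hmem y (Finset.mem_of_mem_erase (Finset.mem_of_mem_erase hy))
    calc len (star x G ∪ star b T) ≤ len (star x G) + len (star b T) := measure_union_le _ _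
      _ ≤ ENNReal.ofReal (∑ y ∈ G, dist x y) + ENNReal.ofReal (∑ y ∈ T, dist b y) :=
          add_le_add (len_star_le _ _) (len_star_le _ _)
      _ = ENNReal.ofReal (∑ y ∈ G, dist x y + ∑ y ∈ T, dist b y) := by
          rw [ENNReal.ofReal_add (Finset.sum_nonneg fun _ _ => dist_nonneg)
            (Finset.sum_nonneg fun _ _ => dist_nonneg)]
      _ ≤ _ := by
          apply ENNReal.ofReal_le_ofReal
          rw [hsT, hsG]
          linarith

/-- the gain: if the circle meets `K` in at least four points, the length in the disc is at most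
`(119/120) R` times the number of points -/
theorem IsLenMin.le_encard {K : Set E2} (h : IsLenMin K) {x : E2} {R : ℝ} (hR : 0 < R)
    (h4 : 4 ≤ (K ∩ sphere x R).encard) :
    len (K ∩ closedBall x R) ≤
      ENNReal.ofReal (119 / 120 * R) * ((K ∩ sphere x R).encard : ℝ≥0∞) := by
  classical
  by_cases hfin : (K ∩ sphere x R).Finite
  · obtain ⟨F, hF⟩ : ∃ F : Finset E2, K ∩ sphere x R = F := ⟨hfin.toFinset, by simp⟩
    rw [hF, Set.encard_coe_eq_coe_finsetCard] at h4 ⊢
    have h4' : 4 ≤ F.card := by exact_mod_cast h4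
    have e1 : ENNReal.ofReal (119 / 120 * R) * (((F.card : ℕ) : ℕ∞) : ℝ≥0∞) =
        ENNReal.ofReal (119 / 120 * R * F.card) := by
      rw [ENNReal.ofReal_mul (p := 119 / 120 * R) (by positivity)]
      congr 1
      simp
    rw [e1]
    rcases le_or_gt F.card 6 with h6 | h6
    · refine (h.le_Y hR hF h4').trans (ENNReal.ofReal_le_ofReal ?_)
      have : (F.card : ℝ) ≤ 6 := by exact_mod_cast h6
      nlinarith
    · refine (h.le_circle hR).trans (ENNReal.ofReal_le_ofReal ?_)
      have h7 : (7 : ℝ) ≤ F.card := by exact_mod_cast h6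
      have hpi := Real.pi_lt_d2
      nlinarith
  · have : (K ∩ sphere x R).encard = ⊤ := by
      rwa [Set.encard_eq_top_iff]
    rw [this]
    have h0 : ENNReal.ofReal (119 / 120 * R) ≠ 0 := by
      rw [Ne, ENNReal.ofReal_eq_zero, not_le]
      positivity
    simp only [ENat.toENNReal_top]
    rw [ENNReal.mul_top h0]
    exact le_top

end Crest.Agent.R135
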