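import Mathlib
import Crest.Agent.R135.Net2

/-!
# R135, block NET (helper564), part 3: growth of the length

For `K` length minimizing and `x ∈ K` there are arbitrarily large radii whose circle meets `K` in at
most three points.
-/

set_option autoImplicit false

open MeasureTheory Set Filter Topology Metric
open scoped ENNReal NNReal

namespace Crest.Agent.R135

/-- Eilenberg's inequality for the distance function, lower bound form. -/
theorem len_ge_lintegral (K : Set E2) (x : E2) :
    ∫⁻ t, ((K ∩ sphere x t).encard : ℝ≥0∞) ≤ len K :=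
  lintegral_encard_fiber_le (fun y : E2 => dist y x) K ((lipschitzWith_dist_left x).lipschitzOnWith)

/-- If the circles with radius in `(a,b)` meet `K` in at least `c` points, a.e., then the length of
`K` in the annulus is at least `c (b-a)`. -/
theorem len_annulus_ge {K : Set E2} {x : E2} {a b : ℝ} {c : ℝ≥0∞}
    (h : ∀ᵐ t : ℝ, t ∈ Ioo a b → c ≤ ((K ∩ sphere x t).encard : ℝ≥0∞)) :
    c * ENNReal.ofReal (b - a) ≤ len (K ∩ {y | dist y x ∈ Ioo a b}) := by
  refine le_trans ?_ (len_ge_lintegral _ x)
  calc c * ENNReal.ofReal (b - a) = ∫⁻ t in Ioo a b, c := by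
        rw [setLIntegral_const, Real.volume_Ioo]
    _ = ∫⁻ t, (Ioo a b).indicator (fun _ => c) t := by rw [lintegral_indicator measurableSet_Ioo]
    _ ≤ _ := by
        apply lintegral_mono_ae
        filter_upwards [h] with t ht
        by_cases htI : t ∈ Ioo a b
        · rw [indicator_of_mem htI]
          refine (ht htI).trans ?_
          apply ENat.toENNReal_le.2
          apply Set.encard_le_encard
          rintro y ⟨hy, hy'⟩
          refine ⟨⟨hy, ?_⟩, hy'⟩
          rw [mem_sphere] at hy'
          show dist y x ∈ Ioo a b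
          rw [hy']
          exact htI
        · rw [indicator_of_notMem htI]
          exact zero_le

theorem IsLenMin.exists_radius {K : Set E2} (h : IsLenMin K) {x : E2} (hx : x ∈ K) (R0 : ℝ)
    {P : ℝ → Prop} (hP : ∀ᵐ r : ℝ, P r) :
    ∃ r, R0 < r ∧ 0 < r ∧ P r ∧ (K ∩ sphere x r).encard ≤ 3 := by
  by_contra hcon
  push Not at hcon
  have h4 : ∀ᵐ r : ℝ, R0 < r → 0 < r → (4 : ℕ∞) ≤ (K ∩ sphere x r).encard := by
    filter_upwards [hP] with r hr h1 h2
    have h3 := hcon r h1 h2 hr
    have : (3 : ℕ∞) + 1 ≤ (K ∩ sphere x r).encard := Order.add_one_le_of_lt h3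
    exact this
  have claim : ∀ n : ℕ, ∃ Rn : ℝ, 0 < Rn ∧ R0 < Rn ∧ ∀ r, Rn ≤ r →
      ENNReal.ofReal (2 * (241 / 240) ^ n * r) ≤ len (K ∩ closedBall x r) := by
    intro n
    induction n with
    | zero =>
      refine ⟨max 1 (R0 + 1), by positivity, lt_of_lt_of_le (by linarith) (le_max_right _ _), ?_⟩
      intro r hr
      rw [pow_zero, mul_one]
      exact (h.two_mul_le hx r).trans
        (measure_mono (inter_subset_inter_right K ball_subset_closedBall))
    | succ n ih =>
      obtain ⟨Rn, hRn, hRn0, hlow⟩ := ih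
      set γ : ℝ := 2 * (241 / 240) ^ n with hγ
      have hγ0 : 0 < γ := by positivity
      refine ⟨300 * Rn, by linarith, by linarith, ?_⟩
      intro r hr
      have h5 : ∀ᵐ t : ℝ, t ∈ Ioo Rn r → ENNReal.ofReal (120 / 119 * γ) ≤
          ((K ∩ sphere x t).encard : ℝ≥0∞) := by
        filter_upwards [h4] with t ht htI
        have ht0 : 0 < t := hRn.trans htI.1
        have h6 := h.le_encard ht0 (ht (hRn0.trans htI.1) ht0)
        have h7 := (hlow t htI.1.le).trans h6
        have h8 : ENNReal.ofReal (γ * t) =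
            ENNReal.ofReal (119 / 120 * t) * ENNReal.ofReal (120 / 119 * γ) := by
          rw [← ENNReal.ofReal_mul (by positivity)]
          congr 1
          ring
        rw [h8] at h7
        have h9 : ENNReal.ofReal (119 / 120 * t) ≠ 0 := by
          rw [Ne, ENNReal.ofReal_eq_zero, not_le]
          positivity
        exact (ENNReal.mul_le_mul_iff_right h9 ENNReal.ofReal_ne_top).1 h7
      have h6 := len_annulus_ge h5
      have h7 : len (K ∩ {y | dist y x ∈ Ioo Rn r}) ≤ len (K ∩ closedBall x r) := by
        apply measure_mono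
        rintro y ⟨hy, hy'⟩
        exact ⟨hy, hy'.2.le⟩
      refine le_trans ?_ (h6.trans h7)
      rw [← ENNReal.ofReal_mul (by positivity)]
      apply ENNReal.ofReal_le_ofReal
      rw [pow_succ]
      have h8 : 2 * ((241 / 240 : ℝ) ^ n * (241 / 240)) * r = γ * (241 / 240 * r) := by
        rw [hγ]; ring
      rw [h8]
      have h9 : 120 / 119 * γ * (r - Rn) = γ * (120 / 119 * (r - Rn)) := by ring
      rw [h9]
      apply mul_le_mul_of_nonneg_left _ hγ0.le
      linarith
  obtain ⟨n, hn⟩ := pow_unbounded_of_one_lt (4 : ℝ) (by norm_num : (1 : ℝ) < 241 / 240)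
  obtain ⟨Rn, hRn, -, hlow⟩ := claim n
  have h5 := (hlow Rn le_rfl).trans (h.le_circle hRn)
  rw [ENNReal.ofReal_le_ofReal_iff (by positivity)] at h5
  have h6 := Real.pi_lt_d2
  have h7 : 2 * (241 / 240 : ℝ) ^ n ≤ 2 * Real.pi := le_of_mul_le_mul_right h5 hRn
  linarith

end Crest.Agent.R135
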