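import Mathlib
import Crest.Agent.R135.Net3

/-!
# R135, block NET (helper564), part 4: radial rigidity

If the length of `K` in the ball is the minimal one `m R` allowed by the number `≥ m` of points on
the circles centred at `x`, if these points are separated and if `H¹(K ∩ B(z,ρ)) ≥ 2ρ` for `z ∈ K`,
then `K ∩ ball x R` is radial.
-/

set_option autoImplicit false

open MeasureTheory Set Filter Topology Metric
open scoped ENNReal NNReal

namespace Crest.Agent.R135

/-- hypotheses of the radial rigidity -/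
structure RadHyp (K : Set E2) (x : E2) (R : ℝ) (m : ℕ) : Prop where
  closed : IsClosed K
  le : len (K ∩ ball x R) ≤ ENNReal.ofReal (m * R)
  card : ∀ᵐ s : ℝ, s ∈ Ioo 0 R → (m : ℕ∞) ≤ (K ∩ sphere x s).encard
  sep : ∀ᵐ s : ℝ, s ∈ Ioo 0 R → ∀ p ∈ K ∩ sphere x s, ∀ q ∈ K ∩ sphere x s, p ≠ q → s ≤ dist p q
  low : ∀ z ∈ K, ∀ ρ : ℝ, ENNReal.ofReal (2 * ρ) ≤ len (K ∩ ball z ρ)

theorem RadHyp.exists_near {K : Set E2} {x : E2} {R : ℝ} {m : ℕ} (h : RadHyp K x R m) {y : E2}
    (hy : y ∈ K) {ρ : ℝ} (hρ : 0 < ρ) (hρ1 : ρ ≤ dist y x / 4) (hρ2 : ρ ≤ R - dist y x) {a b : ℝ}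
    (hab : a < b) (ha : dist y x - ρ ≤ a) (hb : b ≤ dist y x + ρ) :
    ∃ z ∈ K, dist z y < ρ ∧ dist z x ∈ Ioo a b := by
  classical
  by_contra hcon
  push Not at hcon
  set t := dist y x with ht
  have hsub : ball y ρ ⊆ ball x R := by
    intro z hz
    rw [mem_ball] at hz ⊢
    have := dist_triangle z y x
    linarith
  set B : Set E2 := (K ∩ ball x R) \ ball y ρ with hB
  set T : Set ℝ := Ioo (t - ρ) (t + ρ) \ Ioo a b with hT
  have hTm : MeasurableSet T := measurableSet_Ioo.diff measurableSet_Ioo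
  have hTv : volume T ≤ ENNReal.ofReal (2 * ρ - (b - a)) := by
    have h1 : T ⊆ Ioc (t - ρ) a ∪ Ico b (t + ρ) := by
      rintro s ⟨hs, hs'⟩
      rw [mem_Ioo, not_and_or, not_lt, not_lt] at hs'
      rcases hs' with h | h
      · exact Or.inl ⟨hs.1, h⟩
      · exact Or.inr ⟨h, hs.2⟩
    calc volume T ≤ volume (Ioc (t - ρ) a) + volume (Ico b (t + ρ)) :=
          (measure_mono h1).trans (measure_union_le _ _)
      _ = ENNReal.ofReal (2 * ρ - (b - a)) := by
          rw [Real.volume_Ioc, Real.volume_Ico, ← ENNReal.ofReal_add (by linarith) (by linarith)]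
          congr 1
          ring
  have h1 : ∀ᵐ s : ℝ, s ∈ Ioo 0 R → ((m : ℕ∞) : ℝ≥0∞) ≤
      ((B ∩ sphere x s).encard : ℝ≥0∞) + T.indicator (fun _ => (1 : ℝ≥0∞)) s := by
    filter_upwards [h.card, h.sep] with s hs1 hs2 hsI
    have hc := hs1 hsI
    have hsp := hs2 hsI
    have hcover : K ∩ sphere x s ⊆ (B ∩ sphere x s) ∪ (K ∩ ball y ρ ∩ sphere x s) := by
      rintro z ⟨hz, hz'⟩
      by_cases hzy : z ∈ ball y ρ
      · exact Or.inr ⟨⟨hz, hzy⟩, hz'⟩
      · refine Or.inl ⟨⟨⟨hz, ?_⟩, hzy⟩, hz'⟩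
        rw [mem_ball, mem_sphere.1 hz']
        exact hsI.2
    have hc2 : (K ∩ sphere x s).encard ≤ (B ∩ sphere x s).encard +
        (K ∩ ball y ρ ∩ sphere x s).encard := (encard_le_encard hcover).trans (encard_union_le _ _)
    have hIoo : ∀ z ∈ K ∩ ball y ρ ∩ sphere x s, s ∈ Ioo (t - ρ) (t + ρ) := by
      rintro z ⟨⟨hz, hzy⟩, hzs⟩
      rw [mem_sphere] at hzs
      rw [mem_ball] at hzy
      have h3 := dist_triangle z y x
      have h4 := dist_triangle y z x
      rw [dist_comm y z] at h4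
      constructor <;> linarith
    by_cases hsT : s ∈ T
    · rw [indicator_of_mem hsT]
      have hss : (K ∩ ball y ρ ∩ sphere x s).Subsingleton := by
        rintro p ⟨⟨hp, hpy⟩, hps⟩ q ⟨⟨hq, hqy⟩, hqs⟩
        by_contra hpq
        have h3 := hsp p ⟨hp, hps⟩ q ⟨hq, hqs⟩ hpq
        rw [mem_ball] at hpy hqy
        have h4 := dist_triangle p y q
        rw [dist_comm y q] at h4
        have h5 : t - ρ < s := hsT.1.1
        linarith
      have h3 : (K ∩ ball y ρ ∩ sphere x s).encard ≤ 1 := by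
        rw [Set.encard_le_one_iff]
        intro p q hp hq
        exact hss hp hq
      have h4 : (m : ℕ∞) ≤ (B ∩ sphere x s).encard + 1 :=
        hc.trans (hc2.trans (by gcongr))
      have h5 := ENat.toENNReal_le.2 h4
      simpa using h5
    · rw [indicator_of_notMem hsT, add_zero]
      have hemp : K ∩ ball y ρ ∩ sphere x s = ∅ := by
        rw [eq_empty_iff_forall_notMem]
        intro z hz
        have h3 := hIoo z hz
        have h4 : s ∈ Ioo a b := by
          by_contra h5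
          exact hsT ⟨h3, h5⟩
        apply hcon z hz.1.1 hz.1.2
        rw [mem_sphere.1 hz.2]
        exact h4
      rw [hemp, encard_empty, add_zero] at hc2
      exact ENat.toENNReal_le.2 (hc.trans hc2)
  have hR : 0 < R := by
    have : 0 ≤ t := dist_nonneg
    linarith
  have h2 : ENNReal.ofReal (m * R) ≤ len B + ENNReal.ofReal (2 * ρ - (b - a)) := by
    calc ENNReal.ofReal (m * R) = ∫⁻ s in Ioo 0 R, ((m : ℕ∞) : ℝ≥0∞) := by
          rw [setLIntegral_const, Real.volume_Ioo, sub_zero, ENNReal.ofReal_mul (by positivity)]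
          congr 1
          simp
      _ ≤ ∫⁻ s in Ioo 0 R, (((B ∩ sphere x s).encard : ℝ≥0∞) +
            T.indicator (fun _ => (1 : ℝ≥0∞)) s) := by
          apply lintegral_mono_ae
          rw [ae_restrict_iff' measurableSet_Ioo]
          exact h1
      _ ≤ ∫⁻ s, (((B ∩ sphere x s).encard : ℝ≥0∞) + T.indicator (fun _ => (1 : ℝ≥0∞)) s) :=
          setLIntegral_le_lintegral _ _
      _ = (∫⁻ s, ((B ∩ sphere x s).encard : ℝ≥0∞)) +
            ∫⁻ s, T.indicator (fun _ => (1 : ℝ≥0∞)) s := by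
          rw [lintegral_add_right _ (measurable_const.indicator hTm)]
      _ ≤ len B + ENNReal.ofReal (2 * ρ - (b - a)) := by
          gcongr
          · exact len_ge_lintegral B x
          · rw [lintegral_indicator hTm, setLIntegral_const, one_mul]
            exact hTv
  have h3 : len (K ∩ ball x R) = len (K ∩ ball x R ∩ ball y ρ) + len B := by
    unfold len
    exact (measure_inter_add_sdiff _ measurableSet_ball).symm
  have h4 : K ∩ ball x R ∩ ball y ρ = K ∩ ball y ρ := by
    ext z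
    constructor
    · rintro ⟨⟨hz, -⟩, hz'⟩
      exact ⟨hz, hz'⟩
    · rintro ⟨hz, hz'⟩
      exact ⟨⟨hz, hsub hz'⟩, hz'⟩
  rw [h4] at h3
  have h5 := h.low y hy ρ
  have h6 : ENNReal.ofReal (2 * ρ) + ENNReal.ofReal (m * R) ≤
      ENNReal.ofReal (2 * ρ - (b - a)) + ENNReal.ofReal (m * R) := by
    calc ENNReal.ofReal (2 * ρ) + ENNReal.ofReal (m * R) ≤
          len (K ∩ ball y ρ) + (len B + ENNReal.ofReal (2 * ρ - (b - a))) := add_le_add h5 h2
      _ = len (K ∩ ball x R) + ENNReal.ofReal (2 * ρ - (b - a)) := by rw [h3, add_assoc]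
      _ ≤ ENNReal.ofReal (m * R) + ENNReal.ofReal (2 * ρ - (b - a)) := by
          gcongr
          exact h.le
      _ = _ := add_comm _ _
  have h7 := (ENNReal.add_le_add_iff_right ENNReal.ofReal_ne_top).1 h6
  rw [ENNReal.ofReal_le_ofReal_iff (by linarith)] at h7
  linarith

theorem RadHyp.radial_open {K : Set E2} {x : E2} {R : ℝ} {m : ℕ} (h : RadHyp K x R m) {y : E2}
    (hy : y ∈ K) {s : ℝ} (hs1 : |s - dist y x| < dist y x / 4) (hs2 : |s - dist y x| < R - dist y x) :
    x + (s / dist y x) • (y - x) ∈ K := by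
  set t := dist y x with ht
  set d := |s - t| with hd
  have hd0 : 0 ≤ d := abs_nonneg _
  have ht0 : 0 < t := by linarith
  have hs0 : 0 < s := by
    have := abs_lt.1 hs1
    linarith
  have hdsq : d ^ 2 = (s - t) ^ 2 := sq_abs _
  set C : ℝ := 2 * s + 1 + (s / t) * (2 * s + 2 * d) with hC
  have hC0 : 0 < C := by positivity
  have key : ∀ ε : ℝ, 0 < ε → ε < 1 → ε < s → ε ≤ t / 4 - d → ε ≤ R - t - d →
      ∃ z ∈ K, dist z (x + (s / t) • (y - x)) ^ 2 ≤ C * ε := by
    intro ε hε hε1 hεs hε2 hε3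
    obtain ⟨z, hz, hzy, hzx⟩ := h.exists_near hy (ρ := d + ε) (by linarith) (by linarith)
      (by linarith) (a := s - ε) (b := s + ε) (by linarith)
      (by have := neg_abs_le (s - t); linarith) (by have := le_abs_self (s - t); linarith)
    refine ⟨z, hz, ?_⟩
    have e1 : dist z y ^ 2 = (z 0 - y 0) ^ 2 + (z 1 - y 1) ^ 2 := by
      rw [dist_eq_norm, norm_E2]; simp only [PiLp.sub_apply]
    have e2 : dist z x ^ 2 = (z 0 - x 0) ^ 2 + (z 1 - x 1) ^ 2 := by
      rw [dist_eq_norm, norm_E2]; simp only [PiLp.sub_apply]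
    have e3 : t ^ 2 = (y 0 - x 0) ^ 2 + (y 1 - x 1) ^ 2 := by
      rw [ht, dist_eq_norm, norm_E2]; simp only [PiLp.sub_apply]
    have e4 : dist z (x + (s / t) • (y - x)) ^ 2 =
        (z 0 - (x 0 + (s / t) * (y 0 - x 0))) ^ 2 + (z 1 - (x 1 + (s / t) * (y 1 - x 1))) ^ 2 := by
      rw [dist_eq_norm, norm_E2]
      simp only [PiLp.sub_apply, PiLp.add_apply, PiLp.smul_apply, smul_eq_mul]
    have e5 : dist z (x + (s / t) • (y - x)) ^ 2 =
        dist z x ^ 2 - (s / t) * (dist z x ^ 2 + t ^ 2 - dist z y ^ 2) + s ^ 2 := by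
      rw [e4, e1, e2]
      have : s ^ 2 = (s / t) ^ 2 * t ^ 2 := by field_simp
      rw [this, e3]
      ring
    rw [e5]
    have hA0 : 0 ≤ dist z x := dist_nonneg
    have hB0 : 0 ≤ dist z y := dist_nonneg
    have hA1 : dist z x ^ 2 ≤ (s + ε) ^ 2 := pow_le_pow_left₀ hA0 hzx.2.le 2
    have hA2 : (s - ε) ^ 2 ≤ dist z x ^ 2 := pow_le_pow_left₀ (by linarith) hzx.1.le 2
    have hB1 : dist z y ^ 2 ≤ (d + ε) ^ 2 := pow_le_pow_left₀ hB0 hzy.le 2
    have hst : 0 < s / t := by positivity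
    have h1 : (s / t) * ((s - ε) ^ 2 + t ^ 2 - (d + ε) ^ 2) ≤
        (s / t) * (dist z x ^ 2 + t ^ 2 - dist z y ^ 2) :=
      mul_le_mul_of_nonneg_left (by linarith) hst.le
    have h2 : (s / t) * ((s - ε) ^ 2 + t ^ 2 - (d + ε) ^ 2) =
        2 * s ^ 2 - (s / t) * ((2 * s + 2 * d) * ε) := by
      have h3 : (s - ε) ^ 2 + t ^ 2 - (d + ε) ^ 2 = 2 * s * t - (2 * s + 2 * d) * ε := by
        have : (d + ε) ^ 2 = d ^ 2 + 2 * d * ε + ε ^ 2 := by ring
        rw [this, hdsq]
        ring
      rw [h3]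
      have h4 : (s / t) * (2 * s * t) = 2 * s ^ 2 := by field_simp
      rw [mul_sub, h4]
    have h5 : ε ^ 2 ≤ ε := by nlinarith
    have h6 : (s + ε) ^ 2 = s ^ 2 + 2 * s * ε + ε ^ 2 := by ring
    have h7 : C * ε = 2 * s * ε + ε + (s / t) * ((2 * s + 2 * d) * ε) := by rw [hC]; ring
    rw [h7]
    linarith
  have hmem : x + (s / t) • (y - x) ∈ closure K := by
    rw [Metric.mem_closure_iff]
    intro η hη
    have hm : 0 < min (min (1 / 2) (s / 2)) (min (t / 4 - d) (min (R - t - d) (η ^ 2 / (2 * C)))) := by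
      refine lt_min (lt_min (by norm_num) (by linarith)) (lt_min (by linarith)
        (lt_min (by linarith) (by positivity)))
    set ε := min (min (1 / 2) (s / 2)) (min (t / 4 - d) (min (R - t - d) (η ^ 2 / (2 * C)))) with hε
    have h1 : ε ≤ 1 / 2 := (min_le_left _ _).trans (min_le_left _ _)
    have h2 : ε ≤ s / 2 := (min_le_left _ _).trans (min_le_right _ _)
    have h3 : ε ≤ t / 4 - d := (min_le_right _ _).trans (min_le_left _ _)
    have h4 : ε ≤ R - t - d := (min_le_right _ _).trans ((min_le_right _ _).trans (min_le_left _ _))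
    have h5 : ε ≤ η ^ 2 / (2 * C) :=
      (min_le_right _ _).trans ((min_le_right _ _).trans (min_le_right _ _))
    obtain ⟨z, hz, hzd⟩ := key ε hm (by linarith) (by linarith) h3 h4
    refine ⟨z, hz, ?_⟩
    rw [dist_comm]
    have h6 : C * ε ≤ η ^ 2 / 2 := by
      calc C * ε ≤ C * (η ^ 2 / (2 * C)) := mul_le_mul_of_nonneg_left h5 hC0.le
        _ = η ^ 2 / 2 := by field_simp
    have h7 : dist z (x + (s / t) • (y - x)) ^ 2 < η ^ 2 := by
      have : 0 < η ^ 2 := by positivity
      linarith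
    exact lt_of_pow_lt_pow_left₀ 2 hη.le h7
  rwa [h.closed.closure_eq] at hmem

theorem RadHyp.radial_full {K : Set E2} {x : E2} {R : ℝ} {m : ℕ} (h : RadHyp K x R m) {y : E2}
    (hy : y ∈ K) (hyx : y ≠ x) (hyR : dist y x < R) {s : ℝ} (hs : s ∈ Ioo 0 R) :
    x + (s / dist y x) • (y - x) ∈ K := by
  set t := dist y x with ht
  have ht0 : 0 < t := dist_pos.2 hyx
  have hcont : Continuous (fun s : ℝ => x + (s / t) • (y - x)) := by fun_prop
  have key : ∀ s s' : ℝ, s ∈ Ioo 0 R → s' ∈ Ioo 0 R → ((x + (s / t) • (y - x) ∈ K) ↔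
      (x + (s' / t) • (y - x) ∈ K)) := by
    intro s s' hs hs'
    refine (isPreconnected_Ioo (a := (0 : ℝ)) (b := R)).induction₂
      (fun s s' => ((x + (s / t) • (y - x) ∈ K) ↔ (x + (s' / t) • (y - x) ∈ K))) ?_ ?_ ?_ hs hs'
    · intro r hr
      by_cases hrK : x + (r / t) • (y - x) ∈ K
      · have hd : dist (x + (r / t) • (y - x)) x = r := by
          rw [dist_eq_norm, add_sub_cancel_left, norm_smul, ← dist_eq_norm, ← ht,
            Real.norm_of_nonneg (div_nonneg hr.1.le ht0.le)]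
          field_simp
        have hev : ∀ᶠ r' in 𝓝 r, |r' - r| < min (r / 4) (R - r) := by
          have : 0 < min (r / 4) (R - r) := lt_min (by linarith [hr.1]) (by linarith [hr.2])
          have := Metric.ball_mem_nhds r this
          filter_upwards [this] with r' hr'
          rwa [mem_ball, Real.dist_eq] at hr'
        filter_upwards [hev.filter_mono nhdsWithin_le_nhds] with r' hr'
        have h1 := h.radial_open hrK (s := r') (by
          rw [hd]; exact hr'.trans_le (min_le_left _ _)) (by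
          rw [hd]; exact hr'.trans_le (min_le_right _ _))
        have h2 : x + (r' / dist (x + (r / t) • (y - x)) x) • (x + (r / t) • (y - x) - x) =
            x + (r' / t) • (y - x) := by
          rw [hd, add_sub_cancel_left, smul_smul]
          congr 2
          have := hr.1
          field_simp
        rw [h2] at h1
        exact ⟨fun _ => h1, fun _ => hrK⟩
      · have hev : ∀ᶠ r' in 𝓝 r, x + (r' / t) • (y - x) ∉ K :=
          hcont.continuousAt.eventually (h.closed.isOpen_compl.mem_nhds hrK)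
        filter_upwards [hev.filter_mono nhdsWithin_le_nhds] with r' hr'
        exact ⟨fun h => absurd h hrK, fun h => absurd h hr'⟩
    · intro a b c _ _ _ hab hbc
      exact hab.trans hbc
    · intro a b _ _ hab
      exact hab.symm
  rw [key s t hs ⟨ht0, hyR⟩]
  have : x + (t / t) • (y - x) = y := by
    rw [div_self ht0.ne', one_smul, add_sub_cancel]
  rwa [this]

end Crest.Agent.R135
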