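import Mathlib
import Crest.Agent.R135.Net4

/-!
# R135, block NET (helper564), part 5: straight and triple discs
-/

set_option autoImplicit false

open MeasureTheory Set Filter Topology Metric
open scoped ENNReal NNReal

namespace Crest.Agent.R135

/-- minimal length forces the minimal number of points on almost every circle -/
theorem ae_encard_le {K : Set E2} {x : E2} {R : ℝ} {m : ℕ}
    (hl : len (K ∩ ball x R) ≤ ENNReal.ofReal (m * R))
    (hN : ∀ᵐ s : ℝ, s ∈ Ioo 0 R → (m : ℕ∞) ≤ (K ∩ sphere x s).encard) :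
    ∀ᵐ s : ℝ, s ∈ Ioo 0 R → (K ∩ sphere x s).encard ≤ m := by
  obtain ⟨g, hgm, hgle, hgint⟩ := exists_fiber_majorant (fun y : E2 => dist y x) (K ∩ ball x R)
    ((lipschitzWith_dist_left x).lipschitzOnWith)
  have hcirc : ∀ s ∈ Ioo 0 R, K ∩ ball x R ∩ (fun y : E2 => dist y x) ⁻¹' {s} = K ∩ sphere x s := by
    intro s hs
    ext z
    constructor
    · rintro ⟨⟨hz, -⟩, hz'⟩
      exact ⟨hz, hz'⟩
    · rintro ⟨hz, hz'⟩
      refine ⟨⟨hz, ?_⟩, hz'⟩
      rw [mem_ball, mem_sphere.1 hz']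
      exact hs.2
  have h1 : (fun _ => ((m : ℕ∞) : ℝ≥0∞)) ≤ᵐ[volume.restrict (Ioo 0 R)] g := by
    rw [Filter.EventuallyLE, ae_restrict_iff' measurableSet_Ioo]
    filter_upwards [hN] with s hs hsI
    have h2 := hgle s
    rw [hcirc s hsI] at h2
    exact (ENat.toENNReal_le.2 (hs hsI)).trans h2
  have h2 : ∫⁻ s in Ioo 0 R, ((m : ℕ∞) : ℝ≥0∞) = ENNReal.ofReal (m * R) := by
    rw [setLIntegral_const, Real.volume_Ioo, sub_zero, ENNReal.ofReal_mul (by positivity)]
    congr 1
    simp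
  have h3 : (fun _ => ((m : ℕ∞) : ℝ≥0∞)) =ᵐ[volume.restrict (Ioo 0 R)] g := by
    refine ae_eq_of_ae_le_of_lintegral_le h1 ?_ hgm.aemeasurable ?_
    · rw [h2]; exact ENNReal.ofReal_ne_top
    · rw [h2]
      exact (setLIntegral_le_lintegral _ _).trans (hgint.trans hl)
  rw [Filter.EventuallyEq, ae_restrict_iff' measurableSet_Ioo] at h3
  filter_upwards [h3] with s hs hsI
  have h4 := hgle s
  rw [hcirc s hsI, ← hs hsI] at h4
  exact ENat.toENNReal_le.1 h4

/-- the length in the smaller discs is also minimal -/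
theorem len_closedBall_le {K : Set E2} {x : E2} {R : ℝ} {m : ℕ}
    (hl : len (K ∩ ball x R) ≤ ENNReal.ofReal (m * R))
    (hN : ∀ᵐ s : ℝ, s ∈ Ioo 0 R → (m : ℕ∞) ≤ (K ∩ sphere x s).encard) {s : ℝ} (hs : s ∈ Ioo 0 R) :
    len (K ∩ closedBall x s) ≤ ENNReal.ofReal (m * s) := by
  have h1 : ((m : ℕ∞) : ℝ≥0∞) * ENNReal.ofReal (R - s) ≤ len (K ∩ {y | dist y x ∈ Ioo s R}) := by
    apply len_annulus_ge
    filter_upwards [hN] with t ht htI
    exact ENat.toENNReal_le.2 (ht ⟨hs.1.trans htI.1, htI.2⟩)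
  have h2 : len (K ∩ closedBall x s) + len (K ∩ {y | dist y x ∈ Ioo s R}) ≤ len (K ∩ ball x R) := by
    have h3 : len (K ∩ ball x R) = len (K ∩ ball x R ∩ closedBall x s) +
        len ((K ∩ ball x R) \ closedBall x s) := by
      unfold len
      exact (measure_inter_add_sdiff _ measurableSet_closedBall).symm
    rw [h3]
    apply add_le_add
    · apply measure_mono
      rintro z ⟨hz, hz'⟩
      refine ⟨⟨hz, ?_⟩, hz'⟩
      rw [mem_ball]
      exact (mem_closedBall.1 hz').trans_lt hs.2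
    · apply measure_mono
      rintro z ⟨hz, hz'⟩
      exact ⟨⟨hz, hz'.2⟩, fun h => absurd (mem_closedBall.1 h) (not_le.2 hz'.1)⟩
  have h3 : ((m : ℕ∞) : ℝ≥0∞) * ENNReal.ofReal (R - s) = ENNReal.ofReal (m * (R - s)) := by
    rw [ENNReal.ofReal_mul (by positivity)]
    congr 1
    simp
  rw [h3] at h1
  have h4 : len (K ∩ closedBall x s) + ENNReal.ofReal (m * (R - s)) ≤
      ENNReal.ofReal (m * s) + ENNReal.ofReal (m * (R - s)) := by
    have h5 : ENNReal.ofReal (m * s) + ENNReal.ofReal (m * (R - s)) = ENNReal.ofReal (m * R) := by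
      rw [← ENNReal.ofReal_add (mul_nonneg (by positivity) hs.1.le)
        (mul_nonneg (by positivity) (by linarith [hs.2]))]
      congr 1
      ring
    rw [h5]
    exact (add_le_add le_rfl h1).trans (h2.trans hl)
  exact (ENNReal.add_le_add_iff_right ENNReal.ofReal_ne_top).1 h4

/-- antipodal points -/
theorem antipodal {x p q : E2} {s : ℝ} (hp : dist p x = s) (hq : dist q x = s)
    (hpq : 2 * s ≤ dist p q) : q - x = -(p - x) := by
  have hs : 0 ≤ s := by rw [← hp]; exact dist_nonneg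
  have hp2 : (p 0 - x 0) ^ 2 + (p 1 - x 1) ^ 2 = s ^ 2 := by
    rw [← hp, dist_eq_norm, norm_E2]; simp only [PiLp.sub_apply]
  have hq2 : (q 0 - x 0) ^ 2 + (q 1 - x 1) ^ 2 = s ^ 2 := by
    rw [← hq, dist_eq_norm, norm_E2]; simp only [PiLp.sub_apply]
  have h2 : (2 * s) ^ 2 ≤ (p 0 - q 0) ^ 2 + (p 1 - q 1) ^ 2 := by
    have := pow_le_pow_left₀ (by positivity) hpq 2
    rw [dist_eq_norm, norm_E2] at this
    simpa only [PiLp.sub_apply] using this
  have h3 : (q 0 - x 0 + (p 0 - x 0)) ^ 2 + (q 1 - x 1 + (p 1 - x 1)) ^ 2 ≤ 0 := by nlinarith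
  have h4 : q 0 - x 0 + (p 0 - x 0) = 0 := by
    nlinarith [sq_nonneg (q 0 - x 0 + (p 0 - x 0)), sq_nonneg (q 1 - x 1 + (p 1 - x 1))]
  have h5 : q 1 - x 1 + (p 1 - x 1) = 0 := by
    nlinarith [sq_nonneg (q 0 - x 0 + (p 0 - x 0)), sq_nonneg (q 1 - x 1 + (p 1 - x 1))]
  apply ext_E2
  · simp only [PiLp.sub_apply, PiLp.neg_apply]; linarith
  · simp only [PiLp.sub_apply, PiLp.neg_apply]; linarith

/-- `K` is a diameter in the ball -/
def Str (K : Set E2) (x : E2) (R : ℝ) (e : E2) : Prop :=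
  ‖e‖ = 1 ∧ ∀ y ∈ ball x R, y ∈ K ↔ ∃ s : ℝ, y = x + s • e

/-- two points on a circle -/
theorem eq_pair_of_encard_two {A : Set E2} (h1 : 2 ≤ A.encard) (h2 : A.encard ≤ 2) :
    ∃ p q : E2, p ≠ q ∧ A = {p, q} := Set.encard_eq_two.1 (le_antisymm h2 h1)

theorem IsLenMin.chord_ge {K : Set E2} (h : IsLenMin K) {x : E2} (hx : x ∈ K) {R : ℝ} (hR : 0 < R)
    {p q : E2} (hF : K ∩ sphere x R = {p, q}) : 2 * R ≤ dist p q := by
  have h1 := (h.two_mul_le hx R).trans ((measure_mono (inter_subset_inter_right K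
    ball_subset_closedBall)).trans (h.le_chord hR hF))
  exact (ENNReal.ofReal_le_ofReal_iff dist_nonneg).1 h1

theorem IsLenMin.straight {K : Set E2} (h : IsLenMin K) {x : E2} (hx : x ∈ K) {R : ℝ} (hR : 0 < R)
    (h2 : (K ∩ sphere x R).encard ≤ 2) : ∃ e, Str K x R e := by
  obtain ⟨p, q, hpq, hF⟩ := eq_pair_of_encard_two (h.two_le_encard hx hR) h2
  have hp : p ∈ K ∩ sphere x R := by rw [hF]; exact mem_insert _ _
  have hq : q ∈ K ∩ sphere x R := by rw [hF]; exact mem_insert_of_mem _ rfl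
  have hl : len (K ∩ ball x R) ≤ ENNReal.ofReal ((2 : ℕ) * R) := by
    refine (measure_mono (inter_subset_inter_right K ball_subset_closedBall)).trans
      ((h.le_chord hR hF).trans (ENNReal.ofReal_le_ofReal ?_))
    have := dist_triangle p x q
    rw [dist_comm x q, mem_sphere.1 hp.2, mem_sphere.1 hq.2] at this
    push_cast
    linarith
  have hN : ∀ᵐ s : ℝ, s ∈ Ioo 0 R → ((2 : ℕ) : ℕ∞) ≤ (K ∩ sphere x s).encard :=
    Eventually.of_forall fun s hs => h.two_le_encard hx hs.1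
  have hN2 := ae_encard_le hl hN
  have hrad : RadHyp K x R 2 := by
    refine ⟨h.closed, hl, hN, ?_, fun z hz ρ => h.two_mul_le hz ρ⟩
    filter_upwards [hN2] with s hs hsI a ha b hb hab
    obtain ⟨p', q', hpq', hF'⟩ := eq_pair_of_encard_two (h.two_le_encard hx hsI.1) (hs hsI)
    have h3 := h.chord_ge hx hsI.1 hF'
    have hs0 := hsI.1
    rw [hF'] at ha hb
    rcases ha with rfl | ha <;> rcases hb with rfl | hb
    · exact absurd rfl hab
    · rw [mem_singleton_iff.1 hb]; linarith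
    · rw [mem_singleton_iff.1 ha, dist_comm]; linarith
    · rw [mem_singleton_iff.1 ha, mem_singleton_iff.1 hb] at hab
      exact absurd rfl hab
  -- a good radius
  obtain ⟨s, hsI, hs⟩ : ∃ s ∈ Ioo 0 R, (K ∩ sphere x s).encard ≤ 2 := by
    by_contra hcon
    push Not at hcon
    have h3 : Ioo 0 R ⊆ {s | ¬ (s ∈ Ioo 0 R → (K ∩ sphere x s).encard ≤ ((2 : ℕ) : ℕ∞))} := by
      intro s hs hcon2
      exact absurd (hcon2 hs) (not_le.2 (hcon s hs))
    have h4 := measure_mono_null h3 hN2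
    rw [Real.volume_Ioo, ENNReal.ofReal_eq_zero] at h4
    linarith
  obtain ⟨p', q', hpq', hF'⟩ := eq_pair_of_encard_two (h.two_le_encard hx hsI.1) hs
  have hp' : p' ∈ K ∩ sphere x s := by rw [hF']; exact mem_insert _ _
  have hq' : q' ∈ K ∩ sphere x s := by rw [hF']; exact mem_insert_of_mem _ rfl
  have hs0 := hsI.1
  have hanti := antipodal (mem_sphere.1 hp'.2) (mem_sphere.1 hq'.2) (h.chord_ge hx hs0 hF')
  have hpx : p' ≠ x := by
    rintro rfl
    have := mem_sphere.1 hp'.2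
    rw [dist_self] at this
    linarith
  have hqx : q' ≠ x := by
    rintro rfl
    have := mem_sphere.1 hq'.2
    rw [dist_self] at this
    linarith
  refine ⟨(1 / s) • (p' - x), ?_, ?_⟩
  · rw [norm_smul, ← dist_eq_norm, mem_sphere.1 hp'.2, Real.norm_of_nonneg (by positivity)]
    field_simp
  · have hpos : ∀ r ∈ Ioo 0 R, x + r • ((1 / s) • (p' - x)) ∈ K := by
      intro r hr
      have h3 := hrad.radial_full hp'.1 hpx (by rw [mem_sphere.1 hp'.2]; exact hsI.2) hr
      rw [mem_sphere.1 hp'.2] at h3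
      rw [smul_smul, mul_one_div]
      exact h3
    have hneg : ∀ r ∈ Ioo 0 R, x + (-r) • ((1 / s) • (p' - x)) ∈ K := by
      intro r hr
      have h3 := hrad.radial_full hq'.1 hqx (by rw [mem_sphere.1 hq'.2]; exact hsI.2) hr
      rw [mem_sphere.1 hq'.2, hanti] at h3
      have h4 : (-r) • ((1 / s) • (p' - x)) = (r / s) • -(p' - x) := by
        rw [smul_smul, smul_neg, ← neg_smul]
        congr 1
        ring
      rw [h4]
      exact h3
    intro y hy
    constructor
    · intro hyK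
      by_cases hyx : y = x
      · exact ⟨0, by rw [hyx, zero_smul, add_zero]⟩
      have h3 := hrad.radial_full hyK hyx (mem_ball.1 hy) hsI
      have hd : 0 < dist y x := dist_pos.2 hyx
      have h4 : x + (s / dist y x) • (y - x) ∈ K ∩ sphere x s := by
        refine ⟨h3, ?_⟩
        rw [mem_sphere, dist_eq_norm, add_sub_cancel_left, norm_smul, ← dist_eq_norm,
          Real.norm_of_nonneg (by positivity)]
        field_simp
      rw [hF'] at h4
      rcases h4 with h4 | h4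
      · refine ⟨dist y x, ?_⟩
        rw [← h4, add_sub_cancel_left, smul_smul, smul_smul]
        have : dist y x * (1 / s) * (s / dist y x) = 1 := by field_simp
        rw [this, one_smul, add_sub_cancel]
      · refine ⟨-dist y x, ?_⟩
        have h5 : q' - x = (s / dist y x) • (y - x) := by
          rw [← mem_singleton_iff.1 h4, add_sub_cancel_left]
        have h6 : p' - x = -((s / dist y x) • (y - x)) := by
          rw [← h5, hanti, neg_neg]
        rw [h6, smul_neg, smul_neg, neg_smul, neg_neg, smul_smul, smul_smul]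
        have : dist y x * (1 / s) * (s / dist y x) = 1 := by field_simp
        rw [this, one_smul, add_sub_cancel]
    · rintro ⟨r, rfl⟩
      have h3 : |r| < R := by
        rw [mem_ball, dist_eq_norm, add_sub_cancel_left, norm_smul, norm_smul, ← dist_eq_norm,
          mem_sphere.1 hp'.2, Real.norm_of_nonneg (by positivity : (0 : ℝ) ≤ 1 / s),
          Real.norm_eq_abs] at hy
        have : 1 / s * s = 1 := by field_simp
        rw [this, mul_one] at hy
        exact hy
      rcases lt_trichotomy r 0 with h4 | h4 | h4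
      · have := hneg (-r) ⟨by linarith, by rw [abs_of_neg h4] at h3; exact h3⟩
        rwa [neg_neg] at this
      · rw [h4, zero_smul, add_zero]; exact hx
      · exact hpos r ⟨h4, by rw [abs_of_pos h4] at h3; exact h3⟩

/-! ### Triple discs -/

/-- first order condition at a Fermat point (three points on a circle centred at `x`) -/
theorem fermat_sum {x : E2} {s : ℝ} (hs : 0 < s) {F : Finset E2} (hF : ∀ p ∈ F, dist p x = s)
    (hmin : ∀ z ∈ closedBall x s, (F.card : ℝ) * s ≤ ∑ p ∈ F, dist z p) :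
    ∑ p ∈ F, (p - x) = 0 := by
  set V : E2 := ∑ p ∈ F, (p - x) with hV
  by_contra hne
  have hV0 : 0 < ‖V‖ := norm_pos_iff.2 hne
  -- point `x + ε V`
  set ε : ℝ := min (s / ‖V‖) (1 / (F.card + 1)) with hε
  have hε0 : 0 < ε := lt_min (by positivity) (by positivity)
  have hε1 : ε * ‖V‖ ≤ s := by
    calc ε * ‖V‖ ≤ (s / ‖V‖) * ‖V‖ := mul_le_mul_of_nonneg_right (min_le_left _ _) hV0.le
      _ = s := by field_simp
  have hε2 : ε * (F.card + 1) ≤ 1 := by
    calc ε * (F.card + 1) ≤ (1 / (F.card + 1)) * (F.card + 1) :=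
          mul_le_mul_of_nonneg_right (min_le_right _ _) (by positivity)
      _ = 1 := by field_simp
  have hz : x + ε • V ∈ closedBall x s := by
    rw [mem_closedBall, dist_eq_norm, add_sub_cancel_left, norm_smul, Real.norm_of_nonneg hε0.le]
    exact hε1
  have h1 := hmin _ hz
  have h2 : ∀ p ∈ F, dist (x + ε • V) p ≤ s - (ε / s) * inner ℝ V (p - x) +
      ε ^ 2 * ‖V‖ ^ 2 / (2 * s) := by
    intro p hp
    have h3 : dist (x + ε • V) p ^ 2 = s ^ 2 - 2 * ε * inner ℝ V (p - x) + ε ^ 2 * ‖V‖ ^ 2 := by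
      have h4 : x + ε • V - p = ε • V - (p - x) := by abel
      rw [dist_eq_norm, h4, norm_sub_sq_real, ← dist_eq_norm, hF p hp, norm_smul,
        Real.norm_of_nonneg hε0.le, inner_smul_left]
      simp only [conj_trivial]
      ring
    have h4 := le_of_sq_le hs h3.le
    refine h4.trans (le_of_eq ?_)
    field_simp
    ring
  have h3 : ∑ p ∈ F, dist (x + ε • V) p ≤
      ∑ p ∈ F, (s - (ε / s) * inner ℝ V (p - x) + ε ^ 2 * ‖V‖ ^ 2 / (2 * s)) :=
    Finset.sum_le_sum h2
  have h4 : ∑ p ∈ F, (s - (ε / s) * inner ℝ V (p - x) + ε ^ 2 * ‖V‖ ^ 2 / (2 * s)) =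
      F.card * s - (ε / s) * ‖V‖ ^ 2 + F.card * (ε ^ 2 * ‖V‖ ^ 2 / (2 * s)) := by
    rw [Finset.sum_add_distrib, Finset.sum_sub_distrib, Finset.sum_const, Finset.sum_const,
      ← Finset.mul_sum, ← inner_sum, ← hV, real_inner_self_eq_norm_sq, nsmul_eq_mul, nsmul_eq_mul]
  rw [h4] at h3
  have h5 : (ε / s) * ‖V‖ ^ 2 ≤ F.card * (ε ^ 2 * ‖V‖ ^ 2 / (2 * s)) := by linarith
  have h6 : F.card * (ε ^ 2 * ‖V‖ ^ 2 / (2 * s)) = (ε / s) * ‖V‖ ^ 2 * (ε * F.card / 2) := by
    field_simp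
  rw [h6] at h5
  have h7 : 0 < (ε / s) * ‖V‖ ^ 2 := by positivity
  have h8 : ε * F.card / 2 ≤ 1 / 2 := by
    have : ε * F.card ≤ ε * (F.card + 1) := by
      apply mul_le_mul_of_nonneg_left _ hε0.le
      linarith
    linarith
  nlinarith

/-- three unit directions at 120 degrees -/
theorem three_dirs {a b c : E2} (ha : ‖a‖ = 1) (hb : ‖b‖ = 1) (hc : ‖c‖ = 1) (hsum : a + b + c = 0)
    (θ : ℝ) (hθ : dir θ = a) :
    (b = dir (θ + 2 * Real.pi / 3) ∧ c = dir (θ - 2 * Real.pi / 3)) ∨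
      (b = dir (θ - 2 * Real.pi / 3) ∧ c = dir (θ + 2 * Real.pi / 3)) := by
  have hcos : Real.cos (2 * Real.pi / 3) = -(1 / 2) := by
    have : 2 * Real.pi / 3 = Real.pi - Real.pi / 3 := by ring
    rw [this, Real.cos_pi_sub, Real.cos_pi_div_three]
  have hsin : Real.sin (2 * Real.pi / 3) = Real.sqrt 3 / 2 := by
    have : 2 * Real.pi / 3 = Real.pi - Real.pi / 3 := by ring
    rw [this, Real.sin_pi_sub, Real.sin_pi_div_three]
  have hs3 : Real.sqrt 3 ^ 2 = 3 := Real.sq_sqrt (by norm_num)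
  have hC : Real.cos θ = a 0 := by rw [← hθ, dir_zero]
  have hS : Real.sin θ = a 1 := by rw [← hθ, dir_one]
  have ha2 : a 0 ^ 2 + a 1 ^ 2 = 1 := by rw [← norm_E2, ha]; norm_num
  have hb2 : b 0 ^ 2 + b 1 ^ 2 = 1 := by rw [← norm_E2, hb]; norm_num
  have hc2 : c 0 ^ 2 + c 1 ^ 2 = 1 := by rw [← norm_E2, hc]; norm_num
  have h0 : a 0 + b 0 + c 0 = 0 := by
    have := congrArg (fun v : E2 => v 0) hsum
    simpa using this
  have h1 : a 1 + b 1 + c 1 = 0 := by
    have := congrArg (fun v : E2 => v 1) hsum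
    simpa using this
  have hc0 : c 0 = -(a 0 + b 0) := by linarith
  have hc1 : c 1 = -(a 1 + b 1) := by linarith
  rw [hc0, hc1] at hc2
  -- inner product and cross product of `a`, `b`
  have hin : a 0 * b 0 + a 1 * b 1 = -(1 / 2) := by nlinarith
  set k : ℝ := a 0 * b 1 - a 1 * b 0 with hk
  have hk2 : k ^ 2 = 3 / 4 := by
    have : (a 0 * b 0 + a 1 * b 1) ^ 2 + k ^ 2 = (a 0 ^ 2 + a 1 ^ 2) * (b 0 ^ 2 + b 1 ^ 2) := by
      rw [hk]; ring
    rw [hin, ha2, hb2] at this
    linarith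
  have hb0 : b 0 = -(1 / 2) * a 0 - k * a 1 := by
    have : b 0 * (a 0 ^ 2 + a 1 ^ 2) = (a 0 * b 0 + a 1 * b 1) * a 0 - k * a 1 := by
      rw [hk]; ring
    rw [ha2, hin] at this
    linarith
  have hb1 : b 1 = -(1 / 2) * a 1 + k * a 0 := by
    have : b 1 * (a 0 ^ 2 + a 1 ^ 2) = (a 0 * b 0 + a 1 * b 1) * a 1 + k * a 0 := by
      rw [hk]; ring
    rw [ha2, hin] at this
    linarith
  have hkk : (k - Real.sqrt 3 / 2) * (k + Real.sqrt 3 / 2) = 0 := by nlinarith
  rcases mul_eq_zero.1 hkk with hk' | hk'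
  · left
    have hk3 : k = Real.sqrt 3 / 2 := by linarith
    constructor
    · apply ext_E2
      · rw [dir_zero, Real.cos_add, hcos, hsin, hC, hS, hb0, hk3]; ring
      · rw [dir_one, Real.sin_add, hcos, hsin, hC, hS, hb1, hk3]; ring
    · apply ext_E2
      · rw [dir_zero, Real.cos_sub, hcos, hsin, hC, hS, hc0, hb0, hk3]; ring
      · rw [dir_one, Real.sin_sub, hcos, hsin, hC, hS, hc1, hb1, hk3]; ring
  · right
    have hk3 : k = -(Real.sqrt 3 / 2) := by linarith
    constructor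
    · apply ext_E2
      · rw [dir_zero, Real.cos_sub, hcos, hsin, hC, hS, hb0, hk3]; ring
      · rw [dir_one, Real.sin_sub, hcos, hsin, hC, hS, hb1, hk3]; ring
    · apply ext_E2
      · rw [dir_zero, Real.cos_add, hcos, hsin, hC, hS, hc0, hb0, hk3]; ring
      · rw [dir_one, Real.sin_add, hcos, hsin, hC, hS, hc1, hb1, hk3]; ring

/-- the propeller -/
def prop3 (x : E2) (θ : ℝ) : Set E2 :=
  ray x (dir θ) ∪ ray x (dir (θ + 2 * Real.pi / 3)) ∪ ray x (dir (θ - 2 * Real.pi / 3))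

/-- structure of the three points on a circle -/
theorem IsLenMin.three_points {K : Set E2} (h : IsLenMin K) {x : E2} {s : ℝ} (hs : 0 < s)
    (h3 : (K ∩ sphere x s).encard = 3)
    (hl : ENNReal.ofReal (3 * s) ≤ len (K ∩ closedBall x s)) :
    ∃ θ : ℝ, K ∩ sphere x s = {x + s • dir θ, x + s • dir (θ + 2 * Real.pi / 3),
      x + s • dir (θ - 2 * Real.pi / 3)} := by
  classical
  obtain ⟨p, q, r, hpq, hpr, hqr, hF⟩ := Set.encard_eq_three.1 h3
  let F : Finset E2 := {p, q, r}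
  have hF' : K ∩ sphere x s = F := by rw [hF]; simp [F]
  have hcard : F.card = 3 := by
    simp only [F]
    rw [Finset.card_insert_of_notMem (by simp [hpq, hpr]), Finset.card_insert_of_notMem (by simp [hqr]),
      Finset.card_singleton]
  have hmem : ∀ y ∈ F, dist y x = s := by
    intro y hy
    have : y ∈ K ∩ sphere x s := by rw [hF']; exact hy
    exact this.2
  have hsum := fermat_sum hs hmem (by
    intro z hz
    rw [hcard]
    have h4 := hl.trans (h.le_star hs hF' hz)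
    push_cast
    exact (ENNReal.ofReal_le_ofReal_iff (Finset.sum_nonneg fun _ _ => dist_nonneg)).1 h4)
  have hsum' : (p - x) + (q - x) + (r - x) = 0 := by
    simp only [F] at hsum
    rw [Finset.sum_insert (by simp [hpq, hpr]), Finset.sum_insert (by simp [hqr]),
      Finset.sum_singleton] at hsum
    rw [add_assoc]
    exact hsum
  have hu : ∀ y ∈ F, ‖(1 / s) • (y - x)‖ = 1 := by
    intro y hy
    rw [norm_smul, ← dist_eq_norm, hmem y hy, Real.norm_of_nonneg (by positivity)]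
    field_simp
  have hrec : ∀ y : E2, x + s • ((1 / s) • (y - x)) = y := by
    intro y
    rw [smul_smul, mul_one_div, div_self hs.ne', one_smul, add_sub_cancel]
  obtain ⟨θ, -, hθ⟩ := exists_dir_eq _ (hu p (by simp [F])) 0
  refine ⟨θ, ?_⟩
  have h5 := three_dirs (hu p (by simp [F])) (hu q (by simp [F])) (hu r (by simp [F]))
    (by rw [← smul_add, ← smul_add, hsum', smul_zero]) θ hθ
  rw [hF]
  rcases h5 with ⟨h6, h7⟩ | ⟨h6, h7⟩
  · rw [hθ, ← h6, ← h7, hrec, hrec, hrec]
  · rw [hθ, ← h6, ← h7, hrec, hrec, hrec]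
    rw [Set.insert_comm p q, Set.insert_comm p r]
    ext y
    simp only [mem_insert_iff, mem_singleton_iff]
    tauto

end Crest.Agent.R135
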