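import Mathlib
import Crest.Agent.R135.Net5

/-!
# R135, block NET (helper564), part 6: classification of the closed sets minimizing length
-/

set_option autoImplicit false

open MeasureTheory Set Filter Topology Metric
open scoped ENNReal NNReal

namespace Crest.Agent.R135

theorem dist_dir_sq (x : E2) (s a b : ℝ) :
    dist (x + s • dir a) (x + s • dir b) ^ 2 = s ^ 2 * (2 - 2 * Real.cos (a - b)) := by
  rw [dist_eq_norm, norm_E2]
  simp only [PiLp.sub_apply, PiLp.add_apply, PiLp.smul_apply, smul_eq_mul, dir_zero, dir_one]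
  rw [Real.cos_sub]
  have h1 := Real.sin_sq_add_cos_sq a
  have h2 := Real.sin_sq_add_cos_sq b
  have h3 : Real.cos a ^ 2 = 1 - Real.sin a ^ 2 := by linarith
  have h4 : Real.cos b ^ 2 = 1 - Real.sin b ^ 2 := by linarith
  ring_nf
  rw [h3, h4]
  ring

theorem IsLenMin.triple {K : Set E2} (h : IsLenMin K) {x : E2} (hx : x ∈ K) {R : ℝ} (hR : 0 < R)
    (h3 : (K ∩ sphere x R).encard ≤ 3)
    (hN : ∀ᵐ s : ℝ, s ∈ Ioo 0 R → 3 ≤ (K ∩ sphere x s).encard) :
    ∃ θ : ℝ, ∀ y ∈ ball x R, y ∈ K ↔ y ∈ prop3 x θ := by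
  classical
  have hN' : ∀ᵐ s : ℝ, s ∈ Ioo 0 R → ((3 : ℕ) : ℕ∞) ≤ (K ∩ sphere x s).encard := hN
  have hl : len (K ∩ ball x R) ≤ ENNReal.ofReal ((3 : ℕ) * R) := by
    refine (measure_mono (inter_subset_inter_right K ball_subset_closedBall)).trans ?_
    have hfin : (K ∩ sphere x R).Finite := by
      rw [← Set.encard_lt_top_iff]
      exact lt_of_le_of_lt h3 (ENat.natCast_lt_top 3)
    obtain ⟨F, hF⟩ : ∃ F : Finset E2, K ∩ sphere x R = F := ⟨hfin.toFinset, by simp⟩
    rw [hF, Set.encard_coe_eq_coe_finsetCard] at h3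
    have h3' : F.card ≤ 3 := by exact_mod_cast h3
    refine (h.le_cone hR hF).trans (ENNReal.ofReal_le_ofReal ?_)
    have : (F.card : ℝ) ≤ 3 := by exact_mod_cast h3'
    push_cast
    nlinarith
  have hN2 := ae_encard_le hl hN'
  have hlow : ∀ s ∈ Ioo 0 R, ENNReal.ofReal (3 * s) ≤ len (K ∩ closedBall x s) := by
    intro s hs
    have h4 : ((3 : ℕ∞) : ℝ≥0∞) * ENNReal.ofReal (s - 0) ≤ len (K ∩ {y | dist y x ∈ Ioo 0 s}) := by
      apply len_annulus_ge
      filter_upwards [hN] with t ht htI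
      exact ENat.toENNReal_le.2 (ht ⟨htI.1, htI.2.trans hs.2⟩)
    have h5 : ((3 : ℕ∞) : ℝ≥0∞) * ENNReal.ofReal (s - 0) = ENNReal.ofReal (3 * s) := by
      rw [sub_zero, ENNReal.ofReal_mul (by norm_num)]
      congr 1
      simp
    rw [h5] at h4
    refine h4.trans (measure_mono ?_)
    rintro y ⟨hy, hy'⟩
    exact ⟨hy, hy'.2.le⟩
  have hstruct : ∀ s ∈ Ioo 0 R, 3 ≤ (K ∩ sphere x s).encard → (K ∩ sphere x s).encard ≤ 3 →
      ∃ θ : ℝ, K ∩ sphere x s = {x + s • dir θ, x + s • dir (θ + 2 * Real.pi / 3),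
      x + s • dir (θ - 2 * Real.pi / 3)} := fun s hs h4 h5 =>
    h.three_points hs.1 (le_antisymm h5 h4) (hlow s hs)
  have hrad : RadHyp K x R 3 := by
    refine ⟨h.closed, hl, hN', ?_, fun z hz ρ => h.two_mul_le hz ρ⟩
    filter_upwards [hN, hN2] with s hs1 hs2 hsI a ha b hb hab
    obtain ⟨θ, hθ⟩ := hstruct s hsI (hs1 hsI) (hs2 hsI)
    have hs0 := hsI.1
    have hcos1 : Real.cos (2 * Real.pi / 3) = -(1 / 2) := by
      have : 2 * Real.pi / 3 = Real.pi - Real.pi / 3 := by ring
      rw [this, Real.cos_pi_sub, Real.cos_pi_div_three]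
    have hcos2 : Real.cos (4 * Real.pi / 3) = -(1 / 2) := by
      have : 4 * Real.pi / 3 = Real.pi / 3 + Real.pi := by ring
      rw [this, Real.cos_add_pi, Real.cos_pi_div_three]
    have key : ∀ α β : ℝ, Real.cos (α - β) = -(1 / 2) → s ≤ dist (x + s • dir α) (x + s • dir β) := by
      intro α β hc
      have h4 := dist_dir_sq x s α β
      rw [hc] at h4
      refine le_of_sq_le_sq ?_ dist_nonneg
      rw [h4]
      nlinarith [sq_nonneg s]
    rw [hθ] at ha hb
    simp only [mem_insert_iff, mem_singleton_iff] at ha hb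
    rcases ha with rfl | rfl | rfl <;> rcases hb with rfl | rfl | rfl
    · exact absurd rfl hab
    · apply key
      rw [← Real.cos_neg]
      have : -(θ - (θ + 2 * Real.pi / 3)) = 2 * Real.pi / 3 := by ring
      rw [this, hcos1]
    · apply key
      have : θ - (θ - 2 * Real.pi / 3) = 2 * Real.pi / 3 := by ring
      rw [this, hcos1]
    · apply key
      have : (θ + 2 * Real.pi / 3) - θ = 2 * Real.pi / 3 := by ring
      rw [this, hcos1]
    · exact absurd rfl hab
    · apply key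
      have : (θ + 2 * Real.pi / 3) - (θ - 2 * Real.pi / 3) = 4 * Real.pi / 3 := by ring
      rw [this, hcos2]
    · apply key
      rw [← Real.cos_neg]
      have : -((θ - 2 * Real.pi / 3) - θ) = 2 * Real.pi / 3 := by ring
      rw [this, hcos1]
    · apply key
      rw [← Real.cos_neg]
      have : -((θ - 2 * Real.pi / 3) - (θ + 2 * Real.pi / 3)) = 4 * Real.pi / 3 := by ring
      rw [this, hcos2]
    · exact absurd rfl hab
  -- a good radius
  obtain ⟨s, hsI, hs1, hs2⟩ : ∃ s ∈ Ioo 0 R, 3 ≤ (K ∩ sphere x s).encard ∧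
      (K ∩ sphere x s).encard ≤ 3 := by
    by_contra hcon
    push Not at hcon
    have h4 : Ioo 0 R ⊆ {s | ¬ ((s ∈ Ioo 0 R → 3 ≤ (K ∩ sphere x s).encard) ∧
        (s ∈ Ioo 0 R → (K ∩ sphere x s).encard ≤ ((3 : ℕ) : ℕ∞)))} := by
      intro s hs hcon2
      exact absurd (hcon2.2 hs) (not_le.2 (hcon s hs (hcon2.1 hs)))
    have h5 := measure_mono_null h4 (hN.and hN2)
    rw [Real.volume_Ioo, ENNReal.ofReal_eq_zero] at h5
    linarith
  obtain ⟨θ, hθ⟩ := hstruct s hsI hs1 hs2
  have hs0 := hsI.1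
  have hdist : ∀ α : ℝ, dist (x + s • dir α) x = s := by
    intro α
    rw [dist_eq_norm, add_sub_cancel_left, norm_smul, norm_dir, mul_one, Real.norm_of_nonneg hs0.le]
  have hray : ∀ α : ℝ, x + s • dir α ∈ K → ∀ r ∈ Ioo 0 R, x + r • dir α ∈ K := by
    intro α hα r hr
    have h4 := hrad.radial_full hα (by
      intro h5
      have h6 := hdist α
      rw [h5, dist_self] at h6
      linarith) (by rw [hdist]; exact hsI.2) hr
    rw [hdist, add_sub_cancel_left, smul_smul] at h4
    have : r / s * s = r := by field_simp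
    rwa [this] at h4
  have hm1 : x + s • dir θ ∈ K := by
    have : x + s • dir θ ∈ K ∩ sphere x s := by rw [hθ]; simp
    exact this.1
  have hm2 : x + s • dir (θ + 2 * Real.pi / 3) ∈ K := by
    have : x + s • dir (θ + 2 * Real.pi / 3) ∈ K ∩ sphere x s := by rw [hθ]; simp
    exact this.1
  have hm3 : x + s • dir (θ - 2 * Real.pi / 3) ∈ K := by
    have : x + s • dir (θ - 2 * Real.pi / 3) ∈ K ∩ sphere x s := by rw [hθ]; simp
    exact this.1
  have hback : ∀ α : ℝ, x + s • dir α ∈ K → ∀ y ∈ ball x R, y ∈ ray x (dir α) → y ∈ K := by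
    rintro α hα y hy ⟨r, hr, rfl⟩
    have h4 : r < R := by
      rw [mem_ball, dist_eq_norm, add_sub_cancel_left, norm_smul, norm_dir, mul_one,
        Real.norm_of_nonneg hr] at hy
      exact hy
    rcases eq_or_lt_of_le hr with h5 | h5
    · rw [← h5, zero_smul, add_zero]; exact hx
    · exact hray α hα r ⟨h5, h4⟩
  refine ⟨θ, fun y hy => ⟨fun hyK => ?_, fun hyP => ?_⟩⟩
  · by_cases hyx : y = x
    · rw [hyx]
      exact Or.inl (Or.inl ⟨0, le_rfl, by rw [zero_smul, add_zero]⟩)
    have h4 := hrad.radial_full hyK hyx (mem_ball.1 hy) hsI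
    have hd : 0 < dist y x := dist_pos.2 hyx
    have h5 : x + (s / dist y x) • (y - x) ∈ K ∩ sphere x s := by
      refine ⟨h4, ?_⟩
      rw [mem_sphere, dist_eq_norm, add_sub_cancel_left, norm_smul, ← dist_eq_norm,
        Real.norm_of_nonneg (by positivity)]
      field_simp
    have h6 : ∀ α : ℝ, x + (s / dist y x) • (y - x) = x + s • dir α → y ∈ ray x (dir α) := by
      intro α hα
      refine ⟨dist y x, dist_nonneg, ?_⟩
      have h7 : (s / dist y x) • (y - x) = s • dir α := add_left_cancel hα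
      have h8 : y - x = dist y x • dir α := by
        have h9 : (dist y x / s) • ((s / dist y x) • (y - x)) = (dist y x / s) • (s • dir α) := by
          rw [h7]
        rw [smul_smul, smul_smul] at h9
        have h10 : dist y x / s * (s / dist y x) = 1 := by field_simp
        have h11 : dist y x / s * s = dist y x := by field_simp
        rwa [h10, h11, one_smul] at h9
      rw [← h8, add_sub_cancel]
    rw [hθ] at h5
    simp only [mem_insert_iff, mem_singleton_iff] at h5
    rcases h5 with h5 | h5 | h5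
    · exact Or.inl (Or.inl (h6 _ h5))
    · exact Or.inl (Or.inr (h6 _ h5))
    · exact Or.inr (h6 _ h5)
  · rcases hyP with (hyP | hyP) | hyP
    · exact hback _ hm1 y hy hyP
    · exact hback _ hm2 y hy hyP
    · exact hback _ hm3 y hy hyP

/-! ### Globalization -/

/-- invariance of a ray under dilations -/
theorem ray_dilate {x e : E2} {c : ℝ} (hc : 0 < c) (y : E2) :
    x + c • (y - x) ∈ ray x e ↔ y ∈ ray x e := by
  constructor
  · rintro ⟨s, hs, h⟩
    refine ⟨s / c, by positivity, ?_⟩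
    have h1 : c • (y - x) = s • e := add_left_cancel h
    have h2 : y - x = (s / c) • e := by
      have h3 : (1 / c) • (c • (y - x)) = (1 / c) • (s • e) := by rw [h1]
      rw [smul_smul, smul_smul] at h3
      have h4 : 1 / c * c = 1 := by field_simp
      have h5 : 1 / c * s = s / c := by ring
      rwa [h4, h5, one_smul] at h3
    rw [← h2, add_sub_cancel]
  · rintro ⟨s, hs, rfl⟩
    refine ⟨c * s, by positivity, ?_⟩
    rw [add_sub_cancel_left, smul_smul]

theorem prop3_dilate {x : E2} {θ c : ℝ} (hc : 0 < c) (y : E2) :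
    x + c • (y - x) ∈ prop3 x θ ↔ y ∈ prop3 x θ := by
  unfold prop3
  simp only [mem_union, ray_dilate hc]

/-- a triple centre gives a propeller -/
theorem IsLenMin.isProp {K : Set E2} (h : IsLenMin K) {x : E2} (hx : x ∈ K)
    (hN : ∀ᵐ s : ℝ, 0 < s → 3 ≤ (K ∩ sphere x s).encard) : IsProp K x := by
  have main : ∀ R0 : ℝ, ∃ R, R0 < R ∧ 0 < R ∧ ∃ θ : ℝ, ∀ y ∈ ball x R, y ∈ K ↔ y ∈ prop3 x θ := by
    intro R0
    obtain ⟨R, hR0, hR, -, hR3⟩ := h.exists_radius hx R0 (P := fun _ => True)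
      (Eventually.of_forall fun _ => trivial)
    exact ⟨R, hR0, hR, h.triple hx hR hR3 (by
      filter_upwards [hN] with s hs hsI
      exact hs hsI.1)⟩
  obtain ⟨R1, -, hR1, θ, hθ⟩ := main 0
  refine ⟨θ, ?_⟩
  change K = prop3 x θ
  ext y
  obtain ⟨R2, hR2, hR2', θ2, hθ2⟩ := main (max R1 (dist y x))
  have hR12 : R1 < R2 := (le_max_left _ _).trans_lt hR2
  have hy2 : y ∈ ball x R2 := (le_max_right _ _).trans_lt hR2
  set c : ℝ := R1 / (2 * (dist y x + 1)) with hc
  have hd : 0 ≤ dist y x := dist_nonneg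
  have hc0 : 0 < c := by positivity
  have hz : x + c • (y - x) ∈ ball x R1 := by
    rw [mem_ball, dist_eq_norm, add_sub_cancel_left, norm_smul, ← dist_eq_norm,
      Real.norm_of_nonneg hc0.le, hc, div_mul_eq_mul_div, div_lt_iff₀ (by positivity)]
    nlinarith
  have hz2 : x + c • (y - x) ∈ ball x R2 := ball_subset_ball hR12.le hz
  rw [hθ2 y hy2, ← prop3_dilate hc0 y, ← hθ2 _ hz2, hθ _ hz, prop3_dilate hc0 y]

end Crest.Agent.R135
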