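import Mathlib
import Crest.Agent.R135.Net6
import Crest.Agent.R135.QMBasic
import Crest.Agent.R135.QMOps

/-!
# R135, block NET (helper564), part 7: the line case and the classification
-/

set_option autoImplicit false

open MeasureTheory Set Filter Topology Metric
open scoped ENNReal NNReal

namespace Crest.Agent.R135

theorem Str.center_mem {K : Set E2} {x : E2} {R : ℝ} {e : E2} (h : Str K x R e) (hR : 0 < R) :
    x ∈ K := (h.2 x (mem_ball_self hR)).2 ⟨0, by rw [zero_smul, add_zero]⟩

theorem Str.mem {K : Set E2} {x : E2} {R : ℝ} {e : E2} (h : Str K x R e) {s : ℝ} (hs : |s| < R) :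
    x + s • e ∈ K := by
  refine (h.2 _ ?_).2 ⟨s, rfl⟩
  rw [mem_ball, dist_eq_norm, add_sub_cancel_left, norm_smul, h.1, mul_one, Real.norm_eq_abs]
  exact hs

/-- the straight discs propagate along the line -/
theorem line_subset {K : Set E2} (hK : IsClosed K)
    (hall : ∀ z ∈ K, ∃ r : ℝ, 0 < r ∧ ∃ e, Str K z r e) {x e : E2} {r0 : ℝ} (hr0 : 0 < r0)
    (hx : Str K x r0 e) (t : ℝ) : x + t • e ∈ K := by
  let A : ℝ → Prop := fun t => ∃ r : ℝ, 0 < r ∧ Str K (x + t • e) r e
  have he : ‖e‖ = 1 := hx.1
  have hcont : Continuous (fun t : ℝ => x + t • e) := by fun_prop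
  have h0 : A 0 := ⟨r0, hr0, by rw [zero_smul, add_zero]; exact hx⟩
  have key : A 0 ↔ A t := by
    refine isPreconnected_univ.induction₂ (fun t t' => (A t ↔ A t')) ?_ ?_ ?_ (mem_univ 0)
      (mem_univ t)
    · intro t _
      by_cases ht : A t
      · obtain ⟨r, hr, hstr⟩ := ht
        have hev : ∀ᶠ t' in 𝓝 t, |t' - t| < r := by
          have := Metric.ball_mem_nhds t hr
          filter_upwards [this] with t' ht'
          rwa [mem_ball, Real.dist_eq] at ht'
        filter_upwards [hev.filter_mono nhdsWithin_le_nhds] with t' ht'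
        refine ⟨fun _ => ⟨r - |t' - t|, by linarith, he, ?_⟩, fun _ => ⟨r, hr, hstr⟩⟩
        intro y hy
        have hy2 : y ∈ ball (x + t • e) r := by
          rw [mem_ball] at hy ⊢
          have h1 := dist_triangle y (x + t' • e) (x + t • e)
          have h2 : dist (x + t' • e) (x + t • e) = |t' - t| := by
            rw [dist_eq_norm, add_sub_add_left_eq_sub, ← sub_smul, norm_smul, he, mul_one,
              Real.norm_eq_abs]
          linarith
        rw [hstr.2 y hy2]
        constructor
        · rintro ⟨s, rfl⟩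
          refine ⟨s + t - t', ?_⟩
          rw [add_assoc, add_assoc, ← add_smul, ← add_smul]
          congr 2
          ring
        · rintro ⟨s, rfl⟩
          refine ⟨s + t' - t, ?_⟩
          rw [add_assoc, add_assoc, ← add_smul, ← add_smul]
          congr 2
          ring
      · by_cases htK : x + t • e ∈ K
        · obtain ⟨r, hr, e', hstr⟩ := hall _ htK
          have hev : ∀ᶠ t' in 𝓝 t, |t' - t| < r := by
            have := Metric.ball_mem_nhds t hr
            filter_upwards [this] with t' ht'
            rwa [mem_ball, Real.dist_eq] at ht'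
          filter_upwards [hev.filter_mono nhdsWithin_le_nhds] with t' ht'
          refine ⟨fun h => absurd h ht, fun h => ?_⟩
          exfalso
          by_cases htt : t' = t
          · rw [htt] at h; exact ht h
          obtain ⟨r', hr', hstr'⟩ := h
          have h1 : x + t' • e ∈ K := hstr'.center_mem hr'
          have h2 : x + t' • e ∈ ball (x + t • e) r := by
            rw [mem_ball, dist_eq_norm, add_sub_add_left_eq_sub, ← sub_smul, norm_smul, he, mul_one,
              Real.norm_eq_abs]
            exact ht'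
          obtain ⟨s, hs⟩ := (hstr.2 _ h2).1 h1
          have h3 : (t' - t) • e = s • e' := by
            rw [add_assoc] at hs
            have := add_left_cancel hs
            rw [sub_smul, this, add_sub_cancel_left]
          have htt' : t' - t ≠ 0 := sub_ne_zero.2 htt
          have hs0 : s ≠ 0 := by
            rintro rfl
            rw [zero_smul] at h3
            rcases smul_eq_zero.1 h3 with h4 | h4
            · exact htt' h4
            · rw [h4, norm_zero] at he
              exact zero_ne_one he
          have h4 : e' = ((t' - t) / s) • e := by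
            rw [div_eq_inv_mul, ← smul_smul, h3, smul_smul, inv_mul_cancel₀ hs0, one_smul]
          apply ht
          refine ⟨r, hr, he, fun y hy => ?_⟩
          rw [hstr.2 y hy]
          constructor
          · rintro ⟨a, rfl⟩
            exact ⟨a * ((t' - t) / s), by rw [h4, smul_smul]⟩
          · rintro ⟨a, rfl⟩
            refine ⟨a * (s / (t' - t)), ?_⟩
            rw [h4, smul_smul]
            congr 2
            field_simp
        · have hev : ∀ᶠ t' in 𝓝 t, x + t' • e ∉ K :=
            hcont.continuousAt.eventually (hK.isOpen_compl.mem_nhds htK)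
          filter_upwards [hev.filter_mono nhdsWithin_le_nhds] with t' ht'
          refine ⟨fun h => absurd h ht, fun h => ?_⟩
          obtain ⟨r, hr, hstr⟩ := h
          exact absurd (hstr.center_mem hr) ht'
    · intro a b c _ _ _ hab hbc
      exact hab.trans hbc
    · intro a b _ _ hab
      exact hab.symm
  obtain ⟨r, hr, hstr⟩ := key.1 h0
  exact hstr.center_mem hr

/-- two points of a line on a sphere whose ball contains a point of the line -/
theorem line_sphere {x y e : E2} (he : ‖e‖ = 1) {R : ℝ} (hy : dist y x < R) :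
    ∃ s t : ℝ, s ≠ t ∧ y + s • e ∈ sphere x R ∧ y + t • e ∈ sphere x R := by
  have hR : 0 < R := lt_of_le_of_lt dist_nonneg hy
  set β : ℝ := inner ℝ (y - x) e with hβ
  set D : ℝ := β ^ 2 + R ^ 2 - dist y x ^ 2 with hD
  have hD0 : 0 < D := by
    have : dist y x ^ 2 < R ^ 2 := pow_lt_pow_left₀ hy dist_nonneg two_ne_zero
    have := sq_nonneg β
    linarith
  have hsq : Real.sqrt D ^ 2 = D := Real.sq_sqrt hD0.le
  have hpos : 0 < Real.sqrt D := Real.sqrt_pos.2 hD0
  have key : ∀ s : ℝ, (s + β) ^ 2 = D → y + s • e ∈ sphere x R := by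
    intro s hs
    rw [mem_sphere]
    have h1 : dist (y + s • e) x ^ 2 = R ^ 2 := by
      have h2 : y + s • e - x = (y - x) + s • e := by abel
      rw [dist_eq_norm, h2, norm_add_sq_real, inner_smul_right, norm_smul, he, mul_one,
        Real.norm_eq_abs, sq_abs, ← hβ, ← dist_eq_norm]
      rw [hD] at hs
      nlinarith
    exact (pow_left_inj₀ dist_nonneg hR.le two_ne_zero).1 h1
  refine ⟨-β + Real.sqrt D, -β - Real.sqrt D, by intro h; linarith, key _ ?_, key _ ?_⟩
  · have : -β + Real.sqrt D + β = Real.sqrt D := by ring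
    rw [this, hsq]
  · have : -β - Real.sqrt D + β = -Real.sqrt D := by ring
    rw [this, neg_sq, hsq]

theorem IsLenMin.isLine {K : Set E2} (h : IsLenMin K) {x : E2} (hx : x ∈ K)
    (hall : ∀ z ∈ K, ∃ r : ℝ, 0 < r ∧ (K ∩ sphere z r).encard ≤ 2) : IsLine K := by
  have hall' : ∀ z ∈ K, ∃ r : ℝ, 0 < r ∧ ∃ e, Str K z r e := by
    intro z hz
    obtain ⟨r, hr, h2⟩ := hall z hz
    exact ⟨r, hr, h.straight hz hr h2⟩
  obtain ⟨r, hr, e, hstr⟩ := hall' x hx
  have hl : ∀ t : ℝ, x + t • e ∈ K := line_subset h.closed hall' hr hstr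
  have he : ‖e‖ = 1 := hstr.1
  have hsub : ∀ y ∈ K, ∃ t : ℝ, y = x + t • e := by
    intro y hy
    by_contra hcon
    obtain ⟨r', hr', e', hstr'⟩ := hall' y hy
    have hl' : ∀ t : ℝ, y + t • e' ∈ K := line_subset h.closed hall' hr' hstr'
    have he' : ‖e'‖ = 1 := hstr'.1
    -- at most one parameter of the first line lies on the second line
    have hss : {t : ℝ | ∃ s : ℝ, x + t • e = y + s • e'}.Subsingleton := by
      rintro t1 ⟨s1, h1⟩ t2 ⟨s2, h2⟩
      by_contra hne
      have h3 : (t1 - t2) • e = (s1 - s2) • e' := by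
        have h4 : (x + t1 • e) - (x + t2 • e) = (y + s1 • e') - (y + s2 • e') := by rw [h1, h2]
        rw [add_sub_add_left_eq_sub, add_sub_add_left_eq_sub, ← sub_smul, ← sub_smul] at h4
        exact h4
      have hs : s1 - s2 ≠ 0 := by
        intro h4
        rw [h4, zero_smul] at h3
        rcases smul_eq_zero.1 h3 with h5 | h5
        · exact hne (by linarith)
        · rw [h5, norm_zero] at he
          exact zero_ne_one he
      have h4 : e' = ((t1 - t2) / (s1 - s2)) • e := by
        rw [div_eq_inv_mul, ← smul_smul, h3, smul_smul, inv_mul_cancel₀ hs, one_smul]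
      apply hcon
      refine ⟨t1 - s1 * ((t1 - t2) / (s1 - s2)), ?_⟩
      rw [sub_smul, ← smul_smul, ← h4, add_sub, h1, add_sub_cancel_right]
    have hae1 : ∀ᵐ t : ℝ, ¬ ∃ s : ℝ, x + t • e = y + s • e' := by
      exact compl_mem_ae_iff.2 (hss.measure_zero volume)
    have hae2 : ∀ᵐ t : ℝ, ¬ ∃ s : ℝ, x + (-t) • e = y + s • e' := by
      have hss2 : {t : ℝ | ∃ s : ℝ, x + (-t) • e = y + s • e'}.Subsingleton := by
        intro t1 h1 t2 h2
        have := hss h1 h2
        linarith
      exact compl_mem_ae_iff.2 (hss2.measure_zero volume)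
    obtain ⟨R, hR1, hR, ⟨hP1, hP2⟩, hR3⟩ := h.exists_radius hx (dist y x) (hae1.and hae2)
    obtain ⟨s, t, hst, hs, ht⟩ := line_sphere he' hR1
    have hp1 : x + R • e ∈ K ∩ sphere x R := by
      refine ⟨hl R, ?_⟩
      rw [mem_sphere, dist_eq_norm, add_sub_cancel_left, norm_smul, he, mul_one,
        Real.norm_of_nonneg hR.le]
    have hp2 : x + (-R) • e ∈ K ∩ sphere x R := by
      refine ⟨hl (-R), ?_⟩
      rw [mem_sphere, dist_eq_norm, add_sub_cancel_left, norm_smul, he, mul_one, norm_neg,
        Real.norm_of_nonneg hR.le]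
    have he0 : e ≠ 0 := by
      intro h0
      rw [h0, norm_zero] at he
      exact zero_ne_one he
    have he0' : e' ≠ 0 := by
      intro h0
      rw [h0, norm_zero] at he'
      exact zero_ne_one he'
    have hne12 : x + R • e ≠ x + (-R) • e := by
      intro h1
      have h2 := add_left_cancel h1
      have h3 : (R - (-R)) • e = 0 := by rw [sub_smul, h2, sub_self]
      rcases smul_eq_zero.1 h3 with h4 | h4
      · linarith
      · exact he0 h4
    have hne34 : y + s • e' ≠ y + t • e' := by
      intro h1
      have h2 := add_left_cancel h1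
      have h3 : (s - t) • e' = 0 := by rw [sub_smul, h2, sub_self]
      rcases smul_eq_zero.1 h3 with h4 | h4
      · exact hst (by linarith)
      · exact he0' h4
    have hcard : ({x + R • e, x + (-R) • e, y + s • e', y + t • e'} : Set E2).encard = 4 := by
      rw [Set.encard_insert_of_notMem, Set.encard_insert_of_notMem, Set.encard_pair hne34]
      · norm_num
      · simp only [mem_insert_iff, mem_singleton_iff, not_or]
        exact ⟨fun h1 => hP2 ⟨s, h1⟩, fun h1 => hP2 ⟨t, h1⟩⟩
      · simp only [mem_insert_iff, mem_singleton_iff, not_or]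
        exact ⟨hne12, fun h1 => hP1 ⟨s, h1⟩, fun h1 => hP1 ⟨t, h1⟩⟩
    have hsubset : ({x + R • e, x + (-R) • e, y + s • e', y + t • e'} : Set E2) ⊆
        K ∩ sphere x R := by
      rintro z (rfl | rfl | rfl | rfl)
      · exact hp1
      · exact hp2
      · exact ⟨hl' s, hs⟩
      · exact ⟨hl' t, ht⟩
    have h4 := (encard_le_encard hsubset).trans hR3
    rw [hcard] at h4
    exact absurd h4 (by decide)
  refine ⟨x, e, he, ?_⟩
  ext y
  constructor
  · intro hy
    obtain ⟨t, rfl⟩ := hsub y hy
    rcases le_total 0 t with ht | ht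
    · exact Or.inl ⟨t, ht, rfl⟩
    · exact Or.inr ⟨-t, by linarith, by rw [smul_neg, neg_smul, neg_neg]⟩
  · rintro (⟨t, ht, rfl⟩ | ⟨t, ht, rfl⟩)
    · exact hl t
    · have := hl (-t)
      rwa [neg_smul, ← smul_neg] at this

/-- **Classification** of closed sets minimizing length among separation preserving sets. -/
theorem IsLenMin.classify {K : Set E2} (h : IsLenMin K) :
    K = ∅ ∨ IsLine K ∨ ∃ x, IsProp K x := by
  rcases K.eq_empty_or_nonempty with h0 | ⟨x, hx⟩
  · exact Or.inl h0
  right
  by_cases hall : ∀ z ∈ K, ∃ r : ℝ, 0 < r ∧ (K ∩ sphere z r).encard ≤ 2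
  · exact Or.inl (h.isLine hx hall)
  · push Not at hall
    obtain ⟨z, hz, hall⟩ := hall
    refine Or.inr ⟨z, h.isProp hz (Eventually.of_forall fun s hs => ?_)⟩
    have h1 := hall s hs
    have h2 : (2 : ℕ∞) + 1 ≤ (K ∩ sphere z s).encard := Order.add_one_le_of_lt h1
    exact h2

/-- a zero energy global object minimizes length -/
theorem IsQM.isLenMin {u : E2 → ℝ} {K : Set E2} (h : IsQM univ 0 u K)
    (h0 : ∀ y ∉ K, gradient u y = 0) : IsLenMin K := by
  have hcl : IsClosed K := by
    have := h.closed
    rw [inter_univ] at this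
    exact isClosed_of_closure_subset this
  have hlc : LocConstOn (univ \ K) u := by
    rintro y ⟨-, hy⟩
    obtain ⟨δ, hδ, hball⟩ := Metric.isOpen_iff.1 hcl.isOpen_compl y hy
    have hd : DifferentiableOn ℝ u (ball y δ) := fun z hz =>
      (h.contDiffAt ⟨mem_univ z, hball hz⟩).differentiableAt one_ne_zero |>.differentiableWithinAt
    filter_upwards [ball_mem_nhds y hδ] with z hz
    refine (convex_ball y δ).is_const_of_fderivWithin_eq_zero (𝕜 := ℝ) hd ?_ hz (mem_ball_self hδ)
    intro w hw
    rw [fderivWithin_of_isOpen isOpen_ball hw]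
    have h1 := h.hasGradientAt (y := w) ⟨mem_univ w, hball hw⟩
    rw [h0 w (hball hw)] at h1
    have h2 := h1.hasFDerivAt.fderiv
    rw [h2, map_zero]
  refine ⟨hcl, fun x r => h.len_fin x r (subset_univ _), h.red, ?_⟩
  intro x ρ hρ L hL hLK hkeep
  by_cases hfin : len (L ∩ closedBall x ρ) = ⊤
  · rw [hfin]; exact le_top
  obtain ⟨c', hc', hcc⟩ := hkeep u hlc
  have hcomp : IsComp univ u K x ρ c' L := by
    refine ⟨subset_univ _, ?_, lt_top_iff_ne_top.2 hfin, hLK, ?_, hcc, hkeep⟩
    · rw [hL.closure_eq]; exact inter_subset_left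
    · have hopen : IsOpen (univ \ L) := by
        rw [← compl_eq_univ_sdiff]; exact hL.isOpen_compl
      exact (locallyLipschitzOn_iff_lipAt hopen).2 fun z hz => hc'.lipAt hz
  have h1 := h.min x ρ hρ (subset_univ _) c' L hcomp
  have h2 : dirE c' L (closedBall x ρ) = 0 := by
    unfold dirE
    have h3 : ∫⁻ z in closedBall x ρ \ L, ‖gradient c' z‖ₑ ^ 2 =
        ∫⁻ z in closedBall x ρ \ L, 0 := by
      refine setLIntegral_congr_fun (measurableSet_closedBall.diff hL.measurableSet) ?_
      intro z hz
      have h4 : gradient c' z = 0 :=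
        gradient_eq_zero_of_eventually_const (c' z) (hc' z ⟨mem_univ z, hz.2⟩)
      simp only [h4]
      simp
    rw [h3]
    simp
  have h5 : enE c' L (closedBall x ρ) = len (L ∩ closedBall x ρ) := by
    unfold enE
    rw [h2, zero_add]
  rw [h5] at h1
  simp only [zero_mul, ENNReal.ofReal_zero, add_zero] at h1
  exact (le_add_self).trans h1

/-- the target: `net_thm` of the interface -/
theorem net_classify {u : E2 → ℝ} {K : Set E2} (h : IsQM univ 0 u K)
    (h0 : ∀ y ∉ K, gradient u y = 0) : K = ∅ ∨ IsLine K ∨ ∃ x, IsProp K x :=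
  (h.isLenMin h0).classify

end Crest.Agent.R135
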