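import Crest.Agent.R135.IFDefs2
import Crest.Agent.R135.Net7

/-! INTERFACE net_thm (helper564): proved in Net1-Net7. -/

set_option autoImplicit false

open MeasureTheory Set Filter Topology Metric
open scoped ENNReal NNReal ContDiff Gradient
open Crest.AnalysisR.PDE.OnePhase Crest.AnalysisR.PDE.MumfordShah

namespace Crest.Agent.R135

/-- NET (C5): zero energy -/
theorem net_thm {u : E2 → ℝ} {K : Set E2} (h : IsQM univ 0 u K)
    (h0 : ∀ y ∉ K, gradient u y = 0) : K = ∅ ∨ IsLine K ∨ ∃ x, IsProp K x :=
  net_classify h h0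

end Crest.Agent.R135
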