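import Crest.Agent.R135.IFDefs2
import Crest.Agent.R135.CT1
import Crest.Agent.R135.PolarF

/-!
# R135: the cracktip has small density off its centre (helper270)
-/

set_option autoImplicit false

open MeasureTheory Set Filter Topology Metric
open scoped ENNReal NNReal ContDiff Gradient

namespace Crest.Agent.R135

/-- `|∇u|² = 1/(2π dist)` for the normalised cracktip -/
theorem IsTip.norm_gradient_sq {u : E2 → ℝ} {K : Set E2} {x : E2} (h : IsTip u K x) {z : E2}
    (hz : z ∉ K) : ‖gradient u z‖ ^ 2 = 1 / (2 * Real.pi * dist z x) := by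
  obtain ⟨θ₀, c, A, hK, hA, hu⟩ := h
  have hxK : x ∈ K := by
    rw [hK]; exact ⟨0, le_rfl, by simp⟩
  have hzx : z ≠ x := fun h => hz (h ▸ hxK)
  have hpos : 0 < dist z x := dist_pos.2 hzx
  obtain ⟨θ, hθ, he⟩ := exists_cpt_eq hpos (rfl : z ∈ Metric.sphere x (dist z x)) θ₀
  have hne : θ ≠ θ₀ := by
    intro h1
    apply hz
    rw [hK, he.symm, h1]
    exact ⟨dist z x, hpos.le, rfl⟩
  have hφ : θ - θ₀ ∈ Ioo (0 : ℝ) (2 * Real.pi) := by
    constructor
    · have := lt_of_le_of_ne hθ.1 (Ne.symm hne)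
      linarith
    · have := hθ.2
      linarith
  have h1 := (hu (dist z x) hpos (θ - θ₀) hφ).2
  have h2 : θ₀ + (θ - θ₀) = θ := by ring
  rw [h2, he] at h1
  rw [h1, norm_smul, mul_pow]
  have h3 : ‖Real.cos ((θ - θ₀) / 2) • dir θ - Real.sin ((θ - θ₀) / 2) • tau θ‖ ^ 2 = 1 := by
    rw [norm_sub_sq_real, norm_smul, norm_smul, inner_smul_left, inner_smul_right, inner_dir_tau,
      norm_dir, norm_tau]
    simp only [Real.norm_eq_abs, mul_one, sq_abs, mul_zero, sub_zero]
    rw [Real.cos_sq_add_sin_sq]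
  rw [h3, mul_one, Real.norm_eq_abs, sq_abs, div_pow, mul_pow, Real.sq_sqrt hpos.le, hA]
  field_simp

/-- `(u,K)` tip centred at `x`, `y ∈ K`, `y ≠ x`: the density is small at `y` at small scales -/
theorem tip_off_centre_aux {u : E2 → ℝ} {K : Set E2} {x y : E2} (h : IsTip u K x)
    (hxy : dist y x = 1) {c : ℝ} (hc : 0 < c) (hc2 : c ≤ 1 / 2) : Dr u K y c ≤ c ^ 2 := by
  have h1 : dirE u K (ball y c) ≤ ∫⁻ _ in ball y c, ENNReal.ofReal (1 / Real.pi) := by
    unfold dirE
    refine le_trans ?_ (lintegral_mono_set (sdiff_subset (s := ball y c) (t := K)))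
    have hopen : MeasurableSet (ball y c \ K) := by
      obtain ⟨θ₀, c', A, hK, -, -⟩ := h
      refine measurableSet_ball.diff ?_
      rw [hK]
      have : IsClosed (ray x (dir θ₀)) := by
        have h2 : ray x (dir θ₀) = (fun s : ℝ => x + s • dir θ₀) '' Ici 0 := by
          ext z; constructor
          · rintro ⟨s, hs, rfl⟩; exact ⟨s, hs, rfl⟩
          · rintro ⟨s, hs, rfl⟩; exact ⟨s, hs, rfl⟩
        rw [h2]
        have hiso : Isometry (fun s : ℝ => x + s • dir θ₀) := by
          refine Isometry.of_dist_eq fun a b => ?_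
          rw [dist_add_left, dist_eq_norm, ← sub_smul, norm_smul, norm_dir, mul_one,
            Real.dist_eq, Real.norm_eq_abs]
        exact hiso.isClosedEmbedding.isClosedMap _ isClosed_Ici
      exact this.measurableSet
    refine setLIntegral_mono' hopen fun z hz => ?_
    have h2 := h.norm_gradient_sq hz.2
    have h3 : (1 : ℝ) / 2 ≤ dist z x := by
      have h4 := dist_triangle y z x
      have h5 : dist z y < c := hz.1
      rw [dist_comm y z] at h4
      linarith
    rw [← ofReal_norm, ← ENNReal.ofReal_pow (norm_nonneg _), h2]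
    refine ENNReal.ofReal_le_ofReal ?_
    have hpi := Real.pi_pos
    refine one_div_le_one_div_of_le hpi ?_
    nlinarith
  rw [setLIntegral_const, EuclideanSpace.volume_ball_fin_two] at h1
  have h2 : ENNReal.ofReal (1 / Real.pi) * (ENNReal.ofReal c ^ 2 * ENNReal.ofReal Real.pi) =
      ENNReal.ofReal (c ^ 2) := by
    rw [← ENNReal.ofReal_pow hc.le, ← ENNReal.ofReal_mul (by positivity),
      ← ENNReal.ofReal_mul (by positivity)]
    congr 1
    have := Real.pi_pos
    field_simp
  rw [h2] at h1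
  have h3 := ENNReal.toReal_mono ENNReal.ofReal_ne_top h1
  rwa [ENNReal.toReal_ofReal (by positivity)] at h3

end Crest.Agent.R135
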