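import Crest.Agent.R135.IFDefs2
import Crest.Agent.R135.TipOff

/-! INTERFACE tip_off_centre: replace the sorry here (import your own files), keep the statement. -/

set_option autoImplicit false

open MeasureTheory Set Filter Topology Metric
open scoped ENNReal NNReal ContDiff Gradient
open Crest.AnalysisR.PDE.OnePhase Crest.AnalysisR.PDE.MumfordShah

namespace Crest.Agent.R135

/-- `(u,K)` tip centred at `x`, `y ∈ K`, `y ≠ x`: the density is small at `y` at small scales -/
theorem tip_off_centre {u : E2 → ℝ} {K : Set E2} {x y : E2} (h : IsTip u K x)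
    (hxy : dist y x = 1) {c : ℝ} (hc : 0 < c) (hc2 : c ≤ 1 / 2) : Dr u K y c ≤ 4 * c * c :=
  (tip_off_centre_aux h hxy hc hc2).trans (by nlinarith [sq_nonneg c])

end Crest.Agent.R135
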