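import Crest.Agent.R135.IFDefs2
import Crest.Agent.R135.IF_no_cluster
import Crest.Agent.R135.IF_component_unbounded_gm
import Crest.Agent.R135.IF_zero_flux
import Crest.Agent.R135.IF_Dr_div_mono
import Crest.Agent.R135.IF_cone_thm
import Crest.Agent.R135.IF_net_thm
import Crest.Agent.R135.IF_tip_off_centre
import Crest.Agent.R135.Class

/-!
# INTERFACE GM (helper253): global objects, i.e. `IsQM univ 0 u K`

Owners: `no_cluster` helper391 (EARN), `component_unbounded_gm` helper391,
`zero_flux` helper638 (+ SEP helper990), `Dr_div_mono`, `cone_thm` helper898 (+ helper828 for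
`e = 1`), `net_thm` helper564, CLASS (all the `gm_*` theorems) helper804.
Each owner may replace the sorry in place (importing the own files), or tell me to move the
statement to a separate file. The statements are not to be changed without a post.
-/

set_option autoImplicit false

open MeasureTheory Set Filter Topology Metric
open scoped ENNReal NNReal ContDiff Gradient

namespace Crest.Agent.R135

/-! ### CLASS (proved in Class.lean from `Dr_div_mono`, `cone_thm`, `net_thm`; helper804) -/

theorem monoStmt : MonoStmt := fun _ _ h x => Dr_div_mono h x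

theorem coneStmt : ConeStmt := fun _ _ _ _ h he hD => by
  rcases cone_thm h hD with h1 | h1
  · exact absurd h1 he.ne'
  · exact h1.1

/-- the density of a global object is at most one -/
theorem gm_Dr_le {u : E2 → ℝ} {K : Set E2} (h : IsQM univ 0 u K) (x : E2) {r : ℝ} (hr : 0 < r) :
    Dr u K x r ≤ r := Cls.Dr_le_self monoStmt coneStmt h x hr

/-- density at infinity -/
theorem gm_density_top {u : E2 → ℝ} {K : Set E2} (h : IsQM univ 0 u K) (x : E2) :
    Tendsto (fun r => Dr u K x r / r) atTop (𝓝 0) ∨
      Tendsto (fun r => Dr u K x r / r) atTop (𝓝 1) :=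
  Cls.tendsto_atTop monoStmt coneStmt h x

/-- density at zero -/
theorem gm_density_zero {u : E2 → ℝ} {K : Set E2} (h : IsQM univ 0 u K) (x : E2) :
    Tendsto (fun r => Dr u K x r / r) (𝓝[>] 0) (𝓝 0) ∨
      Tendsto (fun r => Dr u K x r / r) (𝓝[>] 0) (𝓝 1) :=
  Cls.tendsto_nhds_zero monoStmt coneStmt h x

/-- a global object with small density at arbitrarily large scales has zero gradient -/
theorem gm_gradient_zero {u : E2 → ℝ} {K : Set E2} (h : IsQM univ 0 u K) {x : E2} {ε : ℝ}
    (hε : ε < 1) (hf : ∃ᶠ r in atTop, Dr u K x r ≤ ε * r) : ∀ y ∉ K, gradient u y = 0 :=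
  Cls.gradient_eq_zero_of_small monoStmt coneStmt h x hε hf

/-- hence it is empty, a line or a propeller -/
theorem gm_shape {u : E2 → ℝ} {K : Set E2} (h : IsQM univ 0 u K) {x : E2} {ε : ℝ}
    (hε : ε < 1) (hf : ∃ᶠ r in atTop, Dr u K x r ≤ ε * r) :
    (∀ y ∉ K, gradient u y = 0) ∧ (∀ x r, Dr u K x r = 0) ∧
      (K = ∅ ∨ IsLine K ∨ ∃ z, IsProp K z) := by
  have h0 := gm_gradient_zero h hε hf
  exact ⟨h0, fun x r => Cls.Dr_eq_zero_of_gradient h h0 x r, net_thm h h0⟩

/-- a global object with density bounded below at all scales around `x` is a tip centred at `x` -/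
theorem gm_tip {u : E2 → ℝ} {K : Set E2} (h : IsQM univ 0 u K) {x : E2} {ε : ℝ}
    (hε : 0 < ε) (hf : ∀ r : ℝ, 0 < r → ε * r ≤ Dr u K x r) : IsTip u K x := by
  have h1 : ∀ r : ℝ, 0 < r → Dr u K x r = 1 * r := by
    intro r hr
    rw [one_mul]
    refine Cls.Dr_eq_self_of_big monoStmt coneStmt h x hε (Eventually.frequently ?_) r hr
    filter_upwards [self_mem_nhdsWithin] with s hs using hf s hs
  rcases cone_thm h h1 with h2 | h2
  · exact absurd h2 one_ne_zero
  · exact h2.2

end Crest.Agent.R135
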