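import Crest.Agent.R135.Phs4
import Crest.Agent.R135.IFDefs2
import Crest.Agent.R135.FlatLine

/-!
# R135 / PHASE: interface form (helper12)
-/

set_option autoImplicit false

noncomputable section

open MeasureTheory Set Filter Topology Metric Real
open scoped ENNReal NNReal ContDiff Gradient

namespace Crest.Agent.R135.Phs

lemma J_dir (θ : ℝ) : Arc.J (dir θ) = tau θ := by
  apply ext_E2 <;> simp

lemma star_two (v : E2) (θ : ℝ) : star 2 v θ = ray v (dir θ) ∪ ray v (-dir θ) := by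
  have e1 : dir (θ + 2 * π * ((1:ℕ):ℝ) / (2:ℕ)) = -dir θ := by
    apply ext_E2 <;> simp [cos_add, sin_add]
  ext y
  simp only [star, mem_ofPred_eq, mem_union]
  constructor
  · rintro ⟨k, hk, hy⟩
    interval_cases k
    · left; simpa using hy
    · right; rwa [e1] at hy
  · rintro (hy | hy)
    · exact ⟨0, by norm_num, by simpa using hy⟩
    · exact ⟨1, by norm_num, by rwa [e1]⟩

lemma add_smul_mem_star_two (v : E2) (θ t : ℝ) : v + t • dir θ ∈ star 2 v θ := by
  rw [star_two]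
  rcases le_total 0 t with h | h
  · exact Or.inl ⟨t, h, rfl⟩
  · exact Or.inr ⟨-t, by linarith, by simp⟩

lemma hclose_of_flat {K : Set E2} {y : E2} {θ ρ E E' : ℝ} (h : Arc.Flat K y (dir θ) ρ E)
    (hE : E < E') : HClose E' y ρ K (star 2 y θ) := by
  obtain ⟨_, h1, h2⟩ := h
  constructor
  · intro w hw
    refine ⟨y + (inner ℝ (w - y) (dir θ)) • dir θ, add_smul_mem_star_two _ _ _, ?_⟩
    refine lt_of_le_of_lt ?_ hE
    have h3 := h1 w hw.1 (mem_ball.1 hw.2).le
    rw [J_dir] at h3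
    refine le_trans (le_of_eq ?_) h3
    rw [dist_eq_norm]
    have e : w - (y + (inner ℝ (w - y) (dir θ)) • dir θ) =
        (w - y) - (inner ℝ (w - y) (dir θ)) • dir θ := by abel
    rw [e]
    generalize w - y = v
    have h4 := norm_sq_frame (v - (inner ℝ v (dir θ)) • dir θ) θ
    rw [inner_sub_left, inner_sub_left, inner_smul_left, inner_smul_left, inner_dir_dir,
      inner_dir_tau] at h4
    simp only [conj_trivial, sub_self, cos_zero, mul_one, mul_zero, sub_zero] at h4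
    rw [zero_pow two_ne_zero, zero_add] at h4
    rw [sq_eq_sq_iff_abs_eq_abs] at h4
    simpa using h4
  · intro q hq
    obtain ⟨hq1, hq2⟩ := hq
    obtain ⟨t, ht, rfl⟩ : ∃ t : ℝ, |t| ≤ ρ ∧ q = y + t • dir θ := by
      rw [star_two] at hq1
      rw [mem_ball] at hq2
      rcases hq1 with ⟨t, ht, rfl⟩ | ⟨t, ht, rfl⟩
      · refine ⟨t, ?_, rfl⟩
        rw [dist_eq_norm, add_sub_cancel_left, norm_smul, norm_dir, mul_one,
          Real.norm_eq_abs] at hq2
        exact hq2.le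
      · refine ⟨-t, ?_, by simp⟩
        rw [dist_eq_norm, add_sub_cancel_left, norm_smul, norm_neg, norm_dir, mul_one,
          Real.norm_eq_abs] at hq2
        rw [abs_neg]
        exact hq2.le
    obtain ⟨z, hz, hd⟩ := h2 t ht
    exact ⟨z, hz, by rw [dist_comm]; exact hd.trans_lt hE⟩

lemma rt_dir (θ : ℝ) (k : Fin 3) :
    Arc.rt (Arc.a3 k) (Arc.b3 k) (dir θ) = dir (θ + 2 * π * ((k : ℕ) : ℝ) / (3:ℕ)) := by
  have c1 : cos (2 * π / 3) = -(1 / 2) := by
    have : 2 * π / 3 = π - π / 3 := by ring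
    rw [this, cos_pi_sub, cos_pi_div_three]
  have s1 : sin (2 * π / 3) = √3 / 2 := by
    have : 2 * π / 3 = π - π / 3 := by ring
    rw [this, sin_pi_sub, sin_pi_div_three]
  have c2 : cos (2 * π * 2 / 3) = -(1 / 2) := by
    have : 2 * π * 2 / 3 = π / 3 + π := by ring
    rw [this, cos_add_pi, cos_pi_div_three]
  have s2 : sin (2 * π * 2 / 3) = -(√3 / 2) := by
    have : 2 * π * 2 / 3 = π / 3 + π := by ring
    rw [this, sin_add_pi, sin_pi_div_three]
  unfold Arc.rt
  rw [J_dir]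
  fin_cases k
  · simp [Arc.a3, Arc.b3]
  · apply ext_E2
    · simp only [Arc.a3, Arc.b3, PiLp.add_apply, PiLp.smul_apply, smul_eq_mul, dir_zero, tau_zero]
      simp [cos_add, c1, s1]
      ring
    · simp only [Arc.a3, Arc.b3, PiLp.add_apply, PiLp.smul_apply, smul_eq_mul, dir_one, tau_one]
      simp [sin_add, c1, s1]
      ring
  · apply ext_E2
    · simp only [Arc.a3, Arc.b3, PiLp.add_apply, PiLp.smul_apply, smul_eq_mul, dir_zero, tau_zero]
      simp [cos_add, c2, s2]
      ring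
    · simp only [Arc.a3, Arc.b3, PiLp.add_apply, PiLp.smul_apply, smul_eq_mul, dir_one, tau_one]
      simp [sin_add, c2, s2]
      ring

lemma hclose_of_starAt {K : Set E2} {y : E2} {θ ρ E E' : ℝ}
    (h : Arc.StarAt Arc.a3 Arc.b3 K y (dir θ) ρ E) (hE : E < E') :
    HClose E' y ρ K (star 3 y θ) := by
  obtain ⟨_, h1, h2⟩ := h
  constructor
  · intro w hw
    obtain ⟨k, t, ht, hd⟩ := h1 w hw.1 (mem_ball.1 hw.2).le
    rw [rt_dir] at hd
    exact ⟨_, ⟨k, k.2, t, ht, rfl⟩, hd.trans_lt hE⟩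
  · rintro q ⟨⟨k, hk, t, ht, rfl⟩, hq⟩
    rw [mem_ball, dist_eq_norm, add_sub_cancel_left, norm_smul, norm_dir, mul_one,
          Real.norm_eq_abs, abs_of_nonneg ht] at hq
    obtain ⟨z, hz, hd⟩ := h2 ⟨k, hk⟩ t ht hq.le
    rw [rt_dir] at hd
    exact ⟨z, hz, by rw [dist_comm]; exact hd.trans_lt hE⟩

lemma Regime.weaken {U : Set E2} {u : E2 → ℝ} {K : Set E2} {y : E2} {R η η' : ℝ}
    (h : Regime U u K y R η) (hη : η ≤ η') : Regime U u K y R η' := by
  refine ⟨h.sub, ?_, ?_⟩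
  · intro z hz hzy s hs hsR
    obtain ⟨m, hm, v, θ, hc⟩ := h.fl z hz hzy s hs hsR
    have hle : η * s ≤ η' * s := mul_le_mul_of_nonneg_right hη hs.le
    refine ⟨m, hm, v, θ, ?_, ?_⟩
    · intro w hw
      obtain ⟨q, hq, hd⟩ := hc.1 w hw
      exact ⟨q, hq, hd.trans_le hle⟩
    · intro w hw
      obtain ⟨q, hq, hd⟩ := hc.2 w hw
      exact ⟨q, hq, hd.trans_le hle⟩
  · intro z hz hzy s hs hsR
    exact (h.dr z hz hzy s hs hsR).trans (mul_le_mul_of_nonneg_right hη hs.le)

lemma regime_of_lineReg {ε : ℝ} {U : Set E2} {lam : ℝ} {u : E2 → ℝ} {K : Set E2} {y : E2} {r : ℝ}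
    (hε : 0 < ε) (h : LineReg ε U lam u K y r) {z : E2} (hzy : dist z y ≤ r / 2)
    {R : ℝ} (hR : R ≤ r / 4) : Regime U u K z R (2 * ε) := by
  have hr := h.pos
  refine ⟨?_, ?_, ?_⟩
  · refine (closedBall_subset_closedBall' ?_).trans h.sub
    linarith
  · intro w hw hwz s hs hsR
    have hwy : dist w y < r := by
      have := dist_triangle w z y
      linarith
    obtain ⟨e, he⟩ := h.flat w hw hwy s hs (by linarith)
    obtain ⟨θ, _, rfl⟩ := exists_dir_eq e he.1 0
    exact ⟨2, Or.inl rfl, w, θ, hclose_of_flat he (by nlinarith)⟩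
  · intro w hw hwz s hs hsR
    have hwy : dist w y < r := by
      have := dist_triangle w z y
      linarith
    refine (h.en w hw hwy s hs (by linarith)).trans ?_
    nlinarith

lemma regime_of_propReg {ε : ℝ} {U : Set E2} {lam : ℝ} {u : E2 → ℝ} {K : Set E2} {x : E2} {r : ℝ}
    (hε : 0 < ε) (h : PropReg ε U lam u K x r) {R : ℝ} (hR : R ≤ r / 4) :
    Regime U u K x R (4 * ε) := by
  have hr := h.pos
  refine ⟨?_, ?_, ?_⟩
  · refine (closedBall_subset_closedBall ?_).trans h.sub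
    linarith
  · intro w hw hwx s hs hsR
    have hwxr : dist w x < r := by linarith
    by_cases hc : 0 < dist w x ∧ s ≤ dist w x / 2
    · obtain ⟨⟨e, he⟩, _⟩ := h.line w hw hc.1 hwxr s hs hc.2
      obtain ⟨θ, _, rfl⟩ := exists_dir_eq e he.1 0
      exact ⟨2, Or.inl rfl, w, θ, hclose_of_flat he (by nlinarith)⟩
    · have hsw : dist w x ≤ 2 * s := by
        rcases not_and_or.1 hc with h1 | h1
        · linarith [dist_nonneg (x := w) (y := x)]
        · push Not at h1; linarith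
      obtain ⟨e, he⟩ := h.prop (s + dist w x) (by linarith [dist_nonneg (x := w) (y := x)])
        (by linarith)
      obtain ⟨θ, _, rfl⟩ := exists_dir_eq e he.1 0
      have h1 := hclose_of_starAt (E' := 4 * ε * s) he (by nlinarith)
      have hsub : ball w s ⊆ ball x (s + dist w x) := ball_subset_ball' le_rfl
      exact ⟨3, Or.inr rfl, x, θ, fun p hp => h1.1 p ⟨hp.1, hsub hp.2⟩,
        fun p hp => h1.2 p ⟨hp.1, hsub hp.2⟩⟩
  · intro w hw hwx s hs hsR
    refine (h.en w hw (by linarith) s hs (by linarith)).trans ?_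
    nlinarith

/-- the phase function from the label function -/
lemma isPhase_of {δ : ℝ} {u : E2 → ℝ} {K : Set E2} {z : E2} {s : ℝ} {χ : E2 → ℝ} {c : ℕ → ℝ}
    {m : ℕ} (h1 : LocConstOn (ball z s \ K) χ)
    (h2 : ∀ w ∈ ball z s \ K, ∃ k < m, χ w = (k : ℝ) ∧ |u w - c k| ≤ δ * √s) :
    IsPhase δ u K z s (fun w => c ⌊χ w⌋₊) := by
  refine ⟨?_, ?_, ?_⟩
  · intro w hw
    filter_upwards [h1 w hw] with p hp
    rw [hp]
  · refine ((finite_Iio m).image c).subset ?_
    rintro _ ⟨w, hw, rfl⟩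
    obtain ⟨k, hk, e, _⟩ := h2 w hw
    exact ⟨k, hk, by simp only [e, Nat.floor_natCast]⟩
  · intro w hw
    obtain ⟨k, hk, e, h3⟩ := h2 w hw
    simp only [e, Nat.floor_natCast]
    exact h3

theorem phase_line' (δ : ℝ) (hδ : 0 < δ) : ∃ ε : ℝ, 0 < ε ∧
    ∀ {U : Set E2} {lam : ℝ} {u : E2 → ℝ} {K : Set E2} {y : E2} {r : ℝ}, IsSQM U lam u K →
      LineReg ε U lam u K y r → ∀ z ∈ K, dist z y ≤ r / 2 → ∀ s : ℝ, 0 < s → s ≤ r / 16 →
        LinePhase δ u K z s := by
  obtain ⟨κ, hκ, hgen⟩ := phase_gen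
  set a : ℝ := min δ (1 / 200) with ha
  have ha0 : 0 < a := lt_min hδ (by norm_num)
  obtain ⟨η0, hη0, H⟩ := hgen δ a hδ ha0 (min_le_right _ _)
  refine ⟨min (η0 / 2) (a / 11), lt_min (by positivity) (by positivity), ?_⟩
  set ε := min (η0 / 2) (a / 11) with hε
  have hε0 : 0 < ε := lt_min (by positivity) (by positivity)
  have hε1 : ε ≤ η0 / 2 := min_le_left _ _
  have hε2 : ε ≤ a / 11 := min_le_right _ _
  have haδ : a ≤ δ := min_le_left _ _
  intro U lam u K y r h hreg z hz hzy s hs hsr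
  have hr := hreg.pos
  have hlam0 := h.lam_nonneg
  have hR : Regime U u K z (4 * s) η0 :=
    (regime_of_lineReg hε0 hreg hzy (by linarith)).weaken (by linarith)
  obtain ⟨e, he⟩ := hreg.flat z hz (by linarith) (2 * s) (by positivity) (by linarith)
  obtain ⟨θ, _, rfl⟩ := exists_dir_eq e he.1 0
  have hcl : HClose (a * s / 5) z (2 * s) K (star 2 z θ) := hclose_of_flat he (by nlinarith)
  have hlam : lam * s ≤ η0 := by
    have := hreg.lam_le
    have h1 : lam * s ≤ lam * r := mul_le_mul_of_nonneg_left (by linarith) hlam0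
    linarith
  obtain ⟨χ, c, h1, h2, h3, h4⟩ := H h hs (by linarith [hreg.le_one]) hlam hR hz (Or.inl rfl) hcl
    le_rfl
  have hb0 : dir (bis 2 θ 0) = tau θ := by
    unfold bis
    apply ext_E2 <;> simp [cos_add, sin_add]
  have hb1 : dir (bis 2 θ 1) = -tau θ := by
    have e : bis 2 θ 1 = θ + π / 2 + π := by unfold bis; push_cast; ring
    rw [e]
    apply ext_E2 <;> simp [cos_add, sin_add]
  have hdep : ∀ ψ w, depth 2 z ψ w = inner ℝ (w - z) (dir ψ) := by
    intro ψ w
    unfold depth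
    norm_num
  refine ⟨fun w => c ⌊χ w⌋₊, dir θ, c 0, c 1, isPhase_of h1 h2, ?_, ?_, ?_, ?_⟩
  · exact he.mono (by linarith) (by nlinarith)
  · intro hc
    have := h4 0 (by norm_num) 1 (by norm_num) (by norm_num)
    rw [hc, sub_self, abs_zero] at this
    have : 0 < κ * √s := mul_pos hκ (Real.sqrt_pos.2 hs)
    linarith
  · intro w hw hwd
    have h5 := h3 0 (by norm_num) w hw (by
      rw [hdep, hb0, ← J_dir]
      nlinarith)
    simp only [h5.2, Nat.floor_natCast]
  · intro w hw hwd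
    have h5 := h3 1 (by norm_num) w hw (by
      rw [hdep, hb1, inner_neg_right, ← J_dir]
      nlinarith)
    simp only [h5.2, Nat.floor_natCast]

theorem phase_prop' (δ : ℝ) (hδ : 0 < δ) : ∃ ε : ℝ, 0 < ε ∧
    ∀ {U : Set E2} {lam : ℝ} {u : E2 → ℝ} {K : Set E2} {x : E2} {r : ℝ}, IsSQM U lam u K →
      PropReg ε U lam u K x r → ∀ s : ℝ, 0 < s → s ≤ r / 16 → PropPhase δ u K x s := by
  obtain ⟨κ, hκ, hgen⟩ := phase_gen
  set a : ℝ := min δ (1 / 200) with ha
  have ha0 : 0 < a := lt_min hδ (by norm_num)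
  obtain ⟨η0, hη0, H⟩ := hgen δ a hδ ha0 (min_le_right _ _)
  refine ⟨min (η0 / 4) (a / 11), lt_min (by positivity) (by positivity), ?_⟩
  set ε := min (η0 / 4) (a / 11) with hε
  have hε0 : 0 < ε := lt_min (by positivity) (by positivity)
  have hε1 : ε ≤ η0 / 4 := min_le_left _ _
  have hε2 : ε ≤ a / 11 := min_le_right _ _
  have haδ : a ≤ δ := min_le_left _ _
  intro U lam u K x r h hreg s hs hsr
  have hr := hreg.pos
  have hlam0 := h.lam_nonneg
  have hR : Regime U u K x (4 * s) η0 :=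
    (regime_of_propReg hε0 hreg (by linarith)).weaken (by linarith)
  obtain ⟨e, he⟩ := hreg.prop (2 * s) (by positivity) (by linarith)
  obtain ⟨θ, _, rfl⟩ := exists_dir_eq e he.1 0
  have hcl : HClose (a * s / 5) x (2 * s) K (star 3 x θ) := hclose_of_starAt he (by nlinarith)
  have hlam : lam * s ≤ η0 := by
    have := hreg.lam_le
    have h1 : lam * s ≤ lam * r := mul_le_mul_of_nonneg_left (by linarith) hlam0
    linarith
  obtain ⟨χ, c, h1, h2, h3, h4⟩ := H h hs (by linarith [hreg.le_one]) hlam hR hreg.mem (Or.inr rfl)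
    hcl le_rfl
  have hsmono : Arc.StarAt Arc.a3 Arc.b3 K x (dir θ) s (δ * s) := by
    obtain ⟨g0, g1, g2⟩ := he
    refine ⟨g0, ?_, ?_⟩
    · intro w hw hwd
      obtain ⟨k, t, ht, hd⟩ := g1 w hw (by linarith)
      exact ⟨k, t, ht, hd.trans (by nlinarith)⟩
    · intro k t ht hts
      obtain ⟨w, hw, hd⟩ := g2 k t ht (by linarith)
      exact ⟨w, hw, hd.trans (by nlinarith)⟩
  refine ⟨fun w => c ⌊χ w⌋₊, θ, fun k => c k, isPhase_of h1 h2, hsmono, ?_, ?_⟩
  · intro k l hkl
    by_contra hne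
    have hne' : (k : ℕ) ≠ (l : ℕ) := fun hc => hne (Fin.ext hc)
    have := h4 k k.2 l l.2 hne'
    simp only at hkl
    rw [hkl, sub_self, abs_zero] at this
    have : 0 < κ * √s := mul_pos hκ (Real.sqrt_pos.2 hs)
    linarith
  · intro k t ht1 ht2 φ hφ
    have ht0 : 0 ≤ t := by linarith
    have hmem : cpt x t φ ∈ ball x s := by
      rw [mem_ball, cpt, dist_eq_norm, add_sub_cancel_left, norm_smul, norm_dir, mul_one,
          Real.norm_eq_abs, abs_of_nonneg ht0]
      exact ht2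
    have hbis : θ + (2 * ((k : ℕ) : ℝ) + 1) * π / 3 = bis 3 θ k := by
      unfold bis; push_cast; ring
    rw [hbis] at hφ
    set α := |φ - bis 3 θ k| with hα
    have hα0 : 0 ≤ α := abs_nonneg _
    have hdep : depth 3 x (bis 3 θ k) (cpt x t φ) = t * sin (π / 3 - α) := by
      rw [depth_cpt _ _ _ ht0]
      have e1 : cos (φ - bis 3 θ k) = cos α := (cos_abs _).symm
      have e2 : |sin (φ - bis 3 θ k)| = sin α := by
        have hnn : 0 ≤ sin α := sin_nonneg_of_nonneg_of_le_pi hα0 (by linarith [pi_pos])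
        rcases abs_cases (φ - bis 3 θ k) with ⟨h, _⟩ | ⟨h, _⟩
        · rw [← hα] at h
          rw [← h]; exact abs_of_nonneg hnn
        · rw [← hα] at h
          have : φ - bis 3 θ k = -α := by linarith
          rw [this, sin_neg, abs_neg, abs_of_nonneg hnn]
      rw [e1, e2, sin_sub]
      push_cast
      ring
    have hsin : 2 / π * (8 * δ) ≤ sin (π / 3 - α) := by
      refine le_trans ?_ (mul_le_sin (by linarith) (by linarith [pi_pos]))
      gcongr
      linarith
    have hpi : 5 / 10 ≤ 2 / π := by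
      rw [div_le_div_iff₀ (by norm_num) pi_pos]
      linarith [pi_lt_d2]
    have hd : a * s ≤ depth 3 x (bis 3 θ k) (cpt x t φ) := by
      rw [hdep]
      have h5 : 4 * δ ≤ sin (π / 3 - α) := by nlinarith
      nlinarith
    obtain ⟨h6, h7⟩ := h3 k k.2 (cpt x t φ) hmem hd
    refine ⟨h6, ?_⟩
    simp only [h7, Nat.floor_natCast]

end Crest.Agent.R135.Phs
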