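import Crest.Agent.R135.AsmLoc
import Crest.Agent.R135.Dcy
import Crest.Agent.R135.IF_phase_line

/-! INTERFACE decay_line (helper427). -/

set_option autoImplicit false

open MeasureTheory Set Filter Topology Metric
open scoped ENNReal NNReal ContDiff Gradient
open Crest.AnalysisR.PDE.OnePhase Crest.AnalysisR.PDE.MumfordShah

namespace Crest.Agent.R135

theorem decay_line : ∃ ε C γ : ℝ, 0 < ε ∧ 0 < C ∧ 0 < γ ∧ γ ≤ 1 / 4 ∧
    ∀ {U : Set E2} {lam : ℝ} {u : E2 → ℝ} {K : Set E2} {y : E2} {r : ℝ}, IsSQM U lam u K →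
      LineReg ε U lam u K y r → ∀ z ∈ K, dist z y ≤ r / 2 → ∀ s : ℝ, 0 < s → s ≤ r / 16 →
        Dr u K z s ≤ C * s * (s / r) ^ (2 * γ) := by
  obtain ⟨ε₁, hε₁, hph⟩ := phase_line (1 / 100) (by norm_num)
  refine ⟨min ε₁ (1 / 100), Dcy.decC 2, 1 / 4, lt_min hε₁ (by norm_num), Dcy.decC_pos 2,
    by norm_num, le_rfl, ?_⟩
  intro U lam u K y r hS hreg z hz hzy s hs hsr
  have hr := hreg.pos
  have hreg1 := Asm.lineReg_mono hreg (min_le_left _ _)
  have hreg2 := Asm.lineReg_mono hreg (min_le_right _ _)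
  have hzr : dist z y < r := by linarith
  have hπ := Real.pi_gt_three
  refine Dcy.decay_final hS.toIsQM le_rfl (by push_cast; linarith) hr hreg.le_one
    (hreg2.lam_le.trans (by norm_num)) ((closedBall_subset_closedBall' (by linarith)).trans
      hreg.sub) ?_ ?_ ?_ hs hsr
  · intro ρ hρ hρr
    exact Dcy.sect_of_linePhase hρ (hph hS hreg1 z hz hzy ρ hρ hρr)
  · intro ρ hρ hρr
    have := hreg2.len_le z hz hzr ρ hρ (by linarith)
    push_cast
    exact this
  · intro ρ hρ hρr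
    have := hreg2.en z hz hzr ρ hρ (by linarith)
    linarith

end Crest.Agent.R135
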