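import Crest.Agent.R135.IFDefs2
import Crest.Agent.R135.EpsLoc4

/-! INTERFACE exc_line (proved by helper983 in EpsLoc4). -/

set_option autoImplicit false

open MeasureTheory Set Filter Topology Metric
open scoped ENNReal NNReal ContDiff Gradient
open Crest.AnalysisR.PDE.OnePhase Crest.AnalysisR.PDE.MumfordShah

namespace Crest.Agent.R135

/-- one-scale flatness in the line-like regime -/
theorem exc_line : ∃ ε C : ℝ, 0 < ε ∧ 0 < C ∧
    ∀ {U : Set E2} {lam : ℝ} {u : E2 → ℝ} {K : Set E2} {y : E2} {r : ℝ}, IsSQM U lam u K →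
      LineReg ε U lam u K y r → ∀ z ∈ K, dist z y ≤ r / 4 → ∀ s : ℝ, 0 < s → s ≤ r / 64 →
        ∃ e : E2, Arc.Flat K z e s (C * s * Real.sqrt (Dr u K z (4 * s) / s + lam * s)) := EpsLoc.exc_line'

end Crest.Agent.R135
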