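import Mathlib
import Crest.Agent.R135.EpsGeo2
import Crest.Agent.R135.Scal1
import Crest.Agent.R135.IFDefs
import Crest.Agent.R135.Fell

/-!
# R135, block REGIME (helper288): geometry of lines, propellers and half-lines under rescaling
-/

set_option autoImplicit false

open MeasureTheory Set Filter Topology Metric
open scoped ENNReal NNReal

namespace Crest.Agent.R135.Rgm

open Crest.Agent.R135

/-! ### rescaling of the models -/

lemma rescK_ray (y e : E2) {ρ : ℝ} (hρ : 0 < ρ) : rescK (ray y e) y ρ = ray 0 e := by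
  ext z
  rw [mem_rescK, mem_ray, mem_ray]
  constructor
  · rintro ⟨s, hs, h⟩
    refine ⟨s / ρ, by positivity, ?_⟩
    have h1 : ρ • z = s • e := add_left_cancel h
    rw [zero_add]
    calc z = ρ⁻¹ • (ρ • z) := by rw [smul_smul, inv_mul_cancel₀ hρ.ne', one_smul]
      _ = (s / ρ) • e := by rw [h1, smul_smul]; congr 1; field_simp
  · rintro ⟨s, hs, h⟩
    refine ⟨ρ * s, by positivity, ?_⟩
    rw [h, zero_add, smul_smul]

lemma rescK_lineAt (y : E2) (θ : ℝ) {ρ : ℝ} (hρ : 0 < ρ) :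
    rescK (lineAt y θ) y ρ = lineAt 0 θ := by
  unfold lineAt
  rw [rescK_union, rescK_ray _ _ hρ, rescK_ray _ _ hρ]

lemma rescK_propAt (y : E2) (θ : ℝ) {ρ : ℝ} (hρ : 0 < ρ) :
    rescK (propAt y θ) y ρ = propAt 0 θ := by
  unfold propAt
  rw [rescK_union, rescK_union, rescK_ray _ _ hρ, rescK_ray _ _ hρ, rescK_ray _ _ hρ]

/-- closeness under rescaling (centre at the origin) -/
lemma hclose_resc_iff {ε R ρ : ℝ} {y : E2} {K Y : Set E2} (hρ : 0 < ρ) :
    HClose ε 0 R (rescK K y ρ) (rescK Y y ρ) ↔ HClose (ε * ρ) y (R * ρ) K Y := by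
  have key : ∀ A B : Set E2, (∀ z ∈ rescK A y ρ ∩ ball 0 R, ∃ w ∈ rescK B y ρ, dist z w < ε) ↔
      (∀ z ∈ A ∩ ball y (R * ρ), ∃ w ∈ B, dist z w < ε * ρ) := by
    intro A B
    constructor
    · rintro h z ⟨hz, hzb⟩
      have h1 : scI y ρ z ∈ rescK A y ρ ∩ ball 0 R := by
        refine ⟨?_, ?_⟩
        · rw [mem_rescK', scm_scI y hρ.ne']; exact hz
        · rw [mem_ball] at hzb ⊢
          have h2 : dist (scm y ρ (scI y ρ z)) (scm y ρ 0) = |ρ| * dist (scI y ρ z) 0 :=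
            dist_scm _ _ _ _
          rw [scm_scI y hρ.ne', abs_of_pos hρ] at h2
          have h3 : scm y ρ 0 = y := by simp [scm]
          rw [h3] at h2
          rw [h2, mul_comm R] at hzb
          exact lt_of_mul_lt_mul_left hzb hρ.le
      obtain ⟨w, hw, hd⟩ := h _ h1
      refine ⟨scm y ρ w, hw, ?_⟩
      have h2 : dist (scm y ρ (scI y ρ z)) (scm y ρ w) = |ρ| * dist (scI y ρ z) w :=
        dist_scm _ _ _ _
      rw [scm_scI y hρ.ne', abs_of_pos hρ] at h2
      rw [h2, mul_comm ε]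
      exact mul_lt_mul_of_pos_left hd hρ
    · rintro h z ⟨hz, hzb⟩
      have h1 : scm y ρ z ∈ A ∩ ball y (R * ρ) := by
        refine ⟨hz, ?_⟩
        rw [mem_ball] at hzb ⊢
        have h2 : dist (scm y ρ z) (scm y ρ 0) = |ρ| * dist z 0 := dist_scm _ _ _ _
        have h3 : scm y ρ 0 = y := by simp [scm]
        rw [h3, abs_of_pos hρ] at h2
        rw [h2, mul_comm R]
        exact mul_lt_mul_of_pos_left hzb hρ
      obtain ⟨w, hw, hd⟩ := h _ h1
      refine ⟨scI y ρ w, ?_, ?_⟩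
      · rw [mem_rescK', scm_scI y hρ.ne']; exact hw
      · have h2 : dist (scm y ρ z) (scm y ρ (scI y ρ w)) = |ρ| * dist z (scI y ρ w) :=
          dist_scm _ _ _ _
        rw [scm_scI y hρ.ne', abs_of_pos hρ] at h2
        rw [h2, mul_comm ε] at hd
        exact lt_of_mul_lt_mul_left hd hρ.le
  unfold HClose
  rw [key K Y, key Y K]

lemma ln_resc_iff {η R ρ : ℝ} {y : E2} {K : Set E2} (hρ : 0 < ρ) :
    Ln η (rescK K y ρ) 0 R ↔ Ln η K y (R * ρ) := by
  unfold Ln
  refine exists_congr fun θ => ?_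
  rw [← rescK_lineAt y θ hρ, hclose_resc_iff hρ, mul_assoc]

lemma pr_resc_iff {η R ρ : ℝ} {y : E2} {K : Set E2} (hρ : 0 < ρ) :
    Pr η (rescK K y ρ) 0 R ↔ Pr η K y (R * ρ) := by
  unfold Pr
  refine exists_congr fun θ => ?_
  rw [← rescK_propAt y θ hρ, hclose_resc_iff hρ, mul_assoc]

/-- closeness to a half-line issued from `y` -/
def Ry (η : ℝ) (K : Set E2) (y : E2) (ρ : ℝ) : Prop := ∃ θ, HClose (η * ρ) y ρ K (ray y (dir θ))

lemma ry_resc_iff {η R ρ : ℝ} {y : E2} {K : Set E2} (hρ : 0 < ρ) :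
    Ry η (rescK K y ρ) 0 R ↔ Ry η K y (R * ρ) := by
  unfold Ry
  refine exists_congr fun θ => ?_
  rw [← rescK_ray y (dir θ) hρ, hclose_resc_iff hρ, mul_assoc]

lemma rescK_ray_dir (p y : E2) (θ : ℝ) {ρ : ℝ} (hρ : 0 < ρ) :
    rescK (ray p (dir θ)) y ρ = ray (scI y ρ p) (dir θ) := by
  ext z
  rw [mem_rescK, mem_ray, mem_ray]
  constructor
  · rintro ⟨s, hs, h⟩
    refine ⟨s / ρ, by positivity, ?_⟩
    have h1 : ρ • z = (p - y) + s • dir θ := by
      rw [← add_right_inj y, h]; abel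
    calc z = ρ⁻¹ • (ρ • z) := by rw [smul_smul, inv_mul_cancel₀ hρ.ne', one_smul]
      _ = scI y ρ p + (s / ρ) • dir θ := by
        rw [h1, smul_add, smul_smul]
        unfold scI
        congr 2
        field_simp
  · rintro ⟨s, hs, h⟩
    refine ⟨ρ * s, by positivity, ?_⟩
    rw [h, smul_add, smul_smul]
    unfold scI
    rw [smul_smul, mul_inv_cancel₀ hρ.ne', one_smul]
    abel

lemma neg_dir (θ : ℝ) : -dir θ = dir (θ + Real.pi) := by apply ext_E2 <;> simp

lemma rescK_lineAt' (p y : E2) (θ : ℝ) {ρ : ℝ} (hρ : 0 < ρ) :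
    rescK (lineAt p θ) y ρ = lineAt (scI y ρ p) θ := by
  unfold lineAt
  rw [rescK_union, neg_dir, rescK_ray_dir _ _ _ hρ, rescK_ray_dir _ _ _ hρ]

lemma rescK_propAt' (p y : E2) (θ : ℝ) {ρ : ℝ} (hρ : 0 < ρ) :
    rescK (propAt p θ) y ρ = propAt (scI y ρ p) θ := by
  unfold propAt
  rw [rescK_union, rescK_union, rescK_ray_dir _ _ _ hρ, rescK_ray_dir _ _ _ hρ,
    rescK_ray_dir _ _ _ hρ]

lemma isModel_resc {Y : Set E2} (hY : IsModel Y) (y : E2) {ρ : ℝ} (hρ : 0 < ρ) :
    IsModel (rescK Y y ρ) := by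
  rcases hY with ⟨p, θ, rfl⟩ | ⟨p, θ, rfl⟩
  · exact Or.inl ⟨scI y ρ p, θ, rescK_lineAt' p y θ hρ⟩
  · exact Or.inr ⟨scI y ρ p, θ, rescK_propAt' p y θ hρ⟩

/-! ### models versus models -/

lemma hclose_self {ε : ℝ} (hε : 0 < ε) (x : E2) (R : ℝ) (K : Set E2) : HClose ε x R K K :=
  ⟨fun y hy => ⟨y, hy.1, by rwa [dist_self]⟩, fun y hy => ⟨y, hy.1, by rwa [dist_self]⟩⟩

/-- a propeller is not line-like at scales large with respect to the distance of its centre -/
lemma not_ln_propAt {c : E2} {θ R δ : ℝ} {p : E2} {φ : ℝ} (hR : 0 < R) (hc : dist c 0 ≤ R / 4)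
    (hδ : 0 ≤ δ) (hδ1 : δ ≤ R / 50) : ¬ HClose δ 0 R (propAt c θ) (lineAt p φ) := by
  have hT : Tr (1 / 100) (propAt c θ) 0 R := ⟨c, θ, hc, hclose_self (by positivity) _ _ _⟩
  exact hT.not_line hR (by norm_num) le_rfl hδ hδ1 (by rw [dist_self, zero_add])

/-- a line is not close to a propeller with centre near the origin -/
lemma not_pr_lineAt {p : E2} {φ R δ : ℝ} {c : E2} {θ : ℝ} (hR : 0 < R) (hc : dist c 0 ≤ R / 4)
    (_hδ : 0 ≤ δ) (hδ1 : δ ≤ R / 100) : ¬ HClose δ 0 R (lineAt p φ) (propAt c θ) := by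
  intro h
  have hT : Tr (1 / 100) (lineAt p φ) 0 R :=
    ⟨c, θ, hc, h.mono_eps (by linarith)⟩
  exact hT.not_line hR (by norm_num) le_rfl (δ := R / 50) (by positivity) le_rfl
    (by rw [dist_self, zero_add]) (hclose_self (by positivity) _ _ _)

/-- a propeller which is propeller-like about the origin at all scales is centred there -/
lemma centre_eq_zero {c : E2} {θ δ : ℝ} (hδ : 0 < δ) (hδ1 : δ ≤ 1 / 10000)
    (h : ∀ R : ℝ, 0 < R → ∃ φ, HClose (δ * R) 0 R (propAt c θ) (propAt 0 φ)) : c = 0 := by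
  by_contra hc
  have hc0 : 0 < dist c 0 := dist_pos.2 hc
  set R := 4 * dist c 0 with hR
  have hR0 : 0 < R := by positivity
  obtain ⟨φ, hφ⟩ := h R hR0
  have h1 := Tr.center_close (η := δ) (K := propAt c θ) (y := 0) (ρ := R) (ρ' := R) hR0 hδ
    (by linarith) (c := c) (c' := 0) (θ := θ) (θ' := φ) (by rw [hR]; linarith)
    (hclose_self (by positivity) _ _ _) le_rfl (by linarith) hφ
  nlinarith

/-! ### lengths of the models -/

lemma len_ray_ball_le (e : E2) (he : ‖e‖ = 1) (s : ℝ) (hs : 0 ≤ s) :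
    len (ray 0 e ∩ closedBall 0 s) ≤ ENNReal.ofReal s := by
  have h1 : ray 0 e ∩ closedBall 0 s ⊆ (fun t : ℝ => t • e) '' Icc 0 s := by
    rintro z ⟨⟨t, ht, rfl⟩, hz⟩
    refine ⟨t, ⟨ht, ?_⟩, by simp⟩
    rw [mem_closedBall, dist_zero_right, zero_add, norm_smul, he, mul_one, Real.norm_eq_abs,
      abs_of_nonneg ht] at hz
    exact hz
  have h2 : LipschitzWith 1 (fun t : ℝ => t • e) := by
    apply LipschitzWith.of_dist_le_mul
    intro a b
    rw [dist_eq_norm, ← sub_smul, norm_smul, he, mul_one, NNReal.coe_one, one_mul, Real.dist_eq,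
      Real.norm_eq_abs]
  unfold len
  calc Measure.hausdorffMeasure 1 (ray 0 e ∩ closedBall 0 s)
      ≤ Measure.hausdorffMeasure 1 ((fun t : ℝ => t • e) '' Icc 0 s) := measure_mono h1
    _ ≤ Measure.hausdorffMeasure 1 (Icc (0:ℝ) s) := by
        have := h2.hausdorffMeasure_image_le (d := 1) zero_le_one (Icc 0 s)
        simpa using this
    _ = ENNReal.ofReal s := by
        rw [hausdorffMeasure_real, Real.volume_Icc, sub_zero]

lemma ray_inter_sphere (e : E2) (he : ‖e‖ = 1) (s : ℝ) (hs : 0 ≤ s) :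
    ray 0 e ∩ sphere 0 s ⊆ {s • e} := by
  rintro z ⟨⟨t, ht, rfl⟩, hz⟩
  rw [mem_sphere, dist_zero_right, zero_add, norm_smul, he, mul_one, Real.norm_eq_abs,
    abs_of_nonneg ht] at hz
  rw [mem_singleton_iff, zero_add, hz]

lemma len_of_finite {A : Set E2} (h : A.Finite) : len A = 0 := by
  unfold len
  have := Measure.nullSingletonClass_hausdorff E2 one_pos
  exact h.measure_zero _

lemma len_lineAt_le (θ : ℝ) (s : ℝ) (hs : 0 ≤ s) :
    len (lineAt 0 θ ∩ closedBall 0 s) ≤ ENNReal.ofReal (2 * s) := by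
  unfold lineAt
  rw [union_inter_distrib_right, show 2 * s = s + s by ring, ENNReal.ofReal_add hs hs]
  refine (measure_union_le _ _).trans ?_
  exact add_le_add (len_ray_ball_le _ (norm_dir θ) s hs)
    (len_ray_ball_le _ (by rw [norm_neg, norm_dir]) s hs)

lemma len_propAt_le (θ : ℝ) (s : ℝ) (hs : 0 ≤ s) :
    len (propAt 0 θ ∩ closedBall 0 s) ≤ ENNReal.ofReal (3 * s) := by
  unfold propAt
  rw [union_inter_distrib_right, union_inter_distrib_right, show 3 * s = (s + s) + s by ring,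
    ENNReal.ofReal_add (by positivity) hs, ENNReal.ofReal_add hs hs]
  refine (measure_union_le _ _).trans (add_le_add ((measure_union_le _ _).trans ?_) ?_)
  · exact add_le_add (len_ray_ball_le _ (norm_dir _) s hs) (len_ray_ball_le _ (norm_dir _) s hs)
  · exact len_ray_ball_le _ (norm_dir _) s hs

lemma len_lineAt_sphere (θ : ℝ) (s : ℝ) (hs : 0 ≤ s) : len (lineAt 0 θ ∩ sphere 0 s) = 0 := by
  apply len_of_finite
  unfold lineAt
  rw [union_inter_distrib_right]
  exact ((finite_singleton _).subset (ray_inter_sphere _ (norm_dir θ) s hs)).union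
    ((finite_singleton _).subset (ray_inter_sphere _ (by rw [norm_neg, norm_dir]) s hs))

lemma len_propAt_sphere (θ : ℝ) (s : ℝ) (hs : 0 ≤ s) : len (propAt 0 θ ∩ sphere 0 s) = 0 := by
  apply len_of_finite
  unfold propAt
  rw [union_inter_distrib_right, union_inter_distrib_right]
  exact (((finite_singleton _).subset (ray_inter_sphere _ (norm_dir _) s hs)).union
    ((finite_singleton _).subset (ray_inter_sphere _ (norm_dir _) s hs))).union
    ((finite_singleton _).subset (ray_inter_sphere _ (norm_dir _) s hs))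

lemma len_ray_sphere (e : E2) (he : ‖e‖ = 1) (s : ℝ) (hs : 0 ≤ s) :
    len (ray 0 e ∩ sphere 0 s) = 0 :=
  len_of_finite ((finite_singleton _).subset (ray_inter_sphere _ he s hs))

end Crest.Agent.R135.Rgm
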