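import Mathlib
import Crest.Agent.R135.Rgm1
import Crest.Agent.R135.CT4

/-!
# R135, block REGIME (helper288): blow-up limits of sequences of quasi-minimizers with moving
centres, readings at the original scale
-/

set_option autoImplicit false

open MeasureTheory Set Filter Topology Metric
open scoped ENNReal NNReal

namespace Crest.Agent.R135.Rgm

open Crest.Agent.R135

/-- `(v, L)` is the limit of the blow-ups of `(u k, K k)` at the centres `y k` and scales `ρ k` -/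
structure BU (u : ℕ → E2 → ℝ) (K : ℕ → Set E2) (y : ℕ → E2) (ρ : ℕ → ℝ) (v : E2 → ℝ)
    (L : Set E2) : Prop where
  qm : IsQM univ 0 v L
  conv : Conv (fun k => rescF (u k) (y k) (ρ k)) (fun k => rescK (K k) (y k) (ρ k)) v L
  pos : ∀ k, 0 < ρ k
  vol : ∀ k, volume (K k) = 0

lemma isClosed_of_qm {v : E2 → ℝ} {L : Set E2} (h : IsQM univ 0 v L) : IsClosed L :=
  h.isClosed_univ

lemma Dr_mono {U : Set E2} {lam : ℝ} {u : E2 → ℝ} {K : Set E2} (h : IsQM U lam u K)
    {x x' : E2} {r r' : ℝ} (hb : ball x r ⊆ ball x' r') (hU : closedBall x' r' ⊆ U) :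
    Dr u K x r ≤ Dr u K x' r' := by
  unfold Dr
  refine ENNReal.toReal_mono ?_ ?_
  · refine ne_of_lt (lt_of_le_of_lt ?_ (h.dir_fin x' r' hU))
    unfold dirE
    exact lintegral_mono_set (sdiff_subset_sdiff_left ball_subset_closedBall)
  · unfold dirE
    exact lintegral_mono_set (sdiff_subset_sdiff_left hb)

lemma Dr_mono_center {U : Set E2} {lam : ℝ} {u : E2 → ℝ} {K : Set E2} (h : IsQM U lam u K)
    {x x' : E2} {r r' : ℝ} (hb : dist x x' + r ≤ r') (hU : closedBall x' r' ⊆ U) :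
    Dr u K x r ≤ Dr u K x' r' := by
  refine Dr_mono h (fun z hz => ?_) hU
  rw [mem_ball] at hz ⊢
  have := dist_triangle z x x'
  linarith

lemma Dr_nonneg (u : E2 → ℝ) (K : Set E2) (x : E2) (r : ℝ) : 0 ≤ Dr u K x r :=
  ENNReal.toReal_nonneg

namespace BU

variable {u : ℕ → E2 → ℝ} {K : ℕ → Set E2} {y : ℕ → E2} {ρ : ℕ → ℝ} {v : E2 → ℝ} {L : Set E2}

lemma closed (h : BU u K y ρ v L) : IsClosed L := isClosed_of_qm h.qm

/-- energies at a fixed rescaled centre -/
lemma tendsto_Dr (h : BU u K y ρ v L) (z : E2) (R : ℝ) :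
    Tendsto (fun k => Dr (u k) (K k) (y k + ρ k • z) (ρ k * R) / ρ k) atTop
      (𝓝 (Dr v L z R)) := by
  have h1 := h.conv.tendsto_Dr (fun k => volume_rescK_zero (h.vol k) (y k) (h.pos k))
    (volume_K h.qm) (fun x r => h.qm.dir_fin x r (subset_univ _)) z R
  refine h1.congr fun k => ?_
  rw [Dr_resc (u k) (K k) (y k) z (h.pos k), div_eq_inv_mul]

lemma tendsto_Dr0 (h : BU u K y ρ v L) (R : ℝ) :
    Tendsto (fun k => Dr (u k) (K k) (y k) (ρ k * R) / ρ k) atTop (𝓝 (Dr v L 0 R)) := by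
  have := h.tendsto_Dr 0 R
  simpa using this

/-- if the energies are small along a subsequence, so are those of the limit -/
lemma Dr_le (h : BU u K y ρ v L) {c R : ℝ}
    (hk : ∃ᶠ k in atTop, Dr (u k) (K k) (y k) (ρ k * R) ≤ c * (ρ k * R)) :
    Dr v L 0 R ≤ c * R := by
  refine le_of_tendsto_of_frequently (h.tendsto_Dr0 R) (hk.mono fun k hk => ?_)
  rw [div_le_iff₀ (h.pos k)]
  linarith

lemma le_Dr (h : BU u K y ρ v L) {c R : ℝ}
    (hk : ∃ᶠ k in atTop, c * (ρ k * R) ≤ Dr (u k) (K k) (y k) (ρ k * R)) :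
    c * R ≤ Dr v L 0 R := by
  refine ge_of_tendsto_of_frequently (h.tendsto_Dr0 R) (hk.mono fun k hk => ?_)
  rw [le_div_iff₀ (h.pos k)]
  linarith

/-- closeness of the rescaled cracks to the limit -/
lemma hclose (h : BU u K y ρ v L) (R : ℝ) {ε : ℝ} (hε : 0 < ε) :
    ∀ᶠ k in atTop, HClose ε 0 R (rescK (K k) (y k) (ρ k)) L :=
  h.conv.hclose h.closed 0 R hε

lemma zero_mem (h : BU u K y ρ v L) (hy : ∃ᶠ k in atTop, y k ∈ K k) : (0 : E2) ∈ L := by
  have hF : FellTo (fun k => rescK (K k) (y k) (ρ k)) L := ⟨h.closed, h.conv.near, h.conv.away⟩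
  refine hF.mem_of_frequently fun ε hε => hy.mono fun k hk => ⟨0, ?_, by rwa [dist_self]⟩
  rw [mem_rescK, smul_zero, add_zero]
  exact hk

/-- closeness to a model read at the original scale -/
lemma hclose_model (h : BU u K y ρ v L) {R ε : ℝ} (hε : 0 < ε) :
    ∀ᶠ k in atTop, ∀ Y : Set E2, rescK Y (y k) (ρ k) = L →
      HClose (ε * ρ k) (y k) (R * ρ k) (K k) Y := by
  filter_upwards [h.hclose R hε] with k hk Y hY
  rw [← hY] at hk
  exact (hclose_resc_iff (h.pos k)).1 hk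

/-- upper bound for the lengths, read at the original scale -/
lemma Lr_lt (h : BU u K y ρ v L) {R M : ℝ} (hM : Lr L 0 R < M) :
    ∀ᶠ k in atTop, Lr (K k) (y k) (ρ k * R) < M * ρ k := by
  have h1 := h.conv.eventually_Lr_lt (xk := fun _ => 0) (rk := fun _ => R)
    (fun x r => h.qm.len_fin x r (subset_univ _)) h.closed.measurableSet tendsto_const_nhds
    tendsto_const_nhds hM
  filter_upwards [h1] with k hk
  have h2 : Lr (rescK (K k) (y k) (ρ k)) 0 R = (ρ k)⁻¹ * Lr (K k) (y k) (ρ k * R) := by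
    rw [Lr_resc (K k) (y k) 0 (h.pos k) R]
    simp [scm]
  rw [h2, inv_mul_lt_iff₀ (h.pos k)] at hk
  linarith

end BU

/-- **Blow-up compactness** for sequences of quasi-minimizers with moving centres. -/
theorem exists_BU {U : ℕ → Set E2} {lam : ℕ → ℝ} {u : ℕ → E2 → ℝ} {K : ℕ → Set E2}
    (h : ∀ k, IsQM (U k) (lam k) (u k) (K k)) {y : ℕ → E2} {ρ : ℕ → ℝ}
    (hρ : ∀ k, 0 < ρ k) (hρ1 : ∀ k, ρ k ≤ 1) (hlam : Tendsto (fun k => lam k * ρ k) atTop (𝓝 0))
    (hd : ∀ R : ℝ, ∀ᶠ k in atTop, closedBall (y k) (ρ k * R) ⊆ U k) :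
    ∃ φ : ℕ → ℕ, StrictMono φ ∧ ∃ (v : E2 → ℝ) (L : Set E2),
      BU (fun k => u (φ k)) (fun k => K (φ k)) (fun k => y (φ k)) (fun k => ρ (φ k)) v L := by
  obtain ⟨φ, hφ, v, L, hq, hc⟩ := ct_extract h hρ (by
    refine squeeze_zero (g := fun k => 2 * (lam k * ρ k)) (fun k => ?_) (fun k => ?_) ?_
    · have h1 := (h k).lam_nonneg
      have h2 := hρ k
      positivity
    · have h1 := (h k).lam_nonneg
      have h2 := hρ k
      have h3 : √(ρ k) ≤ 1 := Real.sqrt_le_one.2 (hρ1 k)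
      have h4 : 0 ≤ ρ k * lam k := by positivity
      nlinarith
    · simpa using hlam.const_mul 2) hd
  exact ⟨φ, hφ, v, L, hq, hc, fun k => hρ _, fun k => volume_K (h _)⟩

end Crest.Agent.R135.Rgm
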