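import Mathlib
import Crest.Agent.R135.Rgm2
import Crest.Agent.R135.PolarD
import Crest.Agent.R135.IF_GM
import Crest.Agent.R135.FlatLine

/-!
# R135, block REGIME (helper288): propagation of smallness, limits of line-like and propeller-like
sequences
-/

set_option autoImplicit false

open MeasureTheory Set Filter Topology Metric
open scoped ENNReal NNReal

namespace Crest.Agent.R135.Rgm

open Crest.Agent.R135

/-- almost maximal bad scale -/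
lemma exists_almost_max {P : ℝ → Prop} {M ρ : ℝ} (hρ : 0 < ρ) (hM : ρ ≤ M) (hP : P ρ) :
    ∃ σ, ρ ≤ σ ∧ σ ≤ M ∧ P σ ∧ ∀ τ, 2 * σ ≤ τ → τ ≤ M → ¬ P τ := by
  set S := {σ | ρ ≤ σ ∧ σ ≤ M ∧ P σ} with hS
  have hρS : ρ ∈ S := ⟨le_rfl, hM, hP⟩
  have hbdd : BddAbove S := ⟨M, fun σ hσ => hσ.2.1⟩
  have h1 : ρ ≤ sSup S := le_csSup hbdd hρS
  obtain ⟨σ, hσ, hσ2⟩ := exists_lt_of_lt_csSup ⟨ρ, hρS⟩ (show sSup S / 2 < sSup S by linarith)
  refine ⟨σ, hσ.1, hσ.2.1, hσ.2.2, fun τ hτ hτM hPτ => ?_⟩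
  have h2 : τ ≤ sSup S := le_csSup hbdd ⟨by linarith [hσ.1], hτM, hPτ⟩
  linarith

lemma isModel_of_line {L : Set E2} (hL : IsLine L) : ∃ p θ, L = lineAt p θ := by
  obtain ⟨p, e, he, rfl⟩ := hL
  obtain ⟨θ, -, rfl⟩ := exists_dir_eq e he 0
  exact ⟨p, θ, rfl⟩

section Lim

variable {u : ℕ → E2 → ℝ} {K : ℕ → Set E2} {y : ℕ → E2} {ρ : ℕ → ℝ} {v : E2 → ℝ} {L : Set E2}

/-- limit of blow-ups with small energies at all large scales: zero energy, line or propeller -/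
theorem BU.limit_model (hBU : BU u K y ρ v L) (hy : ∃ᶠ k in atTop, y k ∈ K k) {ε : ℝ}
    (hε : ε < 1)
    (hD : ∀ R : ℝ, 2 ≤ R → ∃ᶠ k in atTop, Dr (u k) (K k) (y k) (ρ k * R) ≤ ε * (ρ k * R)) :
    (∀ x r, Dr v L x r = 0) ∧ ((∃ p θ, L = lineAt p θ) ∨ ∃ p θ, L = propAt p θ) := by
  obtain ⟨-, h1, h2⟩ := gm_shape hBU.qm (x := 0) hε (Eventually.frequently (by
    filter_upwards [eventually_ge_atTop (2:ℝ)] with R hR
    exact hBU.Dr_le (hD R hR)))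
  refine ⟨h1, ?_⟩
  rcases h2 with h2 | h2 | ⟨x, h2⟩
  · have := hBU.zero_mem hy
    rw [h2] at this
    exact absurd this (notMem_empty _)
  · exact Or.inl (isModel_of_line h2)
  · obtain ⟨θ, h2⟩ := h2
    exact Or.inr ⟨x, θ, h2⟩

lemma isModel_iff_resc {L : Set E2} {y : E2} {ρ : ℝ} (hρ : 0 < ρ) (hL : IsModel L) :
    ∃ Y, IsModel Y ∧ rescK Y y ρ = L := by
  refine ⟨rescK L (-(ρ⁻¹ • y)) ρ⁻¹, isModel_resc hL _ (inv_pos.2 hρ), ?_⟩
  exact rescK_inv' L y hρ.ne'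

/-- closeness to a model, eventually -/
theorem BU.fl (hBU : BU u K y ρ v L) (hL : IsModel L) {η : ℝ} (hη : 0 < η) :
    ∀ᶠ k in atTop, Fl η (K k) (y k) (ρ k) := by
  filter_upwards [hBU.hclose_model (R := 1) hη] with k hk
  obtain ⟨Y, hY, hYL⟩ := isModel_iff_resc (L := L) (y := y k) (hBU.pos k) hL
  refine ⟨Y, hY, ?_⟩
  have := hk Y hYL
  rwa [one_mul] at this

/-- transfer of closeness from the rescaled cracks to the limit -/
lemma BU.limit_close (hBU : BU u K y ρ v L) {Y : ℝ → Set E2} {δ R R' : ℝ} (hδ : 0 < δ)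
    (hR : R' ≤ R - 2 * δ)
    (hk : ∃ᶠ k in atTop, ∃ θ, HClose δ 0 R (rescK (K k) (y k) (ρ k)) (Y θ)) :
    ∃ θ, HClose (2 * δ) 0 R' L (Y θ) := by
  obtain ⟨k, ⟨θ, h1⟩, h2⟩ := (hk.and_eventually (hBU.hclose R hδ)).exists
  refine ⟨θ, ?_⟩
  have h3 := h2.symm.trans h1 hδ.le hδ.le
  rw [max_self] at h3
  exact h3.mono_ball' (by linarith) (by rw [dist_self]; linarith)

/-- a limit of line-like sets is a line -/
theorem BU.limit_line (hBU : BU u K y ρ v L) (hy : ∃ᶠ k in atTop, y k ∈ K k)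
    (hmod : (∃ p θ, L = lineAt p θ) ∨ ∃ p θ, L = propAt p θ)
    (hln : ∀ R : ℝ, 1 ≤ R → ∃ᶠ k in atTop, Ln (1 / 400) (K k) (y k) (R * ρ k)) :
    ∃ θ, L = lineAt 0 θ := by
  have h0 := hBU.zero_mem hy
  rcases hmod with ⟨p, θ, hL⟩ | ⟨c, θ, hL⟩
  · refine ⟨θ, ?_⟩
    rw [hL] at h0 ⊢
    exact (lineAt_eq_of_mem h0).symm
  · exfalso
    set R := 8 * dist c 0 + 1 with hR
    have hR1 : 1 ≤ R := by have := dist_nonneg (x := c) (y := (0:E2)); linarith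
    obtain ⟨φ, hφ⟩ := hBU.limit_close (Y := fun θ => lineAt 0 θ) (δ := R / 400) (R := R)
      (R' := R / 2) (by positivity) (by linarith) ((hln R hR1).mono fun k hk => by
        obtain ⟨θ, h1⟩ := (ln_resc_iff (hBU.pos k)).2 hk
        exact ⟨θ, by rwa [one_div_mul_eq_div] at h1⟩)
    rw [hL] at hφ
    refine not_ln_propAt (R := R / 2) (by positivity) ?_ (by positivity) ?_ hφ
    · have := dist_nonneg (x := c) (y := (0:E2)); linarith
    · linarith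

/-- a limit of sets which are propeller-like about the centre at all scales is a centred
propeller -/
theorem BU.limit_prop (hBU : BU u K y ρ v L)
    (hmod : (∃ p θ, L = lineAt p θ) ∨ ∃ p θ, L = propAt p θ)
    (hpr : ∀ R : ℝ, 0 < R → ∃ᶠ k in atTop, Pr (1 / 100000) (K k) (y k) (R * ρ k)) :
    ∃ θ, L = propAt 0 θ := by
  have hlim : ∀ R : ℝ, 0 < R → ∃ φ, HClose (1 / 10000 * R) 0 R L (propAt 0 φ) := by
    intro R hR
    obtain ⟨φ, hφ⟩ := hBU.limit_close (Y := fun θ => propAt 0 θ) (δ := 1 / 100000 * (2 * R))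
      (R := 2 * R) (R' := R) (by positivity) (by linarith)
      ((hpr (2 * R) (by positivity)).mono fun k hk => (pr_resc_iff (hBU.pos k)).2 hk)
    exact ⟨φ, hφ.mono_eps (by linarith)⟩
  rcases hmod with ⟨p, θ, hL⟩ | ⟨c, θ, hL⟩
  · exfalso
    obtain ⟨φ, hφ⟩ := hlim 1 one_pos
    rw [hL] at hφ
    exact not_pr_lineAt (c := 0) one_pos (by simp) (by norm_num) (by norm_num) hφ
  · refine ⟨θ, ?_⟩
    rw [hL] at hlim ⊢
    rw [centre_eq_zero (by norm_num) le_rfl hlim]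

end Lim

/-- from closeness to a line at one scale and flatness at all points and smaller scales to
line-likeness -/
theorem ln_of_line {η δ R : ℝ} {K : Set E2} {y0 p : E2} {φ : ℝ} (hη : 0 < η) (hη1 : η ≤ 1 / 1000)
    (_hR : 0 < R) (hδ0 : 0 ≤ δ) (hδ : δ ≤ R / 3200) (hl : HClose δ y0 R K (lineAt p φ))
    (hF : ∀ y ∈ K, dist y y0 ≤ R → ∀ ρ, 0 < ρ → ρ ≤ R → Fl η K y ρ) :
    ∀ y ∈ K, dist y y0 ≤ R / 4 → ∀ ρ, 0 < ρ → ρ ≤ R / 64 → Ln (16 * η) K y ρ := by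
  intro y hy hyd ρ hρ hρR
  have hFy : ∀ ρ', 0 < ρ' → ρ' ≤ R → Fl η K y ρ' := fun ρ' h1 h2 => hF y hy (by linarith) ρ' h1 h2
  have hnT : ¬ Tr η K y (8 * ρ) := by
    intro hT
    obtain ⟨ρ', h1, h2, hT'⟩ := hT.up_to (M := R / 2) (by positivity) hη hη1 (by linarith)
      (fun ρ' h1 h2 => hFy ρ' h1 (by linarith))
    refine hT'.not_line (by linarith) hη.le (by linarith) hδ0 ?_ ?_ hl
    · linarith
    · linarith
  have := (hFy (8 * ρ) (by positivity) (by linarith)).line_of_not_Tr (by positivity) hη hη1 hy hnT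
  rwa [mul_div_cancel_left₀ ρ (by norm_num : (8:ℝ) ≠ 0)] at this

/-- smallness propagates, `ε ≤ 1/2` -/
theorem small_propagates_aux (ε : ℝ) (hε : 0 < ε) (hε1 : ε ≤ 1 / 2) : ∃ ε₀ : ℝ, 0 < ε₀ ∧
    ∀ {U : Set E2} {lam : ℝ} {u : E2 → ℝ} {K : Set E2}, IsQM U lam u K →
      ∀ x ∈ K, ∀ r : ℝ, 0 < r → r ≤ 1 → closedBall x r ⊆ U → lam * r ≤ ε₀ →
        Dr u K x r ≤ ε₀ * r →
        ∀ y ∈ K, dist y x ≤ r / 2 → ∀ ρ : ℝ, 0 < ρ → ρ ≤ r / 2 → Dr u K y ρ ≤ ε * ρ := by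
  by_contra hcon
  push Not at hcon
  have hk : ∀ k : ℕ, ∃ (U : Set E2) (lam : ℝ) (u : E2 → ℝ) (K : Set E2), IsQM U lam u K ∧
      ∃ x ∈ K, ∃ r : ℝ, 0 < r ∧ r ≤ 1 ∧ closedBall x r ⊆ U ∧ lam * r ≤ 1 / ((k:ℝ) + 1) ∧
        Dr u K x r ≤ 1 / ((k:ℝ) + 1) * r ∧
        ∃ y ∈ K, dist y x ≤ r / 2 ∧ ∃ ρ : ℝ, 0 < ρ ∧ ρ ≤ r / 2 ∧ ε * ρ < Dr u K y ρ := by
    intro k
    obtain ⟨U, lam, u, K, hqm, x, hx, r, hr, hr1, hb, hl, hD, y, hy, hyx, ρ, hρ, hρr, hbad⟩ :=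
      hcon (1 / ((k:ℝ) + 1)) (by positivity)
    exact ⟨U, lam, u, K, hqm, x, hx, r, hr, hr1, hb, hl, hD, y, hy, hyx, ρ, hρ, hρr, hbad⟩
  choose U lam u K hqm x hx r hr hr1 hb hl hD y hy hyx ρ hρ hρr hbad using hk
  have hmax := fun k => exists_almost_max (P := fun σ => ε * σ < Dr (u k) (K k) (y k) σ) (hρ k)
    (hρr k) (hbad k)
  choose σ hσ1 hσ2 hσ3 hσ4 using hmax
  have hσ0 : ∀ k, 0 < σ k := fun k => (hρ k).trans_le (hσ1 k)
  -- the bad scale is much smaller than `r k`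
  have hσr : ∀ k : ℕ, ε * σ k * ((k:ℝ) + 1) ≤ r k := by
    intro k
    have h1 : Dr (u k) (K k) (y k) (σ k) ≤ Dr (u k) (K k) (x k) (r k) :=
      Dr_mono_center (hqm k) (by linarith [hyx k, hσ2 k]) (hb k)
    have h4 : (0:ℝ) < (k:ℝ) + 1 := by positivity
    have h5 : ε * σ k < r k / ((k:ℝ) + 1) := by
      have := lt_of_lt_of_le (hσ3 k) (h1.trans (hD k))
      rwa [one_div_mul_eq_div ((k:ℝ) + 1)] at this
    rw [lt_div_iff₀ h4] at h5
    linarith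
  obtain ⟨φ, hφ, v, L, hBU⟩ := exists_BU hqm (y := y) (ρ := σ) hσ0
    (fun k => by linarith [hσ2 k, hr1 k]) (by
      refine squeeze_zero (g := fun k : ℕ => 1 / ((k:ℝ) + 1)) (fun k => ?_) (fun k => ?_)
        tendsto_one_div_add_atTop_nhds_zero_nat
      · exact mul_nonneg (hqm k).lam_nonneg (hσ0 k).le
      · refine (mul_le_mul_of_nonneg_left ?_ (hqm k).lam_nonneg).trans (hl k)
        linarith [hσ2 k, hr k]) (by
      intro R
      have h1 : ∀ᶠ k : ℕ in atTop, 2 * |R| / ε ≤ (k:ℝ) + 1 := by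
        filter_upwards [(tendsto_natCast_atTop_atTop (R := ℝ)).eventually
          (eventually_ge_atTop (2 * |R| / ε))] with k hk
        linarith
      filter_upwards [h1] with k hk
      refine (closedBall_subset_closedBall' ?_).trans (hb k)
      have h2 := hσr k
      have h3 : σ k * |R| ≤ r k / 2 := by
        rw [div_le_iff₀ hε] at hk
        nlinarith [hσ0 k]
      have h4 : σ k * R ≤ σ k * |R| := mul_le_mul_of_nonneg_left (le_abs_self R) (hσ0 k).le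
      linarith [hyx k])
  have hφt : Tendsto φ atTop atTop := hφ.tendsto_atTop
  have hz := (hBU.limit_model (Frequently.of_forall fun k => hy _) (ε := ε) (by linarith) (by
    intro R hR
    refine Eventually.frequently ?_
    have h1 : ∀ᶠ k : ℕ in atTop, 2 * R / ε ≤ (k:ℝ) + 1 := by
      filter_upwards [(tendsto_natCast_atTop_atTop (R := ℝ)).eventually
        (eventually_ge_atTop (2 * R / ε))] with k hk
      linarith
    filter_upwards [hφt.eventually h1] with k hk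
    by_contra hcon2
    push Not at hcon2
    refine hσ4 (φ k) (σ (φ k) * R) ?_ ?_ hcon2
    · nlinarith [hσ0 (φ k)]
    · have h2 := hσr (φ k)
      rw [div_le_iff₀ hε] at hk
      nlinarith [hσ0 (φ k)])).1 0 1
  have h2 : ε * 1 ≤ Dr v L 0 1 := by
    refine hBU.le_Dr (Frequently.of_forall fun k => ?_)
    rw [mul_one]
    exact (hσ3 (φ k)).le
  rw [hz] at h2
  linarith

end Crest.Agent.R135.Rgm

namespace Crest.Agent.R135

theorem small_propagates' (ε : ℝ) (hε : 0 < ε) : ∃ ε₀ : ℝ, 0 < ε₀ ∧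
    ∀ {U : Set E2} {lam : ℝ} {u : E2 → ℝ} {K : Set E2}, IsQM U lam u K →
      ∀ x ∈ K, ∀ r : ℝ, 0 < r → r ≤ 1 → closedBall x r ⊆ U → lam * r ≤ ε₀ →
        Dr u K x r ≤ ε₀ * r →
        ∀ y ∈ K, dist y x ≤ r / 2 → ∀ ρ : ℝ, 0 < ρ → ρ ≤ r / 2 → Dr u K y ρ ≤ ε * ρ := by
  obtain ⟨ε₀, h0, h1⟩ := Rgm.small_propagates_aux (min ε (1 / 2)) (by positivity)
    (min_le_right _ _)
  refine ⟨ε₀, h0, fun hqm x hx r hr hr1 hb hl hD y hy hyx ρ hρ hρr => ?_⟩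
  refine (h1 hqm x hx r hr hr1 hb hl hD y hy hyx ρ hρ hρr).trans ?_
  exact mul_le_mul_of_nonneg_right (min_le_left _ _) hρ.le

end Crest.Agent.R135
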