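import Mathlib
import Crest.Agent.R135.Rgm3

/-!
# R135, block REGIME (helper288): `shape_of_small`
-/

set_option autoImplicit false

open MeasureTheory Set Filter Topology Metric
open scoped ENNReal NNReal

namespace Crest.Agent.R135.Rgm

open Crest.Agent.R135

section Lim

variable {u : ℕ → E2 → ℝ} {K : ℕ → Set E2} {y : ℕ → E2} {ρ : ℕ → ℝ} {v : E2 → ℝ} {L : Set E2}

lemma Lr_lineAt_le (θ : ℝ) {s : ℝ} (hs : 0 ≤ s) : Lr (lineAt 0 θ) 0 s ≤ 2 * s :=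
  ENNReal.toReal_le_of_le_ofReal (by positivity) (len_lineAt_le θ s hs)

lemma Lr_propAt_le (θ : ℝ) {s : ℝ} (hs : 0 ≤ s) : Lr (propAt 0 θ) 0 s ≤ 3 * s :=
  ENNReal.toReal_le_of_le_ofReal (by positivity) (len_propAt_le θ s hs)

lemma Lr_ray_le (e : E2) (he : ‖e‖ = 1) {s : ℝ} (hs : 0 ≤ s) : Lr (ray 0 e) 0 s ≤ s :=
  ENNReal.toReal_le_of_le_ofReal hs (len_ray_ball_le e he s hs)

/-- if the limit is a line through the origin, the blown up sets are line-like with length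
close to `2 ρ` -/
theorem BU.line_good (hBU : BU u K y ρ v L) (hy : ∀ k, y k ∈ K k) {θ : ℝ} (hL : L = lineAt 0 θ)
    {η : ℝ} (hη : 0 < η) :
    ∀ᶠ k in atTop, LineLike η (K k) (y k) (ρ k) ∧ Lr (K k) (y k) (ρ k) ≤ (2 + η) * ρ k := by
  have h1 := hBU.hclose_model (R := 2) (ε := min (η / 2) (1 / 2)) (by positivity)
  have h2 := hBU.Lr_lt (R := 1) (M := 2 + η) (by
    rw [hL]
    have := Lr_lineAt_le θ (s := 1) zero_le_one
    linarith)
  filter_upwards [h1, h2] with k hk1 hk2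
  have hρ := hBU.pos k
  refine ⟨⟨dir θ, ?_⟩, by rw [mul_one] at hk2; exact hk2.le⟩
  have h3 := hk1 (lineAt (y k) θ) (by rw [rescK_lineAt _ _ hρ, hL])
  have h4 : min (η / 2) (1 / 2) ≤ 1 / 2 := min_le_right _ _
  have h5 : min (η / 2) (1 / 2) ≤ η / 2 := min_le_left _ _
  have h6 := Arc.flat_of_hclose (ρ := ρ k) (norm_dir θ) (by positivity) (hy k) (by nlinarith)
    (by positivity) h3
  refine ⟨h6.1, fun z hz hd => (h6.2.1 z hz hd).trans ?_, fun t ht => ?_⟩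
  · nlinarith
  · obtain ⟨z, hz, hd⟩ := h6.2.2 t ht
    exact ⟨z, hz, hd.trans (by nlinarith)⟩

/-- if the limit is a propeller, the blown up sets are close to propellers -/
theorem BU.prop_good (hBU : BU u K y ρ v L) {c : E2} {θ : ℝ} (hL : L = propAt c θ)
    {η : ℝ} (hη : 0 < η) :
    ∀ᶠ k in atTop, HClose (η * ρ k) (y k) (ρ k) (K k) (propAt (scm (y k) (ρ k) c) θ) ∧
      Lr (K k) (y k) (ρ k) ≤ Lr (propAt (scm (y k) (ρ k) c) θ) (y k) (ρ k) + η * ρ k := by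
  have h1 := hBU.hclose_model (R := 1) hη
  have h2 := hBU.Lr_lt (R := 1) (M := Lr L 0 1 + η) (by linarith)
  filter_upwards [h1, h2] with k hk1 hk2
  have hρ := hBU.pos k
  have hP : rescK (propAt (scm (y k) (ρ k) c) θ) (y k) (ρ k) = L := by
    rw [rescK_propAt' _ _ _ hρ, scI_scm _ hρ.ne', hL]
  refine ⟨?_, ?_⟩
  · have := hk1 _ hP
    rwa [one_mul] at this
  · have h3 : Lr L 0 1 = (ρ k)⁻¹ * Lr (propAt (scm (y k) (ρ k) c) θ) (y k) (ρ k) := by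
      rw [← hP, Lr_resc _ _ _ hρ]
      simp [scm]
    rw [mul_one] at hk2
    have h4 : (Lr L 0 1 + η) * ρ k =
        Lr (propAt (scm (y k) (ρ k) c) θ) (y k) (ρ k) + η * ρ k := by
      rw [h3, add_mul, inv_mul_eq_div, div_mul_cancel₀ _ hρ.ne']
    linarith

end Lim

end Crest.Agent.R135.Rgm

namespace Crest.Agent.R135

open Rgm in
theorem shape_of_small' (η : ℝ) (hη : 0 < η) : ∃ ε₀ : ℝ, 0 < ε₀ ∧
    ∀ {U : Set E2} {lam : ℝ} {u : E2 → ℝ} {K : Set E2}, IsQM U lam u K →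
      ∀ y ∈ K, ∀ ρ : ℝ, 0 < ρ → ρ ≤ 1 → closedBall y (ρ / ε₀) ⊆ U → lam * ρ ≤ ε₀ →
        (∀ s : ℝ, ρ ≤ s → s ≤ ρ / ε₀ → Dr u K y s ≤ ε₀ * s) →
        (LineLike η K y ρ ∧ Lr K y ρ ≤ (2 + η) * ρ) ∨
          ∃ (v : E2) (P : Set E2), IsProp P v ∧ HClose (η * ρ) y ρ K P ∧
            Lr K y ρ ≤ Lr P y ρ + η * ρ := by
  by_contra hcon
  push Not at hcon
  have hk : ∀ k : ℕ, ∃ (U : Set E2) (lam : ℝ) (u : E2 → ℝ) (K : Set E2), IsQM U lam u K ∧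
      ∃ y ∈ K, ∃ ρ : ℝ, 0 < ρ ∧ ρ ≤ 1 ∧ closedBall y (ρ * ((k:ℝ) + 1)) ⊆ U ∧
        lam * ρ ≤ 1 / ((k:ℝ) + 1) ∧
        (∀ s : ℝ, ρ ≤ s → s ≤ ρ * ((k:ℝ) + 1) → Dr u K y s ≤ 1 / ((k:ℝ) + 1) * s) ∧
        ¬ (LineLike η K y ρ ∧ Lr K y ρ ≤ (2 + η) * ρ) ∧
        ¬ ∃ (v : E2) (P : Set E2), IsProp P v ∧ HClose (η * ρ) y ρ K P ∧
            Lr K y ρ ≤ Lr P y ρ + η * ρ := by
    intro k
    obtain ⟨U, lam, u, K, hqm, y, hy, ρ, hρ, hρ1, hb, hl, hD, h1, h2⟩ :=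
      hcon (1 / ((k:ℝ) + 1)) (by positivity)
    have hdiv : ρ / (1 / ((k:ℝ) + 1)) = ρ * ((k:ℝ) + 1) := by rw [div_div_eq_mul_div, div_one]
    rw [hdiv] at hb hD
    exact ⟨U, lam, u, K, hqm, y, hy, ρ, hρ, hρ1, hb, hl, hD, fun h => absurd (h1 h.1) (not_lt.2 h.2),
      fun ⟨v, P, hP, hc, hL⟩ => absurd (h2 v P hP hc) (not_lt.2 hL)⟩
  choose U lam u K hqm y hy ρ hρ hρ1 hb hl hD hbad1 hbad2 using hk
  have hlarge : ∀ R : ℝ, ∀ᶠ k : ℕ in atTop, R ≤ (k:ℝ) + 1 := by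
    intro R
    filter_upwards [(tendsto_natCast_atTop_atTop (R := ℝ)).eventually (eventually_ge_atTop R)]
      with k hk
    linarith
  obtain ⟨φ, hφ, v, L, hBU⟩ := exists_BU hqm (y := y) (ρ := ρ) hρ hρ1 (by
      refine squeeze_zero (g := fun k : ℕ => 1 / ((k:ℝ) + 1)) (fun k => ?_) hl
        tendsto_one_div_add_atTop_nhds_zero_nat
      exact mul_nonneg (hqm k).lam_nonneg (hρ k).le) (by
      intro R
      filter_upwards [hlarge R] with k hk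
      exact (closedBall_subset_closedBall (mul_le_mul_of_nonneg_left hk (hρ k).le)).trans (hb k))
  have hφt : Tendsto φ atTop atTop := hφ.tendsto_atTop
  obtain ⟨-, hmod⟩ := hBU.limit_model (Frequently.of_forall fun k => hy _) (ε := 1 / 2)
    (by norm_num) (by
    intro R hR
    refine Eventually.frequently ?_
    filter_upwards [hφt.eventually (hlarge R)] with k hk
    refine (hD (φ k) _ ?_ ?_).trans ?_
    · nlinarith [hρ (φ k)]
    · exact mul_le_mul_of_nonneg_left hk (hρ _).le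
    · have h1 : (1:ℝ) / ((φ k : ℝ) + 1) ≤ 1 / 2 :=
        one_div_le_one_div_of_le (by norm_num) (by linarith)
      have h2 : 0 ≤ ρ (φ k) * R := by have := hρ (φ k); positivity
      exact mul_le_mul_of_nonneg_right h1 h2)
  rcases hmod with ⟨p, θ, hL⟩ | ⟨c, θ, hL⟩
  · have h0 := hBU.zero_mem (Frequently.of_forall fun k => hy _)
    rw [hL] at h0
    obtain ⟨k, hk⟩ := (hBU.line_good (fun k => hy _) (hL.trans (lineAt_eq_of_mem h0).symm) hη).exists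
    exact hbad1 (φ k) hk
  · obtain ⟨k, hk1, hk2⟩ := (hBU.prop_good hL hη).exists
    exact hbad2 (φ k) ⟨_, _, ⟨θ, rfl⟩, hk1, hk2⟩

end Crest.Agent.R135
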