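import Crest.Agent.R135.IFDefs2
import Crest.Agent.R135.Rgm4

/-! INTERFACE shape_of_small: complete (helper288, Rgm4.lean). -/

set_option autoImplicit false

open MeasureTheory Set Filter Topology Metric
open scoped ENNReal NNReal ContDiff Gradient
open Crest.AnalysisR.PDE.OnePhase Crest.AnalysisR.PDE.MumfordShah

namespace Crest.Agent.R135

/-- (2.3) small density on a long range of scales above `ρ`: closeness to a line through `y`
(with the length bound) or to a propeller -/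
theorem shape_of_small (η : ℝ) (hη : 0 < η) : ∃ ε₀ : ℝ, 0 < ε₀ ∧
    ∀ {U : Set E2} {lam : ℝ} {u : E2 → ℝ} {K : Set E2}, IsQM U lam u K →
      ∀ y ∈ K, ∀ ρ : ℝ, 0 < ρ → ρ ≤ 1 → closedBall y (ρ / ε₀) ⊆ U → lam * ρ ≤ ε₀ →
        (∀ s : ℝ, ρ ≤ s → s ≤ ρ / ε₀ → Dr u K y s ≤ ε₀ * s) →
        (LineLike η K y ρ ∧ Lr K y ρ ≤ (2 + η) * ρ) ∨
          ∃ (v : E2) (P : Set E2), IsProp P v ∧ HClose (η * ρ) y ρ K P ∧
            Lr K y ρ ≤ Lr P y ρ + η * ρ :=
  shape_of_small' η hη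

end Crest.Agent.R135
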