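import Crest.Agent.R135.IFDefs2
import Crest.Agent.R135.Rgm3

/-! INTERFACE small_propagates: complete (helper288, Rgm3.lean). -/

set_option autoImplicit false

open MeasureTheory Set Filter Topology Metric
open scoped ENNReal NNReal ContDiff Gradient
open Crest.AnalysisR.PDE.OnePhase Crest.AnalysisR.PDE.MumfordShah

namespace Crest.Agent.R135

/-- (2.2) smallness of the energy density propagates to all centres and all smaller scales.
[Largest bad scale `ρ_n` at `y_n`: `ρ_n/r_n → 0` since `Dr y ρ ≤ Dr x r`; blow up: global object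
with density `≤ ε < 1` at all scales `≥ 2`, so `gm_shape`: `Dr = 0`, contradiction.] -/
theorem small_propagates (ε : ℝ) (hε : 0 < ε) : ∃ ε₀ : ℝ, 0 < ε₀ ∧
    ∀ {U : Set E2} {lam : ℝ} {u : E2 → ℝ} {K : Set E2}, IsQM U lam u K →
      ∀ x ∈ K, ∀ r : ℝ, 0 < r → r ≤ 1 → closedBall x r ⊆ U → lam * r ≤ ε₀ →
        Dr u K x r ≤ ε₀ * r →
        ∀ y ∈ K, dist y x ≤ r / 2 → ∀ ρ : ℝ, 0 < ρ → ρ ≤ r / 2 → Dr u K y ρ ≤ ε * ρ :=
  small_propagates' ε hε

end Crest.Agent.R135
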