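import Mathlib
import Crest.Agent.R135.Rgm4

/-!
# R135, block REGIME (helper288): control of shape and length by compactness, for points which
are line-like / propeller-like at all large scales
-/

set_option autoImplicit false

open MeasureTheory Set Filter Topology Metric
open scoped ENNReal NNReal

namespace Crest.Agent.R135.LSh

open Crest.Agent.R135 Crest.Agent.R135.Rgm

/-- smallness at `(y, ρ)`, with parameter `δ` -/
structure Small (δ : ℝ) (U : Set E2) (lam : ℝ) (u : E2 → ℝ) (K : Set E2) (y : E2) (ρ : ℝ) :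
    Prop where
  qm : IsQM U lam u K
  mem : y ∈ K
  pos : 0 < ρ
  le_one : ρ ≤ 1
  sub : closedBall y (ρ / δ) ⊆ U
  lam_le : lam * ρ ≤ δ
  en : ∀ s : ℝ, ρ ≤ s → s ≤ ρ / δ → Dr u K y s ≤ δ * s

lemma large (R : ℝ) : ∀ᶠ k : ℕ in atTop, R ≤ (k:ℝ) + 1 := by
  filter_upwards [(tendsto_natCast_atTop_atTop (R := ℝ)).eventually (eventually_ge_atTop R)]
    with k hk
  linarith

lemma div_inv_nat (ρ : ℝ) (k : ℕ) : ρ / (1 / ((k:ℝ) + 1)) = ρ * ((k:ℝ) + 1) := by
  rw [div_div_eq_mul_div, div_one]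

theorem exists_BU_of_small {U : ℕ → Set E2} {lam : ℕ → ℝ} {u : ℕ → E2 → ℝ} {K : ℕ → Set E2}
    {y : ℕ → E2} {ρ : ℕ → ℝ}
    (h : ∀ k : ℕ, Small (1 / ((k:ℝ) + 1)) (U k) (lam k) (u k) (K k) (y k) (ρ k)) :
    ∃ φ : ℕ → ℕ, StrictMono φ ∧ ∃ (v : E2 → ℝ) (L : Set E2),
      BU (fun k => u (φ k)) (fun k => K (φ k)) (fun k => y (φ k)) (fun k => ρ (φ k)) v L ∧
      (0 : E2) ∈ L ∧ ((∃ p θ, L = lineAt p θ) ∨ ∃ p θ, L = propAt p θ) := by
  have hρ := fun k => (h k).pos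
  obtain ⟨φ, hφ, v, L, hBU⟩ := exists_BU (fun k => (h k).qm) (y := y) (ρ := ρ) hρ
    (fun k => (h k).le_one) (by
      refine squeeze_zero (g := fun k : ℕ => 1 / ((k:ℝ) + 1)) (fun k => ?_) (fun k => (h k).lam_le)
        tendsto_one_div_add_atTop_nhds_zero_nat
      exact mul_nonneg (h k).qm.lam_nonneg (hρ k).le) (by
      intro R
      filter_upwards [large R] with k hk
      refine (closedBall_subset_closedBall ?_).trans (h k).sub
      rw [div_inv_nat]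
      exact mul_le_mul_of_nonneg_left hk (hρ k).le)
  have hφt : Tendsto φ atTop atTop := hφ.tendsto_atTop
  obtain ⟨-, hmod⟩ := hBU.limit_model (Frequently.of_forall fun k => (h _).mem) (ε := 1 / 2)
    (by norm_num) (by
    intro R hR
    refine Eventually.frequently ?_
    filter_upwards [hφt.eventually (large R)] with k hk
    refine ((h (φ k)).en _ ?_ ?_).trans ?_
    · nlinarith [hρ (φ k)]
    · rw [div_inv_nat]
      exact mul_le_mul_of_nonneg_left hk (hρ _).le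
    · have h1 : (1:ℝ) / ((φ k : ℝ) + 1) ≤ 1 / 2 :=
        one_div_le_one_div_of_le (by norm_num) (by linarith)
      have h2 : 0 ≤ ρ (φ k) * R := by have := hρ (φ k); positivity
      exact mul_le_mul_of_nonneg_right h1 h2)
  exact ⟨φ, hφ, v, L, hBU, hBU.zero_mem (Frequently.of_forall fun k => (h _).mem), hmod⟩

lemma Small.mono {δ δ' : ℝ} {U : Set E2} {lam : ℝ} {u : E2 → ℝ} {K : Set E2} {y : E2} {ρ : ℝ}
    (h : Small δ U lam u K y ρ) (hδ : 0 < δ) (hle : δ ≤ δ') : Small δ' U lam u K y ρ := by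
  have hρ := h.pos
  have h1 : ρ / δ' ≤ ρ / δ := div_le_div_of_nonneg_left hρ.le hδ hle
  exact ⟨h.qm, h.mem, h.pos, h.le_one, (closedBall_subset_closedBall h1).trans h.sub,
    h.lam_le.trans hle, fun s hs hs' => (h.en s hs (hs'.trans h1)).trans
      (mul_le_mul_of_nonneg_right hle (by linarith))⟩

/-- line-like at all large scales, small density: close to a line with length bound -/
theorem line_ctrl (ε : ℝ) (hε : 0 < ε) : ∃ δ : ℝ, 0 < δ ∧ δ ≤ 1 ∧
    ∀ {U : Set E2} {lam : ℝ} {u : E2 → ℝ} {K : Set E2} {y : E2} {ρ : ℝ},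
      Small δ U lam u K y ρ → (∀ s, ρ ≤ s → s ≤ ρ / δ → Ln (1 / 400) K y s) →
        LineLike ε K y ρ ∧ Lr K y ρ ≤ (2 + ε) * ρ := by
  by_contra hcon
  push Not at hcon
  have hk : ∀ k : ℕ, ∃ (U : Set E2) (lam : ℝ) (u : E2 → ℝ) (K : Set E2) (y : E2) (ρ : ℝ),
      Small (1 / ((k:ℝ) + 1)) U lam u K y ρ ∧
      (∀ s, ρ ≤ s → s ≤ ρ * ((k:ℝ) + 1) → Ln (1 / 400) K y s) ∧
      ¬ (LineLike ε K y ρ ∧ Lr K y ρ ≤ (2 + ε) * ρ) := by
    intro k
    obtain ⟨U, lam, u, K, y, ρ, h1, h2, h3⟩ := hcon (1 / ((k:ℝ) + 1)) (by positivity)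
      (by rw [div_le_one (by positivity)]; linarith [(Nat.cast_nonneg k : (0:ℝ) ≤ k)])
    rw [div_inv_nat] at h2
    exact ⟨U, lam, u, K, y, ρ, h1, h2, fun h => absurd (h3 h.1) (not_lt.2 h.2)⟩
  choose U lam u K y ρ hS hln hbad using hk
  obtain ⟨φ, hφ, v, L, hBU, h0, hmod⟩ := exists_BU_of_small hS
  have hφt : Tendsto φ atTop atTop := hφ.tendsto_atTop
  have hy : ∀ k, y (φ k) ∈ K (φ k) := fun k => (hS _).mem
  obtain ⟨θ, hL⟩ := hBU.limit_line (Frequently.of_forall hy) hmod (by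
    intro R hR
    refine Eventually.frequently ?_
    filter_upwards [hφt.eventually (large R)] with k hk
    have hp := (hS (φ k)).pos
    exact hln (φ k) _ (by nlinarith) (by nlinarith))
  obtain ⟨k, hk⟩ := (hBU.line_good hy hL hε).exists
  exact hbad (φ k) hk

/-- propeller-like at all scales, small density: close to a propeller with length bound -/
theorem prop_ctrl (ε : ℝ) (hε : 0 < ε) : ∃ δ : ℝ, 0 < δ ∧ δ ≤ 1 ∧
    ∀ {U : Set E2} {lam : ℝ} {u : E2 → ℝ} {K : Set E2} {y : E2} {ρ : ℝ},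
      Small δ U lam u K y ρ → (∀ s, 0 < s → s ≤ ρ / δ → Pr (1 / 100000) K y s) →
        PropLike ε K y ρ ∧ Lr K y ρ ≤ (3 + ε) * ρ := by
  by_contra hcon
  push Not at hcon
  have hk : ∀ k : ℕ, ∃ (U : Set E2) (lam : ℝ) (u : E2 → ℝ) (K : Set E2) (y : E2) (ρ : ℝ),
      Small (1 / ((k:ℝ) + 1)) U lam u K y ρ ∧
      (∀ s, 0 < s → s ≤ ρ * ((k:ℝ) + 1) → Pr (1 / 100000) K y s) ∧
      ¬ (PropLike ε K y ρ ∧ Lr K y ρ ≤ (3 + ε) * ρ) := by
    intro k
    obtain ⟨U, lam, u, K, y, ρ, h1, h2, h3⟩ := hcon (1 / ((k:ℝ) + 1)) (by positivity)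
      (by rw [div_le_one (by positivity)]; linarith [(Nat.cast_nonneg k : (0:ℝ) ≤ k)])
    rw [div_inv_nat] at h2
    exact ⟨U, lam, u, K, y, ρ, h1, h2, fun h => absurd (h3 h.1) (not_lt.2 h.2)⟩
  choose U lam u K y ρ hS hpr hbad using hk
  obtain ⟨φ, hφ, v, L, hBU, h0, hmod⟩ := exists_BU_of_small hS
  have hφt : Tendsto φ atTop atTop := hφ.tendsto_atTop
  have hy : ∀ k, y (φ k) ∈ K (φ k) := fun k => (hS _).mem
  obtain ⟨θ, hL⟩ := hBU.limit_prop hmod (by
    intro R hR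
    refine Eventually.frequently ?_
    filter_upwards [hφt.eventually (large R)] with k hk
    have hp := (hS (φ k)).pos
    exact hpr (φ k) _ (by positivity) (by nlinarith))
  have h1 := hBU.hclose_model (R := 2) (ε := min (ε / 2) (1 / 2)) (by positivity)
  have h2 := hBU.Lr_lt (R := 1) (M := 3 + ε) (by
    rw [hL]
    have := Lr_propAt_le θ (s := 1) zero_le_one
    linarith)
  obtain ⟨k, hk1, hk2⟩ := (h1.and h2).exists
  have hρ := (hS (φ k)).pos
  refine hbad (φ k) ⟨⟨dir θ, ?_⟩, by rw [mul_one] at hk2; exact hk2.le⟩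
  have h3 := hk1 (propAt (y (φ k)) θ) (by rw [rescK_propAt _ _ hρ, hL])
  have h4 : min (ε / 2) (1 / 2) ≤ 1 / 2 := min_le_right _ _
  have h5 : min (ε / 2) (1 / 2) ≤ ε / 2 := min_le_left _ _
  have h7 : 0 ≤ min (ε / 2) (1 / 2) := by positivity
  have h6 := Arc.starAt_of_hclose_prop (ρ := ρ (φ k)) (x0 := y (φ k))
    (by rw [dist_self]; positivity) (by nlinarith) h3
  refine ⟨h6.1, fun z hz hd => ?_, fun j t ht ht' => ?_⟩
  · obtain ⟨j, t, ht, hd'⟩ := h6.2.1 z hz hd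
    exact ⟨j, t, ht, hd'.trans (by nlinarith)⟩
  · obtain ⟨z, hz, hd⟩ := h6.2.2 j t ht ht'
    exact ⟨z, hz, hd.trans (by nlinarith)⟩

end Crest.Agent.R135.LSh
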