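import Mathlib
import Crest.Agent.R135.LSh1

/-!
# R135, block REGIME (helper288): points near a propeller-like point
-/

set_option autoImplicit false

open MeasureTheory Set Filter Topology Metric
open scoped ENNReal NNReal

namespace Crest.Agent.R135.LSh

open Crest.Agent.R135 Crest.Agent.R135.Rgm

section Lim

variable {u : ℕ → E2 → ℝ} {K : ℕ → Set E2} {y : ℕ → E2} {ρ : ℕ → ℝ} {v : E2 → ℝ} {L : Set E2}

/-- if the limit is a line through the origin in `ball 0 (3/2)`, the blown up sets are line-like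
with length close to `2 ρ` -/
theorem line_good' (hBU : BU u K y ρ v L) (hy : ∀ k, y k ∈ K k) {θ : ℝ}
    (hL : ∀ z ∈ ball (0:E2) (3 / 2), z ∈ L ↔ z ∈ lineAt 0 θ)
    {η : ℝ} (hη : 0 < η) :
    ∀ᶠ k in atTop, LineLike η (K k) (y k) (ρ k) ∧ Lr (K k) (y k) (ρ k) ≤ (2 + η) * ρ k := by
  have hsub : closedBall (0:E2) 1 ⊆ ball 0 (3 / 2) := closedBall_subset_ball (by norm_num)
  set ε := min (η / 2) (1 / 8) with hε
  have h4 : ε ≤ 1 / 8 := min_le_right _ _
  have h5 : ε ≤ η / 2 := min_le_left _ _
  have h0 : 0 < ε := by positivity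
  have h1 := hBU.hclose (3 / 2) (ε := ε) h0
  have h2 := hBU.Lr_lt (R := 1) (M := 2 + η) (by
    have e1 : Lr L 0 1 = Lr (lineAt 0 θ) 0 1 := by
      unfold Lr
      congr 2
      ext z
      constructor
      · rintro ⟨hz, hb⟩; exact ⟨(hL z (hsub hb)).1 hz, hb⟩
      · rintro ⟨hz, hb⟩; exact ⟨(hL z (hsub hb)).2 hz, hb⟩
    have := Lr_lineAt_le θ (s := 1) zero_le_one
    linarith)
  filter_upwards [h1, h2] with k hk1 hk2
  have hρ := hBU.pos k
  refine ⟨⟨dir θ, ?_⟩, by rw [mul_one] at hk2; exact hk2.le⟩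
  have h3 : HClose ε 0 (5 / 4) (rescK (K k) (y k) (ρ k)) (lineAt 0 θ) := by
    constructor
    · rintro z ⟨hz, hzb⟩
      rw [mem_ball] at hzb
      obtain ⟨w, hw, hd⟩ := hk1.1 z ⟨hz, by rw [mem_ball]; linarith⟩
      refine ⟨w, (hL w ?_).1 hw, hd⟩
      rw [mem_ball]
      have := dist_triangle w z 0
      rw [dist_comm w z] at this
      linarith
    · rintro z ⟨hz, hzb⟩
      have hzb' : z ∈ ball (0:E2) (3 / 2) := ball_subset_ball (by norm_num) hzb
      exact hk1.2 z ⟨(hL z hzb').2 hz, hzb'⟩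
  rw [← rescK_lineAt (y k) θ hρ, hclose_resc_iff hρ] at h3
  have h6 := Arc.flat_of_hclose (ρ := ρ k) (norm_dir θ) (by positivity) (hy k) (by nlinarith)
    (by positivity) h3
  refine ⟨h6.1, fun z hz hd => (h6.2.1 z hz hd).trans ?_, fun t ht => ?_⟩
  · nlinarith
  · obtain ⟨z, hz, hd⟩ := h6.2.2 t ht
    exact ⟨z, hz, hd.trans (by nlinarith)⟩

end Lim

/-- near a propeller-like point `x`: the points `z ≠ x` are line-like with length bound at all
scales `≤ dist z x / 2` -/
theorem side_ctrl (ε : ℝ) (hε : 0 < ε) : ∃ δ : ℝ, 0 < δ ∧ δ ≤ 1 ∧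
    ∀ {U : Set E2} {lam : ℝ} {u : E2 → ℝ} {K : Set E2} {z : E2} {ρ : ℝ} {x : E2},
      Small δ U lam u K z ρ → 2 * ρ ≤ dist z x →
      (∀ s, dist z x ≤ s → s ≤ dist z x / δ → Pr (1 / 100000) K x s) →
      (∀ s, ρ ≤ s → s ≤ dist z x / 40 → Ln (1 / 400) K z s) →
        LineLike ε K z ρ ∧ Lr K z ρ ≤ (2 + ε) * ρ := by
  by_contra hcon
  push Not at hcon
  have hk : ∀ k : ℕ, ∃ (U : Set E2) (lam : ℝ) (u : E2 → ℝ) (K : Set E2) (z : E2) (ρ : ℝ) (x : E2),
      Small (1 / ((k:ℝ) + 1)) U lam u K z ρ ∧ 2 * ρ ≤ dist z x ∧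
      (∀ s, dist z x ≤ s → s ≤ dist z x * ((k:ℝ) + 1) → Pr (1 / 100000) K x s) ∧
      (∀ s, ρ ≤ s → s ≤ dist z x / 40 → Ln (1 / 400) K z s) ∧
      ¬ (LineLike ε K z ρ ∧ Lr K z ρ ≤ (2 + ε) * ρ) := by
    intro k
    obtain ⟨U, lam, u, K, z, ρ, x, h1, h2, h3, h4, h5⟩ := hcon (1 / ((k:ℝ) + 1)) (by positivity)
      (by rw [div_le_one (by positivity)]; linarith [(Nat.cast_nonneg k : (0:ℝ) ≤ k)])
    rw [div_inv_nat] at h3
    exact ⟨U, lam, u, K, z, ρ, x, h1, h2, h3, h4, fun h => absurd (h5 h.1) (not_lt.2 h.2)⟩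
  choose U lam u K z ρ x hS hdx hpr hln hbad using hk
  obtain ⟨φ, hφ, v, L, hBU, h0, hmod⟩ := exists_BU_of_small hS
  have hφt : Tendsto φ atTop atTop := hφ.tendsto_atTop
  have hy : ∀ k, z (φ k) ∈ K (φ k) := fun k => (hS _).mem
  have hline : ∃ θ, ∀ w ∈ ball (0:E2) (3 / 2), w ∈ L ↔ w ∈ lineAt 0 θ := by
    rcases hmod with ⟨p, θ, hL⟩ | ⟨c, θ, hL⟩
    · refine ⟨θ, fun w _ => ?_⟩
      rw [hL] at h0
      rw [hL, lineAt_eq_of_mem h0]
    · have hc : 3 / 2 ≤ dist c 0 := by
        by_contra hc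
        push Not at hc
        set R := 8 * dist c 0 + 1 with hR
        have hR1 : 1 ≤ R := by have := dist_nonneg (x := c) (y := (0:E2)); linarith
        by_cases hfreq : ∃ᶠ k in atTop, 40 * R * ρ (φ k) ≤ dist (z (φ k)) (x (φ k))
        · -- the point `x` is far: line-like at scale `R`
          obtain ⟨α, hα⟩ := hBU.limit_close (Y := fun θ => lineAt 0 θ) (δ := R / 400) (R := R)
            (R' := R / 2) (by positivity) (by linarith) (hfreq.mono fun k hk => by
              have hp := (hS (φ k)).pos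
              obtain ⟨θ, h1⟩ := (ln_resc_iff (hBU.pos k)).2 (hln (φ k) (R * ρ (φ k))
                (by nlinarith) (by linarith))
              exact ⟨θ, by rwa [one_div_mul_eq_div] at h1⟩)
          rw [hL] at hα
          refine not_ln_propAt (R := R / 2) (by positivity) ?_ (by positivity) ?_ hα
          · have := dist_nonneg (x := c) (y := (0:E2)); linarith
          · linarith
        · rw [not_frequently] at hfreq
          obtain ⟨k, hk1, hk2, hk3⟩ := (hfreq.and ((hBU.hclose (160 * R) (ε := 1 / 50000)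
            (by norm_num)).and (hφt.eventually (large 5)))).exists
          push Not at hk1
          have hp := (hS (φ k)).pos
          set r := ρ (φ k) with hr
          set d := dist (z (φ k)) (x (φ k)) with hd
          have h2 := hdx (φ k)
          rw [← hr, ← hd] at h2
          have hd0 : 0 < d := by linarith
          -- closeness to the propeller centred at `x`
          obtain ⟨β, hβ⟩ := hpr (φ k) (5 * d) (by linarith) (by rw [mul_comm]; gcongr)
          set D := d / r with hD
          have hD2 : 2 ≤ D := by rw [hD, le_div_iff₀ hp]; exact h2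
          have hdD : d = D * r := by rw [hD, div_mul_cancel₀ _ hp.ne']
          have h3 : HClose (D * (5 / 100000) * r) (z (φ k)) (4 * D * r) (K (φ k))
              (propAt (x (φ k)) β) := by
            refine hβ.mono_ball' (by rw [hdD]; linarith) ?_
            rw [← hd, hdD]; linarith
          rw [← hclose_resc_iff hp, rescK_propAt' _ _ _ hp] at h3
          set x' := scI (z (φ k)) r (x (φ k)) with hx'
          have hx'D : dist x' 0 = D := by
            rw [dist_zero_right, hx', scI, norm_smul, ← dist_eq_norm, dist_comm, ← hd, hD,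
              norm_inv, Real.norm_eq_abs, abs_of_pos hp, inv_mul_eq_div]
          have hDR : D < 40 * R := by rw [hD, div_lt_iff₀ hp]; exact hk1
          have h4 : HClose (1 / 50000) 0 (4 * D) L (rescK (K (φ k)) (z (φ k)) r) :=
            (hk2.mono_ball' le_rfl (by rw [dist_self]; linarith)).swap
          have h5 := h4.trans h3 (by norm_num) (by positivity)
          have hmax : max (1 / 50000) (D * (5 / 100000)) ≤ D := max_le (by linarith) (by linarith)
          rw [hL] at h5
          have h6 := Tr.center_close (η := 2 / 100000) (K := propAt c θ) (y := 0) (ρ := 3 * D)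
            (ρ' := 3 * D) (by positivity) (by norm_num) (by norm_num) (c := c) (c' := x') (θ := θ)
            (θ' := β) (by linarith) (hclose_self (by positivity) _ _ _) le_rfl (by linarith)
            (h5.mono_ball' (by linarith) (by rw [dist_self]; linarith))
          have h7 := dist_triangle x' c 0
          rw [dist_comm x' c, hx'D] at h7
          linarith
      rw [hL] at h0
      obtain ⟨α, hα⟩ := propAt_far (y := (0:E2)) (q := 0) (t := 3 / 2) (δ := 0) (R' := 3 / 2) h0
        (by rw [dist_self]) hc (by norm_num)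
      refine ⟨α, fun w hw => ?_⟩
      have h1 := (hα 0 (mem_ball_self (by norm_num))).1 h0
      rw [lineAt_eq_of_mem h1, hL]
      exact hα w hw
  obtain ⟨θ, hθ⟩ := hline
  obtain ⟨k, hk⟩ := (line_good' hBU hy hθ hε).exists
  exact hbad (φ k) hk

end Crest.Agent.R135.LSh
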