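import Mathlib
import Crest.Agent.R135.LSh2
import Crest.Agent.R135.IF_small_propagates
import Crest.Agent.R135.IF_shape_of_small
import Crest.Agent.R135.EpsLoc1

/-!
# R135, block REGIME (helper288): `local_shape` and `line_reg`
-/

set_option autoImplicit false

open MeasureTheory Set Filter Topology Metric
open scoped ENNReal NNReal

namespace Crest.Agent.R135.LSh

open Crest.Agent.R135 Crest.Agent.R135.Rgm

lemma fl_of_lineLike {η : ℝ} {K : Set E2} {y : E2} {ρ : ℝ} (hη : 0 < η) (hρ : 0 < ρ)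
    (h : LineLike (η / 2) K y ρ) : Fl η K y ρ := by
  obtain ⟨e, he⟩ := h
  obtain ⟨θ, -, h⟩ := EpsLoc.hclose_of_flat (by positivity) he
  exact Fl.of_Ln ⟨θ, h.mono_eps (by linarith)⟩

/-- flatness and smallness at all points near `x` and all small scales -/
theorem fl_small (η δ : ℝ) (hη : 0 < η) (hδ : 0 < δ) (_hδ1 : δ ≤ 1) :
    ∃ ε₀ c : ℝ, 0 < ε₀ ∧ ε₀ ≤ δ ∧ 0 < c ∧ c ≤ 1 / 4 ∧
    ∀ {U : Set E2} {lam : ℝ} {u : E2 → ℝ} {K : Set E2}, IsQM U lam u K →
      ∀ x ∈ K, ∀ r : ℝ, 0 < r → r ≤ 1 → closedBall x r ⊆ U → lam * r ≤ ε₀ →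
        Dr u K x r ≤ ε₀ * r →
        ∀ y ∈ K, dist y x ≤ r / 4 → ∀ ρ : ℝ, 0 < ρ → ρ ≤ c * r →
          Fl η K y ρ ∧ Small δ U lam u K y ρ := by
  obtain ⟨ε₂, h2, hshape⟩ := shape_of_small (η / 2) (by positivity)
  obtain ⟨ε₁, h1, hprop⟩ := small_propagates (min δ ε₂) (by positivity)
  set c := min (1 / 4) (min (δ / 4) (ε₂ / 4)) with hc
  have hc0 : 0 < c := by positivity
  have hc1 : c ≤ 1 / 4 := min_le_left _ _
  have hc2 : c ≤ δ / 4 := (min_le_right _ _).trans (min_le_left _ _)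
  have hc3 : c ≤ ε₂ / 4 := (min_le_right _ _).trans (min_le_right _ _)
  refine ⟨min ε₁ (min δ ε₂), c, by positivity, (min_le_right _ _).trans (min_le_left _ _),
    hc0, hc1, ?_⟩
  intro U lam u K hqm x hx r hr hr1 hb hl hD y hy hyx ρ hρ hρr
  have hlam := hqm.lam_nonneg
  have e1 : min ε₁ (min δ ε₂) ≤ ε₁ := min_le_left _ _
  have e2 : min ε₁ (min δ ε₂) ≤ δ := (min_le_right _ _).trans (min_le_left _ _)
  have e3 : min ε₁ (min δ ε₂) ≤ ε₂ := (min_le_right _ _).trans (min_le_right _ _)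
  have hDall : ∀ s : ℝ, 0 < s → s ≤ r / 2 → Dr u K y s ≤ min δ ε₂ * s := fun s hs hsr =>
    hprop hqm x hx r hr hr1 hb (hl.trans e1)
      (hD.trans (mul_le_mul_of_nonneg_right e1 hr.le)) y hy (by linarith) s hs hsr
  have hρr' : ρ ≤ r / 4 := by nlinarith
  have hlamρ : lam * ρ ≤ lam * r := mul_le_mul_of_nonneg_left (by linarith) hlam
  have hρδ : ρ / δ ≤ r / 4 := by
    rw [div_le_iff₀ hδ]; nlinarith
  have hρε : ρ / ε₂ ≤ r / 4 := by
    rw [div_le_iff₀ h2]; nlinarith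
  have hsub : closedBall y (r / 4) ⊆ U := (closedBall_subset_closedBall' (by linarith)).trans hb
  constructor
  · rcases hshape hqm y hy ρ hρ (by linarith) ((closedBall_subset_closedBall hρε).trans hsub)
      (hlamρ.trans (hl.trans e3)) (fun s hs hs' => (hDall s (by linarith) (by linarith)).trans
        (mul_le_mul_of_nonneg_right (min_le_right _ _) (by linarith))) with h | ⟨v, P, hP, h, -⟩
    · exact fl_of_lineLike hη hρ h.1
    · obtain ⟨θ, hθ⟩ := hP
      exact ⟨P, Or.inr ⟨v, θ, hθ⟩, h.mono_eps (by nlinarith)⟩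
  · exact ⟨hqm, hy, hρ, by linarith, (closedBall_subset_closedBall hρδ).trans hsub,
      hlamρ.trans (hl.trans e2), fun s hs hs' => (hDall s (by linarith) (by linarith)).trans
        (mul_le_mul_of_nonneg_right (min_le_left _ _) (by linarith))⟩

end Crest.Agent.R135.LSh

namespace Crest.Agent.R135

open LSh Rgm in
theorem local_shape' (ε : ℝ) (hε : 0 < ε) : ∃ ε₀ : ℝ, 0 < ε₀ ∧
    ∀ {U : Set E2} {lam : ℝ} {u : E2 → ℝ} {K : Set E2}, IsQM U lam u K →
      ∀ x ∈ K, ∀ r : ℝ, 0 < r → r ≤ 1 → closedBall x r ⊆ U → lam * r ≤ ε₀ →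
        Dr u K x r ≤ ε₀ * r →
        ∃ ρ₀ : ℝ, LineReg ε U lam u K x ρ₀ ∨ PropReg ε U lam u K x ρ₀ := by
  obtain ⟨δ₁, hδ₁, -, hline⟩ := line_ctrl ε hε
  obtain ⟨δ₂, hδ₂, -, hprop⟩ := prop_ctrl ε hε
  obtain ⟨δ₃, hδ₃, -, hside⟩ := side_ctrl ε hε
  set δ := min (min (min δ₁ δ₂) (min δ₃ ε)) (1 / 2) with hδ
  have hδ0 : 0 < δ := by positivity
  have hd1 : δ ≤ δ₁ := (min_le_left _ _).trans ((min_le_left _ _).trans (min_le_left _ _))
  have hd2 : δ ≤ δ₂ := (min_le_left _ _).trans ((min_le_left _ _).trans (min_le_right _ _))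
  have hd3 : δ ≤ δ₃ := (min_le_left _ _).trans ((min_le_right _ _).trans (min_le_left _ _))
  have hdε : δ ≤ ε := (min_le_left _ _).trans ((min_le_right _ _).trans (min_le_right _ _))
  have hdh : δ ≤ 1 / 2 := min_le_right _ _
  obtain ⟨ε₀, c, hε₀, hε₀δ, hc, hc1, hfl⟩ := fl_small (1 / 10000000) δ (by norm_num) hδ0
    (by linarith)
  refine ⟨ε₀, hε₀, ?_⟩
  intro U lam u K hqm x hx r hr hr1 hb hl hD
  have hlam := hqm.lam_nonneg
  have key := fun (y : E2) (hy : y ∈ K) (hyx : dist y x ≤ r / 4) (ρ : ℝ) (hρ : 0 < ρ)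
    (hρr : ρ ≤ c * r) => hfl hqm x hx r hr hr1 hb hl hD y hy hyx ρ hρ hρr
  have hcr : c * r ≤ r / 4 := by nlinarith
  have hdiv : ∀ {a b t : ℝ}, 0 < b → 0 ≤ t → δ ≤ b → t ≤ δ * a → t / b ≤ a := by
    intro a b t hb ht hδb hta
    rw [div_le_iff₀ hb]
    have ha : 0 ≤ a := by
      by_contra hcon
      push Not at hcon
      nlinarith
    nlinarith
  have hen : ∀ z ∈ K, dist z x ≤ r / 4 → ∀ s, 0 < s → s ≤ c * r → Dr u K z s ≤ ε * s := by
    intro z hz hzx s hs hs'
    refine ((key z hz hzx s hs hs').2.en s le_rfl ?_).trans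
      (mul_le_mul_of_nonneg_right hdε hs.le)
    rw [le_div_iff₀ hδ0]
    nlinarith
  rcases line_or_propeller (η := 1 / 10000000) (K := K) (x0 := x) (r0 := c * r) (by norm_num)
    (by norm_num) hx (by positivity) (fun y hy ρ hρ hρr =>
      (key y hy.1 (by have := mem_ball.1 hy.2; linarith) ρ hρ hρr).1) with
    ⟨r1, hr1pos, hln⟩ | ⟨r1, hr1pos, hpr, hln⟩
  · -- line-like regime
    refine ⟨min (δ * r1) (c * r) / 2, Or.inl ?_⟩
    set ρ₀ := min (δ * r1) (c * r) / 2 with hρ₀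
    have h0 : 0 < ρ₀ := by positivity
    have h1 : ρ₀ ≤ δ * r1 / 2 := by
      rw [hρ₀]; exact div_le_div_of_nonneg_right (min_le_left _ _) (by norm_num)
    have h2 : ρ₀ ≤ c * r / 2 := by
      rw [hρ₀]; exact div_le_div_of_nonneg_right (min_le_right _ _) (by norm_num)
    have h3 : 0 < δ * r1 := by positivity
    have h3' : δ * r1 ≤ r1 := by nlinarith
    have h4 : 0 < c * r := by positivity
    have hlr : lam * ρ₀ ≤ lam * r := mul_le_mul_of_nonneg_left (by linarith) hlam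
    have hctrl : ∀ z ∈ K, dist z x < ρ₀ → ∀ s, 0 < s → s ≤ ρ₀ →
        LineLike ε K z s ∧ Lr K z s ≤ (2 + ε) * s := by
      intro z hz hzx s hs hs'
      refine hline ((key z hz (by linarith) s hs (by linarith)).2.mono hδ0 hd1)
        (fun t ht ht' => ?_)
      have ht1 : t ≤ r1 := ht'.trans (hdiv hδ₁ hs.le hd1 (by linarith))
      exact (hln z ⟨hz, by rw [mem_ball]; linarith⟩ t (by linarith) ht1).mono (by norm_num)
        (by linarith)
    exact ⟨h0, by linarith, hx, (closedBall_subset_closedBall (by linarith)).trans hb,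
      by linarith, fun z hz hzx s hs hs' => hen z hz (by linarith) s hs (by linarith),
      fun z hz hzx s hs hs' => (hctrl z hz hzx s hs hs').1,
      fun z hz hzx s hs hs' => (hctrl z hz hzx s hs hs').2⟩
  · -- propeller-like regime
    refine ⟨min (δ * r1) (c * r) / 2, Or.inr ?_⟩
    set ρ₀ := min (δ * r1) (c * r) / 2 with hρ₀
    have h0 : 0 < ρ₀ := by positivity
    have h1 : ρ₀ ≤ δ * r1 / 2 := by
      rw [hρ₀]; exact div_le_div_of_nonneg_right (min_le_left _ _) (by norm_num)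
    have h2 : ρ₀ ≤ c * r / 2 := by
      rw [hρ₀]; exact div_le_div_of_nonneg_right (min_le_right _ _) (by norm_num)
    have h3 : 0 < δ * r1 := by positivity
    have h3' : δ * r1 ≤ r1 := by nlinarith
    have h4 : 0 < c * r := by positivity
    have hlr : lam * ρ₀ ≤ lam * r := mul_le_mul_of_nonneg_left (by linarith) hlam
    have hpr' : ∀ t, 0 < t → t ≤ r1 → Pr (1 / 100000) K x t := fun t ht ht1 =>
      (hpr t ht ht1).mono (by norm_num) ht.le
    have hctrl : ∀ s, 0 < s → s ≤ ρ₀ → PropLike ε K x s ∧ Lr K x s ≤ (3 + ε) * s := by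
      intro s hs hs'
      refine hprop ((key x hx (by rw [dist_self]; positivity) s hs (by linarith)).2.mono hδ0 hd2)
        (fun t ht ht' => hpr' t ht (ht'.trans (hdiv hδ₂ hs.le hd2 (by linarith))))
    exact ⟨h0, by linarith, hx, (closedBall_subset_closedBall (by linarith)).trans hb,
      by linarith, fun z hz hzx s hs hs' => hen z hz (by linarith) s hs (by linarith),
      fun s hs hs' => (hctrl s hs hs').1, fun s hs hs' => (hctrl s hs hs').2,
      fun z hz hz0 hzx s hs hs' => by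
        refine hside (x := x)
          ((key z hz (by linarith) s hs (by linarith)).2.mono hδ0 hd3) (by linarith)
          (fun t ht ht' => hpr' t (by linarith) (ht'.trans (hdiv hδ₃ hz0.le hd3 (by linarith))))
          (fun t ht ht' => ?_)
        exact (hln z ⟨hz, by rw [mem_ball]; linarith⟩ (dist_pos.1 hz0) t (by linarith)
          ht').mono (by norm_num) (by linarith)⟩

open LSh Rgm in
theorem line_reg' (ε : ℝ) (hε : 0 < ε) : ∃ ε₀ c : ℝ, 0 < ε₀ ∧ 0 < c ∧ c ≤ 1 / 4 ∧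
    ∀ {U : Set E2} {lam : ℝ} {u : E2 → ℝ} {K : Set E2}, IsQM U lam u K →
      ∀ y ∈ K, ∀ r : ℝ, 0 < r → r ≤ 1 → closedBall y r ⊆ U → lam * r ≤ ε₀ →
        Dr u K y r ≤ ε₀ * r → LineLike ε₀ K y r → LineReg ε U lam u K y (c * r) := by
  obtain ⟨δ₁, hδ₁, -, hline⟩ := line_ctrl ε hε
  set δ := min (min δ₁ ε) (1 / 2) with hδ
  have hδ0 : 0 < δ := by positivity
  have hd1 : δ ≤ δ₁ := (min_le_left _ _).trans (min_le_left _ _)
  have hdε : δ ≤ ε := (min_le_left _ _).trans (min_le_right _ _)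
  have hdh : δ ≤ 1 / 2 := min_le_right _ _
  obtain ⟨ε₀, c, hε₀, hε₀δ, hc, hc1, hfl⟩ := fl_small (1 / 10000) δ (by norm_num) hδ0
    (by linarith)
  refine ⟨min ε₀ (c / 6400), δ * c / 64, by positivity, by positivity, by nlinarith, ?_⟩
  intro U lam u K hqm y hy r hr hr1 hb hl hD hlin
  have hlam := hqm.lam_nonneg
  have e1 : min ε₀ (c / 6400) ≤ ε₀ := min_le_left _ _
  have e2 : min ε₀ (c / 6400) ≤ c / 6400 := min_le_right _ _
  have key := fun (z : E2) (hz : z ∈ K) (hzy : dist z y ≤ r / 4) (ρ : ℝ) (hρ : 0 < ρ)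
    (hρr : ρ ≤ c * r) => hfl hqm y hy r hr hr1 hb (hl.trans e1)
      (hD.trans (mul_le_mul_of_nonneg_right e1 hr.le)) z hz hzy ρ hρ hρr
  have hcr : c * r ≤ r / 4 := by nlinarith
  have hcr0 : 0 < c * r := by positivity
  have hδcr : δ * (c * r) ≤ c * r / 2 := by nlinarith
  -- closeness to a line at scale `c r`
  obtain ⟨e, he⟩ := hlin
  obtain ⟨θ, -, hθ⟩ := EpsLoc.hclose_of_flat (by positivity) he
  have hln := ln_of_line (η := 1 / 10000) (δ := c * r / 3200) (R := c * r) (y0 := y) (p := y)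
    (φ := θ) (by norm_num) (by norm_num) hcr0 (by positivity) le_rfl
    (hθ.mono_ball' (by nlinarith) (by rw [dist_self]; linarith))
    (fun z hz hzy ρ hρ hρr => (key z hz (by linarith) ρ hρ hρr).1)
  have hρ₀ : δ * c / 64 * r = δ * (c * r) / 64 := by ring
  rw [hρ₀]
  set ρ₀ := δ * (c * r) / 64 with hρ₀d
  have h0 : 0 < ρ₀ := by positivity
  have hlr : lam * ρ₀ ≤ lam * r := mul_le_mul_of_nonneg_left (by linarith) hlam
  have hctrl : ∀ z ∈ K, dist z y < ρ₀ → ∀ s, 0 < s → s ≤ ρ₀ →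
      LineLike ε K z s ∧ Lr K z s ≤ (2 + ε) * s := by
    intro z hz hzx s hs hs'
    refine hline ((key z hz (by linarith) s hs (by linarith)).2.mono hδ0 hd1)
      (fun t ht ht' => ?_)
    have ht1 : t ≤ c * r / 64 := by
      refine ht'.trans ?_
      rw [div_le_iff₀ hδ₁]
      nlinarith
    exact (hln z hz (by linarith) t (by linarith) ht1).mono (by norm_num) (by linarith)
  refine ⟨h0, by linarith, hy, (closedBall_subset_closedBall (by linarith)).trans hb,
    by linarith, fun z hz hzx s hs hs' => ?_,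
    fun z hz hzx s hs hs' => (hctrl z hz hzx s hs hs').1,
    fun z hz hzx s hs hs' => (hctrl z hz hzx s hs hs').2⟩
  refine ((key z hz (by linarith) s hs (by linarith)).2.en s le_rfl ?_).trans
    (mul_le_mul_of_nonneg_right hdε hs.le)
  rw [le_div_iff₀ hδ0]
  nlinarith

end Crest.Agent.R135
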