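import Crest.Agent.R135.IFDefs2
import Crest.Agent.R135.LSh3

/-! INTERFACE line_reg: complete (helper288, LSh3.lean). -/

set_option autoImplicit false

open MeasureTheory Set Filter Topology Metric
open scoped ENNReal NNReal ContDiff Gradient
open Crest.AnalysisR.PDE.OnePhase Crest.AnalysisR.PDE.MumfordShah

namespace Crest.Agent.R135

/-- (2.4) line-like at one scale with small density: line-like regime -/
theorem line_reg (ε : ℝ) (hε : 0 < ε) : ∃ ε₀ c : ℝ, 0 < ε₀ ∧ 0 < c ∧ c ≤ 1 / 4 ∧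
    ∀ {U : Set E2} {lam : ℝ} {u : E2 → ℝ} {K : Set E2}, IsQM U lam u K →
      ∀ y ∈ K, ∀ r : ℝ, 0 < r → r ≤ 1 → closedBall y r ⊆ U → lam * r ≤ ε₀ →
        Dr u K y r ≤ ε₀ * r → LineLike ε₀ K y r → LineReg ε U lam u K y (c * r) :=
  line_reg' ε hε

end Crest.Agent.R135
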