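import Crest.Agent.R135.IFDefs2
import Crest.Agent.R135.AsmLoc
import Crest.Agent.R135.IF_line_reg
import Crest.Agent.R135.IF_decay_line
import Crest.Agent.R135.IF_exc_line

/-! INTERFACE line_flat: replace the sorry here (import your own files), keep the statement. -/

set_option autoImplicit false

open MeasureTheory Set Filter Topology Metric
open scoped ENNReal NNReal ContDiff Gradient
open Crest.AnalysisR.PDE.OnePhase Crest.AnalysisR.PDE.MumfordShah

namespace Crest.Agent.R135

/-- epsilon-regularity at line-like points, scale invariant -/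
theorem line_flat : ∃ ε c C γ : ℝ, 0 < ε ∧ 0 < c ∧ 0 < C ∧ 0 < γ ∧
    ∀ {U : Set E2} {lam : ℝ} {u : E2 → ℝ} {K : Set E2}, IsSQM U lam u K →
      ∀ y ∈ K, ∀ r : ℝ, 0 < r → r ≤ 1 → closedBall y r ⊆ U → lam * r ≤ ε →
        Dr u K y r ≤ ε * r → LineLike ε K y r →
        ∀ z ∈ K, dist z y ≤ c * r → ∀ ρ : ℝ, 0 < ρ → ρ ≤ c * r →
          ∃ e : E2, Arc.Flat K z e ρ (C * ρ * (ρ / r) ^ γ) := by
  exact Asm.line_flat_of line_reg decay_line exc_line

end Crest.Agent.R135
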