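import Crest.Agent.R135.IF_GM
import Crest.Agent.R135.CT4
import Crest.Agent.R135.FlatLine

/-!
# R135: case (B), energy density bounded below at all small scales (helper804)

`tip_blowup` and `tip_annulus` of the local interface.
-/

set_option autoImplicit false

open MeasureTheory Set Filter Topology Metric
open scoped ENNReal NNReal ContDiff Gradient

namespace Crest.Agent.R135

theorem rescK_ray {x y e : E2} {r : ℝ} (hr : 0 < r) :
    rescK (ray y e) x r = ray (r⁻¹ • (y - x)) e := by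
  ext z
  constructor
  · rintro ⟨s, hs, h⟩
    refine ⟨r⁻¹ * s, by positivity, ?_⟩
    have h1 : r • z = (y - x) + s • e := by
      have : x + r • z = y + s • e := h
      rw [← add_right_inj x, this]; abel
    have h2 : z = r⁻¹ • (r • z) := by rw [smul_smul, inv_mul_cancel₀ hr.ne', one_smul]
    rw [h2, h1, smul_add, smul_smul]
  · rintro ⟨s, hs, rfl⟩
    refine ⟨r * s, by positivity, ?_⟩
    rw [smul_add, smul_smul, smul_smul, mul_inv_cancel₀ hr.ne', one_smul]
    abel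

theorem rescK_ray_self {x e : E2} {r : ℝ} (hr : 0 < r) : rescK (ray x e) x r = ray 0 e := by
  rw [rescK_ray hr, sub_self, smul_zero]

namespace TipB

variable {U : Set E2} {lam : ℝ} {u : E2 → ℝ} {K : Set E2}

/-- every blow-up at a point of density bounded below is a centred tip -/
theorem exists_tip (h : IsQM U lam u K) {x : E2} {R ε₀ : ℝ} (hR : 0 < R)
    (hRU : closedBall x R ⊆ U) (hε₀ : 0 < ε₀)
    (hD : ∀ r : ℝ, 0 < r → r ≤ R → ε₀ * r ≤ Dr u K x r) {r : ℕ → ℝ} (hr : ∀ k, 0 < r k)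
    (hr0 : Tendsto r atTop (𝓝 0)) :
    ∃ φ : ℕ → ℕ, StrictMono φ ∧ ∃ (u' : E2 → ℝ) (K' : Set E2), IsQM univ 0 u' K' ∧
      Conv (fun k => rescF u x (r (φ k))) (fun k => rescK K x (r (φ k))) u' K' ∧
      IsTip u' K' 0 ∧ ∀ s : ℝ, 0 < s → Dr u' K' 0 s = s := by
  obtain ⟨φ, hφ, u', K', hq, hc⟩ := ct_blowup_ball h (x₀ := x) (R₁ := 0) hR hRU hr hr0
    (xk := fun _ => x) (Eventually.of_forall fun _ => mem_closedBall_self le_rfl)
  have hvol : volume K = 0 := h.volume_K
  have hlow : ∀ s : ℝ, 0 < s → ε₀ * s ≤ Dr u' K' 0 s := by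
    intro s hs
    have h1 := Conv.tendsto_Dr_resc
      (uk := fun _ => u) (Kk := fun _ => K) (xk := fun _ => x) (rk := fun k => r (φ k))
      (fun k => hr (φ k)) (fun _ => hvol) hq hc (tendsto_const_nhds (x := (0 : E2)))
      (tendsto_const_nhds (x := s))
    refine ge_of_tendsto h1 ?_
    have h2 : Tendsto (fun k => r (φ k) * s) atTop (𝓝 0) := by
      simpa using (hr0.comp hφ.tendsto_atTop).mul_const s
    filter_upwards [h2.eventually (ge_mem_nhds hR)] with k hk
    have hk0 := hr (φ k)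
    rw [smul_zero, add_zero]
    have h3 := hD (r (φ k) * s) (by positivity) hk
    rw [← div_eq_inv_mul, le_div_iff₀ hk0]
    calc ε₀ * s * r (φ k) = ε₀ * (r (φ k) * s) := by ring
      _ ≤ _ := h3
  refine ⟨φ, hφ, u', K', hq, hc, gm_tip hq hε₀ hlow, ?_⟩
  intro s hs
  refine Cls.Dr_eq_self_of_big monoStmt coneStmt hq 0 hε₀ (Eventually.frequently ?_) s hs
  filter_upwards [self_mem_nhdsWithin] with t ht using hlow t ht

end TipB

/-- (2.1) case (B), T1: closeness to half-lines and density tending to one -/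
theorem tip_blowup {U : Set E2} {lam : ℝ} {u : E2 → ℝ} {K : Set E2} (h : IsQM U lam u K)
    {x : E2} (hx : x ∈ K) {R ε₀ : ℝ} (hR : 0 < R) (hRU : closedBall x R ⊆ U) (hε₀ : 0 < ε₀)
    (hD : ∀ r : ℝ, 0 < r → r ≤ R → ε₀ * r ≤ Dr u K x r) (η : ℝ) (hη : 0 < η) :
    ∃ r₁ : ℝ, 0 < r₁ ∧ ∀ ρ : ℝ, 0 < ρ → ρ ≤ r₁ →
      RayLike η K x ρ ∧ |Dr u K x ρ - ρ| ≤ η * ρ := by
  by_contra hcon
  push Not at hcon
  have hch : ∀ k : ℕ, ∃ ρ : ℝ, 0 < ρ ∧ ρ ≤ 1 / ((k : ℝ) + 1) ∧
      (RayLike η K x ρ → η * ρ < |Dr u K x ρ - ρ|) := fun k => hcon _ (by positivity)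
  choose ρ hρ0 hρ1 hρ2 using hch
  have hρt : Tendsto ρ atTop (𝓝 0) :=
    squeeze_zero (fun k => (hρ0 k).le) hρ1 tendsto_one_div_add_atTop_nhds_zero_nat
  obtain ⟨φ, hφ, u', K', hq, hc, htip, hD1⟩ := TipB.exists_tip h hR hRU hε₀ hD hρ0 hρt
  obtain ⟨θ₀, c, A, hK', -⟩ := htip
  have hvol : volume K = 0 := h.volume_K
  set η' : ℝ := min η 1 with hη'
  have hη'0 : 0 < η' := lt_min hη one_pos
  have e1 := hc.hclose hq.isClosed_univ 0 2 (ε := η' / 4) (by positivity)
  have e2 := Conv.tendsto_Dr_resc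
      (uk := fun _ => u) (Kk := fun _ => K) (xk := fun _ => x) (rk := fun k => ρ (φ k))
      (fun k => hρ0 (φ k)) (fun _ => hvol) hq hc (tendsto_const_nhds (x := (0 : E2)))
      (tendsto_const_nhds (x := (1 : ℝ)))
  rw [hD1 1 one_pos] at e2
  have e3 := (Metric.tendsto_atTop.1 e2) η hη
  obtain ⟨N, hN⟩ := e3
  obtain ⟨k, hk1, hk2⟩ := (e1.and (eventually_ge_atTop N)).exists
  have hk0 := hρ0 (φ k)
  have hray : RayLike η K x (ρ (φ k)) := by
    refine ⟨dir θ₀, ?_⟩
    rw [hK', ← rescK_ray_self (x := x) (e := dir θ₀) hk0] at hk1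
    have h3 := HClose.of_resc hk0 hk1
    rw [smul_zero, add_zero] at h3
    have h4 := Arc.starAt_of_hclose_ray (x0 := x) (x := x) (ρ := ρ (φ k)) (norm_dir θ₀)
      (by rw [dist_self]; positivity) (by nlinarith [min_le_right η 1]) h3
    refine h4.mono ?_
    nlinarith [min_le_left η 1]
  have h5 := hρ2 (φ k) hray
  have h6 := hN k hk2
  rw [smul_zero, add_zero, mul_one, Real.dist_eq] at h6
  have h7 : |Dr u K x (ρ (φ k)) - ρ (φ k)| =
      ρ (φ k) * |(ρ (φ k))⁻¹ * Dr u K x (ρ (φ k)) - 1| := by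
    rw [← abs_of_pos hk0, ← abs_mul, abs_of_pos hk0]
    congr 1
    field_simp
  rw [h7] at h5
  have h8 : ρ (φ k) * |(ρ (φ k))⁻¹ * Dr u K x (ρ (φ k)) - 1| < ρ (φ k) * η :=
    mul_lt_mul_of_pos_left h6 hk0
  linarith [mul_comm (ρ (φ k)) η]

/-- (2.1) case (B), T2: near the other points the crack is line-like with small density at the
scale `c * dist y x`; `c` depends only on `ε` -/
theorem tip_annulus (ε : ℝ) (hε : 0 < ε) : ∃ c : ℝ, 0 < c ∧ c ≤ 1 / 4 ∧
    ∀ {U : Set E2} {lam : ℝ} {u : E2 → ℝ} {K : Set E2}, IsQM U lam u K →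
      ∀ x ∈ K, ∀ R ε₀ : ℝ, 0 < R → closedBall x R ⊆ U → 0 < ε₀ →
        (∀ r : ℝ, 0 < r → r ≤ R → ε₀ * r ≤ Dr u K x r) →
        ∃ r₁ : ℝ, 0 < r₁ ∧ ∀ y ∈ K, 0 < dist y x → dist y x ≤ r₁ →
          LineLike ε K y (c * dist y x) ∧ Dr u K y (c * dist y x) ≤ ε * (c * dist y x) := by
  refine ⟨min (1 / 4) (ε / 8), lt_min (by norm_num) (by positivity), min_le_left _ _, ?_⟩
  set c : ℝ := min (1 / 4) (ε / 8) with hcdef
  have hc0 : 0 < c := lt_min (by norm_num) (by positivity)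
  have hc4 : c ≤ 1 / 4 := min_le_left _ _
  have hcε : c ≤ ε / 8 := min_le_right _ _
  intro U lam u K h x hx R ε₀ hR hRU hε₀ hD
  by_contra hcon
  push Not at hcon
  have hch : ∀ k : ℕ, ∃ y : E2, y ∈ K ∧ 0 < dist y x ∧ dist y x ≤ 1 / ((k : ℝ) + 1) ∧
      (LineLike ε K y (c * dist y x) → ε * (c * dist y x) < Dr u K y (c * dist y x)) :=
    fun k => by
      obtain ⟨y, h1, h2, h3, h4⟩ := hcon (1 / ((k : ℝ) + 1)) (by positivity)
      exact ⟨y, h1, h2, h3, h4⟩
  choose y hyK hy0 hy1 hy2 using hch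
  set d : ℕ → ℝ := fun k => dist (y k) x with hd
  -- first subsequence: directions converge
  have hsph : ∀ k, (d k)⁻¹ • (y k - x) ∈ sphere (0 : E2) 1 := by
    intro k
    rw [mem_sphere_zero_iff_norm, norm_smul, norm_inv, ← dist_eq_norm,
      Real.norm_of_nonneg (hy0 k).le]
    exact inv_mul_cancel₀ (hy0 k).ne'
  obtain ⟨y', hy', ψ, hψ, hlim⟩ := (isCompact_sphere (0 : E2) 1).tendsto_subseq hsph
  have hdt : Tendsto d atTop (𝓝 0) :=
    squeeze_zero (fun k => (hy0 k).le) hy1 tendsto_one_div_add_atTop_nhds_zero_nat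
  obtain ⟨φ, hφ, u', K', hq, hc, htip, hD1⟩ := TipB.exists_tip h hR hRU hε₀ hD
    (r := fun k => d (ψ k)) (fun k => hy0 (ψ k)) (hdt.comp hψ.tendsto_atTop)
  have hvol : volume K = 0 := h.volume_K
  have hlim' : Tendsto (fun k => (d (ψ (φ k)))⁻¹ • (y (ψ (φ k)) - x)) atTop (𝓝 y') :=
    hlim.comp hφ.tendsto_atTop
  have hback : ∀ k, x + d (ψ (φ k)) • ((d (ψ (φ k)))⁻¹ • (y (ψ (φ k)) - x)) = y (ψ (φ k)) := by
    intro k
    rw [smul_smul, mul_inv_cancel₀ (hy0 _).ne', one_smul]; abel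
  have hy'K : y' ∈ K' := by
    refine Conv.mem_of_points (Kk := fun _ => K) (xk := fun _ => x)
      (rk := fun k => d (ψ (φ k))) (uk := fun _ => u) (fun k => hy0 _) hc hq.isClosed_univ
      (pk := fun k => y (ψ (φ k))) (Frequently.of_forall fun k => hyK _) hlim'
  have hy'1 : dist y' 0 = 1 := mem_sphere.1 hy'
  have hoff := tip_off_centre htip hy'1 hc0 (by linarith)
  obtain ⟨θ₀, c', A, hK', -⟩ := htip
  have hy'e : y' = dir θ₀ := by
    rw [hK'] at hy'K
    obtain ⟨s, hs, hys⟩ := hy'K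
    rw [zero_add] at hys
    have : s = 1 := by
      rw [hys, dist_zero_right, norm_smul, norm_dir, mul_one, Real.norm_of_nonneg hs] at hy'1
      exact hy'1
    rw [hys, this, one_smul]
  -- energy
  have e2 := Conv.tendsto_Dr_resc
      (uk := fun _ => u) (Kk := fun _ => K) (xk := fun _ => x) (rk := fun k => d (ψ (φ k)))
      (fun k => hy0 _) (fun _ => hvol) hq hc hlim' (tendsto_const_nhds (x := c))
  have hlt : Dr u' K' y' c < ε * c := by
    refine lt_of_le_of_lt hoff ?_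
    nlinarith
  have e3 : ∀ᶠ k in atTop, (d (ψ (φ k)))⁻¹ *
      Dr u K (x + d (ψ (φ k)) • ((d (ψ (φ k)))⁻¹ • (y (ψ (φ k)) - x))) (d (ψ (φ k)) * c) < ε * c :=
    e2.eventually (gt_mem_nhds hlt)
  -- closeness
  set δ : ℝ := min (ε * c / 8) (c / 4) with hδ
  have hδ0 : 0 < δ := lt_min (by positivity) (by positivity)
  have e1 := hc.hclose hq.isClosed_univ 0 3 hδ0
  have e4 : ∀ᶠ k in atTop, dist ((d (ψ (φ k)))⁻¹ • (y (ψ (φ k)) - x)) y' < δ :=
    (Metric.tendsto_nhds.1 hlim') δ hδ0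
  obtain ⟨k, hk1, hk3, hk4⟩ := (e1.and (e3.and e4)).exists
  set j := ψ (φ k) with hj
  have hdj : 0 < d j := hy0 j
  rw [hback k] at hk3
  have hDr : Dr u K (y j) (c * dist (y j) x) ≤ ε * (c * dist (y j) x) := by
    have h1 : Dr u K (y j) (d j * c) < ε * c * d j := by
      rwa [← div_eq_inv_mul, div_lt_iff₀ hdj] at hk3
    have h2 : c * dist (y j) x = d j * c := mul_comm _ _
    rw [h2]; nlinarith
  have hLine : LineLike ε K (y j) (c * dist (y j) x) := by
    refine ⟨dir θ₀, ?_⟩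
    set z : E2 := (d j)⁻¹ • (y j - x) with hz
    have hzy : dist z (dir θ₀) < δ := by rw [← hy'e]; exact hk4
    -- closeness of the rescaled crack to the line through `z`
    have hH : HClose (2 * δ) z (2 * c) (rescK K x (d j)) (ray z (dir θ₀) ∪ ray z (-dir θ₀)) := by
      constructor
      · rintro w ⟨hw, hwb⟩
        have hw3 : w ∈ ball (0 : E2) 3 := by
          have h1 := mem_ball.1 hwb
          have h2 : dist z 0 = 1 := by
            rw [hz, ← mem_sphere]; exact hsph j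
          rw [mem_ball]
          calc dist w 0 ≤ dist w z + dist z 0 := dist_triangle _ _ _
            _ < 3 := by rw [h2]; linarith
        obtain ⟨v, hv, hdv⟩ := hk1.1 w ⟨hw, hw3⟩
        rw [hK'] at hv
        obtain ⟨s, hs, hvs⟩ := hv
        rw [zero_add] at hvs
        refine ⟨z + (s - 1) • dir θ₀, Arc.mem_line_iff.2 ⟨s - 1, rfl⟩, ?_⟩
        have h3 : dist v (z + (s - 1) • dir θ₀) = dist z (dir θ₀) := by
          rw [hvs, dist_eq_norm, dist_eq_norm, ← norm_neg]
          congr 1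
          rw [sub_smul, one_smul]; abel
        calc dist w (z + (s - 1) • dir θ₀) ≤ dist w v + dist v (z + (s - 1) • dir θ₀) :=
              dist_triangle _ _ _
          _ < 2 * δ := by rw [h3]; linarith
      · rintro w ⟨hw, hwb⟩
        obtain ⟨s, rfl⟩ := Arc.mem_line_iff.1 hw
        have hs : |s| < 2 * c := by
          have h1 := mem_ball.1 hwb
          rw [dist_eq_norm, add_sub_cancel_left, norm_smul, norm_dir, mul_one,
            Real.norm_eq_abs] at h1
          exact h1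
        rw [abs_lt] at hs
        have hmem : (1 + s) • dir θ₀ ∈ K' := by
          rw [hK']
          exact ⟨1 + s, by linarith, by rw [zero_add]⟩
        have hb3 : (1 + s) • dir θ₀ ∈ ball (0 : E2) 3 := by
          rw [mem_ball, dist_zero_right, norm_smul, norm_dir, mul_one, Real.norm_eq_abs, abs_lt]
          constructor <;> linarith
        obtain ⟨v, hv, hdv⟩ := hk1.2 _ ⟨hmem, hb3⟩
        refine ⟨v, hv, ?_⟩
        have h3 : dist (z + s • dir θ₀) ((1 + s) • dir θ₀) = dist z (dir θ₀) := by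
          rw [dist_eq_norm, dist_eq_norm]
          congr 1
          rw [add_smul, one_smul]; abel
        calc dist (z + s • dir θ₀) v ≤ dist (z + s • dir θ₀) ((1 + s) • dir θ₀) +
              dist ((1 + s) • dir θ₀) v := dist_triangle _ _ _
          _ < 2 * δ := by rw [h3]; linarith
    have hres : ray z (dir θ₀) ∪ ray z (-dir θ₀) =
        rescK (ray (y j) (dir θ₀) ∪ ray (y j) (-dir θ₀)) x (d j) := by
      rw [rescK_union, rescK_ray hdj, rescK_ray hdj]
    rw [hres] at hH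
    have hH2 := HClose.of_resc hdj hH
    have hzb : x + d j • z = y j := hback k
    rw [hzb] at hH2
    have hF := Arc.flat_of_hclose (ρ := c * dist (y j) x) (norm_dir θ₀) (by positivity) (hyK j)
      (by
        have h1 : δ ≤ c / 4 := min_le_right _ _
        have h2 : dist (y j) x = d j := rfl
        rw [h2]
        nlinarith [mul_pos hc0 hdj, mul_pos hδ0 hdj]) (by positivity) hH2
    refine hF.mono le_rfl ?_
    have h1 : δ ≤ ε * c / 8 := min_le_left _ _
    have h2 : dist (y j) x = d j := rfl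
    rw [h2]
    nlinarith [mul_pos hδ0 hdj, mul_pos (mul_pos hε hc0) hdj]
  exact absurd hDr (not_le.2 (hy2 j hLine))

end Crest.Agent.R135
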