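import Crest.Agent.R135.IFDefs2
import Crest.Agent.R135.TipBlow

/-! `tip_blowup` is proved in TipBlow.lean (helper804). -/
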