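import Crest.Agent.R135.TipTheta

/-!
# R135 (TIP): from convergence of the polar angle with a rate to `IsArcEndPoint` (helper633)
-/

set_option autoImplicit false

open Set Filter Topology Metric MeasureTheory
open scoped RealInnerProductSpace

namespace Crest.Agent.R135.Tip

open Crest.Agent.R135.Arc
open Crest.AnalysisR.PDE.MumfordShah

theorem norm_dir_sub_le (a b : ℝ) : ‖dir a - dir b‖ ≤ |a - b| := by
  have h : ∀ x ∈ (univ : Set ℝ), HasDerivWithinAt dir (tau x) univ x := fun x _ =>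
    (hasDerivAt_dir x).hasDerivWithinAt
  have := convex_univ.norm_image_sub_le_of_norm_hasDerivWithin_le (f := dir) (C := 1) h
    (fun x _ => by rw [norm_tau]) (mem_univ b) (mem_univ a)
  simpa using this

theorem isArcEndPoint_of_angle {K Ω : Set E2} {x0 : E2} {r0 C c α r2 θ0 C' γ : ℝ} {θ θ1 : ℝ → ℝ}
    (H : TipHyp K x0 r0 C c α) (hr20 : r2 < r0) (hT : TipCurve K x0 r2 θ θ1) (hγ : 0 < γ)
    (hC' : 0 ≤ C')
    (hdec : ∀ s, 0 < s → s < r2 → |θ s - θ0| ≤ C' * s ^ γ) (hΩ : ball x0 r0 ⊆ Ω) :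
    IsArcEndPoint Ω K x0 := by
  have hC := H.Cpos
  have hα := H.αpos
  have hr2 := hT.pos
  set r := min r2 1 with hr
  have hr0 : 0 < r := lt_min hr2 one_pos
  have hrr2 : r ≤ r2 := min_le_left _ _
  have hr1 : r ≤ 1 := min_le_right _ _
  have hγ' : 0 < min γ α := lt_min hγ hα
  refine isArcEndPoint_of_moving (C := C + C' + 1) (γ := min γ α) (c := min c 1) hr0
    (by positivity) hγ' (lt_min H.cpos one_pos) H.mem
    ((inter_subset_inter_right _ (ball_subset_ball (by linarith))).trans H.closed)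
    ((ball_subset_ball (by linarith)).trans hΩ) ?_ ?_
  · intro ρ hρ hρr
    have hρ1 : ρ ≤ 1 := by linarith
    have hρp : ρ ^ (1 + γ) ≤ ρ ^ (1 + min γ α) :=
      Real.rpow_le_rpow_of_exponent_ge hρ hρ1 (by linarith [min_le_left γ α])
    have key : ∀ s, 0 < s → s ≤ ρ →
        dist (cpt x0 s (θ s)) (x0 + s • dir θ0) ≤ (C + C' + 1) * ρ ^ (1 + min γ α) := by
      intro s hs hsρ
      have h1 : dist (cpt x0 s (θ s)) (x0 + s • dir θ0) = s * ‖dir (θ s) - dir θ0‖ := by
        rw [cpt, dist_eq_norm, show x0 + s • dir (θ s) - (x0 + s • dir θ0)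
          = s • (dir (θ s) - dir θ0) by rw [smul_sub]; abel, norm_smul, Real.norm_eq_abs,
          abs_of_pos hs]
      rw [h1]
      have h2 := norm_dir_sub_le (θ s) θ0
      have h3 := hdec s hs (by linarith)
      have h4 : s ^ γ ≤ ρ ^ γ := Real.rpow_le_rpow hs.le hsρ hγ.le
      have h5 : ρ ^ (1 + γ) = ρ * ρ ^ γ := by rw [Real.rpow_add hρ, Real.rpow_one]
      have h6 : 0 < ρ ^ (1 + min γ α) := by positivity
      calc s * ‖dir (θ s) - dir θ0‖ ≤ ρ * (C' * ρ ^ γ) := by
            have : ‖dir (θ s) - dir θ0‖ ≤ C' * ρ ^ γ :=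
              h2.trans (h3.trans (mul_le_mul_of_nonneg_left h4 hC'))
            gcongr
        _ = C' * ρ ^ (1 + γ) := by rw [h5]; ring
        _ ≤ C' * ρ ^ (1 + min γ α) := mul_le_mul_of_nonneg_left hρp hC'
        _ ≤ _ := by
          apply mul_le_mul_of_nonneg_right _ h6.le
          linarith
    have hpos : 0 ≤ (C + C' + 1) * ρ ^ (1 + min γ α) := by positivity
    refine ⟨dir θ0, norm_dir _, ?_, ?_⟩
    · intro z hz hd
      refine ⟨0, dist z x0, dist_nonneg, ?_⟩
      have e1 : rt (a1 0) (b1 0) (dir θ0) = dir θ0 := by simp [a1, b1, rt]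
      rw [e1]
      rcases eq_or_ne z x0 with rfl | hzx
      · simpa using hpos
      · have h0 : 0 < dist z x0 := dist_pos.2 hzx
        have h1 := hT.uniq z hz h0 (by linarith)
        have h2 := key (dist z x0) h0 hd
        rwa [← h1] at h2
    · intro k t ht htρ
      have e1 : rt (a1 k) (b1 k) (dir θ0) = dir θ0 := by simp [a1, b1, rt]
      rw [e1]
      rcases eq_or_lt_of_le ht with h0 | h0
      · refine ⟨x0, H.mem, ?_⟩
        rw [← h0]
        simpa using hpos
      · exact ⟨cpt x0 t (θ t), hT.mem t ⟨h0, by linarith⟩, key t h0 htρ⟩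
  · intro y hy hyx hyr ρ hρ hρc
    have hd : 0 < dist y x0 := dist_pos.2 hyx
    obtain ⟨v, hv⟩ := H.flat y hy hyx (by linarith) ρ hρ
      (hρc.trans (mul_le_mul_of_nonneg_right (min_le_left _ _) hd.le))
    have h1 : ρ / dist y x0 ≤ 1 := by
      rw [div_le_one hd]
      exact hρc.trans ((mul_le_mul_of_nonneg_right (min_le_right _ _) hd.le).trans (by rw [one_mul]))
    have h0 : 0 < ρ / dist y x0 := by positivity
    have h2 : (ρ / dist y x0)^α ≤ (ρ / dist y x0)^(min γ α) :=
      Real.rpow_le_rpow_of_exponent_ge h0 h1 (min_le_right _ _)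
    have h3 : C * ρ * (ρ / dist y x0)^α ≤ (C + C' + 1) * ρ * (ρ / dist y x0)^(min γ α) := by
      gcongr
      linarith
    refine ⟨v, hv.1, fun z hz hd => (hv.2.1 z hz hd).trans h3, fun t ht => ?_⟩
    obtain ⟨z, hz, hd⟩ := hv.2.2 t ht
    exact ⟨z, hz, hd.trans h3⟩

end Crest.Agent.R135.Tip
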