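import Crest.Agent.R135.TipDecay
import Crest.Agent.R135.TipEnd
import Crest.Agent.R135.IF_tip_blowup
import Crest.Agent.R135.IF_tip_annulus
import Crest.Agent.R135.IF_line_flat

/-!
# R135 (TIP): assembly of `arc_end` modulo the force balance (helper633)
-/

set_option autoImplicit false

open MeasureTheory Set Filter Topology Metric
open scoped Real Interval RealInnerProductSpace ENNReal NNReal Gradient
open Crest.AnalysisR.PDE.MumfordShah

noncomputable section

namespace Crest.Agent.R135.Tip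

open Arc

theorem exists_tipHyp {U : Set E2} {lam : ℝ} {u : E2 → ℝ} {K : Set E2} (h : IsSQM U lam u K)
    {x : E2} (hx : x ∈ K) {R ε₀ : ℝ} (hR : 0 < R) (hRU : closedBall x R ⊆ U) (hε₀ : 0 < ε₀)
    (hD : ∀ r : ℝ, 0 < r → r ≤ R → ε₀ * r ≤ Dr u K x r) :
    ∃ r0 C c α : ℝ, r0 ≤ 1 ∧ r0 ≤ R ∧ TipHyp K x r0 C c α := by
  obtain ⟨ε, c', C', γ', hε, hc', hC', hγ', hflat⟩ := line_flat
  obtain ⟨c, hc, hc4, hann⟩ := tip_annulus ε hε
  obtain ⟨r₁, hr₁, hann'⟩ := hann h.toIsQM x hx R ε₀ hR hRU hε₀ hD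
  have hlam := h.lam_nonneg
  set r0 : ℝ := min (min r₁ (R/2)) (min 1 (ε/(lam+1))) with hr0
  have hr00 : 0 < r0 := by
    rw [hr0]
    refine lt_min (lt_min hr₁ (by linarith)) (lt_min one_pos (by positivity))
  have h1 : r0 ≤ r₁ := (min_le_left _ _).trans (min_le_left _ _)
  have h2 : r0 ≤ R/2 := (min_le_left _ _).trans (min_le_right _ _)
  have h3 : r0 ≤ 1 := (min_le_right _ _).trans (min_le_left _ _)
  have h4 : r0 ≤ ε/(lam+1) := (min_le_right _ _).trans (min_le_right _ _)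
  refine ⟨r0, C' * c ^ (-γ'), c' * c, γ', h3, by linarith, ⟨hr00, by positivity, by positivity,
    hγ', hx, ?_, ?_, ?_⟩⟩
  · intro y hy
    apply h.closed ⟨hy.1, ?_⟩
    apply hRU
    have := hy.2
    rw [mem_ball] at this
    rw [mem_closedBall]
    linarith
  · intro η hη
    obtain ⟨r, hr, hr'⟩ := tip_blowup h.toIsQM hx hR hRU hε₀ hD η hη
    exact ⟨r, hr, fun ρ hρ hρr => (hr' ρ hρ hρr.le).1⟩
  · intro y hy hyx hyr ρ hρ hρc
    have hd : 0 < dist y x := dist_pos.2 hyx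
    obtain ⟨hl, hDr⟩ := hann' y hy hd (by linarith)
    have hr : 0 < c * dist y x := by positivity
    have hr1 : c * dist y x ≤ r0 / 4 := by
      have : c * dist y x ≤ 1/4 * r0 := mul_le_mul hc4 hyr.le hd.le (by norm_num)
      linarith
    have hsub : closedBall y (c * dist y x) ⊆ U := by
      intro z hz
      apply hRU
      rw [mem_closedBall] at hz ⊢
      have := dist_triangle z y x
      linarith
    have hlamr : lam * (c * dist y x) ≤ ε := by
      have g1 : c * dist y x ≤ ε/(lam+1) := by linarith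
      have g2 : (c * dist y x) * (lam + 1) ≤ ε := by
        rwa [le_div_iff₀ (by linarith)] at g1
      nlinarith
    obtain ⟨v, hv⟩ := hflat h y hy (c * dist y x) hr (by linarith) hsub hlamr hDr hl y hy
      (by rw [dist_self]; positivity) ρ hρ (by
        calc ρ ≤ c' * c * dist y x := hρc
          _ = c' * (c * dist y x) := by ring)
    refine ⟨v, ?_⟩
    have e : C' * ρ * (ρ / (c * dist y x)) ^ γ' = C' * c ^ (-γ') * ρ * (ρ / dist y x) ^ γ' := by
      have : ρ / (c * dist y x) = c⁻¹ * (ρ / dist y x) := by field_simp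
      rw [this, Real.mul_rpow (by positivity) (by positivity), Real.inv_rpow hc.le,
        Real.rpow_neg hc.le]
      ring
    rw [← e]
    exact hv

/-- `arc_end` from the force balance -/
theorem arc_end_of_force {U : Set E2} {lam M : ℝ} {u : E2 → ℝ} {K : Set E2} (h : IsSQM U lam u K)
    (hM : ∀ y ∈ U \ K, |u y| ≤ M)
    {x : E2} (hx : x ∈ K) {R ε₀ : ℝ} (hR : 0 < R) (hRU : closedBall x R ⊆ U) (hε₀ : 0 < ε₀)
    (hD : ∀ r : ℝ, 0 < r → r ≤ R → ε₀ * r ≤ Dr u K x r)
    (hforce : ∀ (r : ℝ) (θ θ1 : ℝ → ℝ), 0 < r → r ≤ 1 → closedBall x r ⊆ U →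
      TipCurve K x r θ θ1 → ∃ r' C : ℝ, ∃ e : ℝ → ℝ, 0 < r' ∧ r' ≤ r ∧ 0 ≤ C ∧
        ForceBal u x r' C θ θ1 e) : IsArcEndPoint U K x := by
  obtain ⟨r0, C, c, α, hr01, hr0R, H⟩ := exists_tipHyp h hx hR hRU hε₀ hD
  obtain ⟨r2, hr2, θ, θ1, T⟩ := exists_tipCurve H
  have hr20 := T.pos
  obtain ⟨rD, hrD, hrD'⟩ := tip_blowup h.toIsQM hx hR hRU hε₀ hD 1 one_pos
  set r3 := min r2 rD with hr3
  have hr30 : 0 < r3 := lt_min hr20 hrD
  have hr3r2 : r3 ≤ r2 := min_le_left _ _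
  have hr3D : r3 ≤ rD := min_le_right _ _
  have T3 := T.mono hr30 hr3r2
  obtain ⟨r', C', e, hr', hr'3, hC', hF⟩ := hforce r3 θ θ1 hr30 (by linarith)
    ((closedBall_subset_closedBall (by linarith)).trans hRU) T3
  have T' := T3.mono hr' hr'3
  have hlim : Tendsto (fun s => s ^ (-1:ℝ) * Dr u K x s) (𝓝[>] 0) (𝓝 1) := by
    rw [Metric.tendsto_nhds]
    intro ε hε
    obtain ⟨r, hr, hrr⟩ := tip_blowup h.toIsQM hx hR hRU hε₀ hD (ε/2) (by positivity)
    filter_upwards [Ioc_mem_nhdsGT hr] with s hs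
    have g := (hrr s hs.1 hs.2).2
    rw [Real.dist_eq, Real.rpow_neg_one]
    have e1 : s⁻¹ * Dr u K x s - 1 = s⁻¹ * (Dr u K x s - s) := by
      have := hs.1.ne'
      field_simp
    rw [e1, abs_mul, abs_of_pos (inv_pos.2 hs.1)]
    calc s⁻¹ * |Dr u K x s - s| ≤ s⁻¹ * (ε/2 * s) :=
          mul_le_mul_of_nonneg_left g (inv_pos.2 hs.1).le
      _ = ε/2 := by have := hs.1.ne'; field_simp
      _ < ε := by linarith
  have hM' : ∀ y ∈ U \ K, |u y| ≤ |M| := fun y hy => (hM y hy).trans (le_abs_self M)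
  obtain ⟨γ, θ0, C'', hγ, hC'', hdec⟩ := angle_decay_tip h.toIsQM hM' (abs_nonneg M) hr'
    (by linarith) ((closedBall_subset_closedBall (by linarith)).trans hRU) T' hC' hF (D0 := 2)
    (fun s hs => by
      have := (hrD' s hs.1 (by linarith [hs.2])).2
      have := (abs_le.1 this).2
      linarith) hlim
  exact isArcEndPoint_of_angle H (by linarith) (T'.mono (half_pos hr') (by linarith)) hγ hC'' hdec
    (ball_subset_closedBall.trans ((closedBall_subset_closedBall hr0R).trans hRU))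

end Crest.Agent.R135.Tip
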