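import Crest.Agent.R135.TipC1

/-!
# R135 (TIP): the polar angle of the crack near a tip (helper633)
-/

set_option autoImplicit false

open Set Filter Topology Metric MeasureTheory
open scoped RealInnerProductSpace

namespace Crest.Agent.R135.Tip

open Crest.Agent.R135.Arc

variable {K : Set E2} {x0 : E2} {r0 C c α : ℝ}

theorem J_dir (θ : ℝ) : J (dir θ) = tau θ := by
  ext i; fin_cases i <;> simp

theorem rot_cancel (a d : E2) (k : ℝ) : ⟪a, k • J d⟫ + ⟪k • J a, d⟫ = 0 := by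
  simp only [Arc.inner_eq, PiLp.smul_apply, smul_eq_mul, J_zero', J_one']; ring

/-- the conclusion of the geometric part: the crack is `s ↦ cpt x0 s (θ s)` near the tip -/
structure TipCurve (K : Set E2) (x0 : E2) (r2 : ℝ) (θ θ1 : ℝ → ℝ) : Prop where
  pos : 0 < r2
  der : ∀ s ∈ Ioo 0 r2, HasDerivAt θ (θ1 s) s
  cont : ContinuousOn θ1 (Ioo 0 r2)
  slope : ∀ s ∈ Ioo 0 r2, |s * θ1 s| ≤ 1
  mem : ∀ s ∈ Ioo 0 r2, cpt x0 s (θ s) ∈ K
  uniq : ∀ z ∈ K, 0 < dist z x0 → dist z x0 < r2 → z = cpt x0 (dist z x0) (θ (dist z x0))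

theorem exists_tipCurve_aux (H : TipHyp K x0 r0 C c α) (hα1 : α ≤ 1) :
    ∃ r2, r2 < r0 ∧ ∃ θ θ1, TipCurve K x0 r2 θ θ1 := by
  obtain ⟨c2, η, r1, T⟩ := H.const
  obtain ⟨γ, hγ⟩ := T.exists_curve H
  obtain ⟨hder, hcont⟩ := T.curve_c1 H hα1 hγ
  have hc20 := T.c2pos
  set r2 := r1/2 with hr2
  have hr20 : 0 < r2 := by have := T.r1pos; rw [hr2]; linarith
  -- derivative bound
  have hlipd : ∀ s ∈ Ioo 0 r2, ‖deriv γ s‖ ≤ 11/10 := by
    intro s hs
    have hs0 := hs.1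
    apply (hder s hs).le_of_lip' (by norm_num)
    have h1 : ∀ᶠ x in 𝓝 s, x ∈ Ioo 0 r2 := Ioo_mem_nhds hs.1 hs.2
    have h2 : ∀ᶠ x in 𝓝 s, |x - s| < c2 * s / 4 := by
      have : Tendsto (fun x => |x - s|) (𝓝 s) (𝓝 0) := by
        have : ContinuousAt (fun y => |y - s|) s := by fun_prop
        simpa [ContinuousAt] using this
      exact this.eventually (gt_mem_nhds (by positivity))
    filter_upwards [h1, h2] with x hx1 hx2
    have := (T.curve_lip H hγ hs hx1 hx2.le).1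
    rwa [dist_eq_norm, ← Real.norm_eq_abs] at this
  -- unit vector
  set n : ℝ → E2 := fun s => s⁻¹ • (γ s - x0) with hn
  set n' : ℝ → E2 := fun s => s⁻¹ • deriv γ s + (-(s^2)⁻¹) • (γ s - x0) with hn'
  have hn1 : ∀ s ∈ Ioo 0 r2, ‖n s‖ = 1 := fun s hs => (radial_unit hs.1 (hγ.dist_eq s hs)).1
  have hγn : ∀ s ∈ Ioo 0 r2, γ s - x0 = s • n s := fun s hs =>
    (radial_unit hs.1 (hγ.dist_eq s hs)).2
  have hnd : ∀ s ∈ Ioo 0 r2, HasDerivAt n (n' s) s := by
    intro s hs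
    have h1 : HasDerivAt (fun s : ℝ => s⁻¹) (-(s^2)⁻¹) s := hasDerivAt_inv hs.1.ne'
    exact h1.fun_smul ((hder s hs).sub_const x0)
  have hγc : ContinuousOn γ (Ioo 0 r2) := fun s hs => (hder s hs).continuousAt.continuousWithinAt
  have hinv : ContinuousOn (fun s : ℝ => s⁻¹) (Ioo 0 r2) :=
    continuousOn_inv₀.mono (fun s hs => hs.1.ne')
  have hinv2 : ContinuousOn (fun s : ℝ => -(s^2)⁻¹) (Ioo 0 r2) := by
    apply ContinuousOn.neg
    apply ContinuousOn.inv₀ (by fun_prop)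
    intro s hs
    exact pow_ne_zero 2 hs.1.ne'
  have hnc : ContinuousOn n (Ioo 0 r2) := hinv.smul (hγc.sub continuousOn_const)
  have hn'c : ContinuousOn n' (Ioo 0 r2) :=
    (hinv.smul hcont).add (hinv2.smul (hγc.sub continuousOn_const))
  -- orthogonality
  have horth : ∀ s ∈ Ioo 0 r2, ⟪n' s, n s⟫ = 0 := by
    intro s hs
    have h1 : HasDerivAt (fun t => ⟪n t, n t⟫) (⟪n s, n' s⟫ + ⟪n' s, n s⟫) s :=
      (hnd s hs).inner ℝ (hnd s hs)
    have h2 : (fun t => ⟪n t, n t⟫) =ᶠ[𝓝 s] fun _ => (1:ℝ) := by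
      filter_upwards [Ioo_mem_nhds hs.1 hs.2] with t ht
      rw [real_inner_self_eq_norm_sq, hn1 t ht]; norm_num
    have h3 : HasDerivAt (fun t => ⟪n t, n t⟫) 0 s :=
      (hasDerivAt_const s (1:ℝ)).congr_of_eventuallyEq h2
    have h4 := h1.unique h3
    rw [real_inner_comm (n' s) (n s)] at h4
    have h5 : ⟪n' s, n s⟫ = ⟪n s, n' s⟫ := real_inner_comm _ _
    linarith
  set θ1 : ℝ → ℝ := fun s => ⟪n' s, J (n s)⟫ with hθ1
  have hn'J : ∀ s ∈ Ioo 0 r2, n' s = θ1 s • J (n s) := by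
    intro s hs
    have := frame_eq (hn1 s hs) (n' s)
    rw [horth s hs, zero_smul, zero_add] at this
    exact this
  have hJc : Continuous J := by
    have : J = fun v : E2 => (WithLp.toLp 2 ![-(v 1), v 0] : E2) := rfl
    rw [this]
    refine (PiLp.continuous_toLp 2 _).comp ?_
    refine continuous_pi fun i => ?_
    fin_cases i
    · simp only [Fin.zero_eta, Matrix.cons_val_zero]; fun_prop
    · simp only [Fin.mk_one, Matrix.cons_val_one]; fun_prop
  have hθ1c : ContinuousOn θ1 (Ioo 0 r2) := hn'c.inner (hJc.comp_continuousOn hnc)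
  -- slope
  have hslope : ∀ s ∈ Ioo 0 r2, |s * θ1 s| ≤ 1 := by
    intro s hs
    have hs0 := hs.1
    have e1 : deriv γ s = n s + s • n' s := by
      have : s • n' s = deriv γ s - n s := by
        simp only [hn', hn, smul_add, smul_smul]
        rw [mul_inv_cancel₀ hs0.ne', one_smul,
          show s * -(s^2)⁻¹ = -s⁻¹ by field_simp, neg_smul]
        abel
      rw [this]; abel
    have e2 : ‖deriv γ s‖^2 = 1 + (s * θ1 s)^2 := by
      rw [e1, norm_add_sq_real, hn1 s hs, real_inner_smul_right, real_inner_comm, horth s hs,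
        hn'J s hs, norm_smul, norm_smul, norm_J, hn1 s hs, Real.norm_eq_abs, Real.norm_eq_abs,
        mul_one, mul_pow, sq_abs, sq_abs]
      ring
    have e3 := hlipd s hs
    have e4 : ‖deriv γ s‖^2 ≤ (11/10)^2 := pow_le_pow_left₀ (norm_nonneg _) e3 2
    rw [abs_le_one_iff_mul_self_le_one]
    nlinarith
  -- the angle
  set s0 := r2/2 with hs0
  have hs0I : s0 ∈ Ioo 0 r2 := ⟨by rw [hs0]; linarith, by rw [hs0]; linarith⟩
  obtain ⟨t0, -, ht0⟩ := exists_dir_eq (n s0) (hn1 s0 hs0I) 0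
  set θ : ℝ → ℝ := fun s => t0 + ∫ t in s0..s, θ1 t with hθ
  have hθd : ∀ s ∈ Ioo 0 r2, HasDerivAt θ (θ1 s) s := by
    intro s hs
    have hint : IntervalIntegrable θ1 volume s0 s := by
      apply ContinuousOn.intervalIntegrable
      apply hθ1c.mono
      intro t ht
      rw [mem_uIcc] at ht
      rcases ht with ht | ht
      · exact ⟨by linarith [hs0I.1, ht.1], by linarith [hs.2, ht.2]⟩
      · exact ⟨by linarith [hs.1, ht.1], by linarith [hs0I.2, ht.2]⟩
    have := intervalIntegral.integral_hasDerivAt_right hint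
      (hθ1c.stronglyMeasurableAtFilter isOpen_Ioo s hs)
      (hθ1c.continuousAt (Ioo_mem_nhds hs.1 hs.2))
    exact this.const_add t0
  -- `n = dir θ`
  have hA : ∀ s ∈ Ioo 0 r2, HasDerivAt (fun s => ⟪n s, dir (θ s)⟫) 0 s := by
    intro s hs
    have h1 : HasDerivAt (fun s => dir (θ s)) (θ1 s • tau (θ s)) s :=
      (hasDerivAt_dir (θ s)).scomp s (hθd s hs)
    have h2 := (hnd s hs).inner ℝ h1
    refine h2.congr_deriv ?_
    rw [hn'J s hs, ← J_dir]
    exact rot_cancel _ _ _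
  have hconst : ∀ s ∈ Ioo 0 r2, ⟪n s, dir (θ s)⟫ = 1 := by
    intro s hs
    have h1 := isOpen_Ioo.is_const_of_deriv_eq_zero (isPreconnected_Ioo)
      (f := fun s => ⟪n s, dir (θ s)⟫) (s := Ioo 0 r2)
      (fun t ht => (hA t ht).differentiableAt.differentiableWithinAt)
      (fun t ht => (hA t ht).deriv) hs hs0I
    rw [h1, hθ]
    simp only [intervalIntegral.integral_same, add_zero]
    rw [ht0, real_inner_self_eq_norm_sq, hn1 s0 hs0I]; norm_num
  have hneq : ∀ s ∈ Ioo 0 r2, n s = dir (θ s) := by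
    intro s hs
    exact (inner_eq_one_iff_of_norm_eq_one (𝕜 := ℝ) (hn1 s hs) (norm_dir _)).1 (hconst s hs)
  have hγcpt : ∀ s ∈ Ioo 0 r2, γ s = cpt x0 s (θ s) := by
    intro s hs
    rw [cpt, ← hneq s hs, ← hγn s hs]; abel
  refine ⟨r2, by rw [hr2]; linarith [T.r1r0, T.r1pos], θ, θ1, hr20, hθd, hθ1c, hslope, ?_, ?_⟩
  · intro s hs
    rw [← hγcpt s hs]
    exact hγ.mem s hs
  · intro z hz h0 h1
    rw [← hγcpt _ ⟨h0, h1⟩]
    exact hγ.uniq z hz h0 h1

/-- **The crack near a tip is a `C¹` curve transversal to the circles.** -/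
theorem exists_tipCurve (H : TipHyp K x0 r0 C c α) :
    ∃ r2, r2 < r0 ∧ ∃ θ θ1, TipCurve K x0 r2 θ θ1 := by
  have H' : TipHyp K x0 r0 C (min c 1) (min α 1) := by
    refine ⟨H.r0pos, H.Cpos, lt_min H.cpos one_pos, lt_min H.αpos one_pos, H.mem, H.closed,
      H.ray, ?_⟩
    intro y hy hyx hyr ρ hρ hρc
    have hd : 0 < dist y x0 := dist_pos.2 hyx
    obtain ⟨v, hv⟩ := H.flat y hy hyx hyr ρ hρ
      (hρc.trans (mul_le_mul_of_nonneg_right (min_le_left _ _) hd.le))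
    have h1 : ρ / dist y x0 ≤ 1 := by
      rw [div_le_one hd]
      exact hρc.trans ((mul_le_mul_of_nonneg_right (min_le_right _ _) hd.le).trans (by rw [one_mul]))
    have h0 : 0 < ρ / dist y x0 := by positivity
    have h2 : (ρ / dist y x0)^α ≤ (ρ / dist y x0)^(min α 1) :=
      Real.rpow_le_rpow_of_exponent_ge h0 h1 (min_le_left _ _)
    have hC := H.Cpos
    have h3 : C * ρ * (ρ / dist y x0)^α ≤ C * ρ * (ρ / dist y x0)^(min α 1) := by gcongr
    refine ⟨v, hv.1, fun z hz hd => (hv.2.1 z hz hd).trans h3, fun t ht => ?_⟩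
    obtain ⟨z, hz, hd⟩ := hv.2.2 t ht
    exact ⟨z, hz, hd.trans h3⟩
  exact exists_tipCurve_aux H' (min_le_right _ _)

end Crest.Agent.R135.Tip
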