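import Crest.Agent.R135.Inner7
import Crest.Agent.R135.TipTheta
import Crest.Agent.R135.QMBasic

/-!
# R135, block INNER (helper828), part 9: averaged force balance at a tip
-/

set_option autoImplicit false

open MeasureTheory Set Filter Topology Metric
open scoped ENNReal NNReal ContDiff Gradient Real

noncomputable section

namespace Crest.Agent.R135

namespace Inner

theorem measurable_FB (u : E2 → ℝ) (x₀ : E2) : Measurable (FB u x₀) := by
  have h1 : StronglyMeasurable (fun p : ℝ × ℝ => stress u x₀ (cpt x₀ p.1 p.2)) :=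
    ((measurable_stress u x₀).comp (continuous_cpt x₀).measurable).stronglyMeasurable
  have h2 : StronglyMeasurable (fun s : ℝ => ∫ θ in Ioc (-π) π, stress u x₀ (cpt x₀ s θ)) :=
    h1.integral_prod_right' (ν := volume.restrict (Ioc (-π) π))
  have e : FB u x₀ = fun s => s • ∫ θ in Ioc (-π) π, stress u x₀ (cpt x₀ s θ) := by
    funext s
    unfold FB circI
    rw [intervalIntegral.integral_of_le (by linarith [Real.pi_pos])]
  rw [e]
  exact measurable_id.smul h2.measurable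

theorem one_le_norm_pder (θ θ1 : ℝ → ℝ) (r : ℝ) : 1 ≤ ‖pder θ θ1 r‖ := by
  have h := norm_sq_pder θ θ1 r
  have h2 := norm_nonneg (pder θ θ1 r)
  nlinarith [sq_nonneg (r * θ1 r)]

theorem continuousOn_utan_pder {θ θ1 : ℝ → ℝ} {S : Set ℝ} (h : ContinuousOn θ S)
    (h1 : ContinuousOn θ1 S) : ContinuousOn (utan (pder θ θ1)) S := by
  have hp : ContinuousOn (pder θ θ1) S := by
    unfold pder
    exact (continuous_dir.comp_continuousOn h).add
      ((continuousOn_id.mul h1).smul (continuous_tau.comp_continuousOn h))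
  unfold utan
  refine (hp.norm.inv₀ fun s _ => ?_).smul hp
  have := one_le_norm_pder θ θ1 s
  linarith

variable {U K : Set E2} {lam : ℝ} {u : E2 → ℝ} {x₀ : E2}

theorem Dr_le_of_isQM (h : IsQM U lam u K) {ρ : ℝ} (hρ : 0 < ρ) (hU : closedBall x₀ ρ ⊆ U) :
    Dr u K x₀ ρ ≤ 2 * π * ρ + lam * ρ^2 := by
  have h1 := h.energy_le hρ hU
  have h2 : ENNReal.ofReal (Dr u K x₀ ρ) ≤ ENNReal.ofReal (2 * π * ρ + lam * ρ ^ 2) := by
    rw [← dirE_closedBall h hU]
    exact le_self_add.trans h1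
  have h3 : 0 ≤ 2 * π * ρ + lam * ρ^2 := by
    have := h.lam_nonneg
    positivity
  exact (ENNReal.ofReal_le_ofReal_iff h3).1 h2

/-- **Averaged force balance at a tip** (input of helper633's `arc_end`). -/
theorem tip_force (h : IsQM U lam u K) {r0 : ℝ} (hr0 : 0 < r0) (hU : closedBall x₀ r0 ⊆ U)
    {R : ℝ} {θ θ1 : ℝ → ℝ} (T : Tip.TipCurve K x₀ R θ θ1) :
    ∃ (e : ℝ → ℝ) (r1 C : ℝ), 0 < r1 ∧ r1 ≤ r0 ∧ r1 < R ∧ 0 ≤ C ∧ Measurable e ∧
      (∀ s, 0 ≤ e s) ∧
      (∀ᵐ s, s ∈ Ioo 0 r1 →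
        |CrackAlg.cR (fun φ => Real.sqrt s * inner ℝ (∇ u (cpt x₀ s (θ s + φ))) (tau (θ s + φ)))
            (fun φ => Real.sqrt s * inner ℝ (∇ u (cpt x₀ s (θ s + φ))) (dir (θ s + φ))) -
            1 / Real.sqrt (1 + (s * θ1 s)^2)| ≤ e s ∧
        |CrackAlg.cT (fun φ => Real.sqrt s * inner ℝ (∇ u (cpt x₀ s (θ s + φ))) (tau (θ s + φ)))
            (fun φ => Real.sqrt s * inner ℝ (∇ u (cpt x₀ s (θ s + φ))) (dir (θ s + φ))) -
            (s * θ1 s) / Real.sqrt (1 + (s * θ1 s)^2)| ≤ e s) ∧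
      (∀ ρ, 0 < ρ → ρ ≤ r1 → IntervalIntegrable e volume (ρ/2) ρ ∧
        ∫ s in (ρ/2)..ρ, e s ≤ C * (ρ * Real.sqrt ρ)) := by
  have hlam := h.lam_nonneg
  obtain ⟨r1, hr1, hr1r0, hr1R, hr1lam, hr1one⟩ : ∃ r1 : ℝ, 0 < r1 ∧ r1 ≤ r0 ∧ r1 < R ∧
      lam * r1 ≤ 1/4 ∧ r1 ≤ 1 := by
    refine ⟨min (min r0 (R/2)) (min 1 (1/(4*(lam+1)))), ?_, ?_, ?_, ?_, ?_⟩
    · have := T.pos
      have h3 : 0 < 1/(4*(lam+1)) := by positivity
      exact lt_min (lt_min hr0 (by linarith)) (lt_min one_pos h3)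
    · exact (min_le_left _ _).trans (min_le_left _ _)
    · have h3 := (min_le_left (min r0 (R/2)) (min 1 (1/(4*(lam+1))))).trans (min_le_right _ _)
      have := T.pos
      linarith
    · have h3 := (min_le_right (min r0 (R/2)) (min 1 (1/(4*(lam+1))))).trans (min_le_right _ _)
      calc lam * min (min r0 (R/2)) (min 1 (1/(4*(lam+1)))) ≤ lam * (1/(4*(lam+1))) := by gcongr
        _ ≤ 1/4 := by
          rw [mul_one_div, div_le_div_iff₀ (by positivity) (by norm_num)]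
          linarith
    · exact (min_le_right _ _).trans (min_le_left _ _)
  have hUr : ∀ ρ, ρ ≤ r1 → closedBall x₀ ρ ⊆ U := fun ρ hρ =>
    (closedBall_subset_closedBall (hρ.trans hr1r0)).trans hU
  -- the error function
  set V : ℝ → E2 := (Ioo 0 R).piecewise (utan (pder θ θ1)) (fun _ => 0) with hV
  have hθc : ContinuousOn θ (Ioo 0 R) := fun s hs => (T.der s hs).continuousAt.continuousWithinAt
  have hVm : Measurable V :=
    (continuousOn_utan_pder hθc T.cont).measurable_piecewise continuousOn_const measurableSet_Ioo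
  set e : ℝ → ℝ := fun s => ‖FB u x₀ s - V s‖ with he
  have hem : Measurable e := ((measurable_FB u x₀).sub hVm).norm
  have hee : ∀ s ∈ Ioo 0 R, e s = ferr u x₀ θ θ1 s := by
    intro s hs
    rw [he, hV]
    simp only [ferr, piecewise_eq_of_mem _ _ _ hs]
  have hprim : ∀ a b, 0 < a → a ≤ b → b < R → IsPrim a b θ θ1 := by
    intro a b ha hab hb
    have hsub : Icc a b ⊆ Ioo 0 R := fun s hs => ⟨ha.trans_le hs.1, hs.2.trans_lt hb⟩
    exact isPrim_of_hasDerivAt hab (fun s hs => T.der s (hsub hs)) (T.cont.mono hsub)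
  have hcurve : ∀ a b, 0 < a → a ≤ b → b < R →
      K ∩ {y | a ≤ ‖y - x₀‖ ∧ ‖y - x₀‖ ≤ b} = (fun r => cpt x₀ r (θ r)) '' Icc a b := by
    intro a b ha hab hb
    ext y
    constructor
    · rintro ⟨hy, hy1, hy2⟩
      rw [← dist_eq_norm] at hy1 hy2
      exact ⟨dist y x₀, ⟨hy1, hy2⟩,
        (T.uniq y hy (ha.trans_le hy1) (hy2.trans_lt hb)).symm⟩
    · rintro ⟨s, hs, rfl⟩
      have hs0 : 0 < s := ha.trans_le hs.1
      refine ⟨T.mem s ⟨hs0, hs.2.trans_lt hb⟩, ?_⟩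
      simp only [mem_ofPred_eq]
      rw [← dist_eq_norm, dist_cpt, abs_of_pos hs0]
      exact ⟨hs.1, hs.2⟩
  refine ⟨e, r1, Real.sqrt lam * (4 * π + 2 + 2), hr1, hr1r0, hr1R, by positivity, hem,
    fun s => norm_nonneg _, ?_, ?_⟩
  · filter_upwards [force_components h (hUr r1 le_rfl) θ θ1] with s hs hsm
    rw [hee s ⟨hsm.1, hsm.2.trans hr1R⟩]
    exact hs hsm
  · intro ρ hρ hρ1
    have hρR : ρ < R := hρ1.trans_lt hr1R
    have hhalf : 0 < ρ/2 := by positivity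
    have hle : ρ/2 ≤ ρ := by linarith
    have hP := hprim (ρ/2) ρ hhalf hle hρR
    have hi := ferr_intervalIntegrable h hhalf hle le_rfl (hUr ρ hρ1) hP
    have hcongr : ∀ s ∈ uIoc (ρ/2) ρ, ferr u x₀ θ θ1 s = e s := by
      intro s hs
      rw [uIoc_of_le hle] at hs
      exact (hee s ⟨hhalf.trans hs.1, hs.2.trans_lt hρR⟩).symm
    have hi' : IntervalIntegrable e volume (ρ/2) ρ := hi.congr (fun s hs => hcongr s hs)
    refine ⟨hi', ?_⟩
    have hlt : ρ/2 < ρ := by linarith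
    have hlr : lam * ρ ≤ 1/4 := (by gcongr : lam * ρ ≤ lam * r1).trans hr1lam
    have hmain := ferr_integral_le h hhalf hlt le_rfl (hUr ρ hρ1) hP
      (hcurve (ρ/2) ρ hhalf hle hρR) hlr
    have hE : ∫ s in (ρ/2)..ρ, e s = ∫ s in (ρ/2)..ρ, ferr u x₀ θ θ1 s := by
      apply intervalIntegral.integral_congr_ae
      exact Eventually.of_forall fun s hs => (hcongr s hs).symm
    rw [hE]
    refine hmain.trans ?_
    have hD := Dr_le_of_isQM h hρ (hUr ρ hρ1)
    have h4 : 2 * Dr u K x₀ ρ + (ρ - ρ/2)/2 + ρ ≤ (4 * π + 2 + 2) * ρ := by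
      have h5 : lam * ρ^2 ≤ 1/4 * ρ := by
        calc lam * ρ^2 = (lam * ρ) * ρ := by ring
          _ ≤ 1/4 * ρ := by gcongr
      nlinarith [Real.pi_pos]
    have h6 : 0 ≤ Real.sqrt (lam * ρ) := Real.sqrt_nonneg _
    calc Real.sqrt (lam * ρ) * (2 * Dr u K x₀ ρ + (ρ - ρ/2)/2 + ρ)
        ≤ Real.sqrt (lam * ρ) * ((4 * π + 2 + 2) * ρ) := by gcongr
      _ = Real.sqrt lam * (4 * π + 2 + 2) * (ρ * Real.sqrt ρ) := by
        rw [Real.sqrt_mul hlam]
        ring

end Inner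

end Crest.Agent.R135
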