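import Crest.Agent.R135.TipDecay
import Crest.Agent.R135.Inner9

/-!
# R135 (TIP): the force balance of `Inner9` in the form used by `TipFinal` (helper633)
-/

set_option autoImplicit false

open MeasureTheory Set Filter Topology Metric
open scoped Real Interval RealInnerProductSpace ENNReal NNReal Gradient

noncomputable section

namespace Crest.Agent.R135.Tip

open CrackAlg

variable {U : Set E2} {lam : ℝ} {u : E2 → ℝ} {K : Set E2} {x : E2} {r0 : ℝ} {θ θ1 : ℝ → ℝ}

/-- dyadic bounds sum up -/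
theorem dyadic_sum {e : ℝ → ℝ} {r1 C : ℝ} (he : ∀ s, 0 ≤ e s) (hC : 0 ≤ C)
    (hd : ∀ ρ, 0 < ρ → ρ ≤ r1 → IntervalIntegrable e volume (ρ/2) ρ ∧
        ∫ s in (ρ/2)..ρ, e s ≤ C * (ρ * Real.sqrt ρ)) (n : ℕ) :
    ∀ a b, 0 < a → a ≤ b → b ≤ r1 → b ≤ 2^n * a →
      IntervalIntegrable e volume a b ∧ ∫ s in a..b, e s ≤ 2 * C * (b * Real.sqrt b) := by
  induction n with
  | zero =>
    intro a b ha hab hb hn
    have : a = b := le_antisymm hab (by simpa using hn)
    subst this
    refine ⟨IntervalIntegrable.refl, ?_⟩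
    rw [intervalIntegral.integral_same]
    have := Real.sqrt_nonneg a
    positivity
  | succ n ih =>
    intro a b ha hab hb hn
    have hb0 : 0 < b := ha.trans_le hab
    obtain ⟨h1, h2⟩ := hd b hb0 hb
    have hs := Real.sqrt_nonneg b
    rcases le_or_gt (b/2) a with h | h
    · have hsub : uIcc a b ⊆ uIcc (b/2) b := by
        rw [uIcc_of_le hab, uIcc_of_le (by linarith)]
        exact Icc_subset_Icc_left h
      have hi : IntervalIntegrable e volume a b := h1.mono_set hsub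
      refine ⟨hi, ?_⟩
      have : ∫ s in a..b, e s ≤ ∫ s in (b/2)..b, e s :=
        intervalIntegral.integral_mono_interval h hab le_rfl
          (Eventually.of_forall he) h1
      have h3 : 0 ≤ C * (b * Real.sqrt b) := by positivity
      linarith
    · obtain ⟨i1, i2⟩ := ih a (b/2) ha h.le (by linarith) (by rw [pow_succ] at hn; linarith)
      refine ⟨i1.trans h1, ?_⟩
      rw [← intervalIntegral.integral_add_adjacent_intervals i1 h1]
      have h3 : Real.sqrt (b/2) ≤ Real.sqrt b := Real.sqrt_le_sqrt (by linarith)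
      have h4 : 2 * C * (b/2 * Real.sqrt (b/2)) ≤ 2 * C * (b/2 * Real.sqrt b) := by gcongr
      linarith

theorem mul_sqrt_eq_rpow {b : ℝ} (hb : 0 < b) : b * Real.sqrt b = b ^ (3/2 : ℝ) := by
  rw [Real.sqrt_eq_rpow]
  nth_rewrite 1 [← Real.rpow_one b]
  rw [← Real.rpow_add hb]
  norm_num

theorem exists_forceBal (h : IsQM U lam u K) {r : ℝ} (hr : 0 < r) (hU : closedBall x r ⊆ U)
    (T : TipCurve K x r θ θ1) : ∃ r' C : ℝ, ∃ e : ℝ → ℝ, 0 < r' ∧ r' ≤ r ∧ 0 ≤ C ∧
      ForceBal u x r' C θ θ1 e := by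
  obtain ⟨e, r1, C, hr1, hr1r, -, hC, -, he, hae, hd⟩ := Inner.tip_force h hr hU T
  have key : ∀ a b, 0 < a → a ≤ b → b ≤ r1 →
      IntervalIntegrable e volume a b ∧ ∫ s in a..b, e s ≤ 2 * C * (b * Real.sqrt b) := by
    intro a b ha hab hb
    obtain ⟨n, hn⟩ := pow_unbounded_of_one_lt (b/a) (one_lt_two (α := ℝ))
    exact dyadic_sum he hC hd n a b ha hab hb ((div_le_iff₀ ha).1 hn.le)
  refine ⟨r1, 2 * C, e, hr1, hr1r, by positivity, ⟨he, fun a b ha hab hb => (key a b ha hab hb).1,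
    fun a b ha hab hb => ?_, ?_⟩⟩
  · rw [← mul_sqrt_eq_rpow (ha.trans_le hab)]
    exact (key a b ha hab hb).2
  · exact hae

end Crest.Agent.R135.Tip
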