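import Crest.Agent.R135.IFDefs2
import Crest.Agent.R135.TipForce
import Crest.Agent.R135.TipFinal

/-! INTERFACE arc_end: proved (helper633, helper828). -/

set_option autoImplicit false

open MeasureTheory Set Filter Topology Metric
open scoped ENNReal NNReal ContDiff Gradient
open Crest.AnalysisR.PDE.OnePhase Crest.AnalysisR.PDE.MumfordShah

namespace Crest.Agent.R135

/-- case (B): end point -/
theorem arc_end {U : Set E2} {lam M : ℝ} {u : E2 → ℝ} {K : Set E2} (h : IsSQM U lam u K)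
    (hM : ∀ y ∈ U \ K, |u y| ≤ M)
    {x : E2} (hx : x ∈ K) {R ε₀ : ℝ} (hR : 0 < R) (hRU : closedBall x R ⊆ U) (hε₀ : 0 < ε₀)
    (hD : ∀ r : ℝ, 0 < r → r ≤ R → ε₀ * r ≤ Dr u K x r) : IsArcEndPoint U K x :=
  Tip.arc_end_of_force h hM hx hR hRU hε₀ hD fun _r _θ _θ1 hr _ hU T =>
    Tip.exists_forceBal h.toIsQM hr hU T

end Crest.Agent.R135
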