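import Crest.Agent.R135.IFDefs2
import Crest.Agent.R135.LSh3

/-! INTERFACE local_shape: complete (helper288, LSh3.lean). -/

set_option autoImplicit false

open MeasureTheory Set Filter Topology Metric
open scoped ENNReal NNReal ContDiff Gradient
open Crest.AnalysisR.PDE.OnePhase Crest.AnalysisR.PDE.MumfordShah

namespace Crest.Agent.R135

/-- (2.4) small density at one scale: line-like regime or propeller-like regime -/
theorem local_shape (ε : ℝ) (hε : 0 < ε) : ∃ ε₀ : ℝ, 0 < ε₀ ∧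
    ∀ {U : Set E2} {lam : ℝ} {u : E2 → ℝ} {K : Set E2}, IsQM U lam u K →
      ∀ x ∈ K, ∀ r : ℝ, 0 < r → r ≤ 1 → closedBall x r ⊆ U → lam * r ≤ ε₀ →
        Dr u K x r ≤ ε₀ * r →
        ∃ ρ₀ : ℝ, LineReg ε U lam u K x ρ₀ ∨ PropReg ε U lam u K x ρ₀ :=
  local_shape' ε hε

end Crest.Agent.R135
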