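import Crest.Agent.R135.StarProp3
import Crest.Agent.R135.EpsProp1
import Crest.Agent.R135.IF_cone_competitor

/-!
# R135, star_prop, part 4: assembly (helper560)
-/

set_option autoImplicit false

open MeasureTheory Set Filter Topology Metric
open scoped ENNReal NNReal ContDiff Gradient
open Crest.AnalysisR.PDE.OnePhase Crest.AnalysisR.PDE.MumfordShah

namespace Crest.Agent.R135.StarP

open Arc

/-- the annular star at the scale `σ`, for small `σ / r` -/
theorem annStar_of_propReg {Cc : ℝ} (hCc : 0 < Cc)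
    (hcc : ∀ {U : Set E2} {lam : ℝ} {u : E2 → ℝ} {K : Set E2}, IsSQM U lam u K →
      ∀ (y : E2) (s : ℝ), 0 < s → closedBall y s ⊆ U →
        ∀ F : Finset E2, K ∩ sphere y s = F →
        IntegrableOn (fun θ => ‖gradient u (cpt y s θ)‖ ^ 2) (Ioo (-Real.pi) Real.pi) →
        ∀ p₀ ∈ closedBall y (s / 2),
          Dr u K y s + Lr K y s ≤
            ∑ p ∈ F, dist p p₀ + Cc * (s * cirE u y s) + lam * s ^ 2)
    {C₀ γ : ℝ} (hC₀ : 0 < C₀) (hγ : 0 < γ) (hγ1 : γ ≤ 1 / 4)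
    {U : Set E2} {lam : ℝ} {u : E2 → ℝ} {K : Set E2} {x : E2} {r : ℝ} (hq : IsSQM U lam u K)
    (hP : PropReg (1 / 2000) U lam u K x r)
    (hD : ∀ s : ℝ, 0 < s → s ≤ r / 16 → Dr u K x s ≤ C₀ * s * (s / r) ^ (2 * γ))
    {σ : ℝ} (hσ : 0 < σ) (hσr : σ ≤ r / 32)
    (hsm : (16 * Cc * C₀ + 4) * (σ / r) ^ (2 * γ) ≤ 1 / 100000) :
    ∃ e, AnnStar a3 b3 K x e σ (9 * Real.sqrt (2 * (16 * Cc * C₀ + 4)) * σ * (σ / r) ^ γ) := by
  classical
  have hr := hP.pos
  have hε : (0:ℝ) < 1 / 2000 := by norm_num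
  set C₁ := 16 * Cc * C₀ + 4 with hC₁
  have hC₁0 : 0 < C₁ := by positivity
  set B := (σ / r) ^ (2 * γ) with hB
  have hB0 : 0 < B := by positivity
  have hσr1 : σ / r ≤ 1 := by rw [div_le_one hr]; linarith
  obtain ⟨t, ht, h3, hgc, hcir⟩ := EpsLoc.prop_good_radius (s := σ / 2) hε le_rfl hq.toIsQM hP
    (by positivity) (by linarith)
  have ht1 : σ < t := by have := ht.1; linarith
  have ht2 : t < 2 * σ := by have := ht.2; linarith
  have ht0 : 0 < t := hσ.trans ht1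
  have h10 : 10 * t ≤ r := by linarith
  obtain ⟨e0, he0⟩ := EpsLoc.prop_star (ε := 1 / 2000) le_rfl hP ht0 h10
  obtain ⟨hconn, p, hpi, hps, hpr⟩ := EpsLoc.prop_preconnected hε le_rfl hq.toIsQM hP ht0 h10 h3 he0
  have hsub : closedBall x t ⊆ U := (closedBall_subset_closedBall (by linarith)).trans hP.sub
  -- the error term
  have hDr : Dr u K x (2 * σ) ≤ 4 * C₀ * σ * B := by
    have h1 := hD (2 * σ) (by positivity) (by linarith)
    have h2 : (2 * σ / r) ^ (2 * γ) ≤ 2 * B := by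
      have e1 : 2 * σ / r = 2 * (σ / r) := by ring
      rw [e1, Real.mul_rpow (by norm_num) (by positivity)]
      apply mul_le_mul_of_nonneg_right _ hB0.le
      calc (2:ℝ) ^ (2 * γ) ≤ (2:ℝ) ^ (1:ℝ) :=
            Real.rpow_le_rpow_of_exponent_le (by norm_num) (by linarith)
        _ = 2 := Real.rpow_one 2
    calc Dr u K x (2 * σ) ≤ C₀ * (2 * σ) * (2 * σ / r) ^ (2 * γ) := h1
      _ ≤ C₀ * (2 * σ) * (2 * B) := by gcongr
      _ = 4 * C₀ * σ * B := by ring
  have hcir2 : cirE u x t ≤ 8 * C₀ * B := by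
    have e1 : 4 * (σ / 2) = 2 * σ := by ring
    rw [e1] at hcir
    refine hcir.trans ?_
    rw [div_le_iff₀ (by positivity)]
    linarith
  have hlam : lam * t ^ 2 ≤ 4 * σ * B := by
    have h1 := hP.lam_le
    have h2 := hq.lam_nonneg
    have h3 : σ / r ≤ B := by
      have := Real.rpow_le_rpow_of_exponent_ge (x := σ / r) (y := 1) (z := 2 * γ) (by positivity)
        hσr1 (by linarith)
      rwa [Real.rpow_one] at this
    have h4 : lam * t ^ 2 ≤ lam * (2 * σ) ^ 2 := by gcongr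
    have h5 : lam * (2 * σ) ^ 2 = 4 * σ * ((lam * r) * (σ / r)) := by
      field_simp; ring
    rw [h5] at h4
    refine h4.trans ?_
    have h6 : lam * r * (σ / r) ≤ 1 * B := by
      apply mul_le_mul (by linarith) h3 (by positivity) (by norm_num)
    nlinarith
  set E := C₁ * σ * B with hE
  have hE0 : 0 < E := by positivity
  have hEt : E ≤ t / 10000 := by
    have h1 : C₁ * B ≤ 1 / 100000 := hsm
    have h2 : E = C₁ * B * σ := by rw [hE]; ring
    rw [h2]
    nlinarith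
  have G : GoodScale K x t E e0 p := by
    refine ⟨ht0, hE0, hEt, hP.mem, he0.1, hps, hpr, hconn, ?_, ?_⟩
    · intro ρ _ hρt
      exact EpsLoc.prop_len_ge hε le_rfl hq.toIsQM hP (by linarith)
    · intro p₀ hp₀
      have h1 := hcc hq x t ht0 hsub (Finset.univ.image p)
        (by rw [hps, Finset.coe_image, Finset.coe_univ, image_univ]) hgc.int p₀ hp₀
      rw [Finset.sum_image (fun i _ j _ hij => hpi hij)] at h1
      have h2 : 0 ≤ Dr u K x t := ENNReal.toReal_nonneg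
      have h3 : Lr K x t ≤ ∑ j, dist (p j) p₀ + E := by
        have h4 : Cc * (t * cirE u x t) ≤ 16 * Cc * C₀ * σ * B := by
          have h5 : t * cirE u x t ≤ 2 * σ * (8 * C₀ * B) := by
            calc t * cirE u x t ≤ t * (8 * C₀ * B) := by gcongr
              _ ≤ 2 * σ * (8 * C₀ * B) := by gcongr
          nlinarith
        have h6 : E = 16 * Cc * C₀ * σ * B + 4 * σ * B := by rw [hE, hC₁]; ring
        rw [h6]
        linarith
      rw [← ENNReal.ofReal_toReal (hq.len_fin x t hsub).ne]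
      exact ENNReal.ofReal_le_ofReal h3
  refine ⟨G.dr 0, (G.annStar ht1.le ht2.le).mono ?_⟩
  have h7 : Real.sqrt (E * t) ≤ Real.sqrt (2 * C₁) * (σ * (σ / r) ^ γ) := by
    apply Real.sqrt_le_iff.2
    refine ⟨by positivity, ?_⟩
    rw [mul_pow, Real.sq_sqrt (by positivity), mul_pow]
    have h8 : ((σ / r) ^ γ) ^ 2 = B := by
      rw [hB, ← Real.rpow_natCast, ← Real.rpow_mul (by positivity)]
      congr 1; push_cast; ring
    rw [h8]
    calc E * t ≤ E * (2 * σ) := by gcongr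
      _ = 2 * C₁ * (σ ^ 2 * B) := by rw [hE]; ring
  calc 9 * Real.sqrt (E * t) ≤ 9 * (Real.sqrt (2 * C₁) * (σ * (σ / r) ^ γ)) := by gcongr
    _ = _ := by ring

theorem star_prop_proof : ∃ ε : ℝ, 0 < ε ∧ ∀ C₀ γ : ℝ, 0 < C₀ → 0 < γ → γ ≤ 1 / 4 →
    ∃ C c : ℝ, 0 < C ∧ 0 < c ∧
    ∀ {U : Set E2} {lam : ℝ} {u : E2 → ℝ} {K : Set E2} {x : E2} {r : ℝ}, IsSQM U lam u K →
      PropReg ε U lam u K x r →
      (∀ s : ℝ, 0 < s → s ≤ r / 16 → Dr u K x s ≤ C₀ * s * (s / r) ^ (2 * γ)) →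
      ∀ s : ℝ, 0 < s → s ≤ c * r →
        ∃ e : E2, Arc.StarAt Arc.a3 Arc.b3 K x e s (C * s * (s / r) ^ γ) := by
  obtain ⟨Cc, hCc, hcc⟩ := cone_competitor
  refine ⟨1 / 2000, by norm_num, ?_⟩
  intro C₀ γ hC₀ hγ hγ1
  set C₁ := 16 * Cc * C₀ + 4 with hC₁
  have hC₁0 : 0 < C₁ := by positivity
  set A := 9 * Real.sqrt (2 * C₁) with hA
  have hA0 : 0 < A := by positivity
  set c := min (1 / 32) ((1 / (100000 * C₁)) ^ (1 / (2 * γ))) with hc
  have hc0 : 0 < c := lt_min (by norm_num) (by positivity)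
  have hc1 : c ≤ 1 / 32 := min_le_left _ _
  have hcγ : c ^ (2 * γ) ≤ 1 / (100000 * C₁) := by
    have h1 : c ≤ (1 / (100000 * C₁)) ^ (1 / (2 * γ)) := min_le_right _ _
    have h2 := Real.rpow_le_rpow hc0.le h1 (by positivity : 0 ≤ 2 * γ)
    rwa [← Real.rpow_mul (by positivity), one_div_mul_cancel (by positivity), Real.rpow_one] at h2
  have hcγ1 : C₁ * c ^ (2 * γ) ≤ 1 / 100000 := by
    calc C₁ * c ^ (2 * γ) ≤ C₁ * (1 / (100000 * C₁)) := by gcongr
      _ = 1 / 100000 := by field_simp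
  have hAc : A * c ^ γ ≤ 1 / 12 := by
    refine (abs_le_of_sq_le_sq' ?_ (by norm_num)).2
    have h8 : (c ^ γ) ^ 2 = c ^ (2 * γ) := by
      rw [← Real.rpow_natCast, ← Real.rpow_mul hc0.le]
      congr 1; push_cast; ring
    rw [mul_pow, hA, mul_pow, Real.sq_sqrt (by positivity), h8]
    nlinarith
  have hq1 : (2:ℝ) ^ (-γ) < 1 := Real.rpow_lt_one_of_one_lt_of_neg (by norm_num) (by linarith)
  have h1q : 0 < 1 - (2:ℝ) ^ (-γ) := by linarith
  refine ⟨A + 8 * A / (1 - (2:ℝ) ^ (-γ)), c, by positivity, hc0, ?_⟩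
  intro U lam u K x r hq hP hD s hs hsc
  have hr := hP.pos
  refine starAt_of_annStar rotGroup3 (R0 := c * r) hP.mem hγ hA0 hr ?_ ?_ hs hsc
  · rw [mul_div_assoc, div_self hr.ne', mul_one]; exact hAc
  · intro σ hσ hσc
    have hσr : σ / r ≤ c := by rw [div_le_iff₀ hr]; exact hσc
    refine annStar_of_propReg hCc hcc hC₀ hγ hγ1 hq hP hD hσ (by nlinarith) ?_
    refine le_trans ?_ hcγ1
    have : (σ / r) ^ (2 * γ) ≤ c ^ (2 * γ) :=
      Real.rpow_le_rpow (by positivity) hσr (by positivity)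
    gcongr

end Crest.Agent.R135.StarP
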