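import Crest.Agent.R135.IFDefs2
import Crest.Agent.R135.StarProp4

/-! INTERFACE star_prop: proved in StarProp1-4.lean (helper560). -/

set_option autoImplicit false

open MeasureTheory Set Filter Topology Metric
open scoped ENNReal NNReal ContDiff Gradient
open Crest.AnalysisR.PDE.OnePhase Crest.AnalysisR.PDE.MumfordShah

namespace Crest.Agent.R135

/-- star with decay in the propeller-like regime -/
theorem star_prop : ∃ ε : ℝ, 0 < ε ∧ ∀ C₀ γ : ℝ, 0 < C₀ → 0 < γ → γ ≤ 1 / 4 →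
    ∃ C c : ℝ, 0 < C ∧ 0 < c ∧
    ∀ {U : Set E2} {lam : ℝ} {u : E2 → ℝ} {K : Set E2} {x : E2} {r : ℝ}, IsSQM U lam u K →
      PropReg ε U lam u K x r →
      (∀ s : ℝ, 0 < s → s ≤ r / 16 → Dr u K x s ≤ C₀ * s * (s / r) ^ (2 * γ)) →
      ∀ s : ℝ, 0 < s → s ≤ c * r →
        ∃ e : E2, Arc.StarAt Arc.a3 Arc.b3 K x e s (C * s * (s / r) ^ γ) :=
  StarP.star_prop_proof

end Crest.Agent.R135
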