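import Crest.Agent.R135.IFDefs2
import Crest.Agent.R135.AsmLoc
import Crest.Agent.R135.IF_line_flat
import Crest.Agent.R135.IF_decay_line
import Crest.Agent.R135.IF_exc_line
import Crest.Agent.R135.IF_local_shape
import Crest.Agent.R135.IF_decay_prop
import Crest.Agent.R135.IF_star_prop

/-! INTERFACE arc_or_triple: replace the sorry here (import your own files), keep the statement. -/

set_option autoImplicit false

open MeasureTheory Set Filter Topology Metric
open scoped ENNReal NNReal ContDiff Gradient
open Crest.AnalysisR.PDE.OnePhase Crest.AnalysisR.PDE.MumfordShah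

namespace Crest.Agent.R135

/-- small density at one scale: arc point or triple junction -/
theorem arc_or_triple : ∃ ε₀ : ℝ, 0 < ε₀ ∧
    ∀ {U : Set E2} {lam : ℝ} {u : E2 → ℝ} {K : Set E2}, IsSQM U lam u K →
      ∀ x ∈ K, ∀ r : ℝ, 0 < r → r ≤ 1 → closedBall x r ⊆ U → lam * r ≤ ε₀ →
        Dr u K x r ≤ ε₀ * r → IsArcInteriorPoint U K x ∨ IsTripleJunctionPoint U K x := by
  exact Asm.arc_or_triple_of line_flat decay_line exc_line local_shape decay_prop star_prop

end Crest.Agent.R135
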