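import Crest.Agent.R135.IFDefs2
import Crest.Agent.R135.EpsLoc1

/-! INTERFACE conn_line (proved by helper983 in EpsLoc1). -/

set_option autoImplicit false

open MeasureTheory Set Filter Topology Metric
open scoped ENNReal NNReal ContDiff Gradient
open Crest.AnalysisR.PDE.OnePhase Crest.AnalysisR.PDE.MumfordShah

namespace Crest.Agent.R135

theorem conn_line : ∃ ε : ℝ, 0 < ε ∧
    ∀ {U : Set E2} {lam : ℝ} {u : E2 → ℝ} {K : Set E2} {y : E2} {r : ℝ}, IsQM U lam u K →
      LineReg ε U lam u K y r → ∀ z ∈ K, dist z y ≤ r / 2 → ∀ s : ℝ, 0 < s → s ≤ r / 16 →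
        LocConn K z s 5 := EpsLoc.conn_line'

end Crest.Agent.R135
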