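import Crest.Agent.R135.IFDefs2
import Crest.Agent.R135.EpsLoc1

/-! INTERFACE conn_prop (proved by helper983 in EpsLoc1). -/

set_option autoImplicit false

open MeasureTheory Set Filter Topology Metric
open scoped ENNReal NNReal ContDiff Gradient
open Crest.AnalysisR.PDE.OnePhase Crest.AnalysisR.PDE.MumfordShah

namespace Crest.Agent.R135

theorem conn_prop : ∃ ε : ℝ, 0 < ε ∧
    ∀ {U : Set E2} {lam : ℝ} {u : E2 → ℝ} {K : Set E2} {x : E2} {r : ℝ}, IsQM U lam u K →
      PropReg ε U lam u K x r → ∀ s : ℝ, 0 < s → s ≤ r / 16 → LocConn K x s 5 := EpsLoc.conn_prop'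

end Crest.Agent.R135
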