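import Mathlib
import Crest.Agent.R135.Conc2
import Crest.Agent.R135.Strong
import Crest.Agent.R135.IFDefs
import Crest.Agent.R135.DLS

/-!
R135 (helper709): block JUMP. For strong quasi-minimizers the radial competitor needs no topological
condition; the oscillation of `u` on a good circle centred at a crack point and containing few crack
points is bounded below by `κ₀ √s`.
-/

set_option autoImplicit false

open MeasureTheory Set Filter Topology Metric
open scoped ENNReal NNReal Gradient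

namespace Crest.Agent.R135

section SQM

variable {U K : Set E2} {lam : ℝ} {u : E2 → ℝ}

/-- comparison with the radial competitor for strong quasi-minimizers, circle with finitely many
crack points -/
theorem IsSQM.enE_le_radial (hq : IsSQM U lam u K) {y : E2} {ρ h : ℝ} (hρ : 0 < ρ)
    (hball : closedBall y ρ ⊆ U) (hfin : (K ∩ sphere y ρ).Finite) (hh : 0 < h) (hh1 : h < 1)
    (c : ℝ) :
    enE u K (closedBall y ρ) ≤
      ENNReal.ofReal (1 / h) * (∫⁻ θ in Ioo (-Real.pi) Real.pi, ‖u (cpt y ρ θ) - c‖ₑ ^ 2) +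
      ENNReal.ofReal (h * ρ ^ 2 / (1 - h)) *
        (∫⁻ θ in Ioo (-Real.pi) Real.pi, ‖∇ u (cpt y ρ θ)‖ₑ ^ 2) +
      (K ∩ sphere y ρ).ncard * ENNReal.ofReal (h * ρ) + ENNReal.ofReal (lam * ρ ^ 2) := by
  have hcard : hfin.toFinset.card = (K ∩ sphere y ρ).ncard :=
    (ncard_eq_toFinset_card _ hfin).symm
  have hLopen : IsOpen (U \ radL K y ρ h) := isOpen_diff_radL hq.isOpen hq.closed hρ hh1 hball
  have hseg : Measure.hausdorffMeasure 1
      {x : E2 | (1 - h) * ρ ≤ dist x y ∧ dist x y ≤ ρ ∧ radProj y ρ x ∈ K} ≤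
        (K ∩ sphere y ρ).ncard * ENNReal.ofReal (h * ρ) := by
    rw [← hcard]
    exact hausdorff_radial_segments_le hρ hh hh1 hfin
  have hlenL : len (radL K y ρ h ∩ closedBall y ρ) ≤
      (K ∩ sphere y ρ).ncard * ENNReal.ofReal (h * ρ) := by
    have h1 : radL K y ρ h ∩ closedBall y ρ ⊆ (K ∩ sphere y ρ) ∪
        {x : E2 | (1 - h) * ρ ≤ dist x y ∧ dist x y ≤ ρ ∧ radProj y ρ x ∈ K} := by
      rintro x ⟨hx | hx, hxb⟩
      · left
        refine ⟨hx.1, ?_⟩
        have h2 := hx.2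
        rw [mem_ball, not_lt] at h2
        exact le_antisymm hxb h2
      · exact Or.inr hx
    unfold len
    refine (measure_mono h1).trans ((measure_union_le _ _).trans ?_)
    have := Measure.nullSingletonClass_hausdorff E2 (d := 1) one_pos
    rw [hfin.measure_zero, zero_add]
    exact hseg
  have hcomp : IsComp0 U u K y ρ (radW u y ρ h c) (radL K y ρ h) := by
    refine ⟨?_, closure_radL_inter hq.closed hρ hh1 hball, ?_, ?_, ?_, ?_⟩
    · rintro x (hx | hx)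
      · exact hq.sub hx.1
      · exact hball (mem_closedBall.2 hx.2.1)
    · exact lt_of_le_of_lt hlenL (ENNReal.mul_lt_top (ENNReal.natCast_lt_top _) ENNReal.ofReal_lt_top)
    · ext x
      constructor
      · rintro ⟨hx | hx, hxb⟩
        · exact ⟨hx.1, hxb⟩
        · exact absurd (mem_closedBall.2 hx.2.1) hxb
      · rintro ⟨hx, hxb⟩
        exact ⟨Or.inl ⟨hx, fun hc => hxb (ball_subset_closedBall hc)⟩, hxb⟩
    · exact locallyLipschitzOn_radW hρ hh hh1 hball (fun x hx => hq.toIsQM.contDiffAt hx) hLopen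
    · rintro z ⟨_, hz⟩
      apply radW_of_le
      by_contra hlt
      exact hz (Or.inr (mem_closedBall.2 (not_le.1 hlt).le))
  refine (hq.min0 y ρ hρ hball _ _ hcomp).trans ?_
  gcongr
  unfold enE
  gcongr
  unfold dirE
  refine (lintegral_mono_set sdiff_subset).trans ?_
  have hsph : (closedBall y ρ : Set E2) =ᵐ[volume] ball y ρ := by
    have h1 : volume (sphere y ρ) = 0 := Measure.addHaar_sphere volume y ρ
    rw [← ball_union_sphere]
    exact union_ae_eq_left_of_ae_eq_empty (ae_eq_empty.2 h1)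
  rw [setLIntegral_congr hsph]
  apply lintegral_radW_le hρ hh hh1
  have h2 : ∀ᵐ θ ∂(volume.restrict (Ioo (-Real.pi) Real.pi)), cpt y ρ θ ∉ K := by
    have h3 : {θ : ℝ | ¬ cpt y ρ θ ∉ K} ∩ Ioo (-Real.pi) Real.pi ⊆ angles K y ρ (-Real.pi) := by
      rintro θ ⟨h4, h5⟩
      simp only [mem_ofPred_eq, not_not] at h4
      exact ⟨⟨h5.1.le, by linarith [h5.2]⟩, h4⟩
    rw [ae_iff, Measure.restrict_apply' measurableSet_Ioo]
    exact measure_mono_null h3 ((finite_angles hρ _ hfin).measure_zero volume)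
  filter_upwards [h2] with θ hθ
  exact hq.toIsQM.contDiffAt ⟨hball (sphere_subset_closedBall (cpt_mem_sphere hρ.le)), hθ⟩

/-- version with a sup bound of the oscillation -/
theorem IsSQM.enE_le_osc (hq : IsSQM U lam u K) {y : E2} {ρ h : ℝ} (hρ : 0 < ρ)
    (hball : closedBall y ρ ⊆ U) (hfin : (K ∩ sphere y ρ).Finite) (hh : 0 < h) (hh1 : h < 1)
    {c M : ℝ} (hM : ∀ z ∈ sphere y ρ \ K, |u z - c| ≤ M) {E : ℝ} (hE0 : 0 ≤ E)
    (hE : ENNReal.ofReal ρ * ∫⁻ θ in Ioo (-Real.pi) Real.pi, ‖∇ u (cpt y ρ θ)‖ₑ ^ 2 ≤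
      ENNReal.ofReal E) :
    enE u K (closedBall y ρ) ≤
      ENNReal.ofReal (2 * Real.pi / h * M ^ 2 + h * ρ / (1 - h) * E +
        (K ∩ sphere y ρ).ncard * (h * ρ) + lam * ρ ^ 2) := by
  have h1h : 0 < 1 - h := by linarith
  have hlam := hq.lam_nonneg
  refine (hq.enE_le_radial hρ hball hfin hh hh1 c).trans ?_
  have hA : ENNReal.ofReal (1 / h) * (∫⁻ θ in Ioo (-Real.pi) Real.pi, ‖u (cpt y ρ θ) - c‖ₑ ^ 2) ≤
      ENNReal.ofReal (2 * Real.pi / h * M ^ 2) := by
    have h2 : ∀ᵐ θ ∂(volume.restrict (Ioo (-Real.pi) Real.pi)), cpt y ρ θ ∉ K := by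
      have h3 : {θ : ℝ | ¬ cpt y ρ θ ∉ K} ∩ Ioo (-Real.pi) Real.pi ⊆ angles K y ρ (-Real.pi) := by
        rintro θ ⟨h4, h5⟩
        simp only [mem_ofPred_eq, not_not] at h4
        exact ⟨⟨h5.1.le, by linarith [h5.2]⟩, h4⟩
      rw [ae_iff, Measure.restrict_apply' measurableSet_Ioo]
      exact measure_mono_null h3 ((finite_angles hρ _ hfin).measure_zero volume)
    calc ENNReal.ofReal (1 / h) * (∫⁻ θ in Ioo (-Real.pi) Real.pi, ‖u (cpt y ρ θ) - c‖ₑ ^ 2)
        ≤ ENNReal.ofReal (1 / h) * (∫⁻ _θ in Ioo (-Real.pi) Real.pi, ENNReal.ofReal (M ^ 2)) := by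
          refine mul_le_mul_right ?_ _
          apply lintegral_mono_ae
          filter_upwards [h2] with θ hθ
          have h4 := hM _ ⟨cpt_mem_sphere hρ.le, hθ⟩
          have hM0 : 0 ≤ M := (abs_nonneg _).trans h4
          rw [ENNReal.ofReal_pow hM0]
          gcongr
          rw [← ofReal_norm, Real.norm_eq_abs]
          exact ENNReal.ofReal_le_ofReal h4
      _ = ENNReal.ofReal (2 * Real.pi / h * M ^ 2) := by
          rw [setLIntegral_const, Real.volume_Ioo, ← ENNReal.ofReal_mul (by positivity),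
            ← ENNReal.ofReal_mul (by positivity)]
          congr 1
          field_simp
          ring
  have hB : ENNReal.ofReal (h * ρ ^ 2 / (1 - h)) *
        (∫⁻ θ in Ioo (-Real.pi) Real.pi, ‖∇ u (cpt y ρ θ)‖ₑ ^ 2) ≤
      ENNReal.ofReal (h * ρ / (1 - h) * E) := by
    have h5 : ENNReal.ofReal (h * ρ ^ 2 / (1 - h)) = ENNReal.ofReal (h * ρ / (1 - h)) * ENNReal.ofReal ρ := by
      rw [← ENNReal.ofReal_mul (by positivity)]
      congr 1
      field_simp
    rw [h5, mul_assoc, ENNReal.ofReal_mul (by positivity)]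
    gcongr
  have hC : ((K ∩ sphere y ρ).ncard : ℝ≥0∞) * ENNReal.ofReal (h * ρ) =
      ENNReal.ofReal ((K ∩ sphere y ρ).ncard * (h * ρ)) := by
    rw [← ENNReal.ofReal_natCast, ← ENNReal.ofReal_mul (by positivity)]
  rw [hC]
  have hsum : ENNReal.ofReal (2 * Real.pi / h * M ^ 2 + h * ρ / (1 - h) * E +
        (K ∩ sphere y ρ).ncard * (h * ρ) + lam * ρ ^ 2) =
      ENNReal.ofReal (2 * Real.pi / h * M ^ 2) + ENNReal.ofReal (h * ρ / (1 - h) * E) +
      ENNReal.ofReal ((K ∩ sphere y ρ).ncard * (h * ρ)) + ENNReal.ofReal (lam * ρ ^ 2) := by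
    rw [ENNReal.ofReal_add (by positivity) (by positivity),
      ENNReal.ofReal_add (by positivity) (by positivity),
      ENNReal.ofReal_add (by positivity) (by positivity)]
  rw [hsum]
  gcongr

end SQM

/-- **JUMP lemma**: on a good circle around a crack point with at most `N0` crack points, `u` cannot
be `κ √s`-close to one constant, `κ < κ0`. -/
theorem jump (N0 : ℕ) (E0 : ℝ) (hE0 : 0 ≤ E0) : ∃ κ0 : ℝ, 0 < κ0 ∧ ∃ l0 : ℝ, 0 < l0 ∧
    ∀ {U : Set E2} {lam : ℝ} {u : E2 → ℝ} {K : Set E2}, IsSQM U lam u K → ∀ y ∈ K, ∀ s : ℝ,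
      0 < s → s ≤ 1 → closedBall y s ⊆ U → lam * s ≤ l0 → (K ∩ sphere y s).Finite →
      (K ∩ sphere y s).ncard ≤ N0 →
      ENNReal.ofReal s * ∫⁻ θ in Ioo (-Real.pi) Real.pi, ‖∇ u (cpt y s θ)‖ₑ ^ 2 ≤
        ENNReal.ofReal E0 →
      ∀ c κ : ℝ, (∀ z ∈ sphere y s \ K, |u z - c| ≤ κ * Real.sqrt s) → 0 ≤ κ → κ0 ≤ κ := by
  have hpi := Real.pi_pos
  obtain ⟨c₀, hc₀, hdens⟩ := density_lower_small
  set h : ℝ := min (1 / 2) (c₀ / (4 * (2 * E0 + N0 + 1))) with hh
  have hden : 0 < 4 * (2 * E0 + N0 + 1) := by positivity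
  have hh0 : 0 < h := lt_min (by norm_num) (by positivity)
  have hh2 : h ≤ 1 / 2 := min_le_left _ _
  have hh3 : h * (2 * E0 + N0 + 1) ≤ c₀ / 4 := by
    have : h ≤ c₀ / (4 * (2 * E0 + N0 + 1)) := min_le_right _ _
    rw [le_div_iff₀ hden] at this
    linarith
  refine ⟨Real.sqrt (c₀ * h / (4 * Real.pi)), Real.sqrt_pos.2 (by positivity), min 1 (c₀ / 4),
    lt_min one_pos (by positivity), ?_⟩
  intro U lam u K hq y hy s hs hs1 hball hlam hfin hN hE c κ hosc hκ
  have hlam1 : lam * s ≤ 1 := hlam.trans (min_le_left _ _)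
  have hlam2 : lam * s ≤ c₀ / 4 := hlam.trans (min_le_right _ _)
  have h1 := hq.enE_le_osc hs hball hfin hh0 (by linarith) hosc hE0 hE
  have h2 : ENNReal.ofReal (c₀ * s) ≤ enE u K (closedBall y s) :=
    (hdens hq.toIsQM y hy s hs hs1 hball hlam1).trans le_add_self
  have h3 := h2.trans h1
  have h1h : 0 < 1 - h := by linarith
  have hlam0 := hq.lam_nonneg
  rw [ENNReal.ofReal_le_ofReal_iff (by positivity)] at h3
  have e1 : 2 * Real.pi / h * (κ * Real.sqrt s) ^ 2 = 2 * Real.pi / h * κ ^ 2 * s := by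
    rw [mul_pow, Real.sq_sqrt hs.le]
    ring
  have e2 : h * s / (1 - h) * E0 ≤ 2 * (h * s) * E0 := by
    gcongr
    rw [div_le_iff₀ h1h]
    nlinarith [mul_pos hh0 hs]
  have e3 : ((K ∩ sphere y s).ncard : ℝ) * (h * s) ≤ N0 * (h * s) := by
    gcongr
  have e4 : 2 * (h * s) * E0 + N0 * (h * s) ≤ c₀ / 4 * s := by
    have : 2 * (h * s) * E0 + N0 * (h * s) = h * (2 * E0 + N0) * s := by ring
    rw [this]
    have h5 : h * (2 * E0 + N0) ≤ c₀ / 4 := by nlinarith
    gcongr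
  have e5 : lam * s ^ 2 ≤ c₀ / 4 * s := by nlinarith
  rw [e1] at h3
  have h6 : c₀ / 2 * s ≤ 2 * Real.pi / h * κ ^ 2 * s := by nlinarith
  have h7 : c₀ / 2 ≤ 2 * Real.pi / h * κ ^ 2 := le_of_mul_le_mul_right h6 hs
  have h8 : c₀ * h / (4 * Real.pi) ≤ κ ^ 2 := by
    rw [div_le_iff₀ (by positivity)]
    have h9 : 2 * Real.pi / h * κ ^ 2 * h = 2 * Real.pi * κ ^ 2 := by field_simp
    nlinarith [mul_le_mul_of_nonneg_right h7 hh0.le]
  calc Real.sqrt (c₀ * h / (4 * Real.pi)) ≤ Real.sqrt (κ ^ 2) := Real.sqrt_le_sqrt h8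
    _ = κ := Real.sqrt_sq hκ

/-- `ρ ∫_θ ‖∇u‖²` as a lower integral versus `cirE` -/
theorem ofReal_cirE {u : E2 → ℝ} {y : E2} {s : ℝ} (hs : 0 < s)
    (hint : IntegrableOn (fun θ => ‖gradient u (cpt y s θ)‖ ^ 2) (Ioo (-Real.pi) Real.pi)) :
    ENNReal.ofReal (cirE u y s) =
      ENNReal.ofReal s * ∫⁻ θ in Ioo (-Real.pi) Real.pi, ‖∇ u (cpt y s θ)‖ₑ ^ 2 := by
  unfold cirE
  rw [ENNReal.ofReal_mul hs.le, circI_eq_set,
    ofReal_integral_eq_lintegral_ofReal hint (Eventually.of_forall fun θ => by positivity)]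
  congr 1
  apply lintegral_congr
  intro θ
  rw [ENNReal.ofReal_pow (norm_nonneg _), ofReal_norm]

/-- finite-level jump lemma -/
theorem jump_lower (N : ℕ) : ∃ κ : ℝ, 0 < κ ∧
    ∀ {U : Set E2} {lam : ℝ} {u : E2 → ℝ} {K : Set E2}, IsSQM U lam u K →
      ∀ y ∈ K, ∀ s : ℝ, 0 < s → s ≤ 1 → closedBall y s ⊆ U → lam * s ≤ κ →
        (K ∩ sphere y s).Finite → (K ∩ sphere y s).ncard ≤ N →
        IntegrableOn (fun θ => ‖gradient u (cpt y s θ)‖ ^ 2) (Ioo (-Real.pi) Real.pi) →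
        cirE u y s ≤ 1 →
        ∀ c : ℝ, ∃ z ∈ sphere y s \ K, κ * Real.sqrt s < |u z - c| := by
  obtain ⟨κ0, hκ0, l0, hl0, hj⟩ := jump N 1 zero_le_one
  refine ⟨min (κ0 / 2) l0, lt_min (by positivity) hl0, ?_⟩
  intro U lam u K hq y hy s hs hs1 hball hlam hfin hN hint hcir c
  by_contra hcon
  push Not at hcon
  have h1 := hj hq y hy s hs hs1 hball (hlam.trans (min_le_right _ _)) hfin hN (by
    rw [← ofReal_cirE hs hint]
    exact ENNReal.ofReal_le_ofReal hcir) c (min (κ0 / 2) l0) hcon (le_min (by positivity) hl0.le)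
  have h2 := min_le_left (κ0 / 2) l0
  linarith

end Crest.Agent.R135
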