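import Crest.Agent.R135.IFDefs2
import Crest.Agent.R135.Jump

/-!
INTERFACE `jump_lower` (owner: helper709): DONE, the theorem `Crest.Agent.R135.jump_lower` is proved in
`Jump.lean` (modulo IF_B2).
-/
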