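import Crest.Agent.R135.IFDefs2
import Crest.Agent.R135.IF_small_propagates
import Crest.Agent.R135.IF_shape_of_small
import Crest.Agent.R135.IF_line_reg
import Crest.Agent.R135.IF_local_shape
import Crest.Agent.R135.IF_tip_blowup
import Crest.Agent.R135.IF_tip_annulus
import Crest.Agent.R135.IF_jump_lower
import Crest.Agent.R135.IF_conn_line
import Crest.Agent.R135.IF_conn_prop
import Crest.Agent.R135.IF_phase_line
import Crest.Agent.R135.IF_phase_prop
import Crest.Agent.R135.IF_decay_line
import Crest.Agent.R135.IF_decay_prop
import Crest.Agent.R135.IF_cone_competitor
import Crest.Agent.R135.IF_exc_line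
import Crest.Agent.R135.IF_star_prop
import Crest.Agent.R135.IF_line_flat
import Crest.Agent.R135.IF_arc_or_triple
import Crest.Agent.R135.IF_arc_end

/-!
# INTERFACE LOC (helper253): local structure, everything after B3 + GM

Owners: `small_propagates`, `shape_of_small` helper288; `line_reg`, `local_shape` helper990;
`tip_blowup`, `tip_annulus` helper887; `jump_lower` helper709 (done, Jump.lean);
`conn_line`, `conn_prop`, `exc_line` helper983; `phase_*` helper12; `decay_*` helper427;
`cone_competitor`, `star_prop` helper560; `line_flat`, `arc_or_triple` helper370;
`arc_end` helper633 + helper828 + helper555.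
All constants are absolute. `IsSQM` = strong class (no `Keeps`), file Strong.lean.
-/
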