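import Crest.Agent.R135.Core

/-!
# R135, block INNER (helper828), part 1: push-forward competitors

For a bi-Lipschitz homeomorphism `Φ` of the plane which is the identity off `closedBall x ρ`, the
pair `(u ∘ Φ⁻¹, Φ(K))` is a competitor; formula for its Dirichlet energy.
-/

set_option autoImplicit false

open MeasureTheory Set Filter Topology Metric
open scoped ENNReal NNReal ContDiff Gradient RealInnerProductSpace

namespace Crest.Agent.R135

namespace Inner

theorem isOpen_diff {U K : Set E2} (hU : IsOpen U) (hK : closure K ∩ U ⊆ K) : IsOpen (U \ K) := by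
  have h : U \ K = U \ closure K := by
    ext y
    constructor
    · rintro ⟨hy, hyK⟩
      exact ⟨hy, fun hc => hyK (hK ⟨hc, hy⟩)⟩
    · rintro ⟨hy, hyK⟩
      exact ⟨hy, fun hc => hyK (subset_closure hc)⟩
  rw [h]
  exact hU.sdiff isClosed_closure

theorem locallyLipschitzOn_of_contDiffOn {V : Set E2} (hV : IsOpen V) {u : E2 → ℝ}
    (hu : ContDiffOn ℝ 1 u V) : LocallyLipschitzOn V u := by
  intro x hx
  have h : ContDiffAt ℝ 1 u x := (hu x hx).contDiffAt (hV.mem_nhds hx)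
  obtain ⟨C, t, ht, hC⟩ := h.exists_lipschitzOnWith
  exact ⟨C, t, mem_nhdsWithin_of_mem_nhds ht, hC⟩

section Homeo

variable {Φ : E2 ≃ₜ E2} {x : E2} {ρ : ℝ}

theorem homeo_mem_iff (hid : ∀ y, y ∉ closedBall x ρ → Φ y = y) (y : E2) :
    Φ y ∈ closedBall x ρ ↔ y ∈ closedBall x ρ := by
  constructor
  · intro h
    by_contra hc
    rw [hid y hc] at h
    exact hc h
  · intro h
    by_contra hc
    have h1 := hid _ hc
    have h2 : Φ y = y := Φ.injective h1
    rw [h2] at hc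
    exact hc h

theorem homeo_symm_id (hid : ∀ y, y ∉ closedBall x ρ → Φ y = y) (y : E2)
    (hy : y ∉ closedBall x ρ) : Φ.symm y = y := by
  rw [Homeomorph.symm_apply_eq]
  exact (hid y hy).symm

theorem homeo_mem_open_iff {U : Set E2} (hU : closedBall x ρ ⊆ U)
    (hid : ∀ y, y ∉ closedBall x ρ → Φ y = y) (y : E2) : Φ y ∈ U ↔ y ∈ U := by
  by_cases hy : y ∈ closedBall x ρ
  · exact ⟨fun _ => hU hy, fun _ => hU ((homeo_mem_iff hid y).2 hy)⟩
  · rw [hid y hy]

/-- **push-forward competitor** -/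
theorem isComp_of_homeo {U K : Set E2} {lam : ℝ} {u : E2 → ℝ} (h : IsQM U lam u K)
    (hU : closedBall x ρ ⊆ U) {C C' : ℝ≥0} (hΦ : LipschitzWith C Φ)
    (hΦ' : LipschitzWith C' Φ.symm) (hid : ∀ y, y ∉ closedBall x ρ → Φ y = y) :
    IsComp U u K x ρ (u ∘ Φ.symm) (Φ '' K) where
  sub := by
    rintro _ ⟨k, hk, rfl⟩
    exact (homeo_mem_open_iff hU hid k).2 (h.sub hk)
  closed := by
    rintro y ⟨hy, hyU⟩
    rw [← Φ.image_closure] at hy
    obtain ⟨k, hk, rfl⟩ := hy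
    exact ⟨k, h.closed ⟨hk, (homeo_mem_open_iff hU hid k).1 hyU⟩, rfl⟩
  len_fin := by
    have e : Φ '' K ∩ closedBall x ρ = Φ '' (K ∩ closedBall x ρ) := by
      ext y
      constructor
      · rintro ⟨⟨k, hk, rfl⟩, hy⟩
        exact ⟨k, ⟨hk, (homeo_mem_iff hid k).1 hy⟩, rfl⟩
      · rintro ⟨k, ⟨hk, hk2⟩, rfl⟩
        exact ⟨⟨k, hk, rfl⟩, (homeo_mem_iff hid k).2 hk2⟩
    unfold len
    rw [e]
    have h1 := hΦ.hausdorffMeasure_image_le (d := 1) zero_le_one (K ∩ closedBall x ρ)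
    refine h1.trans_lt ?_
    refine ENNReal.mul_lt_top ?_ (h.len_fin x ρ hU)
    simp
  eqL := by
    ext y
    constructor
    · rintro ⟨⟨k, hk, rfl⟩, hy⟩
      have hk2 : k ∉ closedBall x ρ := fun hc => hy ((homeo_mem_iff hid k).2 hc)
      rw [hid k hk2]
      exact ⟨hk, hk2⟩
    · rintro ⟨hk, hy⟩
      exact ⟨⟨y, hk, hid y hy⟩, hy⟩
  lip := by
    have hV := isOpen_diff h.isOpen h.closed
    have hu := locallyLipschitzOn_of_contDiffOn hV h.c1
    have hmaps : MapsTo Φ.symm (U \ Φ '' K) (U \ K) := by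
      rintro y ⟨hy, hyK⟩
      refine ⟨?_, fun hc => hyK ⟨_, hc, Φ.apply_symm_apply y⟩⟩
      rw [← homeo_mem_open_iff hU hid, Φ.apply_symm_apply]
      exact hy
    intro y hy
    obtain ⟨C1, t, ht, hC1⟩ := hu (hmaps hy)
    rw [hV.nhdsWithin_eq (hmaps hy)] at ht
    refine ⟨C1 * C', Φ.symm ⁻¹' t, mem_nhdsWithin_of_mem_nhds (Φ.symm.continuous.continuousAt ht), ?_⟩
    exact hC1.comp hΦ'.lipschitzOnWith (mapsTo_preimage _ _)
  eqw := by
    rintro y ⟨-, hy⟩
    have : y ∉ closedBall x ρ := fun hc => hy (Or.inr hc)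
    simp only [Function.comp_apply, homeo_symm_id hid y this]
  keeps := by
    intro c hc
    refine ⟨c ∘ Φ.symm, ?_, ?_⟩
    · rintro y ⟨hy, hyK⟩
      have hm : Φ.symm y ∈ U \ K := by
        refine ⟨?_, fun hc => hyK ⟨_, hc, Φ.apply_symm_apply y⟩⟩
        rw [← homeo_mem_open_iff hU hid, Φ.apply_symm_apply]
        exact hy
      have h1 := hc _ hm
      exact Φ.symm.continuous.continuousAt.eventually h1
    · rintro y ⟨-, hy⟩
      have : y ∉ closedBall x ρ := fun hc => hy (Or.inr hc)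
      simp only [Function.comp_apply, homeo_symm_id hid y this]

theorem image_closedBall_diff (hid : ∀ y, y ∉ closedBall x ρ → Φ y = y) (K : Set E2) :
    closedBall x ρ \ Φ '' K = Φ '' (closedBall x ρ \ K) := by
  ext y
  constructor
  · rintro ⟨hy, hyK⟩
    refine ⟨Φ.symm y, ⟨?_, fun hc => hyK ⟨_, hc, Φ.apply_symm_apply y⟩⟩, Φ.apply_symm_apply y⟩
    rw [← homeo_mem_iff hid, Φ.apply_symm_apply]
    exact hy
  · rintro ⟨k, ⟨hk, hk2⟩, rfl⟩
    refine ⟨(homeo_mem_iff hid k).2 hk, ?_⟩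
    rintro ⟨k', hk', e⟩
    rw [Φ.injective e] at hk'
    exact hk2 hk'

/-- Dirichlet energy of the push-forward -/
theorem dirE_homeo {u : E2 → ℝ} {K : Set E2} (hKm : MeasurableSet (closedBall x ρ \ K))
    {A : E2 → E2 →L[ℝ] E2} (hA : ∀ y, HasFDerivAt Φ (A y) y)
    (hid : ∀ y, y ∉ closedBall x ρ → Φ y = y) :
    dirE (u ∘ Φ.symm) (Φ '' K) (closedBall x ρ) =
      ∫⁻ y in closedBall x ρ \ K,
        ENNReal.ofReal |(A y).det| * ‖gradient (u ∘ Φ.symm) (Φ y)‖ₑ ^ 2 := by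
  unfold dirE
  rw [image_closedBall_diff hid K]
  exact lintegral_image_eq_lintegral_abs_det_fderiv_mul volume hKm
    (fun y _ => (hA y).hasFDerivWithinAt) Φ.injective.injOn _

end Homeo

end Inner

end Crest.Agent.R135
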