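import Crest.Agent.R135.Inner2
import Crest.Agent.R135.PolarE
import Crest.Agent.R135.LocLip

/-!
# R135, block INNER (helper828), part 3: expansion of the Dirichlet energy
-/

set_option autoImplicit false

open MeasureTheory Set Filter Topology Metric
open scoped ENNReal NNReal ContDiff Gradient

noncomputable section

namespace Crest.Agent.R135

namespace Inner

variable {b : ℝ → E2} {r1 r2 : ℝ}

theorem abs_inner_nu_le (h : RadDens b r1 r2) (x₀ y : E2) :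
    |inner ℝ (nu x₀ y) (b ‖y - x₀‖)| ≤ 1 := by
  refine (abs_real_inner_le_norm _ _).trans ?_
  have h1 := norm_nu_le x₀ y
  have h2 := h.bdd ‖y - x₀‖
  calc ‖nu x₀ y‖ * ‖b ‖y - x₀‖‖ ≤ 1 * 1 := by gcongr
    _ = 1 := one_mul 1

theorem one_add_ge (h : RadDens b r1 r2) (x₀ y : E2) {t : ℝ} (ht : |t| ≤ 1/2) :
    1/2 ≤ 1 + t * inner ℝ (nu x₀ y) (b ‖y - x₀‖) := by
  have h1 := abs_inner_nu_le h x₀ y
  have h2 : |t * inner ℝ (nu x₀ y) (b ‖y - x₀‖)| ≤ 1/2 := by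
    rw [abs_mul]
    calc |t| * |inner ℝ (nu x₀ y) (b ‖y - x₀‖)| ≤ (1/2) * 1 := by gcongr
      _ = 1/2 := mul_one _
  have := (abs_le.1 h2).1
  linarith

/-- gradient of the push-forward -/
theorem hasGradientAt_push (h : RadDens b r1 r2) (x₀ : E2) {t : ℝ} (ht : |t| ≤ 1/2) {u : E2 → ℝ}
    {p y : E2} (hu : HasGradientAt u p y) :
    HasGradientAt (u ∘ (rhomeo h x₀ ht).symm)
      (p - (t / (1 + t * inner ℝ (nu x₀ y) (b ‖y - x₀‖)) * inner ℝ p (b ‖y - x₀‖)) • nu x₀ y)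
      (rhomeo h x₀ ht y) := by
  set β : ℝ := inner ℝ (nu x₀ y) (b ‖y - x₀‖) with hβ
  have hpos : 1/2 ≤ 1 + t * β := one_add_ge h x₀ y ht
  have hne : 1 + t * β ≠ 0 := by linarith
  set σ : ℝ := t / (1 + t * β) with hσ
  have hσe : σ * (1 + t * β) = t := div_mul_cancel₀ t hne
  -- the inverse of the derivative
  set B : E2 →L[ℝ] E2 := ContinuousLinearMap.id ℝ E2 -
    (σ • innerSL ℝ (nu x₀ y)).smulRight (b ‖y - x₀‖) with hB
  have hBa : ∀ w, B w = w - (σ * inner ℝ (nu x₀ y) w) • b ‖y - x₀‖ := by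
    intro w; simp [hB]
  let A' : E2 ≃L[ℝ] E2 := ContinuousLinearEquiv.equivOfInverse (rder b x₀ t y) B
    (by
      intro v
      rw [hBa, rder_apply, inner_add_right, inner_smul_right, ← hβ]
      have e : σ * (inner ℝ (nu x₀ y) v + t * inner ℝ (nu x₀ y) v * β) =
        t * inner ℝ (nu x₀ y) v := by
        have : σ * (inner ℝ (nu x₀ y) v + t * inner ℝ (nu x₀ y) v * β) =
          (σ * (1 + t * β)) * inner ℝ (nu x₀ y) v := by ring
        rw [this, hσe]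
      rw [e, add_sub_cancel_right])
    (by
      intro w
      rw [hBa, rder_apply, inner_sub_right, inner_smul_right, ← hβ]
      have e : t * (inner ℝ (nu x₀ y) w - σ * inner ℝ (nu x₀ y) w * β) =
        σ * inner ℝ (nu x₀ y) w := by
        have : t * (inner ℝ (nu x₀ y) w - σ * inner ℝ (nu x₀ y) w * β) =
          (t - σ * t * β) * inner ℝ (nu x₀ y) w := by ring
        rw [this]
        congr 1
        linarith [hσe]
      rw [e, sub_add_cancel])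
  have hA' : ((A' : E2 ≃L[ℝ] E2) : E2 →L[ℝ] E2) = rder b x₀ t y := by
    ext v
    rfl
  have hsymm : HasFDerivAt (rhomeo h x₀ ht).symm (A'.symm : E2 →L[ℝ] E2) (rhomeo h x₀ ht y) := by
    apply HasFDerivAt.of_local_left_inverse (f := rhomeo h x₀ ht)
    · exact (rhomeo h x₀ ht).symm.continuous.continuousAt
    · rw [hA', Homeomorph.symm_apply_apply]
      exact hasFDerivAt_rhomeo h x₀ ht y
    · exact Eventually.of_forall fun z => (rhomeo h x₀ ht).apply_symm_apply z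
  have hA's : ((A'.symm : E2 ≃L[ℝ] E2) : E2 →L[ℝ] E2) = B := by
    ext v
    rfl
  rw [hA's] at hsymm
  rw [hasGradientAt_iff_hasFDerivAt] at hu ⊢
  have hu' : HasFDerivAt u ((InnerProductSpace.toDual ℝ E2) p) ((rhomeo h x₀ ht).symm (rhomeo h x₀ ht y)) := by
    rw [Homeomorph.symm_apply_apply]; exact hu
  refine (hu'.comp _ hsymm).congr_fderiv ?_
  ext v
  simp only [ContinuousLinearMap.coe_comp, Function.comp_apply, InnerProductSpace.toDual_apply_apply, hBa,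
    inner_sub_right, inner_sub_left, inner_smul_left, inner_smul_right, conj_trivial]
  ring

/-- the stress field `2 ∂_ν u ∇u - |∇u|² ν` -/
def stress (u : E2 → ℝ) (x₀ y : E2) : E2 :=
  (2 * inner ℝ (∇ u y) (nu x₀ y)) • ∇ u y - ‖∇ u y‖ ^ 2 • nu x₀ y

/-- pointwise expansion -/
theorem push_integrand_le (h : RadDens b r1 r2) (x₀ : E2) {t : ℝ} (ht : |t| ≤ 1/2) {u : E2 → ℝ}
    {y : E2} (hu : DifferentiableAt ℝ u y) :
    ENNReal.ofReal |(rder b x₀ t y).det| *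
        ‖∇ (u ∘ (rhomeo h x₀ ht).symm) (rhomeo h x₀ ht y)‖ₑ ^ 2 ≤
      ENNReal.ofReal ((1 + 2 * t^2) * ‖∇ u y‖ ^ 2 - t * inner ℝ (b ‖y - x₀‖) (stress u x₀ y)) := by
  have hg := hasGradientAt_push h x₀ ht hu.hasGradientAt
  rw [hg.gradient, det_rder]
  set p : E2 := ∇ u y with hp
  set ν : E2 := nu x₀ y with hν
  set B : E2 := b ‖y - x₀‖ with hB
  set β : ℝ := inner ℝ ν B with hβ
  have hpos : 1/2 ≤ 1 + t * β := one_add_ge h x₀ y ht
  have hpos' : 0 < 1 + t * β := by linarith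
  rw [abs_of_pos hpos', ← ofReal_norm, ← ENNReal.ofReal_pow (norm_nonneg _),
    ← ENNReal.ofReal_mul hpos'.le]
  apply ENNReal.ofReal_le_ofReal
  have hνn : ‖ν‖ ≤ 1 := norm_nu_le x₀ y
  have hBn : ‖B‖ ≤ 1 := h.bdd _
  have e1 : ‖p - (t / (1 + t * β) * inner ℝ p B) • ν‖ ^ 2 =
      ‖p‖ ^ 2 - 2 * (t / (1 + t * β) * inner ℝ p B) * inner ℝ p ν +
        (t / (1 + t * β) * inner ℝ p B) ^ 2 * ‖ν‖ ^ 2 := by
    rw [norm_sub_sq_real, inner_smul_right, norm_smul, mul_pow, Real.norm_eq_abs, sq_abs]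
    ring
  rw [e1]
  have e2 : inner ℝ B (stress u x₀ y) = 2 * inner ℝ p ν * inner ℝ p B - ‖p‖ ^ 2 * β := by
    simp only [stress, inner_sub_right, inner_smul_right]
    rw [real_inner_comm (nu x₀ y) (b ‖y - x₀‖), real_inner_comm (∇ u y) (b ‖y - x₀‖)]
  rw [e2]
  have e3 : (1 + t * β) * (‖p‖ ^ 2 - 2 * (t / (1 + t * β) * inner ℝ p B) * inner ℝ p ν +
        (t / (1 + t * β) * inner ℝ p B) ^ 2 * ‖ν‖ ^ 2) =
      (1 + t * β) * ‖p‖ ^ 2 - 2 * t * inner ℝ p B * inner ℝ p ν +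
        t ^ 2 / (1 + t * β) * (inner ℝ p B ^ 2 * ‖ν‖ ^ 2) := by
    field_simp
  rw [e3]
  have h4 : t ^ 2 / (1 + t * β) ≤ 2 * t ^ 2 := by
    rw [div_le_iff₀ hpos']
    nlinarith [sq_nonneg t]
  have h5 : inner ℝ p B ^ 2 * ‖ν‖ ^ 2 ≤ ‖p‖ ^ 2 := by
    have h6 : |inner ℝ p B| ≤ ‖p‖ := by
      refine (abs_real_inner_le_norm p B).trans ?_
      calc ‖p‖ * ‖B‖ ≤ ‖p‖ * 1 := by gcongr
        _ = ‖p‖ := mul_one _
    have h7 : inner ℝ p B ^ 2 ≤ ‖p‖ ^ 2 := by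
      rw [← sq_abs (inner ℝ p B)]
      gcongr
    have h8 : ‖ν‖ ^ 2 ≤ 1 := by
      rw [← one_pow 2]
      gcongr
    calc inner ℝ p B ^ 2 * ‖ν‖ ^ 2 ≤ ‖p‖ ^ 2 * 1 := by gcongr
      _ = ‖p‖ ^ 2 := mul_one _
  have h9 : t ^ 2 / (1 + t * β) * (inner ℝ p B ^ 2 * ‖ν‖ ^ 2) ≤ 2 * t ^ 2 * ‖p‖ ^ 2 := by
    have : 0 ≤ t ^ 2 / (1 + t * β) := by positivity
    exact mul_le_mul h4 h5 (by positivity) (by positivity)
  nlinarith

theorem measurable_nu (x₀ : E2) : Measurable (nu x₀) := by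
  unfold nu
  have h1 : Measurable fun y : E2 => y - x₀ := by fun_prop
  exact (h1.norm.inv).smul h1

theorem measurable_stress (u : E2 → ℝ) (x₀ : E2) : Measurable (stress u x₀) := by
  unfold stress
  have hg : Measurable fun y => ∇ u y := measurable_gradient u
  have hn := measurable_nu x₀
  exact (((hg.inner (𝕜 := ℝ) hn).const_mul 2).smul hg).sub ((hg.norm.pow_const 2).smul hn)

theorem norm_stress_le (u : E2 → ℝ) (x₀ y : E2) : ‖stress u x₀ y‖ ≤ 3 * ‖∇ u y‖ ^ 2 := by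
  unfold stress
  have h1 := norm_nu_le x₀ y
  have h2 : |inner ℝ (∇ u y) (nu x₀ y)| ≤ ‖∇ u y‖ := by
    refine (abs_real_inner_le_norm _ _).trans ?_
    calc ‖∇ u y‖ * ‖nu x₀ y‖ ≤ ‖∇ u y‖ * 1 := by gcongr
      _ = ‖∇ u y‖ := mul_one _
  refine (norm_sub_le _ _).trans ?_
  rw [norm_smul, norm_smul, Real.norm_eq_abs, abs_mul, Real.norm_eq_abs, abs_of_nonneg (sq_nonneg ‖∇ u y‖),
    abs_two]
  have h3 : 2 * |inner ℝ (∇ u y) (nu x₀ y)| * ‖∇ u y‖ ≤ 2 * ‖∇ u y‖ ^ 2 := by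
    have := norm_nonneg (∇ u y)
    nlinarith
  have h4 : ‖∇ u y‖ ^ 2 * ‖nu x₀ y‖ ≤ ‖∇ u y‖ ^ 2 := by
    calc ‖∇ u y‖ ^ 2 * ‖nu x₀ y‖ ≤ ‖∇ u y‖ ^ 2 * 1 := by gcongr
      _ = _ := mul_one _
  linarith

/-- the flux of the stress field through the circle of radius `s` (force) -/
def FB (u : E2 → ℝ) (x₀ : E2) (s : ℝ) : E2 := s • circI (stress u x₀) x₀ s

section QM

variable {U K : Set E2} {lam : ℝ} {u : E2 → ℝ} {x₀ : E2} {ρ : ℝ}

theorem measurableSet_closedBall_diff (h : IsQM U lam u K) (hU : closedBall x₀ ρ ⊆ U) :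
    MeasurableSet (closedBall x₀ ρ \ K) := by
  have e : closedBall x₀ ρ \ K = closedBall x₀ ρ ∩ (U \ K) := by
    ext y
    exact ⟨fun hy => ⟨hy.1, hU hy.1, hy.2⟩, fun hy => ⟨hy.1, hy.2.2⟩⟩
  rw [e]
  exact measurableSet_closedBall.inter (isOpen_diff h.isOpen h.closed).measurableSet

theorem volume_K (h : IsQM U lam u K) (hU : closedBall x₀ ρ ⊆ U) :
    volume (K ∩ closedBall x₀ ρ) = 0 :=
  volume_eq_zero_of_hausdorff_lt_top (h.len_fin x₀ ρ hU)

theorem restrict_eq (h : IsQM U lam u K) (hU : closedBall x₀ ρ ⊆ U) :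
    (volume : Measure E2).restrict (closedBall x₀ ρ \ K) = volume.restrict (ball x₀ ρ) := by
  apply Measure.restrict_congr_set
  have h1 : (closedBall x₀ ρ \ K : Set E2) =ᵐ[volume] (closedBall x₀ ρ : Set E2) := by
    rw [← sdiff_inter_self_eq_sdiff (s := closedBall x₀ ρ) (t := K)]
    exact sdiff_null_ae_eq_self (volume_K h hU)
  refine h1.trans ?_
  by_cases hρ : ρ = 0
  · subst hρ
    rw [closedBall_zero, ball_zero]
    exact ae_eq_empty.2 (measure_singleton x₀)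
  · exact (ae_eq_of_subset_of_measure_ge ball_subset_closedBall
      (Measure.addHaar_closedBall_eq_addHaar_ball volume x₀ ρ).le
      measurableSet_ball.nullMeasurableSet measure_closedBall_lt_top.ne).symm

theorem integrableOn_normsq (h : IsQM U lam u K) (hU : closedBall x₀ ρ ⊆ U) :
    IntegrableOn (fun y => ‖∇ u y‖ ^ 2) (ball x₀ ρ) := by
  rw [IntegrableOn, ← restrict_eq h hU]
  refine ⟨((measurable_gradient u).norm.pow_const 2).aestronglyMeasurable, ?_⟩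
  have h1 := h.dir_fin x₀ ρ hU
  unfold dirE at h1
  rw [hasFiniteIntegral_iff_enorm]
  refine lt_of_eq_of_lt (lintegral_congr fun y => ?_) h1
  rw [enorm_pow, enorm_norm]

theorem Dr_eq (h : IsQM U lam u K) (hU : closedBall x₀ ρ ⊆ U) :
    Dr u K x₀ ρ = ∫ y in ball x₀ ρ, ‖∇ u y‖ ^ 2 := by
  have hi := integrableOn_normsq h hU
  unfold Dr dirE
  have h1 : ∫⁻ y in ball x₀ ρ \ K, ‖∇ u y‖ₑ ^ 2 = ∫⁻ y in ball x₀ ρ, ‖∇ u y‖ₑ ^ 2 := by
    apply setLIntegral_congr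
    have : (ball x₀ ρ \ K : Set E2) = ball x₀ ρ \ (K ∩ closedBall x₀ ρ) := by
      ext y
      constructor
      · rintro ⟨hy, hyK⟩; exact ⟨hy, fun hc => hyK hc.1⟩
      · rintro ⟨hy, hyK⟩; exact ⟨hy, fun hc => hyK ⟨hc, ball_subset_closedBall hy⟩⟩
    rw [this]
    exact sdiff_null_ae_eq_self (volume_K h hU)
  rw [h1, integral_eq_lintegral_of_nonneg_ae (Eventually.of_forall fun y => sq_nonneg _) hi.1]
  congr 1
  apply lintegral_congr fun y => ?_
  rw [← ofReal_norm, ENNReal.ofReal_pow (norm_nonneg _)]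

theorem dirE_closedBall (h : IsQM U lam u K) (hU : closedBall x₀ ρ ⊆ U) :
    dirE u K (closedBall x₀ ρ) = ENNReal.ofReal (Dr u K x₀ ρ) := by
  have hi := integrableOn_normsq h hU
  rw [Dr_eq h hU, ofReal_integral_eq_lintegral_ofReal hi
    (Eventually.of_forall fun y => sq_nonneg _)]
  unfold dirE
  rw [restrict_eq h hU]
  apply lintegral_congr fun y => ?_
  rw [← ofReal_norm, ENNReal.ofReal_pow (norm_nonneg _)]

theorem integrableOn_stress (h : IsQM U lam u K) (hU : closedBall x₀ ρ ⊆ U) :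
    IntegrableOn (stress u x₀) (ball x₀ ρ) := by
  refine Integrable.mono' ((integrableOn_normsq h hU).const_mul 3)
    (measurable_stress u x₀).aestronglyMeasurable (Eventually.of_forall fun y => ?_)
  exact norm_stress_le u x₀ y

theorem integrableOn_bstress (h : IsQM U lam u K) (hb : RadDens b r1 r2)
    (hU : closedBall x₀ ρ ⊆ U) :
    IntegrableOn (fun y => inner ℝ (b ‖y - x₀‖) (stress u x₀ y)) (ball x₀ ρ) := by
  have hm : Measurable fun y : E2 => b ‖y - x₀‖ := by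
    have := hb.cont.measurable
    exact this.comp (by fun_prop)
  refine Integrable.mono' ((integrableOn_normsq h hU).const_mul 3)
    (hm.inner (measurable_stress u x₀)).aestronglyMeasurable (Eventually.of_forall fun y => ?_)
  rw [Real.norm_eq_abs]
  refine (abs_real_inner_le_norm _ _).trans ?_
  calc ‖b ‖y - x₀‖‖ * ‖stress u x₀ y‖ ≤ 1 * (3 * ‖∇ u y‖ ^ 2) := by
        gcongr
        · exact hb.bdd _
        · exact norm_stress_le u x₀ y
    _ = 3 * ‖∇ u y‖ ^ 2 := one_mul _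

/-- radial form of the first variation of the Dirichlet energy -/
theorem integral_bstress (h : IsQM U lam u K) (hb : RadDens b r1 r2) (hρ : 0 ≤ ρ)
    (hU : closedBall x₀ ρ ⊆ U) :
    ∫ y in ball x₀ ρ, inner ℝ (b ‖y - x₀‖) (stress u x₀ y) =
      ∫ s in (0:ℝ)..ρ, inner ℝ (b s) (FB u x₀ s) := by
  rw [integral_ball_polar x₀ hρ (integrableOn_bstress h hb hU)]
  apply intervalIntegral.integral_congr_ae
  have h1 := ae_integrableOn_circle_ball x₀ (integrableOn_stress h hU)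
  rw [ae_restrict_iff' measurableSet_Ioo] at h1
  have hne : ∀ᵐ s : ℝ, s ≠ ρ := by
    simp [ae_iff]
  filter_upwards [h1, hne] with s hs hs2 hs3
  rw [uIoc_of_le hρ] at hs3
  have hs4 : s ∈ Ioo 0 ρ := ⟨hs3.1, lt_of_le_of_ne hs3.2 hs2⟩
  have hs5 := hs hs4
  unfold FB circI
  rw [inner_smul_right, smul_eq_mul]
  congr 1
  have e : ∀ θ, inner ℝ (b ‖cpt x₀ s θ - x₀‖) (stress u x₀ (cpt x₀ s θ)) =
      inner ℝ (b s) (stress u x₀ (cpt x₀ s θ)) := by
    intro θ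
    have : ‖cpt x₀ s θ - x₀‖ = s := by
      rw [← dist_eq_norm, dist_cpt, abs_of_pos hs4.1]
    rw [this]
  simp only [e]
  exact (innerSL ℝ (b s)).intervalIntegral_comp_comm hs5

theorem intervalIntegrable_FB (h : IsQM U lam u K) (hρ : 0 ≤ ρ) (hU : closedBall x₀ ρ ⊆ U) :
    IntervalIntegrable (FB u x₀) volume 0 ρ :=
  intervalIntegrable_radial x₀ hρ (integrableOn_stress h hU)

theorem push_nonneg (hb : RadDens b r1 r2) {t : ℝ} (ht : |t| ≤ 1/2) (y : E2) :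
    0 ≤ (1 + 2 * t^2) * ‖∇ u y‖ ^ 2 - t * inner ℝ (b ‖y - x₀‖) (stress u x₀ y) := by
  have h3 : |t * inner ℝ (b ‖y - x₀‖) (stress u x₀ y)| ≤ 1/2 * (1 * ‖stress u x₀ y‖) := by
    rw [abs_mul]
    gcongr
    refine (abs_real_inner_le_norm _ _).trans ?_
    gcongr
    exact hb.bdd _
  -- sharper: the norm of the stress field is at most |∇u|²
  have h4 : ‖stress u x₀ y‖ ≤ ‖∇ u y‖ ^ 2 := by
    have e : ‖stress u x₀ y‖ ^ 2 = 4 * (inner ℝ (∇ u y) (nu x₀ y))^2 * ‖∇ u y‖^2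
        - 4 * (inner ℝ (∇ u y) (nu x₀ y))^2 * ‖∇ u y‖^2 + (‖∇ u y‖ ^ 2)^2 * ‖nu x₀ y‖^2 := by
      unfold stress
      rw [norm_sub_sq_real, norm_smul, norm_smul, inner_smul_left, inner_smul_right, mul_pow,
        mul_pow, Real.norm_eq_abs, Real.norm_eq_abs, sq_abs, sq_abs]
      simp only [conj_trivial]
      ring
    have h5 : ‖stress u x₀ y‖ ^ 2 ≤ (‖∇ u y‖ ^ 2)^2 := by
      rw [e]
      have h8 : ‖nu x₀ y‖ ^ 2 ≤ 1 := by
        rw [← one_pow 2]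
        gcongr
        exact norm_nu_le x₀ y
      have : (‖∇ u y‖ ^ 2)^2 * ‖nu x₀ y‖^2 ≤ (‖∇ u y‖ ^ 2)^2 * 1 := by gcongr
      linarith
    exact le_of_sq_le_sq h5 (sq_nonneg _)
  have h6 := (abs_le.1 h3).2
  have h7 : 0 ≤ t^2 * ‖∇ u y‖^2 := by positivity
  have h8 : 0 ≤ ‖∇ u y‖^2 := by positivity
  nlinarith

theorem push_integral_eq (h : IsQM U lam u K) (hb : RadDens b r1 r2) (hρ : r2 ≤ ρ)
    (hU : closedBall x₀ ρ ⊆ U) (t : ℝ) :
    ∫ y in ball x₀ ρ, ((1 + 2 * t^2) * ‖∇ u y‖ ^ 2 - t * inner ℝ (b ‖y - x₀‖) (stress u x₀ y)) =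
      (1 + 2 * t^2) * Dr u K x₀ ρ - t * ∫ s in (0:ℝ)..ρ, inner ℝ (b s) (FB u x₀ s) := by
  have hρ0 : 0 ≤ ρ := (hb.pos.trans hb.lt).le.trans hρ
  have hi1 := (integrableOn_normsq h hU).const_mul (1 + 2 * t^2)
  have hi2 := (integrableOn_bstress h hb hU).const_mul t
  rw [← integral_bstress h hb hρ0 hU, Dr_eq h hU, ← integral_const_mul, ← integral_const_mul,
    ← integral_sub hi1 hi2]

theorem push_total_nonneg (h : IsQM U lam u K) (hb : RadDens b r1 r2) (hρ : r2 ≤ ρ)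
    (hU : closedBall x₀ ρ ⊆ U) {t : ℝ} (ht : |t| ≤ 1/2) :
    0 ≤ (1 + 2 * t^2) * Dr u K x₀ ρ - t * ∫ s in (0:ℝ)..ρ, inner ℝ (b s) (FB u x₀ s) := by
  rw [← push_integral_eq h hb hρ hU t]
  exact integral_nonneg fun y => push_nonneg hb ht y

/-- **Energy of the deformed pair.** -/
theorem dirE_push_le (h : IsQM U lam u K) (hb : RadDens b r1 r2) (hρ : r2 ≤ ρ)
    (hU : closedBall x₀ ρ ⊆ U) {t : ℝ} (ht : |t| ≤ 1/2) :
    dirE (u ∘ (rhomeo hb x₀ ht).symm) (rhomeo hb x₀ ht '' K) (closedBall x₀ ρ) ≤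
      ENNReal.ofReal ((1 + 2 * t^2) * Dr u K x₀ ρ -
        t * ∫ s in (0:ℝ)..ρ, inner ℝ (b s) (FB u x₀ s)) := by
  rw [dirE_homeo (measurableSet_closedBall_diff h hU) (hasFDerivAt_rhomeo hb x₀ ht)
    (rhomeo_id hb x₀ ht hρ)]
  have h1 : ∫⁻ y in closedBall x₀ ρ \ K, ENNReal.ofReal |(rder b x₀ t y).det| *
        ‖∇ (u ∘ (rhomeo hb x₀ ht).symm) (rhomeo hb x₀ ht y)‖ₑ ^ 2 ≤
      ∫⁻ y in closedBall x₀ ρ \ K,
      ENNReal.ofReal ((1 + 2 * t^2) * ‖∇ u y‖ ^ 2 - t * inner ℝ (b ‖y - x₀‖) (stress u x₀ y)) := by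
    apply setLIntegral_mono_ae' (measurableSet_closedBall_diff h hU)
    filter_upwards with y hy
    apply push_integrand_le
    have hV := isOpen_diff h.isOpen h.closed
    have hyV : y ∈ U \ K := ⟨hU hy.1, hy.2⟩
    exact ((h.c1.differentiableOn (by norm_num)) y hyV).differentiableAt (hV.mem_nhds hyV)
  refine h1.trans ?_
  rw [restrict_eq h hU, ← push_integral_eq h hb hρ hU t]
  have hi1 := (integrableOn_normsq h hU).const_mul (1 + 2 * t^2)
  have hi2 := (integrableOn_bstress h hb hU).const_mul t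
  refine (ofReal_integral_eq_lintegral_ofReal (hi1.sub hi2) ?_).ge
  exact Eventually.of_forall fun y => push_nonneg hb ht y

end QM

end Inner

end Crest.Agent.R135
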