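import Crest.Agent.R135.PolarA
import Crest.Agent.R135.GMT2

/-!
# R135 (helper828): length of absolutely continuous curves

`ACurve γ g a b`: `γ s' - γ s = ∫_s^{s'} g` on `[a,b]`, `g` integrable. Then
`H¹(γ[a,b]) ≤ ∫_a^b |g|`, with equality when `γ` is injective on `[a,b]`.
-/

set_option autoImplicit false

open MeasureTheory Set Filter Topology Metric
open scoped ENNReal NNReal

noncomputable section

namespace Crest.Agent.R135

/-- absolutely continuous curve on `[a,b]` with derivative `g` -/
structure ACurve (γ g : ℝ → E2) (a b : ℝ) : Prop where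
  int : IntervalIntegrable g volume a b
  eq : ∀ s ∈ Icc a b, ∀ s' ∈ Icc a b, γ s' - γ s = ∫ r in s..s', g r

namespace ACurve

variable {γ g : ℝ → E2} {a b : ℝ}

theorem mono (h : ACurve γ g a b) {c d : ℝ} (hac : a ≤ c) (hcd : c ≤ d) (hdb : d ≤ b) :
    ACurve γ g c d where
  int := h.int.mono_set (by
    rw [uIcc_of_le hcd, uIcc_of_le (hac.trans (hcd.trans hdb))]
    exact Icc_subset_Icc hac hdb)
  eq := fun s hs s' hs' => h.eq s ⟨hac.trans hs.1, hs.2.trans hdb⟩ s' ⟨hac.trans hs'.1, hs'.2.trans hdb⟩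

theorem int_sub (h : ACurve γ g a b) {s s' : ℝ} (hs : s ∈ Icc a b) (hs' : s' ∈ Icc a b) :
    IntervalIntegrable g volume s s' := by
  refine h.int.mono_set ?_
  rw [uIcc_of_le (hs.1.trans hs.2)]
  exact uIcc_subset_Icc hs hs'

theorem dist_le (h : ACurve γ g a b) {s s' : ℝ} (hs : s ∈ Icc a b) (hs' : s' ∈ Icc a b)
    (hss : s ≤ s') : dist (γ s) (γ s') ≤ ∫ r in s..s', ‖g r‖ := by
  rw [dist_comm, dist_eq_norm, h.eq s hs s' hs']
  exact intervalIntegral.norm_integral_le_integral_norm hss

theorem continuousOn_int (h : ACurve γ g a b) (hab : a ≤ b) :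
    ContinuousOn (fun s => ∫ r in a..s, ‖g r‖) (Icc a b) := by
  have h1 := h.int.norm
  have h2 := intervalIntegral.continuousOn_primitive_interval (μ := volume)
    (f := fun r => ‖g r‖) (a := a) (b := b) (by
      rw [uIcc_of_le hab]
      rw [intervalIntegrable_iff_integrableOn_Icc_of_le hab] at h1
      exact h1)
  rwa [uIcc_of_le hab] at h2

theorem continuousOn (h : ACurve γ g a b) (hab : a ≤ b) : ContinuousOn γ (Icc a b) := by
  have h2 := intervalIntegral.continuousOn_primitive_interval (μ := volume)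
    (f := g) (a := a) (b := b) (by
      have h1 := h.int
      rw [uIcc_of_le hab]
      rw [intervalIntegrable_iff_integrableOn_Icc_of_le hab] at h1
      exact h1)
  rw [uIcc_of_le hab] at h2
  have h3 : ContinuousOn (fun s => γ a + ∫ r in a..s, g r) (Icc a b) := continuousOn_const.add h2
  refine h3.congr fun s hs => ?_
  simp only
  rw [← h.eq a ⟨le_rfl, hab⟩ s hs]
  abel

end ACurve

/-- uniform partition points -/
def upt (a b : ℝ) (n : ℕ) (i : ℕ) : ℝ := a + i * ((b - a) / n)

theorem upt_mem {a b : ℝ} (hab : a ≤ b) {n : ℕ} (hn : 0 < n) {i : ℕ} (hi : i ≤ n) :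
    upt a b n i ∈ Icc a b := by
  have hn' : (0:ℝ) < n := by exact_mod_cast hn
  have hi' : (i:ℝ) ≤ n := by exact_mod_cast hi
  have h1 : 0 ≤ (b - a) / n := div_nonneg (by linarith) hn'.le
  constructor
  · unfold upt
    have : 0 ≤ (i:ℝ) * ((b - a) / n) := by positivity
    linarith
  · unfold upt
    have : (i:ℝ) * ((b - a) / n) ≤ n * ((b - a) / n) := by gcongr
    have h2 : (n:ℝ) * ((b - a) / n) = b - a := by field_simp
    linarith

theorem upt_zero (a b : ℝ) (n : ℕ) : upt a b n 0 = a := by simp [upt]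

theorem upt_last (a b : ℝ) {n : ℕ} (hn : 0 < n) : upt a b n n = b := by
  have hn' : (n:ℝ) ≠ 0 := by positivity
  unfold upt
  field_simp
  ring

theorem upt_succ (a b : ℝ) (n i : ℕ) : upt a b n (i+1) = upt a b n i + (b - a) / n := by
  unfold upt
  push_cast
  ring

theorem upt_le_succ {a b : ℝ} (hab : a ≤ b) (n i : ℕ) : upt a b n i ≤ upt a b n (i+1) := by
  rw [upt_succ]
  have : 0 ≤ (b - a) / n := div_nonneg (by linarith) (by positivity)
  linarith

theorem exists_upt_mem {a b : ℝ} (hab : a < b) {n : ℕ} (hn : 0 < n) {s : ℝ} (hs : s ∈ Icc a b) :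
    ∃ i, i < n ∧ s ∈ Icc (upt a b n i) (upt a b n (i+1)) := by
  have hn' : (0:ℝ) < n := by exact_mod_cast hn
  have hh : 0 < (b - a) / n := div_pos (by linarith) hn'
  by_cases hsb : s = b
  · refine ⟨n - 1, by omega, ?_⟩
    have e : n - 1 + 1 = n := by omega
    rw [e, upt_last a b hn, hsb]
    refine ⟨?_, le_rfl⟩
    exact (upt_mem hab.le hn (by omega : n - 1 ≤ n)).2
  · set k := ⌊(s - a) / ((b - a) / n)⌋₊ with hk
    have hnn : 0 ≤ (s - a) / ((b - a) / n) := div_nonneg (by linarith [hs.1]) hh.le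
    have h1 := Nat.floor_le hnn
    have h2 := Nat.lt_floor_add_one ((s - a) / ((b - a) / n))
    rw [← hk] at h1 h2
    rw [le_div_iff₀ hh] at h1
    rw [div_lt_iff₀ hh] at h2
    have hsb' : s < b := lt_of_le_of_ne hs.2 hsb
    refine ⟨k, ?_, ?_, ?_⟩
    · have h3 : (k:ℝ) < n := by
        have h4 : (k:ℝ) * ((b - a) / n) < n * ((b - a) / n) := by
          have h5 : (n:ℝ) * ((b - a) / n) = b - a := by field_simp
          rw [h5]
          linarith
        exact lt_of_mul_lt_mul_right h4 hh.le
      exact_mod_cast h3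
    · unfold upt; linarith
    · unfold upt; push_cast; linarith

theorem integral_upt_sum {a b : ℝ} (hab : a ≤ b) {n : ℕ} (hn : 0 < n) {f : ℝ → ℝ}
    (hf : IntervalIntegrable f volume a b) :
    ∑ i ∈ Finset.range n, ∫ r in (upt a b n i)..(upt a b n (i+1)), f r = ∫ r in a..b, f r := by
  have h := intervalIntegral.sum_integral_adjacent_intervals (μ := volume) (f := f)
    (a := upt a b n) (n := n) (fun i hi => by
      refine hf.mono_set ?_
      rw [uIcc_of_le hab]
      exact uIcc_subset_Icc (upt_mem hab hn hi.le) (upt_mem hab hn hi))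
  rw [h, upt_zero, upt_last a b hn]

/-- **Length of a curve, upper bound.** -/
theorem ACurve.hausdorff_image_le {γ g : ℝ → E2} {a b : ℝ} (h : ACurve γ g a b) (hab : a ≤ b) :
    Measure.hausdorffMeasure 1 (γ '' Icc a b) ≤ ENNReal.ofReal (∫ r in a..b, ‖g r‖) := by
  have := Measure.nullSingletonClass_hausdorff E2 (d := 1) one_pos
  rcases hab.eq_or_lt with rfl | hlt
  · rw [Icc_self, image_singleton, measure_singleton]
    exact bot_le
  apply hausdorff_one_le_of_covers
  intro δ hδ
  -- uniform continuity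
  obtain ⟨η, hη, hηδ⟩ : ∃ η : ℝ, 0 < η ∧ ENNReal.ofReal η ≤ δ := by
    rcases eq_or_ne δ ⊤ with rfl | hne
    · exact ⟨1, one_pos, le_top⟩
    · exact ⟨δ.toReal, ENNReal.toReal_pos hδ.ne' hne, by rw [ENNReal.ofReal_toReal hne]⟩
  have huc := isCompact_Icc.uniformContinuousOn_of_continuous (h.continuousOn_int hab)
  rw [Metric.uniformContinuousOn_iff] at huc
  obtain ⟨ε, hε, huc⟩ := huc η hη
  obtain ⟨n, hn⟩ := exists_nat_gt ((b - a) / ε)
  have hn0 : 0 < n := by
    have : (0:ℝ) < n := lt_of_le_of_lt (by have := sub_pos.2 hlt; positivity) hn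
    exact_mod_cast this
  have hn0' : (0:ℝ) < n := by exact_mod_cast hn0
  have hstep : (b - a) / n < ε := by
    rw [div_lt_iff₀ hε] at hn
    rw [div_lt_iff₀ hn0']
    linarith
  have hI : ∀ i < n, 0 ≤ ∫ r in (upt a b n i)..(upt a b n (i+1)), ‖g r‖ := fun i _ =>
    intervalIntegral.integral_nonneg (upt_le_succ hab n i) fun _ _ => norm_nonneg _
  have hdiam : ∀ i < n, ediam (γ '' Icc (upt a b n i) (upt a b n (i+1))) ≤
      ENNReal.ofReal (∫ r in (upt a b n i)..(upt a b n (i+1)), ‖g r‖) := by
    intro i hi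
    have hmi := upt_mem hab hn0 hi.le
    have hmi1 := upt_mem hab hn0 (Nat.succ_le_of_lt hi)
    have hc := h.mono hmi.1 (upt_le_succ hab n i) hmi1.2
    refine ediam_le ?_
    rintro _ ⟨s, hs, rfl⟩ _ ⟨s', hs', rfl⟩
    rw [edist_dist]
    apply ENNReal.ofReal_le_ofReal
    wlog hss : s ≤ s' generalizing s s'
    · rw [dist_comm]
      exact this s' hs' s hs (le_of_not_ge hss)
    refine (hc.dist_le hs hs' hss).trans ?_
    refine intervalIntegral.integral_mono_interval hs.1 hss hs'.2 ?_ ?_
    · exact Eventually.of_forall fun _ => norm_nonneg _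
    · exact hc.int.norm
  refine ⟨fun i => if i < n then γ '' Icc (upt a b n i) (upt a b n (i+1)) else ∅, ?_, ?_, ?_⟩
  · rintro _ ⟨s, hs, rfl⟩
    obtain ⟨i, hi, hsi⟩ := exists_upt_mem hlt hn0 hs
    rw [mem_iUnion]
    exact ⟨i, by rw [if_pos hi]; exact ⟨s, hsi, rfl⟩⟩
  · intro i
    by_cases hi : i < n
    · simp only [if_pos hi]
      refine (hdiam i hi).trans (le_trans (ENNReal.ofReal_le_ofReal ?_) hηδ)
      have hmi := upt_mem hab hn0 hi.le
      have hmi1 := upt_mem hab hn0 (Nat.succ_le_of_lt hi)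
      have h1 := huc _ hmi1 _ hmi (by
        rw [Real.dist_eq, upt_succ, add_sub_cancel_left, abs_of_nonneg (by
          have := sub_pos.2 hlt; positivity)]
        exact hstep)
      rw [Real.dist_eq, intervalIntegral.integral_interval_sub_left
        ((h.int_sub ⟨le_rfl, hab⟩ hmi1).norm) ((h.int_sub ⟨le_rfl, hab⟩ hmi).norm)] at h1
      exact (le_abs_self _).trans h1.le
    · simp [if_neg hi]
  · rw [tsum_eq_sum (s := Finset.range n) (fun i hi => by
      rw [Finset.mem_range] at hi
      simp [if_neg hi])]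
    calc ∑ i ∈ Finset.range n, ediam (if i < n then γ '' Icc (upt a b n i) (upt a b n (i+1)) else ∅)
        ≤ ∑ i ∈ Finset.range n,
            ENNReal.ofReal (∫ r in (upt a b n i)..(upt a b n (i+1)), ‖g r‖) := by
          apply Finset.sum_le_sum
          intro i hi
          rw [Finset.mem_range] at hi
          rw [if_pos hi]
          exact hdiam i hi
      _ = ENNReal.ofReal (∑ i ∈ Finset.range n, ∫ r in (upt a b n i)..(upt a b n (i+1)), ‖g r‖) := by
          rw [ENNReal.ofReal_sum_of_nonneg]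
          intro i hi
          rw [Finset.mem_range] at hi
          exact hI i hi
      _ = ENNReal.ofReal (∫ r in a..b, ‖g r‖) := by
          rw [integral_upt_sum hab hn0 h.int.norm]

/-- lower bound by the chords of a partition -/
theorem ACurve.sum_chords_le {γ g : ℝ → E2} {a b : ℝ} (h : ACurve γ g a b) (hab : a ≤ b)
    (hinj : InjOn γ (Icc a b)) {n : ℕ} (hn : 0 < n) :
    ENNReal.ofReal (∑ i ∈ Finset.range n, ‖∫ r in (upt a b n i)..(upt a b n (i+1)), g r‖) ≤
      Measure.hausdorffMeasure 1 (γ '' Icc a b) := by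
  have := Measure.nullSingletonClass_hausdorff E2 (d := 1) one_pos
  have hcont := h.continuousOn hab
  rw [ENNReal.ofReal_sum_of_nonneg (fun _ _ => norm_nonneg _)]
  set P : ℕ → Set E2 := fun i => γ '' Icc (upt a b n i) (upt a b n (i+1)) with hP
  have hsub : ∀ i < n, Icc (upt a b n i) (upt a b n (i+1)) ⊆ Icc a b := fun i hi =>
    Icc_subset_Icc (upt_mem hab hn hi.le).1 (upt_mem hab hn (Nat.succ_le_of_lt hi)).2
  have hchord : ∀ i < n, ENNReal.ofReal ‖∫ r in (upt a b n i)..(upt a b n (i+1)), g r‖ ≤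
      Measure.hausdorffMeasure 1 (P i) := by
    intro i hi
    have hmi := upt_mem hab hn hi.le
    have hmi1 := upt_mem hab hn (Nat.succ_le_of_lt hi)
    rw [← h.eq _ hmi _ hmi1, ← dist_eq_norm]
    apply dist_le_hausdorff_of_isPreconnected
    · exact isPreconnected_Icc.image _ (hcont.mono (hsub i hi))
    · exact ⟨_, ⟨upt_le_succ hab n i, le_rfl⟩, rfl⟩
    · exact ⟨_, ⟨le_rfl, upt_le_succ hab n i⟩, rfl⟩
  have hmono : Monotone (upt a b n) := monotone_nat_of_le_succ (upt_le_succ hab n)
  have hdisj : (↑(Finset.range n) : Set ℕ).Pairwise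
      (Function.onFun (AEDisjoint (Measure.hausdorffMeasure 1 : Measure E2)) P) := by
    have key : ∀ i < n, ∀ j < n, i < j → AEDisjoint (Measure.hausdorffMeasure 1 : Measure E2) (P i) (P j) := by
      intro i hi j hj hij
      have hs : P i ∩ P j ⊆ {γ (upt a b n (i+1))} := by
        rintro _ ⟨⟨s, hs, rfl⟩, ⟨s', hs', e⟩⟩
        have e2 : s' = s := hinj (hsub j hj hs') (hsub i hi hs) e
        subst e2
        have h1 : upt a b n (i+1) ≤ upt a b n j := hmono hij
        have h2 : s' = upt a b n (i+1) := le_antisymm hs.2 (h1.trans hs'.1)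
        rw [h2]
        exact mem_singleton _
      unfold AEDisjoint
      exact measure_mono_null hs (measure_singleton _)
    intro i hi j hj hij
    rw [Finset.coe_range, mem_Iio] at hi hj
    rcases lt_or_gt_of_ne hij with hlt | hlt
    · exact key i hi j hj hlt
    · exact (key j hj i hi hlt).symm
  have hmeas : ∀ i ∈ Finset.range n, NullMeasurableSet (P i) (Measure.hausdorffMeasure 1 : Measure E2) := by
    intro i hi
    rw [Finset.mem_range] at hi
    exact (isCompact_Icc.image_of_continuousOn (hcont.mono (hsub i hi))).measurableSet.nullMeasurableSet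
  calc ∑ i ∈ Finset.range n, ENNReal.ofReal ‖∫ r in (upt a b n i)..(upt a b n (i+1)), g r‖
      ≤ ∑ i ∈ Finset.range n, Measure.hausdorffMeasure 1 (P i) := by
        apply Finset.sum_le_sum
        intro i hi
        rw [Finset.mem_range] at hi
        exact hchord i hi
    _ = Measure.hausdorffMeasure 1 (⋃ i ∈ Finset.range n, P i) :=
        (measure_biUnion_finset₀ hdisj hmeas).symm
    _ ≤ Measure.hausdorffMeasure 1 (γ '' Icc a b) := by
        apply measure_mono
        apply iUnion₂_subset
        intro i hi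
        rw [Finset.mem_range] at hi
        exact image_mono (hsub i hi)

/-- **Length of an injective curve, lower bound.** -/
theorem ACurve.le_hausdorff_image {γ g : ℝ → E2} {a b : ℝ} (h : ACurve γ g a b) (hab : a ≤ b)
    (hinj : InjOn γ (Icc a b)) :
    ENNReal.ofReal (∫ r in a..b, ‖g r‖) ≤ Measure.hausdorffMeasure 1 (γ '' Icc a b) := by
  rcases hab.eq_or_lt with rfl | hlt
  · simp
  -- it is enough to prove it up to `ε`
  apply ENNReal.le_of_forall_pos_le_add
  intro ε hε _
  set ε' : ℝ := (ε : ℝ) / (2 * (b - a) + 2) with hε'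
  have hba : 0 < b - a := sub_pos.2 hlt
  have hε'pos : 0 < ε' := by
    have : (0:ℝ) < ε := by exact_mod_cast hε
    positivity
  have hgint : Integrable (indicator (Ioc a b) g) := by
    rw [integrable_indicator_iff measurableSet_Ioc]
    exact (intervalIntegrable_iff_integrableOn_Ioc_of_le hab).1 h.int
  obtain ⟨f, -, hfg, hfc, hfi⟩ := hgint.exists_hasCompactSupport_integral_sub_le hε'pos
  have huc := isCompact_Icc.uniformContinuousOn_of_continuous (hfc.continuousOn (s := Icc a b))
  rw [Metric.uniformContinuousOn_iff] at huc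
  obtain ⟨η, hη, huc⟩ := huc ε' hε'pos
  obtain ⟨n, hn⟩ := exists_nat_gt ((b - a) / η)
  have hn0 : 0 < n := by
    have : (0:ℝ) < n := lt_of_le_of_lt (by positivity) hn
    exact_mod_cast this
  have hn0' : (0:ℝ) < n := by exact_mod_cast hn0
  have hstep : (b - a) / n < η := by
    rw [div_lt_iff₀ hη] at hn
    rw [div_lt_iff₀ hn0']
    linarith
  have hfint : ∀ c d : ℝ, IntervalIntegrable f volume c d := fun c d => hfc.intervalIntegrable c d
  have hdiff : ∫ r in a..b, ‖g r - f r‖ ≤ ε' := by
    rw [intervalIntegral.integral_of_le hab]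
    have e1 : ∫ r in Ioc a b, ‖g r - f r‖ = ∫ r in Ioc a b, ‖indicator (Ioc a b) g r - f r‖ := by
      apply setIntegral_congr_fun measurableSet_Ioc
      intro r hr
      simp only [indicator_of_mem hr]
    rw [e1]
    exact (setIntegral_le_integral (hgint.sub hfi).norm
      (Eventually.of_forall fun _ => norm_nonneg _)).trans hfg
  have hsubint : ∀ i < n, IntervalIntegrable (fun r => ‖g r - f r‖) volume
      (upt a b n i) (upt a b n (i+1)) := fun i hi =>
    ((h.int_sub (upt_mem hab hn0 hi.le) (upt_mem hab hn0 (Nat.succ_le_of_lt hi))).sub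
      (hfint _ _)).norm
  have hpiece : ∀ i ∈ Finset.range n,
      (∫ r in (upt a b n i)..(upt a b n (i+1)), ‖f r‖) - 2 * ε' * ((b - a) / n)
        - (∫ r in (upt a b n i)..(upt a b n (i+1)), ‖g r - f r‖) ≤
      ‖∫ r in (upt a b n i)..(upt a b n (i+1)), g r‖ := by
    intro i hi
    rw [Finset.mem_range] at hi
    have hmi := upt_mem hab hn0 hi.le
    have hmi1 := upt_mem hab hn0 (Nat.succ_le_of_lt hi)
    have hle := upt_le_succ hab n i
    have hlen : upt a b n (i+1) - upt a b n i = (b - a) / n := by rw [upt_succ]; ring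
    set c : E2 := f (upt a b n i) with hc
    have hclose : ∀ r ∈ Icc (upt a b n i) (upt a b n (i+1)), ‖f r - c‖ ≤ ε' := by
      intro r hr
      have := huc r ⟨hmi.1.trans hr.1, hr.2.trans hmi1.2⟩ _ hmi (by
        rw [Real.dist_eq, abs_of_nonneg (by linarith [hr.1])]
        have := hr.2
        linarith)
      rw [dist_eq_norm] at this
      exact this.le
    have h1 : ‖(∫ r in (upt a b n i)..(upt a b n (i+1)), f r) - ((b - a) / n) • c‖ ≤
        ε' * ((b - a) / n) := by
      have e : (∫ r in (upt a b n i)..(upt a b n (i+1)), f r) - ((b - a) / n) • c =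
          ∫ r in (upt a b n i)..(upt a b n (i+1)), (f r - c) := by
        rw [intervalIntegral.integral_sub (hfint _ _) intervalIntegrable_const,
          intervalIntegral.integral_const, hlen]
      rw [e]
      have := intervalIntegral.norm_integral_le_of_norm_le_const (a := upt a b n i)
        (b := upt a b n (i+1)) (C := ε') (f := fun r => f r - c) (by
          intro r hr
          rw [uIoc_of_le hle] at hr
          exact hclose r ⟨hr.1.le, hr.2⟩)
      rwa [hlen, abs_of_nonneg (by positivity)] at this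
    have h2 : ((b - a) / n) * ‖c‖ - ε' * ((b - a) / n) ≤
        ‖∫ r in (upt a b n i)..(upt a b n (i+1)), f r‖ := by
      have h3 : ‖((b - a) / n) • c‖ = ((b - a) / n) * ‖c‖ := by
        rw [norm_smul, Real.norm_eq_abs, abs_of_nonneg (by positivity)]
      have h4 := norm_sub_norm_le (((b - a) / n) • c)
        (∫ r in (upt a b n i)..(upt a b n (i+1)), f r)
      rw [norm_sub_rev, h3] at h4
      linarith
    have h5 : ∫ r in (upt a b n i)..(upt a b n (i+1)), ‖f r‖ ≤ ((b - a) / n) * (‖c‖ + ε') := by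
      have : ∫ r in (upt a b n i)..(upt a b n (i+1)), ‖f r‖ ≤
          ∫ r in (upt a b n i)..(upt a b n (i+1)), (‖c‖ + ε') := by
        apply intervalIntegral.integral_mono_on hle (hfint _ _).norm intervalIntegrable_const
        intro r hr
        have h6 := hclose r hr
        have h7 := norm_sub_norm_le (f r) c
        linarith
      rwa [intervalIntegral.integral_const, hlen, smul_eq_mul] at this
    have h8 : ‖∫ r in (upt a b n i)..(upt a b n (i+1)), f r‖ -
        (∫ r in (upt a b n i)..(upt a b n (i+1)), ‖g r - f r‖) ≤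
        ‖∫ r in (upt a b n i)..(upt a b n (i+1)), g r‖ := by
      have h9 : (∫ r in (upt a b n i)..(upt a b n (i+1)), g r) -
          (∫ r in (upt a b n i)..(upt a b n (i+1)), f r) =
          ∫ r in (upt a b n i)..(upt a b n (i+1)), (g r - f r) :=
        (intervalIntegral.integral_sub (h.int_sub hmi hmi1) (hfint _ _)).symm
      have h10 := intervalIntegral.norm_integral_le_integral_norm (f := fun r => g r - f r)
        (μ := volume) hle
      have h11 := norm_sub_norm_le (∫ r in (upt a b n i)..(upt a b n (i+1)), f r)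
        (∫ r in (upt a b n i)..(upt a b n (i+1)), g r)
      rw [norm_sub_rev, h9] at h11
      linarith
    have h12 : ((b - a) / n) * (‖c‖ + ε') = ((b - a) / n) * ‖c‖ + ε' * ((b - a) / n) := by ring
    linarith
  have hsum := Finset.sum_le_sum hpiece
  rw [Finset.sum_sub_distrib, Finset.sum_sub_distrib, integral_upt_sum hab hn0 (hfint a b).norm,
    integral_upt_sum hab hn0 (h.int.sub (hfint a b)).norm] at hsum
  rw [Finset.sum_const, Finset.card_range, nsmul_eq_mul] at hsum
  have e3 : (n:ℝ) * (2 * ε' * ((b - a) / n)) = 2 * ε' * (b - a) := by field_simp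
  rw [e3] at hsum
  have hfg2 : ∫ r in a..b, ‖g r‖ ≤ (∫ r in a..b, ‖f r‖) + ∫ r in a..b, ‖g r - f r‖ := by
    rw [← intervalIntegral.integral_add (hfint a b).norm (h.int.sub (hfint a b)).norm]
    apply intervalIntegral.integral_mono_on hab h.int.norm
      ((hfint a b).norm.add (h.int.sub (hfint a b)).norm)
    intro r _
    have := norm_add_le (f r) (g r - f r)
    rwa [add_sub_cancel] at this
  have hfinal : ∫ r in a..b, ‖g r‖ ≤
      (∑ i ∈ Finset.range n, ‖∫ r in (upt a b n i)..(upt a b n (i+1)), g r‖) + ε := by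
    have e4 : (ε : ℝ) = 2 * ε' * (b - a) + 2 * ε' := by
      rw [hε']; field_simp
    rw [e4]
    linarith
  calc ENNReal.ofReal (∫ r in a..b, ‖g r‖)
      ≤ ENNReal.ofReal ((∑ i ∈ Finset.range n,
          ‖∫ r in (upt a b n i)..(upt a b n (i+1)), g r‖) + ε) := ENNReal.ofReal_le_ofReal hfinal
    _ ≤ ENNReal.ofReal (∑ i ∈ Finset.range n,
          ‖∫ r in (upt a b n i)..(upt a b n (i+1)), g r‖) + ENNReal.ofReal ε :=
        ENNReal.ofReal_add_le
    _ ≤ _ := by
        rw [ENNReal.ofReal_coe_nnreal]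
        gcongr
        exact h.sum_chords_le hab hinj hn0

/-- **Length of an injective curve.** -/
theorem ACurve.hausdorff_image {γ g : ℝ → E2} {a b : ℝ} (h : ACurve γ g a b) (hab : a ≤ b)
    (hinj : InjOn γ (Icc a b)) :
    Measure.hausdorffMeasure 1 (γ '' Icc a b) = ENNReal.ofReal (∫ r in a..b, ‖g r‖) :=
  le_antisymm (h.hausdorff_image_le hab) (h.le_hausdorff_image hab hinj)

end Crest.Agent.R135
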