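import Crest.Agent.R135.Inner3
import Crest.Agent.R135.Len

/-!
# R135, block INNER (helper828), part 4: force balance

If `K` is one curve `γ` parametrised by the radius in the annulus `r₁ ≤ |y - x₀| ≤ r₂`, then for all
admissible radial densities `b` and `|t| ≤ 1/2`
`t ∫ ⟪b, FB - τ⟫ ≤ t² (2 D(ρ) + (r₂ - r₁)/2) + lam ρ²`.
-/

set_option autoImplicit false

open MeasureTheory Set Filter Topology Metric
open scoped ENNReal NNReal ContDiff Gradient

noncomputable section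

namespace Crest.Agent.R135

namespace Inner

/-- `K` is the curve `γ`, parametrised by the radius, in the annulus `r1 ≤ |y - x₀| ≤ r2`. -/
structure RadCurve (K : Set E2) (x₀ : E2) (γ g : ℝ → E2) (r1 r2 : ℝ) : Prop where
  curve : ACurve γ g r1 r2
  rad : ∀ r ∈ Icc r1 r2, ‖γ r - x₀‖ = r
  eqK : K ∩ {y | r1 ≤ ‖y - x₀‖ ∧ ‖y - x₀‖ ≤ r2} = γ '' Icc r1 r2

theorem RadCurve.mono {K : Set E2} {x₀ : E2} {γ g : ℝ → E2} {r1 r2 : ℝ}
    (h : RadCurve K x₀ γ g r1 r2) {s1 s2 : ℝ} (h1 : r1 ≤ s1) (h12 : s1 ≤ s2) (h2 : s2 ≤ r2) :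
    RadCurve K x₀ γ g s1 s2 where
  curve := h.curve.mono h1 h12 h2
  rad := fun r hr => h.rad r ⟨h1.trans hr.1, hr.2.trans h2⟩
  eqK := by
    ext y
    constructor
    · rintro ⟨hy, hy1, hy2⟩
      have : y ∈ γ '' Icc r1 r2 := by
        rw [← h.eqK]
        exact ⟨hy, h1.trans hy1, hy2.trans h2⟩
      obtain ⟨r, hr, rfl⟩ := this
      rw [h.rad r hr] at hy1 hy2
      exact ⟨r, ⟨hy1, hy2⟩, rfl⟩
    · rintro ⟨r, hr, rfl⟩
      have hr' : r ∈ Icc r1 r2 := ⟨h1.trans hr.1, hr.2.trans h2⟩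
      have : γ r ∈ K ∩ {y | r1 ≤ ‖y - x₀‖ ∧ ‖y - x₀‖ ≤ r2} := by
        rw [h.eqK]; exact ⟨r, hr', rfl⟩
      refine ⟨this.1, ?_⟩
      simp only [mem_ofPred_eq, h.rad r hr']
      exact ⟨hr.1, hr.2⟩

theorem RadCurve.injOn {K : Set E2} {x₀ : E2} {γ g : ℝ → E2} {r1 r2 : ℝ}
    (h : RadCurve K x₀ γ g r1 r2) : InjOn γ (Icc r1 r2) := by
  intro r hr s hs e
  rw [← h.rad r hr, ← h.rad s hs, e]

theorem RadCurve.one_le {K : Set E2} {x₀ : E2} {γ g : ℝ → E2} {r1 r2 : ℝ}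
    (h : RadCurve K x₀ γ g r1 r2) (h12 : r1 ≤ r2) :
    ∀ᵐ r ∂(volume.restrict (Ioo r1 r2)), 1 ≤ ‖g r‖ := by
  have hint := h.curve.int.norm
  have h2 := hint.ae_hasDerivAt_integral
  rw [ae_restrict_iff' measurableSet_Ioo]
  filter_upwards [h2] with r hr hrm
  have h3 := hr (by rw [uIcc_of_le h12]; exact ⟨hrm.1.le, hrm.2.le⟩) r
    (by rw [uIcc_of_le h12]; exact ⟨hrm.1.le, hrm.2.le⟩)
  -- the difference quotients are at least one
  have h4 := h3.tendsto_slope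
  have h5 : Tendsto (slope (fun x => ∫ t in r..x, ‖g t‖) r) (𝓝[>] r) (𝓝 ‖g r‖) :=
    h4.mono_left (nhdsWithin_mono _ fun x hx => ne_of_gt hx)
  refine ge_of_tendsto h5 ?_
  filter_upwards [Ioo_mem_nhdsGT hrm.2] with s hs
  have hrs : r < s := hs.1
  have hrm' : r ∈ Icc r1 r2 := ⟨hrm.1.le, hrm.2.le⟩
  have hsm' : s ∈ Icc r1 r2 := ⟨hrm.1.le.trans hrs.le, hs.2.le⟩
  rw [slope_def_field, intervalIntegral.integral_same, sub_zero, le_div_iff₀ (sub_pos.2 hrs), one_mul]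
  have h6 := h.curve.dist_le hrm' hsm' hrs.le
  refine le_trans ?_ h6
  have h7 : s - r = ‖γ s - x₀‖ - ‖γ r - x₀‖ := by rw [h.rad s hsm', h.rad r hrm']
  rw [h7, dist_comm, dist_eq_norm]
  have h8 := norm_sub_norm_le (γ s - x₀) (γ r - x₀)
  rwa [sub_sub_sub_cancel_right] at h8

variable {b : ℝ → E2} {r1 r2 : ℝ}

theorem curve_push {K : Set E2} {x₀ : E2} {γ g : ℝ → E2} (hb : RadDens b r1 r2)
    (h : RadCurve K x₀ γ g r1 r2) {t : ℝ} (ht : |t| ≤ 1/2) :
    ACurve (fun r => rhomeo hb x₀ ht (γ r)) (fun r => g r + t • b r) r1 r2 where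
  int := h.curve.int.add ((hb.cont.intervalIntegrable _ _).smul t)
  eq := by
    intro s hs s' hs'
    have h1 := h.curve.int_sub hs hs'
    have h2 : IntervalIntegrable (fun r => t • b r) volume s s' :=
      (hb.cont.intervalIntegrable _ _).smul t
    rw [intervalIntegral.integral_add h1 h2, ← h.curve.eq s hs s' hs',
      intervalIntegral.integral_smul]
    simp only [rhomeo_apply]
    rw [h.rad s hs, h.rad s' hs']
    have h3 : ∫ r in s..s', b r = psi b r2 s' - psi b r2 s := by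
      unfold psi
      rw [intervalIntegral.integral_interval_sub_left (hb.cont.intervalIntegrable _ _)
        (hb.cont.intervalIntegrable _ _)]
    rw [h3, smul_sub]
    abel

section QM

variable {U K : Set E2} {lam : ℝ} {u : E2 → ℝ} {x₀ : E2} {ρ : ℝ} {γ g : ℝ → E2}

theorem len_split (hρ : r2 ≤ ρ) (h12 : r1 ≤ r2) (h : RadCurve K x₀ γ g r1 r2) :
    len (K ∩ closedBall x₀ ρ) = len (K ∩ ball x₀ r1) + len (γ '' Icc r1 r2) +
      len ((K ∩ closedBall x₀ ρ) \ closedBall x₀ r2) := by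
  unfold len
  rw [← measure_inter_add_sdiff (K ∩ closedBall x₀ ρ) (measurableSet_closedBall (x := x₀) (ε := r2)),
    ← measure_inter_add_sdiff (K ∩ closedBall x₀ ρ ∩ closedBall x₀ r2)
      (measurableSet_ball (x := x₀) (ε := r1))]
  congr 3
  · ext y
    constructor
    · rintro ⟨⟨⟨hy, -⟩, -⟩, hy2⟩
      exact ⟨hy, hy2⟩
    · rintro ⟨hy, hy2⟩
      have h1 : dist y x₀ < r1 := hy2
      refine ⟨⟨⟨hy, ?_⟩, ?_⟩, hy2⟩
      · exact (h1.le.trans (h12.trans hρ))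
      · exact h1.le.trans h12
  · rw [← h.eqK]
    ext y
    simp only [Set.mem_sdiff, mem_inter_iff, mem_closedBall, mem_ball, mem_ofPred_eq, dist_eq_norm, not_lt]
    constructor
    · rintro ⟨⟨⟨hy, -⟩, hy1⟩, hy2⟩
      exact ⟨hy, hy2, hy1⟩
    · rintro ⟨hy, hy2, hy1⟩
      exact ⟨⟨⟨hy, hy1.trans hρ⟩, hy1⟩, hy2⟩

theorem len_push_le (hb : RadDens b r1 r2) (hρ : r2 ≤ ρ) (h : RadCurve K x₀ γ g r1 r2)
    {t : ℝ} (ht : |t| ≤ 1/2) :
    len (rhomeo hb x₀ ht '' K ∩ closedBall x₀ ρ) ≤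
      len (K ∩ ball x₀ r1) + ENNReal.ofReal (∫ r in r1..r2, ‖g r + t • b r‖) +
      len ((K ∩ closedBall x₀ ρ) \ closedBall x₀ r2) := by
  set Φ := rhomeo hb x₀ ht with hΦ
  have hid := rhomeo_id hb x₀ ht hρ
  have hsub : Φ '' K ∩ closedBall x₀ ρ ⊆ (Φ '' (K ∩ ball x₀ r1) ∪
      (fun r => Φ (γ r)) '' Icc r1 r2) ∪ ((K ∩ closedBall x₀ ρ) \ closedBall x₀ r2) := by
    rintro _ ⟨⟨k, hk, rfl⟩, hy⟩
    have hkb : k ∈ closedBall x₀ ρ := (homeo_mem_iff hid k).1 hy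
    by_cases h1 : ‖k - x₀‖ < r1
    · exact Or.inl (Or.inl ⟨k, ⟨hk, by rwa [mem_ball, dist_eq_norm]⟩, rfl⟩)
    · by_cases h2 : ‖k - x₀‖ ≤ r2
      · have : k ∈ γ '' Icc r1 r2 := by
          rw [← h.eqK]
          exact ⟨hk, not_lt.1 h1, h2⟩
        obtain ⟨r, hr, rfl⟩ := this
        exact Or.inl (Or.inr ⟨r, hr, rfl⟩)
      · right
        have e : Φ k = k := by
          rw [hΦ, rhomeo_apply, psi_eq_zero hb (not_le.1 h2).le, smul_zero, add_zero]
        rw [e]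
        refine ⟨⟨hk, hkb⟩, ?_⟩
        rw [mem_closedBall, dist_eq_norm]
        exact h2
  have htrans : len (Φ '' (K ∩ ball x₀ r1)) = len (K ∩ ball x₀ r1) := by
    have e : Φ '' (K ∩ ball x₀ r1) = (fun y => y + t • psi b r2 r1) '' (K ∩ ball x₀ r1) := by
      apply image_congr
      rintro y ⟨-, hy⟩
      rw [hΦ, rhomeo_apply, psi_eq_const hb]
      rw [mem_ball, dist_eq_norm] at hy
      exact hy.le
    unfold len
    rw [e]
    exact (isometry_add_right (t • psi b r2 r1)).hausdorffMeasure_image (Or.inl zero_le_one) _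
  have hcurve : len ((fun r => Φ (γ r)) '' Icc r1 r2) ≤
      ENNReal.ofReal (∫ r in r1..r2, ‖g r + t • b r‖) :=
    (curve_push hb h ht).hausdorff_image_le hb.lt.le
  calc len (Φ '' K ∩ closedBall x₀ ρ)
      ≤ len ((Φ '' (K ∩ ball x₀ r1) ∪ (fun r => Φ (γ r)) '' Icc r1 r2) ∪
          ((K ∩ closedBall x₀ ρ) \ closedBall x₀ r2)) := measure_mono hsub
    _ ≤ len (Φ '' (K ∩ ball x₀ r1)) + len ((fun r => Φ (γ r)) '' Icc r1 r2) +
          len ((K ∩ closedBall x₀ ρ) \ closedBall x₀ r2) :=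
        (measure_union_le _ _).trans (add_le_add (measure_union_le _ _) le_rfl)
    _ ≤ _ := by
        rw [htrans]
        gcongr

/-- **raw inner variation inequality** -/
theorem inner_raw (h : IsQM U lam u K) (hb : RadDens b r1 r2) (hρ : r2 ≤ ρ)
    (hU : closedBall x₀ ρ ⊆ U) (hγ : RadCurve K x₀ γ g r1 r2) {t : ℝ} (ht : |t| ≤ 1/2) :
    t * ∫ s in (0:ℝ)..ρ, inner ℝ (b s) (FB u x₀ s) ≤
      2 * t^2 * Dr u K x₀ ρ + ((∫ r in r1..r2, ‖g r + t • b r‖) - ∫ r in r1..r2, ‖g r‖)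
        + lam * ρ^2 := by
  have hρ0 : 0 < ρ := (hb.pos.trans hb.lt).trans_le hρ
  have hcomp := isComp_of_homeo h hU (rhomeo_lip hb x₀ ht) (rhomeo_symm_lip hb x₀ ht)
    (rhomeo_id hb x₀ ht hρ)
  have hmin := h.min x₀ ρ hρ0 hU _ _ hcomp
  unfold enE at hmin
  have hX0 := push_total_nonneg h hb hρ hU ht
  set X : ℝ := (1 + 2 * t^2) * Dr u K x₀ ρ - t * ∫ s in (0:ℝ)..ρ, inner ℝ (b s) (FB u x₀ s) with hX
  set a : ℝ≥0∞ := len (K ∩ ball x₀ r1) with ha
  set c : ℝ≥0∞ := len ((K ∩ closedBall x₀ ρ) \ closedBall x₀ r2) with hc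
  set L0 : ℝ := ∫ r in r1..r2, ‖g r‖ with hL0
  set L1 : ℝ := ∫ r in r1..r2, ‖g r + t • b r‖ with hL1
  have hfin := h.len_fin x₀ ρ hU
  have hcurve : len (γ '' Icc r1 r2) = ENNReal.ofReal L0 :=
    hγ.curve.hausdorff_image hb.lt.le hγ.injOn
  rw [len_split hρ hb.lt.le hγ, hcurve, ← ha, ← hc] at hfin
  have haf : a ≠ ⊤ := by
    intro e; rw [e] at hfin; simp at hfin
  have hcf : c ≠ ⊤ := by
    intro e; rw [e] at hfin; simp at hfin
  rw [len_split hρ hb.lt.le hγ, hcurve, ← ha, ← hc, dirE_closedBall h hU] at hmin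
  have h1 : ENNReal.ofReal (Dr u K x₀ ρ) + (a + ENNReal.ofReal L0 + c) ≤
      ENNReal.ofReal X + (a + ENNReal.ofReal L1 + c) + ENNReal.ofReal (lam * ρ^2) := by
    refine hmin.trans ?_
    gcongr
    · exact dirE_push_le h hb hρ hU ht
    · exact len_push_le hb hρ hγ ht
  have hD0 : 0 ≤ Dr u K x₀ ρ := ENNReal.toReal_nonneg
  have hL00 : 0 ≤ L0 := intervalIntegral.integral_nonneg hb.lt.le fun _ _ => norm_nonneg _
  have hL10 : 0 ≤ L1 := intervalIntegral.integral_nonneg hb.lt.le fun _ _ => norm_nonneg _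
  have hl0 : 0 ≤ lam * ρ^2 := mul_nonneg h.lam_nonneg (sq_nonneg _)
  have h2 := ENNReal.toReal_mono (by finiteness) h1
  rw [ENNReal.toReal_add (by finiteness) (by finiteness), ENNReal.toReal_add (by finiteness) (by finiteness),
    ENNReal.toReal_add (by finiteness) (by finiteness), ENNReal.toReal_add (by finiteness) (by finiteness),
    ENNReal.toReal_add (by finiteness) (by finiteness), ENNReal.toReal_add (by finiteness) (by finiteness),
    ENNReal.toReal_add (by finiteness) (by finiteness),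
    ENNReal.toReal_ofReal hD0, ENNReal.toReal_ofReal hL00, ENNReal.toReal_ofReal hX0,
    ENNReal.toReal_ofReal hL10, ENNReal.toReal_ofReal hl0] at h2
  rw [hX] at h2
  linarith

end QM

end Inner

end Crest.Agent.R135
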