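import Crest.Agent.R135.Inner4

/-!
# R135, block INNER (helper828), part 5: force balance in averaged form
-/

set_option autoImplicit false

open MeasureTheory Set Filter Topology Metric
open scoped ENNReal NNReal ContDiff Gradient

noncomputable section

namespace Crest.Agent.R135

namespace Inner

variable {b : ℝ → E2} {r1 r2 : ℝ}

theorem norm_add_smul_le {g v : E2} (hg : 1 ≤ ‖g‖) (hv : ‖v‖ ≤ 1) {t : ℝ} (ht : |t| ≤ 1/2) :
    ‖g + t • v‖ ≤ ‖g‖ + t * inner ℝ v (‖g‖⁻¹ • g) + t^2/2 := by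
  have hpos : 0 < ‖g‖ := by linarith
  set q : ℝ := inner ℝ v (‖g‖⁻¹ • g) with hq
  have hqg : inner ℝ g v = ‖g‖ * q := by
    rw [hq, inner_smul_right, real_inner_comm]
    field_simp
  have hunit : ‖‖g‖⁻¹ • g‖ = 1 := by
    rw [norm_smul, norm_inv, norm_norm, inv_mul_cancel₀ hpos.ne']
  have hq1 : |q| ≤ 1 := by
    refine (abs_real_inner_le_norm _ _).trans ?_
    rw [hunit, mul_one]
    exact hv
  have htq : |t * q| ≤ 1/2 := by
    rw [abs_mul]
    calc |t| * |q| ≤ (1/2) * 1 := by gcongr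
      _ = 1/2 := mul_one _
  have hR : 0 ≤ ‖g‖ + t * q + t^2/2 := by
    have := (abs_le.1 htq).1
    nlinarith [sq_nonneg t]
  apply le_of_sq_le_sq _ hR
  have e : ‖g + t • v‖^2 = ‖g‖^2 + 2 * t * (‖g‖ * q) + t^2 * ‖v‖^2 := by
    rw [norm_add_sq_real, inner_smul_right, norm_smul, mul_pow, Real.norm_eq_abs, sq_abs, hqg]
    ring
  rw [e]
  have h1 : t^2 * ‖v‖^2 ≤ t^2 * 1 := by
    gcongr
    rw [← one_pow 2]
    gcongr
  have h2 : t^2 * 1 ≤ t^2 * ‖g‖ := by gcongr
  nlinarith [sq_nonneg (t * q + t^2/2)]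

/-- the unit tangent -/
def utan (g : ℝ → E2) (r : ℝ) : E2 := ‖g r‖⁻¹ • g r

theorem norm_utan_le (g : ℝ → E2) (r : ℝ) : ‖utan g r‖ ≤ 1 := by
  unfold utan
  rw [norm_smul, norm_inv, norm_norm]
  exact inv_mul_le_one

theorem utan_intervalIntegrable {g : ℝ → E2} {a c : ℝ} (hg : IntervalIntegrable g volume a c) :
    IntervalIntegrable (utan g) volume a c := by
  rw [intervalIntegrable_iff] at hg ⊢
  have h1 : AEMeasurable g (volume.restrict (uIoc a c)) := hg.1.aemeasurable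
  refine Integrable.mono' (g := fun _ => (1:ℝ)) (integrableOn_const (by simp [Real.volume_uIoc])) ?_
    (Eventually.of_forall fun r => norm_utan_le g r)
  exact (h1.norm.inv.smul h1).aestronglyMeasurable

section QM

variable {U K : Set E2} {lam : ℝ} {u : E2 → ℝ} {x₀ : E2} {ρ : ℝ} {γ g : ℝ → E2}

theorem intervalIntegrable_FB' (h : IsQM U lam u K) (h1 : 0 ≤ r1) (h12 : r1 ≤ r2) (hρ : r2 ≤ ρ)
    (hU : closedBall x₀ ρ ⊆ U) : IntervalIntegrable (FB u x₀) volume r1 r2 := by
  refine (intervalIntegrable_FB h (h1.trans (h12.trans hρ)) hU).mono_set ?_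
  rw [uIcc_of_le h12, uIcc_of_le (h1.trans (h12.trans hρ))]
  exact Icc_subset_Icc h1 hρ

theorem inner_intervalIntegrable {v w : ℝ → E2} {a c : ℝ} (hv : Continuous v)
    (hw : IntervalIntegrable w volume a c) :
    IntervalIntegrable (fun r => inner ℝ (v r) (w r)) volume a c := by
  rw [intervalIntegrable_iff] at hw ⊢
  obtain ⟨C, hC⟩ : ∃ C, ∀ r ∈ uIcc a c, ‖v r‖ ≤ C :=
    isCompact_uIcc.exists_bound_of_continuousOn hv.continuousOn
  refine Integrable.mono' (hw.norm.const_mul C)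
    (hv.aestronglyMeasurable.inner hw.1) ?_
  filter_upwards [ae_restrict_mem measurableSet_uIoc] with r hr
  have h1 := hC r (uIoc_subset_uIcc hr)
  refine (norm_inner_le_norm _ _).trans ?_
  gcongr

theorem integral_support_eq (hb : RadDens b r1 r2) (hρ : r2 ≤ ρ) (w : ℝ → E2) :
    ∫ s in (0:ℝ)..ρ, inner ℝ (b s) (w s) = ∫ s in r1..r2, inner ℝ (b s) (w s) := by
  have h0 : 0 ≤ ρ := (hb.pos.trans hb.lt).le.trans hρ
  rw [intervalIntegral.integral_of_le h0, intervalIntegral.integral_of_le hb.lt.le]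
  apply setIntegral_eq_of_subset_of_forall_sdiff_eq_zero measurableSet_Ioc
  · intro s hs
    exact ⟨hb.pos.trans hs.1, hs.2.trans hρ⟩
  · rintro s ⟨-, hs⟩
    rw [hb.supp s (fun hc => hs ⟨hc.1, hc.2.le⟩), inner_zero_left]

/-- **Force balance, tested with a radial density.** -/
theorem inner_tested (h : IsQM U lam u K) (hb : RadDens b r1 r2) (hρ : r2 ≤ ρ)
    (hU : closedBall x₀ ρ ⊆ U) (hγ : RadCurve K x₀ γ g r1 r2) {t : ℝ} (ht : |t| ≤ 1/2) :
    t * ∫ s in r1..r2, inner ℝ (b s) (FB u x₀ s - utan g s) ≤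
      t^2 * (2 * Dr u K x₀ ρ + (r2 - r1) / 2) + lam * ρ^2 := by
  have h12 := hb.lt.le
  have h1 := inner_raw h hb hρ hU hγ ht
  rw [integral_support_eq hb hρ] at h1
  have iFB := intervalIntegrable_FB' h hb.pos.le h12 hρ hU
  have iut := utan_intervalIntegrable hγ.curve.int
  have i1 := inner_intervalIntegrable hb.cont iFB
  have i2 := inner_intervalIntegrable hb.cont iut
  have e1 : ∫ s in r1..r2, inner ℝ (b s) (FB u x₀ s - utan g s) =
      (∫ s in r1..r2, inner ℝ (b s) (FB u x₀ s)) - ∫ s in r1..r2, inner ℝ (b s) (utan g s) := by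
    rw [← intervalIntegral.integral_sub i1 i2]
    simp only [inner_sub_right]
  have h2 : ∫ r in r1..r2, ‖g r + t • b r‖ ≤
      (∫ r in r1..r2, ‖g r‖) + t * (∫ r in r1..r2, inner ℝ (b r) (utan g r)) + (r2 - r1) * (t^2/2) := by
    have e2 : (∫ r in r1..r2, ‖g r‖) + t * (∫ r in r1..r2, inner ℝ (b r) (utan g r)) +
        (r2 - r1) * (t^2/2) =
        ∫ r in r1..r2, (‖g r‖ + t * inner ℝ (b r) (utan g r) + t^2/2) := by
      rw [intervalIntegral.integral_add (hγ.curve.int.norm.add (i2.const_mul t))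
        intervalIntegrable_const, intervalIntegral.integral_add hγ.curve.int.norm (i2.const_mul t),
        intervalIntegral.integral_const_mul, intervalIntegral.integral_const, smul_eq_mul]
    rw [e2]
    apply intervalIntegral.integral_mono_ae_restrict h12
    · exact (hγ.curve.int.add ((hb.cont.intervalIntegrable _ _).smul t)).norm
    · exact (hγ.curve.int.norm.add (i2.const_mul t)).add intervalIntegrable_const
    · have h3 := hγ.one_le h12
      rw [Measure.restrict_congr_set Ioo_ae_eq_Icc] at h3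
      filter_upwards [h3] with r hr
      exact norm_add_smul_le hr (hb.bdd r) ht
  rw [e1]
  have e3 : t^2 * (2 * Dr u K x₀ ρ + (r2 - r1) / 2) =
    2 * t^2 * Dr u K x₀ ρ + (r2 - r1) * (t^2/2) := by ring
  rw [e3, mul_sub]
  linarith

theorem RadDens.neg (hb : RadDens b r1 r2) : RadDens (fun s => - b s) r1 r2 where
  cont := hb.cont.neg
  bdd := fun s => by rw [norm_neg]; exact hb.bdd s
  supp := fun s hs => by rw [hb.supp s hs, neg_zero]
  pos := hb.pos
  lt := hb.lt

theorem inner_tested_le (h : IsQM U lam u K) (hb : RadDens b r1 r2) (hρ : r2 ≤ ρ)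
    (hU : closedBall x₀ ρ ⊆ U) (hγ : RadCurve K x₀ γ g r1 r2) {t : ℝ} (ht0 : 0 < t) (ht : t ≤ 1/2) :
    ∫ s in r1..r2, inner ℝ (b s) (FB u x₀ s - utan g s) ≤
      t * (2 * Dr u K x₀ ρ + (r2 - r1) / 2) + lam * ρ^2 / t := by
  have h1 := inner_tested h hb hρ hU hγ (t := t) (by rwa [abs_of_pos ht0])
  have h2 : t * (t * (2 * Dr u K x₀ ρ + (r2 - r1) / 2) + lam * ρ^2 / t) =
    t^2 * (2 * Dr u K x₀ ρ + (r2 - r1) / 2) + lam * ρ^2 := by field_simp
  rw [← h2] at h1
  exact le_of_mul_le_mul_left h1 ht0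

end QM

/-! ### duality -/

/-- continuous cut-off -/
def cutf (r1 r2 : ℝ) (n : ℕ) (s : ℝ) : ℝ := min 1 (n * max 0 (min (s - r1) (r2 - s)))

theorem cutf_cont (r1 r2 : ℝ) (n : ℕ) : Continuous (cutf r1 r2 n) := by
  unfold cutf
  fun_prop

theorem cutf_nonneg (r1 r2 : ℝ) (n : ℕ) (s : ℝ) : 0 ≤ cutf r1 r2 n s := by
  unfold cutf
  positivity

theorem cutf_le_one (r1 r2 : ℝ) (n : ℕ) (s : ℝ) : cutf r1 r2 n s ≤ 1 := min_le_left _ _

theorem cutf_eq_zero {r1 r2 : ℝ} (n : ℕ) {s : ℝ} (hs : s ∉ Ioo r1 r2) : cutf r1 r2 n s = 0 := by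
  unfold cutf
  have : max 0 (min (s - r1) (r2 - s)) = 0 := by
    apply max_eq_left
    rw [mem_Ioo, not_and_or, not_lt, not_lt] at hs
    rcases hs with hs | hs
    · exact (min_le_left _ _).trans (by linarith)
    · exact (min_le_right _ _).trans (by linarith)
  rw [this, mul_zero]
  simp

theorem cutf_tendsto {r1 r2 s : ℝ} (hs : s ∈ Ioo r1 r2) :
    Tendsto (fun n => cutf r1 r2 n s) atTop (𝓝 1) := by
  have hpos : 0 < min (s - r1) (r2 - s) := lt_min (by linarith [hs.1]) (by linarith [hs.2])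
  apply tendsto_const_nhds.congr'
  obtain ⟨N, hN⟩ := exists_nat_gt (1 / min (s - r1) (r2 - s))
  filter_upwards [eventually_ge_atTop N] with n hn
  unfold cutf
  rw [max_eq_right hpos.le]
  symm
  apply min_eq_left
  rw [div_lt_iff₀ hpos] at hN
  have : (N:ℝ) ≤ n := by exact_mod_cast hn
  nlinarith

/-- **Duality**: the `L¹` norm is attained by admissible radial densities. -/
theorem exists_radDens {r1 r2 : ℝ} (h1 : 0 < r1) (h12 : r1 < r2) {V : ℝ → E2}
    (hV : IntervalIntegrable V volume r1 r2) {δ : ℝ} (hδ : 0 < δ) :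
    ∃ b : ℝ → E2, RadDens b r1 r2 ∧
      ∫ s in r1..r2, ‖V s‖ ≤ (∫ s in r1..r2, inner ℝ (b s) (V s)) + δ := by
  have hVi : Integrable (indicator (Ioc r1 r2) V) := by
    rw [integrable_indicator_iff measurableSet_Ioc]
    exact (intervalIntegrable_iff_integrableOn_Ioc_of_le h12.le).1 hV
  set ε : ℝ := δ / 8 with hε
  have hεpos : 0 < ε := by positivity
  obtain ⟨f, -, hfV, hfc, hfi⟩ := hVi.exists_hasCompactSupport_integral_sub_le hεpos
  -- `∫ χ_n ‖V‖ → ∫ ‖V‖`
  have hlim : Tendsto (fun n => ∫ s in r1..r2, cutf r1 r2 n s * ‖V s‖) atTop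
      (𝓝 (∫ s in r1..r2, 1 * ‖V s‖)) := by
    apply intervalIntegral.tendsto_integral_filter_of_dominated_convergence (fun s => ‖V s‖)
    · filter_upwards with n
      exact ((cutf_cont r1 r2 n).aestronglyMeasurable).mul
        (intervalIntegrable_iff.1 hV.norm).aestronglyMeasurable
    · filter_upwards with n
      filter_upwards with s _
      rw [Real.norm_eq_abs, abs_mul, abs_of_nonneg (cutf_nonneg _ _ _ _), abs_norm]
      exact mul_le_of_le_one_left (norm_nonneg _) (cutf_le_one _ _ _ _)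
    · exact hV.norm
    · have hne : ∀ᵐ s : ℝ, s ≠ r2 := by simp [ae_iff]
      filter_upwards [hne] with s hs hs2
      rw [uIoc_of_le h12.le] at hs2
      exact (cutf_tendsto ⟨hs2.1, lt_of_le_of_ne hs2.2 hs⟩).mul_const _
  simp only [one_mul] at hlim
  obtain ⟨n, hn⟩ := ((tendsto_order.1 hlim).1 ((∫ s in r1..r2, ‖V s‖) - ε) (by linarith)).exists
  set ε' : ℝ := ε / (r2 - r1) with hε'
  have h21 : 0 < r2 - r1 := by linarith
  have hε'pos : 0 < ε' := by positivity
  have hfpos : ∀ s, 0 < ‖f s‖ + ε' := fun s => by positivity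
  set b : ℝ → E2 := fun s => cutf r1 r2 n s • (‖f s‖ + ε')⁻¹ • f s with hb
  have hbcont : Continuous b :=
    (cutf_cont r1 r2 n).smul ((hfc.norm.add continuous_const).inv₀ (fun s => (hfpos s).ne') |>.smul hfc)
  have hbR : RadDens b r1 r2 := by
    refine ⟨hbcont, ?_, ?_, h1, h12⟩
    · intro s
      rw [hb]
      simp only
      rw [norm_smul, norm_smul, Real.norm_eq_abs, abs_of_nonneg (cutf_nonneg _ _ _ _),
        Real.norm_eq_abs, abs_of_pos (inv_pos.2 (hfpos s))]
      have h3 : (‖f s‖ + ε')⁻¹ * ‖f s‖ ≤ 1 := by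
        rw [inv_mul_le_iff₀ (hfpos s)]
        linarith
      calc cutf r1 r2 n s * ((‖f s‖ + ε')⁻¹ * ‖f s‖) ≤ 1 * 1 := by
            apply mul_le_mul (cutf_le_one _ _ _ _) h3 (by have := hfpos s; positivity) zero_le_one
        _ = 1 := one_mul 1
    · intro s hs
      rw [hb]
      simp only [cutf_eq_zero n hs, zero_smul]
  refine ⟨b, hbR, ?_⟩
  have hpt : ∀ s, cutf r1 r2 n s * ‖V s‖ - 2 * ‖V s - f s‖ - ε' ≤ inner ℝ (b s) (V s) := by
    intro s
    set χ := cutf r1 r2 n s with hχ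
    have hχ0 : 0 ≤ χ := cutf_nonneg _ _ _ _
    have hχ1 : χ ≤ 1 := cutf_le_one _ _ _ _
    have hfp := hfpos s
    have e1 : inner ℝ (b s) (V s) = χ * ((‖f s‖ + ε')⁻¹ * inner ℝ (f s) (V s)) := by
      rw [hb]
      simp only [inner_smul_left, conj_trivial, hχ]
    have h3 : ‖f s‖ ^ 2 - ‖f s‖ * ‖V s - f s‖ ≤ inner ℝ (f s) (V s) := by
      have h4 : inner ℝ (f s) (V s) = ‖f s‖ ^ 2 + inner ℝ (f s) (V s - f s) := by
        rw [inner_sub_right, real_inner_self_eq_norm_sq]; ring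
      have h5 := (abs_le.1 (abs_real_inner_le_norm (f s) (V s - f s))).1
      linarith
    have h6 : ‖f s‖ - ε' - ‖V s - f s‖ ≤ (‖f s‖ + ε')⁻¹ * inner ℝ (f s) (V s) := by
      rw [le_inv_mul_iff₀ hfp]
      have h7 : 0 ≤ ‖V s - f s‖ := norm_nonneg _
      have h8 : 0 ≤ ‖f s‖ := norm_nonneg _
      nlinarith [mul_nonneg hε'pos.le h7, sq_nonneg ε']
    have h9 : ‖V s‖ ≤ ‖f s‖ + ‖V s - f s‖ := by
      have := norm_add_le (f s) (V s - f s)
      rwa [add_sub_cancel] at this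
    have h10 : ‖V s‖ - 2 * ‖V s - f s‖ - ε' ≤ (‖f s‖ + ε')⁻¹ * inner ℝ (f s) (V s) := by linarith
    rw [e1]
    have h11 := mul_le_mul_of_nonneg_left h10 hχ0
    have h12 : χ * (2 * ‖V s - f s‖ + ε') ≤ 1 * (2 * ‖V s - f s‖ + ε') := by
      gcongr
    nlinarith
  have iV : IntervalIntegrable (fun s => cutf r1 r2 n s * ‖V s‖) volume r1 r2 :=
    hV.norm.continuousOn_mul (cutf_cont r1 r2 n).continuousOn
  have iVf : IntervalIntegrable (fun s => ‖V s - f s‖) volume r1 r2 :=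
    (hV.sub (hfc.intervalIntegrable _ _)).norm
  have hint := intervalIntegral.integral_mono_on h12.le
    ((iV.sub (iVf.const_mul 2)).sub intervalIntegrable_const)
    (inner_intervalIntegrable hbcont hV) (fun s _ => hpt s)
  rw [intervalIntegral.integral_sub (iV.sub (iVf.const_mul 2)) intervalIntegrable_const,
    intervalIntegral.integral_sub iV (iVf.const_mul 2), intervalIntegral.integral_const_mul,
    intervalIntegral.integral_const, smul_eq_mul] at hint
  have hdiff : ∫ s in r1..r2, ‖V s - f s‖ ≤ ε := by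
    rw [intervalIntegral.integral_of_le h12.le]
    have e1 : ∫ r in Ioc r1 r2, ‖V r - f r‖ = ∫ r in Ioc r1 r2, ‖indicator (Ioc r1 r2) V r - f r‖ := by
      apply setIntegral_congr_fun measurableSet_Ioc
      intro r hr
      simp only [indicator_of_mem hr]
    rw [e1]
    exact (setIntegral_le_integral (hVi.sub hfi).norm
      (Eventually.of_forall fun _ => norm_nonneg _)).trans hfV
  have e5 : (r2 - r1) * ε' = ε := by rw [hε']; field_simp
  rw [e5] at hint
  have e6 : δ = 8 * ε := by rw [hε]; ring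
  rw [e6]
  linarith

end Inner

end Crest.Agent.R135
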