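import Crest.Agent.R135.Inner5
import Crest.Agent.R135.CrackODE
import Crest.Agent.R135.CrackAlg
import Crest.Agent.R135.PolarF

/-!
# R135, block INNER (helper828), part 6: final form of the force balance, polar form
-/

set_option autoImplicit false

open MeasureTheory Set Filter Topology Metric
open scoped ENNReal NNReal ContDiff Gradient Real

noncomputable section

namespace Crest.Agent.R135

namespace Inner

variable {r1 r2 : ℝ}

section QM

variable {U K : Set E2} {lam : ℝ} {u : E2 → ℝ} {x₀ : E2} {ρ : ℝ} {γ g : ℝ → E2}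

/-- **Force balance** (averaged form, with a free parameter). -/
theorem force_balance (h : IsQM U lam u K) (h1 : 0 < r1) (h12 : r1 < r2) (hρ : r2 ≤ ρ)
    (hU : closedBall x₀ ρ ⊆ U) (hγ : RadCurve K x₀ γ g r1 r2) {t : ℝ} (ht0 : 0 < t) (ht : t ≤ 1/2) :
    ∫ s in r1..r2, ‖FB u x₀ s - utan g s‖ ≤
      t * (2 * Dr u K x₀ ρ + (r2 - r1) / 2) + lam * ρ^2 / t := by
  have hV : IntervalIntegrable (fun s => FB u x₀ s - utan g s) volume r1 r2 :=
    (intervalIntegrable_FB' h h1.le h12.le hρ hU).sub (utan_intervalIntegrable hγ.curve.int)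
  apply le_of_forall_pos_le_add
  intro δ hδ
  obtain ⟨b, hb, hb2⟩ := exists_radDens h1 h12 hV hδ
  have h2 := inner_tested_le h hb hρ hU hγ ht0 ht
  linarith

/-- **Force balance**, power form of the error. -/
theorem force_balance_sqrt (h : IsQM U lam u K) (h1 : 0 < r1) (h12 : r1 < r2) (hρ : r2 ≤ ρ)
    (hU : closedBall x₀ ρ ⊆ U) (hγ : RadCurve K x₀ γ g r1 r2) (hlam : lam * ρ ≤ 1/4) :
    ∫ s in r1..r2, ‖FB u x₀ s - utan g s‖ ≤
      Real.sqrt (lam * ρ) * (2 * Dr u K x₀ ρ + (r2 - r1) / 2 + ρ) := by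
  have hρ0 : 0 < ρ := (h1.trans h12).trans_le hρ
  rcases h.lam_nonneg.eq_or_lt with h0 | h0
  · -- lam = 0
    rw [← h0, zero_mul, Real.sqrt_zero, zero_mul]
    apply le_of_forall_pos_le_add
    intro δ hδ
    set A : ℝ := 2 * Dr u K x₀ ρ + (r2 - r1) / 2 with hA
    have hD0 : 0 ≤ Dr u K x₀ ρ := ENNReal.toReal_nonneg
    have hA0 : 0 < A := by rw [hA]; linarith
    set t : ℝ := min (1/2) (δ / A) with ht
    have ht0 : 0 < t := lt_min (by norm_num) (by positivity)
    have h2 := force_balance h h1 h12 hρ hU hγ ht0 (min_le_left _ _)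
    rw [← h0, zero_mul, zero_div, add_zero, ← hA] at h2
    refine h2.trans ?_
    calc t * A ≤ (δ / A) * A := by
          gcongr
          exact min_le_right _ _
      _ = δ := div_mul_cancel₀ _ hA0.ne'
      _ = 0 + δ := (zero_add δ).symm
  · set t : ℝ := Real.sqrt (lam * ρ) with ht
    have hlr : 0 < lam * ρ := by positivity
    have ht0 : 0 < t := Real.sqrt_pos.2 hlr
    have ht1 : t ≤ 1/2 := by
      rw [ht]
      refine (Real.sqrt_le_sqrt hlam).trans ?_
      rw [show (1:ℝ)/4 = (1/2)^2 by norm_num, Real.sqrt_sq (by norm_num)]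
    have h2 := force_balance h h1 h12 hρ hU hγ ht0 ht1
    have e : lam * ρ^2 / t = t * ρ := by
      rw [div_eq_iff ht0.ne']
      have : t * t = lam * ρ := Real.mul_self_sqrt hlr.le
      calc lam * ρ^2 = (lam * ρ) * ρ := by ring
        _ = t * t * ρ := by rw [this]
        _ = t * ρ * t := by ring
    rw [e] at h2
    refine h2.trans (le_of_eq (by ring))

/-- **Exact force balance** for `lam = 0`. -/
theorem force_balance_zero (h : IsQM U 0 u K) (h1 : 0 < r1) (h12 : r1 < r2) (hρ : r2 ≤ ρ)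
    (hU : closedBall x₀ ρ ⊆ U) (hγ : RadCurve K x₀ γ g r1 r2) :
    ∀ᵐ s, s ∈ Ioo r1 r2 → FB u x₀ s = utan g s := by
  have h2 := force_balance_sqrt h h1 h12 hρ hU hγ (by norm_num)
  rw [zero_mul, Real.sqrt_zero, zero_mul] at h2
  have hV : IntervalIntegrable (fun s => FB u x₀ s - utan g s) volume r1 r2 :=
    (intervalIntegrable_FB' h h1.le h12.le hρ hU).sub (utan_intervalIntegrable hγ.curve.int)
  have h3 : ∫ s in r1..r2, ‖FB u x₀ s - utan g s‖ = 0 :=
    le_antisymm h2 (intervalIntegral.integral_nonneg h12.le fun _ _ => norm_nonneg _)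
  rw [intervalIntegral.integral_of_le h12.le, integral_Ioc_eq_integral_Ioo] at h3
  have h4 := (intervalIntegrable_iff_integrableOn_Ioo_of_le h12.le).1 hV
  rw [integral_eq_zero_iff_of_nonneg (fun s => norm_nonneg _) h4.norm] at h3
  have h5 := (ae_restrict_iff' measurableSet_Ioo).1 h3
  filter_upwards [h5] with s hs hs2
  have := hs hs2
  simp only [Pi.zero_apply, norm_eq_zero] at this
  exact sub_eq_zero.1 this

end QM

/-! ### polar form of the curve -/

theorem ac_comp_lip {f : ℝ → ℝ} {φ : ℝ → ℝ} {a b : ℝ} (hf : AbsolutelyContinuousOnInterval f a b)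
    (hφ : ∀ x y, |φ x - φ y| ≤ |x - y|) : AbsolutelyContinuousOnInterval (fun s => φ (f s)) a b := by
  unfold AbsolutelyContinuousOnInterval at hf ⊢
  refine squeeze_zero (fun E => Finset.sum_nonneg fun _ _ => dist_nonneg) (fun E => ?_) hf
  apply Finset.sum_le_sum
  intro i _
  rw [Real.dist_eq, Real.dist_eq]
  exact hφ _ _

theorem ac_congr {f f' : ℝ → ℝ} {a b : ℝ} (hf : AbsolutelyContinuousOnInterval f a b)
    (h : EqOn f f' (uIcc a b)) : AbsolutelyContinuousOnInterval f' a b := by
  unfold AbsolutelyContinuousOnInterval at hf ⊢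
  refine hf.congr' ?_
  have : AbsolutelyContinuousOnInterval.disjWithin a b ∈
      (AbsolutelyContinuousOnInterval.totalLengthFilter ⊓
        𝓟 (AbsolutelyContinuousOnInterval.disjWithin a b)) :=
    mem_inf_of_right (mem_principal_self _)
  filter_upwards [this] with E hE
  apply Finset.sum_congr rfl
  intro i hi
  rw [h (hE.1 i hi).1, h (hE.1 i hi).2]

theorem isPrim_ac {a b : ℝ} (hab : a ≤ b) {F F1 : ℝ → ℝ} (hF : IsPrim a b F F1) :
    AbsolutelyContinuousOnInterval F a b := by
  have h1 := hF.1.absolutelyContinuousOnInterval_intervalIntegral (c := a) (by simp)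
  have hc : AbsolutelyContinuousOnInterval (fun _ : ℝ => F a) a b := by
    exact ((LipschitzWith.const (F a)).lipschitzOnWith (s := uIcc a b)).absolutelyContinuousOnInterval
  have h2 := hc.add h1
  have h3 : EqOn ((fun _ : ℝ => F a) + fun x => ∫ v in a..x, F1 v) F (uIcc a b) := by
    intro s hs
    rw [uIcc_of_le hab] at hs
    simp only [Pi.add_apply]
    rw [hF.2 s hs]
  exact ac_congr h2 h3

theorem isPrim_of_ac {a b : ℝ} (hab : a ≤ b) {F F1 : ℝ → ℝ}
    (hF : AbsolutelyContinuousOnInterval F a b)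
    (hd : ∀ᵐ s, s ∈ uIcc a b → HasDerivAt F (F1 s) s) : IsPrim a b F F1 := by
  have e : ∀ c d, c ∈ uIcc a b → d ∈ uIcc a b → ∀ᵐ s, s ∈ uIoc c d → deriv F s = F1 s := by
    intro c d hc hdd
    filter_upwards [hd] with s hs hs2
    exact (hs (uIcc_subset_uIcc hc hdd (uIoc_subset_uIcc hs2))).deriv
  have hint := hF.intervalIntegrable_deriv
  refine ⟨?_, ?_⟩
  · refine hint.congr_ae ?_
    have := e a b left_mem_uIcc right_mem_uIcc
    rwa [← ae_restrict_iff' measurableSet_uIoc] at this
  · intro x hx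
    have hx' : x ∈ uIcc a b := by rwa [uIcc_of_le hab]
    have h1 := (hF.mono (c := a) (d := x) (uIcc_subset_uIcc left_mem_uIcc hx')).integral_deriv_eq_sub
    rw [intervalIntegral.integral_congr_ae (e a x left_mem_uIcc hx')] at h1
    linarith

end Inner

end Crest.Agent.R135
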