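import Crest.Agent.R135.Inner6
import Crest.Agent.R135.PolarC

/-!
# R135, block INNER (helper828), part 7: polar form of the curve, components of the force
-/

set_option autoImplicit false

open MeasureTheory Set Filter Topology Metric
open scoped ENNReal NNReal ContDiff Gradient Real

noncomputable section

namespace Crest.Agent.R135

namespace Inner

theorem ae_ne (a : ℝ) : ∀ᵐ s : ℝ, s ≠ a := by simp [ae_iff]

theorem IsPrim_ae_hasDerivAt {a b : ℝ} (hab : a ≤ b) {F F1 : ℝ → ℝ} (hF : IsPrim a b F F1) :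
    ∀ᵐ s, s ∈ uIcc a b → HasDerivAt F (F1 s) s := by
  filter_upwards [hF.1.ae_hasDerivAt_integral, ae_ne a, ae_ne b] with s hs hsa hsb hsm
  have hsm' := hsm
  rw [uIcc_of_le hab] at hsm
  have hs' : s ∈ Ioo a b := ⟨lt_of_le_of_ne hsm.1 (Ne.symm hsa), lt_of_le_of_ne hsm.2 hsb⟩
  have h1 := (hs hsm' a left_mem_uIcc).const_add (F a)
  refine h1.congr_of_eventuallyEq ?_
  filter_upwards [Icc_mem_nhds hs'.1 hs'.2] with x hx
  exact hF.2 x hx

theorem IsPrim_cos {a b : ℝ} (hab : a ≤ b) {θ θ1 : ℝ → ℝ} (h : IsPrim a b θ θ1) :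
    IsPrim a b (fun s => Real.cos (θ s)) (fun s => -Real.sin (θ s) * θ1 s) := by
  apply isPrim_of_ac hab (ac_comp_lip (isPrim_ac hab h) Real.abs_cos_sub_cos_le)
  filter_upwards [IsPrim_ae_hasDerivAt hab h] with s hs hsm
  exact (hs hsm).cos

theorem IsPrim_sin {a b : ℝ} (hab : a ≤ b) {θ θ1 : ℝ → ℝ} (h : IsPrim a b θ θ1) :
    IsPrim a b (fun s => Real.sin (θ s)) (fun s => Real.cos (θ s) * θ1 s) := by
  apply isPrim_of_ac hab (ac_comp_lip (isPrim_ac hab h) Real.abs_sin_sub_sin_le)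
  filter_upwards [IsPrim_ae_hasDerivAt hab h] with s hs hsm
  exact (hs hsm).sin

theorem isPrim_id {a b : ℝ} (hab : a ≤ b) : IsPrim a b (fun s => s) (fun _ => 1) :=
  isPrim_of_hasDerivAt hab (fun x _ => hasDerivAt_id x) continuousOn_const

/-- derivative of the curve in polar form -/
def pder (θ θ1 : ℝ → ℝ) (r : ℝ) : E2 := dir (θ r) + (r * θ1 r) • tau (θ r)

theorem isPrim_sub {a b : ℝ} {F F1 : ℝ → ℝ} (hF : IsPrim a b F F1) {s s' : ℝ}
    (hs : s ∈ Icc a b) (hs' : s' ∈ Icc a b) : F s' - F s = ∫ r in s..s', F1 r := by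
  have i1 : IntervalIntegrable F1 volume a s := hF.1.mono_set (by
    rw [uIcc_of_le hs.1, uIcc_of_le (hs.1.trans hs.2)]; exact Icc_subset_Icc le_rfl hs.2)
  have i2 : IntervalIntegrable F1 volume a s' := hF.1.mono_set (by
    rw [uIcc_of_le hs'.1, uIcc_of_le (hs.1.trans hs.2)]; exact Icc_subset_Icc le_rfl hs'.2)
  rw [hF.2 s hs, hF.2 s' hs', ← intervalIntegral.integral_interval_sub_left i2 i1]
  ring

theorem aCurve_of_comp {a b : ℝ} (hab : a ≤ b) {γ g : ℝ → E2}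
    (h0 : IsPrim a b (fun r => γ r 0) (fun r => g r 0))
    (h1 : IsPrim a b (fun r => γ r 1) (fun r => g r 1)) : ACurve γ g a b := by
  have hint : IntervalIntegrable g volume a b := by
    have e : g = fun r => (g r 0) • (EuclideanSpace.single 0 1 : E2) +
        (g r 1) • (EuclideanSpace.single 1 1 : E2) := by
      funext r
      apply ext_E2 <;> simp
    rw [e]
    have j0 : IntervalIntegrable (fun r => (g r 0) • (EuclideanSpace.single 0 1 : E2)) volume a b :=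
      ⟨Integrable.smul_const h0.1.1 _, Integrable.smul_const h0.1.2 _⟩
    have j1 : IntervalIntegrable (fun r => (g r 1) • (EuclideanSpace.single 1 1 : E2)) volume a b :=
      ⟨Integrable.smul_const h1.1.1 _, Integrable.smul_const h1.1.2 _⟩
    exact j0.add j1
  refine ⟨hint, ?_⟩
  intro s hs s' hs'
  have is : IntervalIntegrable g volume s s' := hint.mono_set (by
    rw [uIcc_of_le hab]; exact uIcc_subset_Icc hs hs')
  have hc : ∀ i : Fin 2, (∫ r in s..s', g r) i = ∫ r in s..s', g r i := by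
    intro i
    exact ((EuclideanSpace.proj i : E2 →L[ℝ] ℝ).intervalIntegral_comp_comm is).symm
  apply ext_E2
  · rw [hc 0, PiLp.sub_apply]
    exact isPrim_sub h0 hs hs'
  · rw [hc 1, PiLp.sub_apply]
    exact isPrim_sub h1 hs hs'

theorem curve_polar (x₀ : E2) {a b : ℝ} (hab : a ≤ b) {θ θ1 : ℝ → ℝ} (h : IsPrim a b θ θ1) :
    ACurve (fun r => cpt x₀ r (θ r)) (pder θ θ1) a b := by
  have hc := ((IsPrim_cos hab h).mul hab (isPrim_id hab)).add_const (x₀ 0)
  have hs := ((IsPrim_sin hab h).mul hab (isPrim_id hab)).add_const (x₀ 1)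
  apply aCurve_of_comp hab
  · convert! hc using 2 with r r
    · simp [cpt]; ring
    · simp [pder]; ring
  · convert! hs using 2 with r r
    · simp [cpt]; ring
    · simp [pder]; ring

theorem norm_sq_pder (θ θ1 : ℝ → ℝ) (r : ℝ) : ‖pder θ θ1 r‖ ^ 2 = 1 + (r * θ1 r) ^ 2 := by
  unfold pder
  rw [norm_add_sq_real, inner_smul_right, inner_dir_tau, norm_smul, norm_dir, norm_tau,
    Real.norm_eq_abs, mul_one, sq_abs]
  ring

theorem norm_pder (θ θ1 : ℝ → ℝ) (r : ℝ) : ‖pder θ θ1 r‖ = Real.sqrt (1 + (r * θ1 r) ^ 2) := by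
  rw [← norm_sq_pder, Real.sqrt_sq (norm_nonneg _)]

theorem inner_utan_dir (θ θ1 : ℝ → ℝ) (r : ℝ) :
    inner ℝ (utan (pder θ θ1) r) (dir (θ r)) = 1 / Real.sqrt (1 + (r * θ1 r) ^ 2) := by
  unfold utan
  rw [inner_smul_left, norm_pder]
  unfold pder
  rw [inner_add_left, inner_smul_left, real_inner_comm (dir (θ r)) (tau (θ r)), inner_dir_tau,
    real_inner_self_eq_norm_sq, norm_dir]
  simp

theorem inner_utan_tau (θ θ1 : ℝ → ℝ) (r : ℝ) :
    inner ℝ (utan (pder θ θ1) r) (tau (θ r)) = (r * θ1 r) / Real.sqrt (1 + (r * θ1 r) ^ 2) := by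
  unfold utan
  rw [inner_smul_left, norm_pder]
  unfold pder
  rw [inner_add_left, inner_smul_left, inner_dir_tau,
    real_inner_self_eq_norm_sq, norm_tau]
  simp
  ring

/-- `K` as a polar graph in the annulus -/
theorem radCurve_polar {K : Set E2} {x₀ : E2} {r1 r2 : ℝ} (h1 : 0 < r1) (h12 : r1 ≤ r2)
    {θ θ1 : ℝ → ℝ} (hθ : IsPrim r1 r2 θ θ1)
    (hK : K ∩ {y | r1 ≤ ‖y - x₀‖ ∧ ‖y - x₀‖ ≤ r2} = (fun r => cpt x₀ r (θ r)) '' Icc r1 r2) :
    RadCurve K x₀ (fun r => cpt x₀ r (θ r)) (pder θ θ1) r1 r2 where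
  curve := curve_polar x₀ h12 hθ
  rad := fun r hr => by
    rw [← dist_eq_norm, dist_cpt, abs_of_pos (h1.trans_le hr.1)]
  eqK := hK

/-! ### components of the force -/

/-- tangential derivative on the circle, cut at the angle `α`, scaled -/
def cF1 (u : E2 → ℝ) (x₀ : E2) (r α : ℝ) (φ : ℝ) : ℝ :=
  Real.sqrt r * inner ℝ (∇ u (cpt x₀ r (α + φ))) (tau (α + φ))

/-- normal derivative on the circle, cut at the angle `α`, scaled -/
def cH (u : E2 → ℝ) (x₀ : E2) (r α : ℝ) (φ : ℝ) : ℝ :=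
  Real.sqrt r * inner ℝ (∇ u (cpt x₀ r (α + φ))) (dir (α + φ))

theorem inner_tau_dir (θ α : ℝ) : inner ℝ (tau θ) (dir α) = - Real.sin (θ - α) := by
  rw [inner_E2, Real.sin_sub]; simp; ring

theorem inner_dir_tau' (θ α : ℝ) : inner ℝ (dir θ) (tau α) = Real.sin (θ - α) := by
  rw [inner_E2, Real.sin_sub]; simp; ring

theorem inner_tau_tau (θ α : ℝ) : inner ℝ (tau θ) (tau α) = Real.cos (θ - α) := by
  rw [inner_E2, Real.cos_sub]; simp; ring

theorem frame_decomp (v : E2) (θ : ℝ) :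
    v = (inner ℝ v (dir θ)) • dir θ + (inner ℝ v (tau θ)) • tau θ := by
  have h := Real.sin_sq_add_cos_sq θ
  apply ext_E2
  · rw [inner_E2, inner_E2]
    simp
    linear_combination (- v 0) * h
  · rw [inner_E2, inner_E2]
    simp
    linear_combination (- v 1) * h

theorem stress_dir (u : E2 → ℝ) (x₀ : E2) {r : ℝ} (hr : 0 < r) (α φ : ℝ) :
    r * inner ℝ (stress u x₀ (cpt x₀ r (α + φ))) (dir α) =
      (cH u x₀ r α φ ^ 2 - cF1 u x₀ r α φ ^ 2) * Real.cos φ -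
        2 * cH u x₀ r α φ * cF1 u x₀ r α φ * Real.sin φ := by
  have hs : Real.sqrt r ^ 2 = r := Real.sq_sqrt hr.le
  unfold stress cH cF1
  rw [nu_cpt x₀ hr, inner_sub_left, inner_smul_left, inner_smul_left, inner_dir_dir]
  set p := ∇ u (cpt x₀ r (α + φ)) with hp
  have e1 : inner ℝ p (dir α) = inner ℝ p (dir (α + φ)) * Real.cos φ
      - inner ℝ p (tau (α + φ)) * Real.sin φ := by
    conv_lhs => rw [frame_decomp p (α + φ)]
    rw [inner_add_left, inner_smul_left, inner_smul_left, inner_dir_dir, inner_tau_dir,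
      add_sub_cancel_left]
    simp only [conj_trivial]
    ring
  rw [e1, norm_sq_frame p (α + φ), add_sub_cancel_left]
  simp only [conj_trivial]
  linear_combination (-(inner ℝ p (dir (α + φ)) ^ 2 - inner ℝ p (tau (α + φ)) ^ 2) * Real.cos φ +
    2 * inner ℝ p (dir (α + φ)) * inner ℝ p (tau (α + φ)) * Real.sin φ) * hs

theorem stress_tau (u : E2 → ℝ) (x₀ : E2) {r : ℝ} (hr : 0 < r) (α φ : ℝ) :
    r * inner ℝ (stress u x₀ (cpt x₀ r (α + φ))) (tau α) =
      (cH u x₀ r α φ ^ 2 - cF1 u x₀ r α φ ^ 2) * Real.sin φ +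
        2 * cH u x₀ r α φ * cF1 u x₀ r α φ * Real.cos φ := by
  have hs : Real.sqrt r ^ 2 = r := Real.sq_sqrt hr.le
  unfold stress cH cF1
  rw [nu_cpt x₀ hr, inner_sub_left, inner_smul_left, inner_smul_left, inner_dir_tau']
  set p := ∇ u (cpt x₀ r (α + φ)) with hp
  have e1 : inner ℝ p (tau α) = inner ℝ p (dir (α + φ)) * Real.sin φ
      + inner ℝ p (tau (α + φ)) * Real.cos φ := by
    conv_lhs => rw [frame_decomp p (α + φ)]
    rw [inner_add_left, inner_smul_left, inner_smul_left, inner_dir_tau', inner_tau_tau,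
      add_sub_cancel_left]
    simp only [conj_trivial]
  rw [e1, norm_sq_frame p (α + φ), add_sub_cancel_left]
  simp only [conj_trivial]
  linear_combination (-(inner ℝ p (dir (α + φ)) ^ 2 - inner ℝ p (tau (α + φ)) ^ 2) * Real.sin φ -
    2 * inner ℝ p (dir (α + φ)) * inner ℝ p (tau (α + φ)) * Real.cos φ) * hs

theorem inner_FB (u : E2 → ℝ) (x₀ : E2) {r : ℝ} (_hr : 0 < r) (α : ℝ) (v : E2)
    (hi : IntervalIntegrable (fun θ => stress u x₀ (cpt x₀ r θ)) volume (-π) π) :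
    inner ℝ (FB u x₀ r) v = ∫ φ in (0:ℝ)..(2*π), r * inner ℝ (stress u x₀ (cpt x₀ r (α + φ))) v := by
  have h1 : inner ℝ (FB u x₀ r) v = r * ∫ θ in (-π)..π, inner ℝ (stress u x₀ (cpt x₀ r θ)) v := by
    unfold FB circI
    rw [inner_smul_left, conj_trivial, real_inner_comm]
    congr 1
    have := (innerSL ℝ v).intervalIntegral_comp_comm hi
    simp only [innerSL_apply_apply] at this
    rw [← this]
    congr 1
    funext θ
    rw [real_inner_comm]
  rw [h1, intervalIntegral.integral_const_mul]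
  congr 1
  have h2 := circI_eq_shift (fun y => inner ℝ (stress u x₀ y) v) x₀ r α
  unfold circI at h2
  rw [h2, intervalIntegral.integral_comp_add_left (fun θ => inner ℝ (stress u x₀ (cpt x₀ r θ)) v) α,
    add_zero]

/-- radial component of the force -/
theorem FB_dir (u : E2 → ℝ) (x₀ : E2) {r : ℝ} (hr : 0 < r) (α : ℝ)
    (hi : IntervalIntegrable (fun θ => stress u x₀ (cpt x₀ r θ)) volume (-π) π) :
    inner ℝ (FB u x₀ r) (dir α) = CrackAlg.cR (cF1 u x₀ r α) (cH u x₀ r α) := by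
  rw [inner_FB u x₀ hr α _ hi]
  unfold CrackAlg.cR
  apply intervalIntegral.integral_congr
  intro φ _
  exact stress_dir u x₀ hr α φ

/-- tangential component of the force -/
theorem FB_tau (u : E2 → ℝ) (x₀ : E2) {r : ℝ} (hr : 0 < r) (α : ℝ)
    (hi : IntervalIntegrable (fun θ => stress u x₀ (cpt x₀ r θ)) volume (-π) π) :
    inner ℝ (FB u x₀ r) (tau α) = CrackAlg.cT (cF1 u x₀ r α) (cH u x₀ r α) := by
  rw [inner_FB u x₀ hr α _ hi]
  unfold CrackAlg.cT
  apply intervalIntegral.integral_congr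
  intro φ _
  exact stress_tau u x₀ hr α φ

section QM

variable {U K : Set E2} {lam : ℝ} {u : E2 → ℝ} {x₀ : E2} {ρ : ℝ}

theorem ae_stress_integrable (h : IsQM U lam u K) (hU : closedBall x₀ ρ ⊆ U) :
    ∀ᵐ r, r ∈ Ioo 0 ρ →
      IntervalIntegrable (fun θ => stress u x₀ (cpt x₀ r θ)) volume (-π) π := by
  have h1 := ae_integrableOn_circle_ball x₀ (integrableOn_stress h hU)
  rwa [ae_restrict_iff' measurableSet_Ioo] at h1

/-- the force error -/
def ferr (u : E2 → ℝ) (x₀ : E2) (θ θ1 : ℝ → ℝ) (s : ℝ) : ℝ := ‖FB u x₀ s - utan (pder θ θ1) s‖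

theorem ferr_nonneg (u : E2 → ℝ) (x₀ : E2) (θ θ1 : ℝ → ℝ) (s : ℝ) : 0 ≤ ferr u x₀ θ θ1 s :=
  norm_nonneg _

/-- **radial and tangential force balance at almost every radius**, with error `ferr`. -/
theorem force_components (h : IsQM U lam u K) (hU : closedBall x₀ ρ ⊆ U) (θ θ1 : ℝ → ℝ) :
    ∀ᵐ r, r ∈ Ioo 0 ρ →
      |CrackAlg.cR (cF1 u x₀ r (θ r)) (cH u x₀ r (θ r)) - 1 / Real.sqrt (1 + (r * θ1 r)^2)| ≤
          ferr u x₀ θ θ1 r ∧
      |CrackAlg.cT (cF1 u x₀ r (θ r)) (cH u x₀ r (θ r)) - (r * θ1 r) / Real.sqrt (1 + (r * θ1 r)^2)| ≤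
          ferr u x₀ θ θ1 r := by
  filter_upwards [ae_stress_integrable h hU] with r hr hrm
  have hi := hr hrm
  have hr0 : 0 < r := hrm.1
  constructor
  · rw [← FB_dir u x₀ hr0 (θ r) hi, ← inner_utan_dir θ θ1 r, ← inner_sub_left]
    refine (abs_real_inner_le_norm _ _).trans ?_
    rw [norm_dir, mul_one]
    exact le_rfl
  · rw [← FB_tau u x₀ hr0 (θ r) hi, ← inner_utan_tau θ θ1 r, ← inner_sub_left]
    refine (abs_real_inner_le_norm _ _).trans ?_
    rw [norm_tau, mul_one]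
    exact le_rfl

/-- the force error is interval integrable on compact subintervals -/
theorem ferr_intervalIntegrable {r1 r2 : ℝ} (h : IsQM U lam u K) (h1 : 0 < r1) (h12 : r1 ≤ r2)
    (hρ : r2 ≤ ρ) (hU : closedBall x₀ ρ ⊆ U) {θ θ1 : ℝ → ℝ} (hθ : IsPrim r1 r2 θ θ1) :
    IntervalIntegrable (ferr u x₀ θ θ1) volume r1 r2 :=
  ((intervalIntegrable_FB' h h1.le h12 hρ hU).sub
    (utan_intervalIntegrable (curve_polar x₀ h12 hθ).int)).norm

/-- **averaged force balance for a polar graph** -/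
theorem ferr_integral_le {r1 r2 : ℝ} (h : IsQM U lam u K) (h1 : 0 < r1) (h12 : r1 < r2)
    (hρ : r2 ≤ ρ) (hU : closedBall x₀ ρ ⊆ U) {θ θ1 : ℝ → ℝ} (hθ : IsPrim r1 r2 θ θ1)
    (hK : K ∩ {y | r1 ≤ ‖y - x₀‖ ∧ ‖y - x₀‖ ≤ r2} = (fun r => cpt x₀ r (θ r)) '' Icc r1 r2)
    (hlam : lam * ρ ≤ 1/4) :
    ∫ s in r1..r2, ferr u x₀ θ θ1 s ≤
      Real.sqrt (lam * ρ) * (2 * Dr u K x₀ ρ + (r2 - r1) / 2 + ρ) :=
  force_balance_sqrt h h1 h12 hρ hU (radCurve_polar h1 h12.le hθ hK) hlam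

/-- exact force balance for `lam = 0` -/
theorem force_components_zero {r1 r2 : ℝ} (h : IsQM U 0 u K) (h1 : 0 < r1) (h12 : r1 < r2)
    (hρ : r2 ≤ ρ) (hU : closedBall x₀ ρ ⊆ U) {θ θ1 : ℝ → ℝ} (hθ : IsPrim r1 r2 θ θ1)
    (hK : K ∩ {y | r1 ≤ ‖y - x₀‖ ∧ ‖y - x₀‖ ≤ r2} = (fun r => cpt x₀ r (θ r)) '' Icc r1 r2) :
    ∀ᵐ r, r ∈ Ioo r1 r2 →
      CrackAlg.cR (cF1 u x₀ r (θ r)) (cH u x₀ r (θ r)) = 1 / Real.sqrt (1 + (r * θ1 r)^2) ∧
      CrackAlg.cT (cF1 u x₀ r (θ r)) (cH u x₀ r (θ r)) =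
        (r * θ1 r) / Real.sqrt (1 + (r * θ1 r)^2) := by
  filter_upwards [ae_stress_integrable h hU,
    force_balance_zero h h1 h12 hρ hU (radCurve_polar h1 h12.le hθ hK)] with r hr hr2 hrm
  have hr0 : 0 < r := h1.trans hrm.1
  have hi := hr ⟨hr0, hrm.2.trans_le hρ⟩
  have e := hr2 hrm
  constructor
  · rw [← FB_dir u x₀ hr0 (θ r) hi, ← inner_utan_dir θ θ1 r, e]
  · rw [← FB_tau u x₀ hr0 (θ r) hi, ← inner_utan_tau θ θ1 r, e]

end QM

end Inner

end Crest.Agent.R135
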