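import Crest.Agent.R135.Core
import Crest.Agent.R135.PolarD

/-!
# R135 / PHASE: stars with `m` arms, their sectors and the depth function (helper12)
-/

set_option autoImplicit false

noncomputable section

open MeasureTheory Set Filter Topology Metric Real

namespace Crest.Agent.R135.Phs

/-- star with `m` equally spaced arms issued from `v` -/
def star (m : ℕ) (v : E2) (θ : ℝ) : Set E2 :=
  {y | ∃ k : ℕ, k < m ∧ y ∈ ray v (dir (θ + 2 * π * k / m))}

/-- angle of the bisector of the `k`-th sector -/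
def bis (m : ℕ) (θ : ℝ) (k : ℕ) : ℝ := θ + π * (2 * k + 1) / m

/-- depth of `z` in the sector of half opening `π / m` with vertex `v` and axis `dir ψ` -/
def depth (m : ℕ) (v : E2) (ψ : ℝ) (z : E2) : ℝ :=
  sin (π / m) * inner ℝ (z - v) (dir ψ) - cos (π / m) * |inner ℝ (z - v) (tau ψ)|

lemma inner_dir_tau' (a b : ℝ) : inner ℝ (dir a) (tau b) = sin (a - b) := by
  rw [inner_E2, Real.sin_sub]; simp; ring

lemma depth_cpt (m : ℕ) (v : E2) (ψ : ℝ) {r : ℝ} (hr : 0 ≤ r) (φ : ℝ) :
    depth m v ψ (cpt v r φ) =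
      r * (sin (π / m) * cos (φ - ψ) - cos (π / m) * |sin (φ - ψ)|) := by
  unfold depth cpt
  rw [add_sub_cancel_left, inner_smul_left, inner_smul_left, inner_dir_dir, inner_dir_tau']
  simp only [conj_trivial]
  rw [abs_mul, abs_of_nonneg hr]
  ring

lemma cos_pi_div_nonneg {m : ℕ} (hm : 2 ≤ m) : 0 ≤ cos (π / m) := by
  apply cos_nonneg_of_neg_pi_div_two_le_of_le
  · have : 0 ≤ π / m := by positivity
    linarith [pi_pos]
  · have hm' : (2:ℝ) ≤ m := by exact_mod_cast hm
    exact div_le_div_of_nonneg_left pi_pos.le (by norm_num) hm'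

lemma sin_pi_div_nonneg {m : ℕ} (hm : 1 ≤ m) : 0 ≤ sin (π / m) := by
  apply sin_nonneg_of_nonneg_of_le_pi
  · positivity
  · have hm' : (1:ℝ) ≤ m := by exact_mod_cast hm
    exact div_le_self pi_pos.le hm'

/-- the depth function is 1-Lipschitz -/
lemma depth_le_add {m : ℕ} (hm : 2 ≤ m) (v : E2) (ψ : ℝ) (z z' : E2) :
    depth m v ψ z ≤ depth m v ψ z' + dist z z' := by
  have hc := cos_pi_div_nonneg hm
  have hs := sin_pi_div_nonneg (m := m) (by omega)
  unfold depth
  set σ := sin (π / m)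
  set γ := cos (π / m)
  have h1 : σ ^ 2 + γ ^ 2 = 1 := sin_sq_add_cos_sq _
  set A := inner ℝ (z - v) (dir ψ)
  set B := inner ℝ (z - v) (tau ψ)
  set A' := inner ℝ (z' - v) (dir ψ)
  set B' := inner ℝ (z' - v) (tau ψ)
  have hA : A - A' = inner ℝ (z - z') (dir ψ) := by
    simp only [A, A']; rw [← inner_sub_left]; congr 1; abel
  have hB : B - B' = inner ℝ (z - z') (tau ψ) := by
    simp only [B, B']; rw [← inner_sub_left]; congr 1; abel
  have hn := norm_sq_frame (z - z') ψ
  rw [← hA, ← hB] at hn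
  rw [dist_eq_norm]
  have hN := norm_nonneg (z - z')
  have h2 : |B'| - |B| ≤ |B - B'| := by
    have := abs_sub_abs_le_abs_sub B' B
    rwa [abs_sub_comm B' B] at this
  have h3 : σ * (A - A') + γ * |B - B'| ≤ ‖z - z'‖ := by
    have h4 : (σ * (A - A') + γ * |B - B'|) ^ 2 ≤ ‖z - z'‖ ^ 2 := by
      rw [hn]
      have h5 : |B - B'| ^ 2 = (B - B') ^ 2 := sq_abs _
      nlinarith [sq_nonneg (σ * |B - B'| - γ * (A - A'))]
    exact (abs_le_of_sq_le_sq' h4 hN).2
  nlinarith

lemma depth_add_smul (m : ℕ) (v : E2) (ψ : ℝ) (z : E2) (t : ℝ) :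
    depth m v ψ (z + t • dir ψ) = depth m v ψ z + sin (π / m) * t := by
  unfold depth
  have h1 : z + t • dir ψ - v = (z - v) + t • dir ψ := by abel
  rw [h1, inner_add_left, inner_add_left, inner_smul_left, inner_smul_left, inner_dir_dir,
    inner_dir_tau]
  simp
  ring

/-- the depth function is concave -/
lemma depth_segment {m : ℕ} (hm : 2 ≤ m) (v : E2) (ψ : ℝ) {z z' : E2} {a : ℝ}
    (h : a ≤ depth m v ψ z) (h' : a ≤ depth m v ψ z') {p : E2} (hp : p ∈ segment ℝ z z') :
    a ≤ depth m v ψ p := by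
  obtain ⟨s, t, hs, ht, hst, rfl⟩ := hp
  have hc := cos_pi_div_nonneg hm
  unfold depth at *
  have e1 : s • z + t • z' - v = s • (z - v) + t • (z' - v) := by
    have : v = s • v + t • v := by rw [← add_smul, hst, one_smul]
    nth_rewrite 1 [this]
    rw [smul_sub, smul_sub]; abel
  rw [e1, inner_add_left, inner_smul_left, inner_smul_left, inner_add_left, inner_smul_left,
    inner_smul_left]
  simp only [conj_trivial]
  have h2 := abs_add_le (s * inner ℝ (z - v) (tau ψ)) (t * inner ℝ (z' - v) (tau ψ))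
  rw [abs_mul, abs_mul, abs_of_nonneg hs, abs_of_nonneg ht] at h2
  have h3 := mul_le_mul_of_nonneg_left h2 hc
  have h4 := mul_le_mul_of_nonneg_left h hs
  have h5 := mul_le_mul_of_nonneg_left h' ht
  have h6 : a = s * a + t * a := by rw [← add_mul, hst, one_mul]
  rw [h6]
  nlinarith

lemma odd_trig {m : ℕ} (hm : 1 ≤ m) {x : ℝ} (h1 : π / m ≤ |x|) (h2 : |x| ≤ 2 * π - π / m) :
    sin (π / m) * cos x - cos (π / m) * |sin x| ≤ 0 := by
  have hpm : 0 < π / m := by
    have : (0:ℝ) < m := by exact_mod_cast hm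
    positivity
  have hpm1 : π / m ≤ π := by
    have hm' : (1:ℝ) ≤ m := by exact_mod_cast hm
    exact div_le_self pi_pos.le hm'
  have hcos : cos x = cos |x| := (cos_abs x).symm
  have hsin : |sin x| = |sin (|x|)| := by
    rcases abs_cases x with ⟨h, _⟩ | ⟨h, _⟩
    · rw [h]
    · rw [h, sin_neg, abs_neg]
  rw [hcos, hsin]
  set y := |x|
  rcases le_total y π with hy | hy
  · rw [abs_of_nonneg (sin_nonneg_of_nonneg_of_le_pi (by linarith) hy), ← sin_sub]
    apply sin_nonpos_of_nonpos_of_neg_pi_le <;> linarith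
  · have : sin y ≤ 0 := by
      rw [← sin_sub_two_pi]
      apply sin_nonpos_of_nonpos_of_neg_pi_le <;> linarith
    rw [abs_of_nonpos this]
    have e : sin (π / m) * cos y - cos (π / m) * (-sin y) = sin (π / m + y) := by
      rw [sin_add]; ring
    rw [e, ← sin_sub_two_pi]
    apply sin_nonpos_of_nonpos_of_neg_pi_le <;> linarith

lemma depth_star_nonpos {m : ℕ} (_hm : 2 ≤ m) (v : E2) (θ : ℝ) {k : ℕ} (hk : k < m) {y : E2}
    (hy : y ∈ star m v θ) : depth m v (bis m θ k) y ≤ 0 := by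
  obtain ⟨j, hj, s, hs, rfl⟩ := hy
  have hm0 : (0:ℝ) < m := by exact_mod_cast (by omega : 0 < m)
  have e := depth_cpt m v (bis m θ k) hs (θ + 2 * π * j / m)
  unfold cpt at e
  rw [e]
  refine mul_nonpos_of_nonneg_of_nonpos hs (odd_trig (by omega) ?_ ?_)
  · have e2 : θ + 2 * π * j / m - bis m θ k = π / m * ((2 * (j:ℤ) - 2 * (k:ℤ) - 1 : ℤ) : ℝ) := by
      unfold bis; push_cast; field_simp; ring
    rw [e2, abs_mul, abs_of_pos (by positivity : 0 < π / m)]
    have h1 : (1:ℝ) ≤ |((2 * (j:ℤ) - 2 * (k:ℤ) - 1 : ℤ) : ℝ)| := by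
      rw [← Int.cast_abs]
      have h3 : (2 * (j:ℤ) - 2 * (k:ℤ) - 1 : ℤ) ≠ 0 := by omega
      exact_mod_cast Int.one_le_abs h3
    nlinarith [(by positivity : 0 < π / m)]
  · have e2 : θ + 2 * π * j / m - bis m θ k = π / m * ((2 * (j:ℤ) - 2 * (k:ℤ) - 1 : ℤ) : ℝ) := by
      unfold bis; push_cast; field_simp; ring
    rw [e2, abs_mul, abs_of_pos (by positivity : 0 < π / m)]
    have h1 : |((2 * (j:ℤ) - 2 * (k:ℤ) - 1 : ℤ) : ℝ)| ≤ 2 * m - 1 := by
      rw [← Int.cast_abs]
      have h3 : |(2 * (j:ℤ) - 2 * (k:ℤ) - 1 : ℤ)| ≤ 2 * (m:ℤ) - 1 := by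
        rw [abs_le]; constructor <;> omega
      exact_mod_cast h3
    have h2 : 2 * π - π / m = π / m * (2 * m - 1) := by field_simp
    rw [h2]
    exact mul_le_mul_of_nonneg_left h1 (by positivity)

lemma depth_le_dist {m : ℕ} (hm : 2 ≤ m) (v : E2) (θ : ℝ) {k : ℕ} (hk : k < m) {y : E2}
    (hy : y ∈ star m v θ) (z : E2) : depth m v (bis m θ k) z ≤ dist z y := by
  have h1 := depth_star_nonpos hm v θ hk hy
  have h2 := depth_le_add hm v (bis m θ k) z y
  linarith

/-- every point lies in a (closed) sector, and its distance to the star is at most the depth -/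
lemma exists_sector {m : ℕ} (hm : 2 ≤ m) (v : E2) (θ : ℝ) (z : E2) :
    ∃ k < m, ∃ y ∈ star m v θ, dist z y ≤ depth m v (bis m θ k) z := by
  have hm0 : (0:ℝ) < m := by exact_mod_cast (by omega : 0 < m)
  have hm2 : (2:ℝ) ≤ m := by exact_mod_cast hm
  obtain ⟨r, φ, hr, hφ1, hφ2, rfl⟩ : ∃ r φ : ℝ, 0 ≤ r ∧ θ ≤ φ ∧ φ < θ + 2 * π ∧ z = cpt v r φ := by
    rcases eq_or_ne z v with h | h
    · refine ⟨0, θ, le_refl _, le_refl _, by linarith [pi_pos], ?_⟩
      simp [cpt, h]
    · have hpos : 0 < dist z v := dist_pos.mpr h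
      obtain ⟨φ, hφ, he⟩ := exists_cpt_eq hpos (rfl : z ∈ Metric.sphere v (dist z v)) θ
      exact ⟨dist z v, φ, hpos.le, hφ.1, hφ.2, he.symm⟩
  set q := (φ - θ) * m / (2 * π) with hq
  have hq0 : 0 ≤ q := by
    have : 0 ≤ φ - θ := by linarith
    positivity
  have hqm : q < m := by
    rw [hq, div_lt_iff₀ (by positivity)]
    nlinarith [pi_pos]
  set k := ⌊q⌋₊ with hk
  have hkm : k < m := by
    have := Nat.floor_le hq0
    have h2 : (k:ℝ) < m := lt_of_le_of_lt this hqm
    exact_mod_cast h2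
  have hk1 : (k:ℝ) ≤ q := Nat.floor_le hq0
  have hk2 : q < k + 1 := Nat.lt_floor_add_one q
  have hφq : φ - θ = 2 * π / m * q := by rw [hq]; field_simp
  set α := φ - bis m θ k with hα
  have hα1 : -(π / m) ≤ α := by
    have : α = 2 * π / m * (q - k) - π / m := by
      rw [hα]; unfold bis
      have : φ = θ + 2 * π / m * q := by linarith
      rw [this]; field_simp; ring
    rw [this]
    have : 0 ≤ 2 * π / m * (q - k) := mul_nonneg (by positivity) (by linarith)
    linarith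
  have hα2 : α ≤ π / m := by
    have : α = 2 * π / m * (q - k - 1) + π / m := by
      rw [hα]; unfold bis
      have : φ = θ + 2 * π / m * q := by linarith
      rw [this]; field_simp; ring
    rw [this]
    have : 2 * π / m * (q - k - 1) ≤ 0 := mul_nonpos_of_nonneg_of_nonpos (by positivity) (by linarith)
    linarith
  have hpm : π / m ≤ π / 2 := div_le_div_of_nonneg_left pi_pos.le (by norm_num) hm2
  have hdepth : depth m v (bis m θ k) (cpt v r φ) = r * sin (π / m - |α|) := by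
    rw [depth_cpt _ _ _ hr, ← hα]
    have h1 : cos α = cos |α| := (cos_abs α).symm
    have h2 : |sin α| = sin |α| := by
      have hnn : 0 ≤ sin |α| := sin_nonneg_of_nonneg_of_le_pi (abs_nonneg _)
        (by rw [abs_le]; constructor <;> linarith [pi_pos])
      rcases abs_cases α with ⟨h, _⟩ | ⟨h, _⟩
      · rw [h] at hnn ⊢; exact abs_of_nonneg hnn
      · rw [h] at hnn ⊢; rw [sin_neg] at hnn ⊢
        rw [abs_of_nonpos (by linarith)]
    rw [h1, h2, sin_sub]
  -- the foot of the perpendicular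
  have hfoot : ∀ β ω : ℝ, 0 ≤ β → β ≤ π / 2 → (φ - ω = β ∨ φ - ω = -β) →
      dist (cpt v r φ) (v + (r * cos β) • dir ω) ≤ r * sin β := by
    intro β ω hβ0 hβ1 hβ
    rw [dist_eq_norm]
    have hsb : 0 ≤ sin β := sin_nonneg_of_nonneg_of_le_pi hβ0 (by linarith [pi_pos])
    apply le_of_sq_le_sq _ (by positivity)
    have e1 : cpt v r φ - (v + (r * cos β) • dir ω) = r • dir φ - (r * cos β) • dir ω := by
      unfold cpt; abel
    have hcos : cos (φ - ω) = cos β := by
      rcases hβ with h | h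
      · rw [h]
      · rw [h, cos_neg]
    have e2 : ‖r • dir φ - (r * cos β) • dir ω‖ ^ 2 = (r * sin β) ^ 2 := by
      rw [norm_sub_sq_real, norm_smul, norm_smul, inner_smul_left, inner_smul_right,
        inner_dir_dir, norm_dir, norm_dir, hcos]
      simp only [conj_trivial, mul_one, norm_mul, Real.norm_eq_abs, mul_pow, sq_abs]
      nlinarith [sin_sq_add_cos_sq β]
    rw [e1, e2]
  refine ⟨k, hkm, ?_⟩
  rw [hdepth]
  rcases le_total 0 α with h0 | h0
  · -- the nearest arm is `k+1`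
    rw [abs_of_nonneg h0]
    have hβ := hfoot (π / m - α) (θ + 2 * π * (k + 1 : ℕ) / m) (by linarith) (by linarith)
      (Or.inr (by
        rw [hα]; unfold bis; push_cast; field_simp; ring))
    have hcb : 0 ≤ cos (π / m - α) := cos_nonneg_of_neg_pi_div_two_le_of_le
      (by linarith [pi_pos]) (by linarith)
    rcases Nat.lt_or_ge (k + 1) m with hk' | hk'
    · exact ⟨_, ⟨k + 1, hk', _, mul_nonneg hr hcb, rfl⟩, hβ⟩
    · have hkm' : k + 1 = m := by omega
      refine ⟨_, ⟨0, by omega, _, mul_nonneg hr hcb, rfl⟩, ?_⟩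
      have e3 : dir (θ + 2 * π * ((0:ℕ):ℝ) / m) = dir (θ + 2 * π * ((k + 1 : ℕ) : ℝ) / m) := by
        rw [dir_eq_dir_iff]
        refine ⟨-1, ?_⟩
        rw [hkm']; push_cast; field_simp; ring
      rw [e3]; exact hβ
  · rw [abs_of_nonpos h0]
    have hβ := hfoot (π / m - -α) (θ + 2 * π * (k : ℕ) / m) (by linarith) (by linarith)
      (Or.inl (by
        rw [hα]; unfold bis; field_simp; ring))
    have hcb : 0 ≤ cos (π / m - -α) := cos_nonneg_of_neg_pi_div_two_le_of_le
      (by linarith [pi_pos]) (by linarith)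
    exact ⟨_, ⟨k, hkm, _, mul_nonneg hr hcb, rfl⟩, hβ⟩

lemma isLine_iff_star {K : Set E2} : IsLine K ↔ ∃ v θ, K = star 2 v θ := by
  have key : ∀ v θ, star 2 v θ = ray v (dir θ) ∪ ray v (-dir θ) := by
    intro v θ
    have e1 : dir (θ + 2 * π * ((1:ℕ):ℝ) / (2:ℕ)) = -dir θ := by
      apply ext_E2 <;> simp [cos_add, sin_add]
    ext y
    simp only [star, mem_ofPred_eq, mem_union]
    constructor
    · rintro ⟨k, hk, hy⟩
      interval_cases k
      · left; simpa using hy
      · right; rwa [e1] at hy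
    · rintro (hy | hy)
      · exact ⟨0, by norm_num, by simpa using hy⟩
      · exact ⟨1, by norm_num, by rwa [e1]⟩
  constructor
  · rintro ⟨x, e, he, rfl⟩
    obtain ⟨θ, _, rfl⟩ := exists_dir_eq e he 0
    exact ⟨x, θ, (key x θ).symm⟩
  · rintro ⟨v, θ, rfl⟩
    exact ⟨v, dir θ, norm_dir θ, key v θ⟩

lemma star_three (v : E2) (θ : ℝ) : star 3 v θ =
    ray v (dir θ) ∪ ray v (dir (θ + 2 * π / 3)) ∪ ray v (dir (θ - 2 * π / 3)) := by
  have e2 : dir (θ + 2 * π * ((2:ℕ):ℝ) / (3:ℕ)) = dir (θ - 2 * π / 3) := by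
    rw [dir_eq_dir_iff]
    refine ⟨1, ?_⟩
    push_cast; ring
  have e1 : dir (θ + 2 * π * ((1:ℕ):ℝ) / (3:ℕ)) = dir (θ + 2 * π / 3) := by
    congr 1; push_cast; ring
  ext y
  simp only [star, mem_ofPred_eq, mem_union]
  constructor
  · rintro ⟨k, hk, hy⟩
    interval_cases k
    · left; left; simpa using hy
    · left; right; rwa [e1] at hy
    · right; rwa [e2] at hy
  · rintro ((hy | hy) | hy)
    · exact ⟨0, by norm_num, by simpa using hy⟩
    · exact ⟨1, by norm_num, by rwa [e1]⟩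
    · exact ⟨2, by norm_num, by rwa [e2]⟩

lemma isProp_iff_star {K : Set E2} {x : E2} : IsProp K x ↔ ∃ θ, K = star 3 x θ := by
  unfold IsProp
  simp only [star_three]

lemma star_nonempty {m : ℕ} (hm : 2 ≤ m) (v : E2) (θ : ℝ) : (star m v θ).Nonempty :=
  ⟨v, 0, by omega, 0, le_refl _, by simp⟩

end Crest.Agent.R135.Phs
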