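import Crest.Agent.R135.Phs1
import Crest.Agent.R135.RegQM
import Crest.Agent.R135.QMBasic

/-!
# R135 / PHASE: the chain lemma (helper12)

In the regime where `K` is close to a line or a propeller at all small scales and the Dirichlet
energy is small at all small scales, the value `u z` at any point `z ∉ K` is almost equal to the
value of `u` at a point at distance `≥ c` from `K`.
-/

set_option autoImplicit false

noncomputable section

open MeasureTheory Set Filter Topology Metric Real
open scoped ENNReal NNReal ContDiff Gradient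

namespace Crest.Agent.R135.Phs

/-- nearest points exist -/
lemma exists_nearest {U K : Set E2} (hcl : closure K ∩ U ⊆ K) {z : E2} {r : ℝ}
    (hU : closedBall z r ⊆ U) {y : E2} (hy : y ∈ K) (hyz : dist z y ≤ r) :
    ∃ z' ∈ K, dist z z' = infDist z K := by
  have hclosed : IsClosed (K ∩ closedBall z r) := by
    rw [← closure_subset_iff_isClosed]
    intro p hp
    have h1 : p ∈ closedBall z r := by
      have := closure_mono (inter_subset_right : K ∩ closedBall z r ⊆ closedBall z r) hp
      rwa [isClosed_closedBall.closure_eq] at this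
    exact ⟨hcl ⟨closure_mono inter_subset_left hp, hU h1⟩, h1⟩
  have hcomp : IsCompact (K ∩ closedBall z r) :=
    (isCompact_closedBall z r).of_isClosed_subset hclosed inter_subset_right
  have hne : (K ∩ closedBall z r).Nonempty := ⟨y, hy, by rw [mem_closedBall, dist_comm]; exact hyz⟩
  obtain ⟨z', hz', he⟩ := hcomp.exists_infDist_eq_dist hne z
  refine ⟨z', hz'.1, ?_⟩
  rw [← he]
  apply le_antisymm
  · rw [Metric.le_infDist ⟨y, hy⟩]
    intro k hk
    by_cases hkr : dist z k ≤ r
    · exact Metric.infDist_le_dist_of_mem ⟨hk, by rw [mem_closedBall, dist_comm]; exact hkr⟩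
    · rw [not_le] at hkr
      refine le_trans ?_ hkr.le
      exact le_trans (Metric.infDist_le_dist_of_mem ⟨hy, by
        rw [mem_closedBall, dist_comm]; exact hyz⟩) hyz
  · exact Metric.infDist_le_infDist_of_subset inter_subset_left hne

/-- the variation of `u` along a segment which stays away from the crack -/
theorem seg_bound : ∃ C : ℝ, 0 < C ∧ ∀ {U K : Set E2} {lam : ℝ} {u : E2 → ℝ},
    IsQM U lam u K → ∀ (z z1 : E2) (R E : ℝ), 0 < R → 0 ≤ E →
    (∀ p ∈ segment ℝ z z1, ball p R ⊆ U \ K ∧ dirE u K (ball p R) ≤ ENNReal.ofReal E) →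
    |u z1 - u z| ≤ (C * √E / R + C * lam * R) * dist z z1 := by
  obtain ⟨C, hC, hb⟩ := IsQM.gradient_bound
  refine ⟨C, hC, ?_⟩
  intro U K lam u h z z1 R E hR hE hseg
  have h1 : ∀ p ∈ segment ℝ z z1, HasFDerivWithinAt u (fderiv ℝ u p) (segment ℝ z z1) p := by
    intro p hp
    have hp2 : p ∈ U \ K := (hseg p hp).1 (mem_ball_self hR)
    exact ((h.contDiffAt hp2).differentiableAt (by norm_num)).hasFDerivAt.hasFDerivWithinAt
  have h2 : ∀ p ∈ segment ℝ z z1, ‖fderiv ℝ u p‖ ≤ C * √E / R + C * lam * R := by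
    intro p hp
    have := hb h p R E hR (hseg p hp).1 hE (hseg p hp).2 p (mem_ball_self (by positivity))
    rwa [Crest.Agent.R097.norm_grad] at this
  have h3 := Convex.norm_image_sub_le_of_norm_hasFDerivWithin_le h1 h2
    (convex_segment z z1) (left_mem_segment ℝ z z1) (right_mem_segment ℝ z z1)
  rw [Real.norm_eq_abs, ← dist_eq_norm, dist_comm] at h3
  exact h3

lemma four_fifths_le_sin {m : ℕ} (hm : m = 2 ∨ m = 3) : 4 / 5 ≤ sin (π / m) := by
  rcases hm with rfl | rfl
  · norm_num
  · norm_num
    have : (8/5:ℝ) ≤ √3 := by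
      apply Real.le_sqrt_of_sq_le
      norm_num
    linarith

/-- Escape from the crack: geometric step. -/
lemma escape {K : Set E2} {z z' : E2} {d η : ℝ} (hd : 0 < d) (hz' : z' ∈ K)
    (hzz : dist z z' = d) (hn : ∀ k ∈ K, d ≤ dist z k) (hη : η ≤ 1 / 32)
    {m : ℕ} (hm : m = 2 ∨ m = 3) {v : E2} {θ : ℝ}
    (hcl : HClose (η * (8 * d)) z' (8 * d) K (star m v θ)) :
    ∃ b : E2, ‖b‖ = 1 ∧ (∀ t, 0 ≤ t → t ≤ 3 * d → ∀ k ∈ K, d / 2 ≤ dist (z + t • b) k) ∧
      ∀ k ∈ K, 2 * d ≤ dist (z + (3 * d) • b) k := by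
  have hm2 : 2 ≤ m := by omega
  obtain ⟨k0, hk0, y0, hy0, hdep⟩ := exists_sector hm2 v θ z
  have hs := four_fifths_le_sin hm
  -- the depth of `z`
  have hdz : d - η * (8 * d) ≤ depth m v (bis m θ k0) z := by
    refine le_trans ?_ hdep
    by_cases hb : y0 ∈ ball z' (8 * d)
    · obtain ⟨k, hk, hyk⟩ := hcl.2 y0 ⟨hy0, hb⟩
      have h1 := hn k hk
      have h2 := dist_triangle z y0 k
      linarith
    · rw [mem_ball, not_lt] at hb
      have h2 := dist_triangle y0 z z'
      rw [dist_comm y0 z] at h2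
      have h3 : dist y0 z' ≤ dist z y0 + d := by rw [← hzz]; linarith
      have h4 : 0 ≤ η := by
        by_contra hneg
        push Not at hneg
        obtain ⟨q, _, hq⟩ := hcl.1 z' ⟨hz', mem_ball_self (by positivity)⟩
        have := dist_nonneg.trans_lt hq
        nlinarith
      nlinarith
  set b := dir (bis m θ k0) with hb
  have hbn : ‖b‖ = 1 := norm_dir _
  have key : ∀ t, 0 ≤ t → ∀ k ∈ K,
      d - 2 * (η * (8 * d)) + 4 / 5 * t ≤ dist (z + t • b) k ∨
      7 * d - t ≤ dist (z + t • b) k := by
    intro t ht k hk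
    by_cases hkb : k ∈ ball z' (8 * d)
    · left
      obtain ⟨y1, hy1, hky⟩ := hcl.1 k ⟨hk, hkb⟩
      have h1 := depth_le_dist hm2 v θ hk0 hy1 (z + t • b)
      rw [hb, depth_add_smul] at h1
      rw [← hb] at h1
      have h2 := dist_triangle (z + t • b) k y1
      have h3 : 4 / 5 * t ≤ sin (π / m) * t := mul_le_mul_of_nonneg_right hs ht
      linarith
    · right
      rw [mem_ball, not_lt] at hkb
      have h2 := dist_triangle k (z + t • b) z'
      have h3 := dist_triangle (z + t • b) z z'
      have h4 : dist (z + t • b) z = t := by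
        rw [dist_eq_norm, add_sub_cancel_left, norm_smul, hbn, mul_one, Real.norm_eq_abs,
          abs_of_nonneg ht]
      rw [dist_comm k (z + t • b)] at h2
      linarith
  refine ⟨b, hbn, ?_, ?_⟩
  · intro t ht ht3 k hk
    rcases key t ht k hk with h | h
    · nlinarith
    · nlinarith
  · intro k hk
    rcases key (3 * d) (by positivity) k hk with h | h
    · nlinarith
    · nlinarith

/-- the regime: all points of `K` near `y`, all scales `≤ R` -/
structure Regime (U : Set E2) (u : E2 → ℝ) (K : Set E2) (y : E2) (R η : ℝ) : Prop where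
  sub : closedBall y (3 * R) ⊆ U
  fl : ∀ z ∈ K, dist z y ≤ R → ∀ s, 0 < s → s ≤ R →
    ∃ m : ℕ, (m = 2 ∨ m = 3) ∧ ∃ v θ, HClose (η * s) z s K (star m v θ)
  dr : ∀ z ∈ K, dist z y ≤ R → ∀ s, 0 < s → s ≤ R → Dr u K z s ≤ η * s

lemma Regime.mono {U : Set E2} {u : E2 → ℝ} {K : Set E2} {y : E2} {R R' η : ℝ}
    (h : Regime U u K y R η) (hR : R' ≤ R) : Regime U u K y R' η where
  sub := by
    intro x hx
    apply h.sub
    rw [mem_closedBall] at hx ⊢
    linarith
  fl := fun z hz hzy s hs hsR => h.fl z hz (hzy.trans hR) s hs (hsR.trans hR)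
  dr := fun z hz hzy s hs hsR => h.dr z hz (hzy.trans hR) s hs (hsR.trans hR)

lemma dirE_le_of_Dr {U K : Set E2} {lam : ℝ} {u : E2 → ℝ} (h : IsQM U lam u K) {z : E2} {s E : ℝ}
    (hU : closedBall z s ⊆ U) (hD : Dr u K z s ≤ E) :
    dirE u K (ball z s) ≤ ENNReal.ofReal E := by
  have hfin : dirE u K (ball z s) < ⊤ := h.dir_fin_ball hU
  unfold Dr at hD
  rw [← ENNReal.ofReal_toReal hfin.ne]
  exact ENNReal.ofReal_le_ofReal hD

lemma dirE_mono {u : E2 → ℝ} {K B B' : Set E2} (h : B ⊆ B') : dirE u K B ≤ dirE u K B' :=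
  lintegral_mono_set (sdiff_subset_sdiff_left h)

/-- **One step of the chain.** -/
theorem step : ∃ A : ℝ, 0 < A ∧ ∀ {U K : Set E2} {lam : ℝ} {u : E2 → ℝ}, IsQM U lam u K →
    ∀ {y : E2} {R η : ℝ}, Regime U u K y R η → y ∈ K → 0 ≤ η → η ≤ 1 / 32 → ∀ z : E2, z ∉ K →
    16 * infDist z K ≤ R → 2 * dist z y ≤ R → 0 < infDist z K →
    ∃ z1, dist z1 z ≤ 3 * infDist z K ∧ 2 * infDist z K ≤ infDist z1 K ∧
      |u z1 - u z| ≤ A * (√η * √(infDist z K) + lam * infDist z K ^ 2) := by
  obtain ⟨C, hC, hb⟩ := seg_bound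
  refine ⟨6 * √8 * C + 2 * C, by positivity, ?_⟩
  intro U K lam u h y R η hreg hy hη0 hη z hzK hdR hzR hd
  set d := infDist z K with hdd
  have hR0 : 0 < R := by linarith
  obtain ⟨z', hz', hzz⟩ : ∃ z' ∈ K, dist z z' = infDist z K := by
    refine exists_nearest (U := U) h.closed (r := R) ?_ hy (by linarith [dist_nonneg (x := z) (y := y)])
    refine (closedBall_subset_closedBall' ?_).trans hreg.sub
    linarith [dist_nonneg (x := z) (y := y)]
  rw [← hdd] at hzz
  have hz'y : dist z' y ≤ R := by
    have := dist_triangle z' z y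
    rw [dist_comm z' z, hzz] at this
    linarith
  obtain ⟨m, hm, v, θ, hcl⟩ := hreg.fl z' hz' hz'y (8 * d) (by positivity) (by linarith)
  have hD := hreg.dr z' hz' hz'y (8 * d) (by positivity) (by linarith)
  obtain ⟨b, hbn, hb1, hb2⟩ := escape hd hz' hzz (fun k hk => infDist_le_dist_of_mem hk) hη hm hcl
  have hUz' : closedBall z' (8 * d) ⊆ U :=
    (closedBall_subset_closedBall' (by linarith)).trans hreg.sub
  refine ⟨z + (3 * d) • b, ?_, ?_, ?_⟩
  · rw [dist_eq_norm, add_sub_cancel_left, norm_smul, hbn, mul_one, Real.norm_eq_abs,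
      abs_of_nonneg (by positivity)]
  · exact (Metric.le_infDist ⟨y, hy⟩).2 fun k hk => hb2 k hk
  · have hE : ∀ p ∈ segment ℝ z (z + (3 * d) • b), ball p (d / 2) ⊆ U \ K ∧
        dirE u K (ball p (d / 2)) ≤ ENNReal.ofReal (η * (8 * d)) := by
      intro p hp
      obtain ⟨t, ht0, ht1, rfl⟩ : ∃ t : ℝ, 0 ≤ t ∧ t ≤ 3 * d ∧ p = z + t • b := by
        rw [segment_eq_image'] at hp
        obtain ⟨s, ⟨hs0, hs1⟩, rfl⟩ := hp
        refine ⟨s * (3 * d), by positivity, by nlinarith, ?_⟩
        simp only [add_sub_cancel_left, smul_smul]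
      have hpd : dist (z + t • b) z = t := by
        rw [dist_eq_norm, add_sub_cancel_left, norm_smul, hbn, mul_one, Real.norm_eq_abs,
          abs_of_nonneg ht0]
      have hsub : ball (z + t • b) (d / 2) ⊆ ball z' (8 * d) := by
        apply ball_subset_ball'
        have := dist_triangle (z + t • b) z z'
        linarith
      refine ⟨fun q hq => ⟨hUz' (ball_subset_closedBall (hsub hq)), fun hqK => ?_⟩, ?_⟩
      · have h1 := hb1 t ht0 ht1 q hqK
        rw [mem_ball, dist_comm] at hq
        linarith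
      · exact (dirE_mono hsub).trans (dirE_le_of_Dr h hUz' hD)
    have h1 := hb h z (z + (3 * d) • b) (d / 2) (η * (8 * d)) (by positivity) (by positivity) hE
    have h2 : dist z (z + (3 * d) • b) = 3 * d := by
      rw [dist_comm, dist_eq_norm, add_sub_cancel_left, norm_smul, hbn, mul_one, Real.norm_eq_abs,
        abs_of_nonneg (by positivity)]
    rw [h2] at h1
    refine h1.trans ?_
    have h3 : √(η * (8 * d)) = √8 * (√η * √d) := by
      rw [Real.sqrt_mul hη0, Real.sqrt_mul (by norm_num)]; ring
    rw [h3]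
    have h4 : (C * (√8 * (√η * √d)) / (d / 2) + C * lam * (d / 2)) * (3 * d) =
        6 * √8 * C * (√η * √d) + 3 / 2 * C * (lam * d ^ 2) := by
      field_simp; ring
    rw [h4]
    have h5 : 0 ≤ √η * √d := by positivity
    have h6 : 0 ≤ lam * d ^ 2 := mul_nonneg h.lam_nonneg (sq_nonneg d)
    have h7 : 0 ≤ √8 * C := by positivity
    nlinarith

/-- **Chain lemma.** -/
theorem chain : ∃ A : ℝ, 0 < A ∧ ∀ {U K : Set E2} {lam : ℝ} {u : E2 → ℝ}, IsQM U lam u K →
    ∀ {y : E2} {R η : ℝ}, Regime U u K y R η → y ∈ K → 0 ≤ η → η ≤ 1 / 32 → 0 < R →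
    ∀ z : E2, z ∈ U \ K → 4 * dist z y ≤ R → 
    ∃ z1, R / 200 ≤ infDist z1 K ∧ dist z1 z ≤ 3 * R / 50 ∧
      |u z1 - u z| ≤ A * (√η + lam * (R * √R)) * √R := by
  obtain ⟨A, hA, hstep⟩ := step
  refine ⟨4 * A, by positivity, ?_⟩
  intro U K lam u h y R η hreg hy hη0 hη hR
  set c := R / 200 with hc
  have hc0 : 0 < c := by positivity
  have hlam := h.lam_nonneg
  -- the induction
  have main : ∀ n : ℕ, ∀ z : E2, z ∉ K → c / 2 ^ n ≤ infDist z K → infDist z K ≤ 4 * c →
      dist z y ≤ R / 4 + 3 * infDist z K →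
      ∃ z1, c ≤ infDist z1 K ∧ infDist z1 K ≤ 4 * c ∧
        dist z1 z ≤ 3 * (infDist z1 K - infDist z K) ∧
        |u z1 - u z| ≤ 4 * A * (√η + lam * (R * √R)) * (√(infDist z1 K) - √(infDist z K)) := by
    intro n
    induction n with
    | zero =>
      intro z hz h1 h2 _
      refine ⟨z, by simpa using h1, h2, by simp, by simp⟩
    | succ n ih =>
      intro z hz h1 h2 h3
      by_cases hbig : c ≤ infDist z K
      · exact ⟨z, hbig, h2, by simp, by simp⟩
      · push Not at hbig
        have hd0 : 0 < infDist z K := lt_of_lt_of_le (by positivity) h1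
        obtain ⟨w, hw1, hw2, hw3⟩ := hstep h hreg hy hη0 hη z hz (by linarith) (by linarith) hd0
        set d := infDist z K with hd
        have hw4 : infDist w K ≤ 4 * d := by
          have := Metric.infDist_le_infDist_add_dist (s := K) (x := w) (y := z)
          linarith
        have hwK : w ∉ K := by
          intro hwK
          rw [infDist_zero_of_mem hwK] at hw2
          linarith
        obtain ⟨z1, g1, g2, g3, g4⟩ := ih w hwK (by
            have : c / 2 ^ (n + 1) = c / 2 ^ n / 2 := by rw [pow_succ]; field_simp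
            rw [this] at h1; linarith) (by linarith) (by
            have := dist_triangle w z y
            linarith)
        refine ⟨z1, g1, g2, ?_, ?_⟩
        · have := dist_triangle z1 w z
          linarith
        · have e1 : |u z1 - u z| ≤ |u z1 - u w| + |u w - u z| := by
            have : u z1 - u z = (u z1 - u w) + (u w - u z) := by ring
            rw [this]; exact abs_add_le _ _
          -- increment
          have hsq : √d * (7 / 5) ≤ √(infDist w K) := by
            have : √d * (7 / 5) = √(d * (49 / 25)) := by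
              rw [Real.sqrt_mul hd0.le, show (49 / 25 : ℝ) = (7 / 5) ^ 2 by norm_num,
                Real.sqrt_sq (by norm_num)]
            rw [this]
            exact Real.sqrt_le_sqrt (by linarith)
          have hinc : A * (√η * √d + lam * d ^ 2) ≤
              4 * A * (√η + lam * (R * √R)) * (√(infDist w K) - √d) := by
            have f1 : √η * √d + lam * d ^ 2 ≤ (√η + lam * (R * √R)) * √d := by
              have : d ^ 2 = d * √d * √d := by
                rw [mul_assoc, Real.mul_self_sqrt hd0.le]; ring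
              rw [this, add_mul]
              have hdR : d ≤ R := by linarith
              have f2 : d * √d ≤ R * √R := by
                gcongr
              have f3 : lam * (d * √d * √d) ≤ lam * (R * √R) * √d := by
                have := mul_le_mul_of_nonneg_right f2 (Real.sqrt_nonneg d)
                nlinarith
              linarith
            have f4 : √d ≤ 4 * (√(infDist w K) - √d) := by
              have := Real.sqrt_nonneg d
              linarith
            have f5 : 0 ≤ √η + lam * (R * √R) := by positivity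
            calc A * (√η * √d + lam * d ^ 2) ≤ A * ((√η + lam * (R * √R)) * √d) := by gcongr
              _ ≤ A * ((√η + lam * (R * √R)) * (4 * (√(infDist w K) - √d))) := by gcongr
              _ = _ := by ring
          have e2 : 4 * A * (√η + lam * (R * √R)) * (√(infDist z1 K) - √d) =
              4 * A * (√η + lam * (R * √R)) * (√(infDist z1 K) - √(infDist w K)) +
              4 * A * (√η + lam * (R * √R)) * (√(infDist w K) - √d) := by ring
          rw [e2]
          linarith
  intro z hz hzy
  have hf5 : 0 ≤ √η + lam * (R * √R) := by positivity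
  by_cases hbig : c ≤ infDist z K
  · refine ⟨z, hbig, by simp; positivity, by simp; positivity⟩
  push Not at hbig
  have hpos : 0 < infDist z K := by
    have hne : K.Nonempty := ⟨y, hy⟩
    rcases (infDist_nonneg (x := z) (s := K)).eq_or_lt' with h0 | h0
    · exact absurd (h.closed ⟨(Metric.mem_closure_iff_infDist_zero hne).2 h0, hz.1⟩) hz.2
    · exact h0
  obtain ⟨n, hn⟩ : ∃ n : ℕ, c / 2 ^ n ≤ infDist z K := by
    obtain ⟨n, hn⟩ := pow_unbounded_of_one_lt (c / infDist z K) (by norm_num : (1:ℝ) < 2)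
    refine ⟨n, ?_⟩
    rw [div_le_iff₀ (by positivity)]
    rw [div_lt_iff₀ hpos] at hn
    linarith
  obtain ⟨z1, g1, g2, g3, g4⟩ := main n z hz.2 hn (by linarith) (by linarith)
  refine ⟨z1, g1, by linarith, g4.trans ?_⟩
  have : √(infDist z1 K) - √(infDist z K) ≤ √R := by
    have h1 : √(infDist z1 K) ≤ √R := Real.sqrt_le_sqrt (by linarith)
    have h2 := Real.sqrt_nonneg (infDist z K)
    linarith
  gcongr

end Crest.Agent.R135.Phs
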