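import Crest.Agent.R135.Phs2

/-!
# R135 / PHASE: values of `u` in the sectors (helper12)

`mk m y θ ρ k` is the marker point of the `k`-th sector.  In the regime of `Phs2` every value of `u`
in the ball is almost equal to the value at one of the markers.
-/

set_option autoImplicit false

noncomputable section

open MeasureTheory Set Filter Topology Metric Real
open scoped ENNReal NNReal ContDiff Gradient

namespace Crest.Agent.R135.Phs

/-- marker point of the `k`-th sector -/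
def mk (m : ℕ) (y : E2) (θ ρ : ℝ) (k : ℕ) : E2 := y + ρ • dir (bis m θ k)

lemma dist_mk (m : ℕ) (y : E2) (θ : ℝ) {ρ : ℝ} (hρ : 0 ≤ ρ) (k : ℕ) :
    dist (mk m y θ ρ k) y = ρ := by
  unfold mk
  rw [dist_eq_norm, add_sub_cancel_left, norm_smul, norm_dir, mul_one, Real.norm_eq_abs,
    abs_of_nonneg hρ]

lemma depth_self (m : ℕ) (v : E2) (ψ : ℝ) : depth m v ψ v = 0 := by
  unfold depth; simp

lemma depth_mk (m : ℕ) (y : E2) (θ ρ : ℝ) (k : ℕ) :
    depth m y (bis m θ k) (mk m y θ ρ k) = sin (π / m) * ρ := by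
  unfold mk
  rw [depth_add_smul, depth_self, zero_add]

/-- points which are deep in a sector are away from the crack -/
lemma far_of_depth {K : Set E2} {y : E2} {ρ ε a : ℝ} {m : ℕ} (hm : 2 ≤ m) {θ : ℝ}
    (hcl : HClose ε y (2 * ρ) K (star m y θ)) {k : ℕ} (hk : k < m) {p : E2}
    (hp : dist p y ≤ 3 / 2 * ρ) (ha : a + ε ≤ depth m y (bis m θ k) p) (ha2 : 2 * a ≤ ρ) :
    ∀ q ∈ K, a ≤ dist p q := by
  intro q hq
  by_cases hqb : q ∈ ball y (2 * ρ)
  · obtain ⟨y1, hy1, hqy⟩ := hcl.1 q ⟨hq, hqb⟩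
    have h1 := depth_le_dist hm y θ hk hy1 p
    have h2 := dist_triangle p q y1
    linarith
  · rw [mem_ball, not_lt] at hqb
    have h2 := dist_triangle q p y
    rw [dist_comm q p] at h2
    linarith

/-- two points deep in the same sector -/
theorem same_sector (a : ℝ) (ha : 0 < a) (ha1 : a ≤ 1 / 200) :
    ∃ A : ℝ, 0 < A ∧ ∀ {U K : Set E2} {lam : ℝ} {u : E2 → ℝ}, IsQM U lam u K →
    ∀ {y : E2} {ρ η ε : ℝ}, 0 < ρ → closedBall y (2 * ρ) ⊆ U → 0 ≤ η →
    Dr u K y (2 * ρ) ≤ η * (2 * ρ) → ∀ {m : ℕ}, 2 ≤ m → ∀ {θ : ℝ},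
    HClose ε y (2 * ρ) K (star m y θ) → ε ≤ a * ρ / 5 → ∀ {k : ℕ}, k < m → ∀ {p q : E2},
    dist p y ≤ 3 / 2 * ρ → dist q y ≤ 3 / 2 * ρ →
    a * ρ ≤ depth m y (bis m θ k) p → a * ρ ≤ depth m y (bis m θ k) q →
    |u q - u p| ≤ A * (√η + lam * (ρ * √ρ)) * √ρ := by
  obtain ⟨C, hC, hb⟩ := seg_bound
  refine ⟨15 / (4 * a) * √2 * C + C, by positivity, ?_⟩
  intro U K lam u h y ρ η ε hρ hU hη hD m hm θ hcl hε k hk p q hp hq hpd hqd
  have hlam := h.lam_nonneg
  have haρ : 0 < a * ρ := by positivity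
  have haρ1 : a * ρ ≤ ρ / 200 := by nlinarith
  have h1 := hb h p q (4 / 5 * (a * ρ)) (η * (2 * ρ)) (by positivity) (by positivity) (by
    intro w hw
    have hwd : a * ρ ≤ depth m y (bis m θ k) w := depth_segment hm y _ hpd hqd hw
    have hwy : dist w y ≤ 3 / 2 * ρ := by
      have := (convex_closedBall y (3 / 2 * ρ)).segment_subset
        (mem_closedBall.2 hp) (mem_closedBall.2 hq) hw
      exact mem_closedBall.1 this
    have hfar := far_of_depth (a := 4 / 5 * (a * ρ)) hm hcl hk hwy (by linarith) (by linarith)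
    have hsub : ball w (4 / 5 * (a * ρ)) ⊆ ball y (2 * ρ) := by
      apply ball_subset_ball'
      linarith
    refine ⟨fun z hz => ⟨hU (ball_subset_closedBall (hsub hz)), fun hzK => ?_⟩, ?_⟩
    · have h1 := hfar z hzK
      rw [mem_ball, dist_comm] at hz
      linarith
    · exact (dirE_mono hsub).trans (dirE_le_of_Dr h hU hD))
  refine h1.trans ?_
  have h2 : dist p q ≤ 3 * ρ := by
    have := dist_triangle_right p q y
    linarith
  have h3 : √(η * (2 * ρ)) = √2 * (√η * √ρ) := by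
    rw [Real.sqrt_mul hη, Real.sqrt_mul (by norm_num)]; ring
  rw [h3]
  have h4 : 0 ≤ C * (√2 * (√η * √ρ)) / (4 / 5 * (a * ρ)) + C * lam * (4 / 5 * (a * ρ)) := by
    positivity
  refine (mul_le_mul_of_nonneg_left h2 h4).trans ?_
  have h5 : (C * (√2 * (√η * √ρ)) / (4 / 5 * (a * ρ)) + C * lam * (4 / 5 * (a * ρ))) * (3 * ρ) =
      15 / (4 * a) * √2 * C * (√η * √ρ) + 12 / 5 * a * (C * (lam * (ρ * (√ρ * √ρ)))) := by
    rw [Real.mul_self_sqrt hρ.le]; field_simp; ring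
  rw [h5]
  have h6 : 0 ≤ √η * √ρ := by positivity
  have h7 : 0 ≤ lam * (ρ * (√ρ * √ρ)) := by positivity
  have h8 : 0 ≤ √2 * C := by positivity
  have h9 : (15 / (4 * a) * √2 * C + C) * (√η + lam * (ρ * √ρ)) * √ρ =
      (15 / (4 * a) * √2 * C) * (√η * √ρ) + C * (√η * √ρ)
       + (15 / (4 * a) * √2 * C) * (lam * (ρ * (√ρ * √ρ)))
       + C * (lam * (ρ * (√ρ * √ρ))) := by ring
  rw [h9]
  have h10 : 0 ≤ C * (√η * √ρ) := by positivity
  have h11 : 0 ≤ (15 / (4 * a) * √2 * C) * (lam * (ρ * (√ρ * √ρ))) := by positivity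
  have h12 : 0 ≤ C * (lam * (ρ * (√ρ * √ρ))) := by positivity
  nlinarith

/-- **Values in the ball.** With `ρ = R / 4`: every value of `u` in `ball y ρ` off `K` is almost one
of the marker values; deep points of a sector have the value of their own marker. -/
theorem values (a : ℝ) (ha : 0 < a) (ha1 : a ≤ 1 / 200) :
    ∃ A : ℝ, 0 < A ∧ ∀ {U K : Set E2} {lam : ℝ} {u : E2 → ℝ}, IsQM U lam u K →
    ∀ {y : E2} {ρ η ε : ℝ}, 0 < ρ → Regime U u K y (4 * ρ) η → y ∈ K → 0 ≤ η → η ≤ 1 / 32 →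
    ∀ {m : ℕ}, m = 2 ∨ m = 3 → ∀ {θ : ℝ},
    HClose ε y (2 * ρ) K (star m y θ) → ε ≤ a * ρ / 5 →
    (∀ z ∈ ball y ρ \ K, ∃ k < m,
      |u z - u (mk m y θ ρ k)| ≤ A * (√η + lam * (ρ * √ρ)) * √ρ ∧
      -(ρ / 4) ≤ depth m y (bis m θ k) z) ∧
    (∀ k < m, ∀ z ∈ ball y ρ, a * ρ ≤ depth m y (bis m θ k) z →
      z ∉ K ∧ |u z - u (mk m y θ ρ k)| ≤ A * (√η + lam * (ρ * √ρ)) * √ρ) := by
  obtain ⟨A1, hA1, hch⟩ := chain
  obtain ⟨A2, hA2, hss⟩ := same_sector a ha ha1
  refine ⟨16 * A1 + A2, by positivity, ?_⟩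
  intro U K lam u h y ρ η ε hρ hreg hy hη0 hη m hm θ hcl hε
  have haρ : 0 < a * ρ := by positivity
  have haρ1 : a * ρ ≤ ρ / 200 := by nlinarith
  have hlam := h.lam_nonneg
  have hm2 : 2 ≤ m := by omega
  have hU : closedBall y (2 * ρ) ⊆ U :=
    (closedBall_subset_closedBall (by linarith)).trans hreg.sub
  have hD : Dr u K y (2 * ρ) ≤ η * (2 * ρ) :=
    hreg.dr y hy (by simp; positivity) (2 * ρ) (by positivity) (by linarith)
  have hs := four_fifths_le_sin hm
  have hmkd : ∀ k, a * ρ ≤ depth m y (bis m θ k) (mk m y θ ρ k) := by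
    intro k
    rw [depth_mk]
    nlinarith
  have hmky : ∀ k, dist (mk m y θ ρ k) y ≤ 3 / 2 * ρ := by
    intro k
    rw [dist_mk _ _ _ hρ.le]; linarith
  have hnn : 0 ≤ (√η + lam * (ρ * √ρ)) * √ρ := by positivity
  constructor
  · intro z hz
    have hzy : dist z y < ρ := mem_ball.1 hz.1
    have hzU : z ∈ U \ K := ⟨hU (mem_closedBall.2 (by linarith)), hz.2⟩
    obtain ⟨z1, g1, g2, g3⟩ := hch h hreg hy hη0 hη (by positivity) z hzU (by linarith)
    obtain ⟨k, hk, y0, hy0, hdep⟩ := exists_sector hm2 y θ z1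
    have hz1y : dist z1 y ≤ 3 / 2 * ρ := by
      have := dist_triangle z1 z y
      linarith
    have hz1d : a * ρ ≤ depth m y (bis m θ k) z1 := by
      refine le_trans ?_ hdep
      by_cases hb : y0 ∈ ball y (2 * ρ)
      · obtain ⟨q, hq, hyq⟩ := hcl.2 y0 ⟨hy0, hb⟩
        have h1 := infDist_le_dist_of_mem (x := z1) hq
        have h2 := dist_triangle z1 y0 q
        linarith
      · rw [mem_ball, not_lt] at hb
        have h2 := dist_triangle y0 z1 y
        rw [dist_comm y0 z1] at h2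
        linarith
    refine ⟨k, hk, ?_, ?_⟩
    · have h1 := hss h hρ hU hη0 hD hm2 hcl hε hk (hmky k) hz1y (hmkd k) hz1d
      have h2 : |u z - u (mk m y θ ρ k)| ≤ |u z1 - u z| + |u z1 - u (mk m y θ ρ k)| := by
        have : u z - u (mk m y θ ρ k) = (u z1 - u (mk m y θ ρ k)) - (u z1 - u z) := by ring
        rw [this, add_comm]
        exact abs_sub _ _
      refine h2.trans ?_
      have h3 : √(4 * ρ) = 2 * √ρ := by
        rw [Real.sqrt_mul (by norm_num), show (4:ℝ) = 2 ^ 2 by norm_num,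
          Real.sqrt_sq (by norm_num)]
      rw [h3] at g3
      have h4 : A1 * (√η + lam * (4 * ρ * (2 * √ρ))) * (2 * √ρ) ≤
          16 * A1 * ((√η + lam * (ρ * √ρ)) * √ρ) := by
        have e1 : A1 * (√η + lam * (4 * ρ * (2 * √ρ))) * (2 * √ρ) =
          2 * A1 * (√η * √ρ) + 16 * A1 * (lam * (ρ * √ρ) * √ρ) := by ring
        have e2 : 16 * A1 * ((√η + lam * (ρ * √ρ)) * √ρ) =
          16 * A1 * (√η * √ρ) + 16 * A1 * (lam * (ρ * √ρ) * √ρ) := by ring
        rw [e1, e2]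
        have : 0 ≤ A1 * (√η * √ρ) := by positivity
        linarith
      have h5 : (16 * A1 + A2) * (√η + lam * (ρ * √ρ)) * √ρ =
          16 * A1 * ((√η + lam * (ρ * √ρ)) * √ρ) + A2 * (√η + lam * (ρ * √ρ)) * √ρ := by ring
      rw [h5]
      linarith
    · have h1 := depth_le_add hm2 y (bis m θ k) z1 z
      linarith
  · intro k hk z hz hzd
    have hzy : dist z y ≤ 3 / 2 * ρ := by
      have := mem_ball.1 hz
      linarith
    refine ⟨fun hzK => ?_, ?_⟩
    · have := far_of_depth (a := 4 / 5 * (a * ρ)) hm2 hcl hk hzy (by linarith) (by linarith) z hzK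
      rw [dist_self] at this
      linarith
    · have h1 := hss h hρ hU hη0 hD hm2 hcl hε hk (hmky k) hzy (hmkd k) hzd
      refine h1.trans ?_
      have h5 : (16 * A1 + A2) * (√η + lam * (ρ * √ρ)) * √ρ =
          16 * A1 * ((√η + lam * (ρ * √ρ)) * √ρ) + A2 * (√η + lam * (ρ * √ρ)) * √ρ := by ring
      rw [h5]
      have : 0 ≤ 16 * A1 * ((√η + lam * (ρ * √ρ)) * √ρ) := by positivity
      linarith

end Crest.Agent.R135.Phs
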