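import Crest.Agent.R135.Phs3
import Crest.Agent.R135.Conc3
import Crest.Agent.R135.Jump

/-!
# R135 / PHASE: the phases near a line or a propeller (helper12)
-/

set_option autoImplicit false

noncomputable section

open MeasureTheory Set Filter Topology Metric Real
open scoped ENNReal NNReal ContDiff Gradient

namespace Crest.Agent.R135.Phs

/-- selection of a good radius -/
lemma exists_good_radius {U K : Set E2} {lam : ℝ} {u : E2 → ℝ} (h : IsQM U lam u K) {y : E2}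
    {r : ℝ} (hr : 0 < r) (hU : closedBall y r ⊆ U) (hlam : lam * r ≤ 1)
    (hD : dirE u K (ball y r) ≤ ENNReal.ofReal (r / 8)) :
    ∃ s ∈ Ioo (r / 2) r, (K ∩ sphere y s).Finite ∧ (K ∩ sphere y s).ncard ≤ 33 ∧
      ENNReal.ofReal s * ∫⁻ θ in Ioo (-Real.pi) Real.pi, ‖∇ u (cpt y s θ)‖ₑ ^ 2 ≤
        ENNReal.ofReal 1 := by
  have hlam0 := h.lam_nonneg
  set T1 : Set ℝ := {t | t ∈ Ioo 0 r ∧ ((33 : ℕ) : ℕ∞) ≤ ((K ∩ closedBall y r) ∩ sphere y t).encard}
    with hT1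
  set T2 : Set ℝ := {t ∈ Ioo 0 r | ENNReal.ofReal 1 ≤
      ENNReal.ofReal t * ∫⁻ θ in Ioo (-Real.pi) Real.pi, ‖∇ u (cpt y t θ)‖ₑ ^ 2} with hT2
  have hlen : len (K ∩ closedBall y r) ≤ ENNReal.ofReal (8 * r) := by
    refine le_trans ?_ ((h.energy_le hr hU).trans (ENNReal.ofReal_le_ofReal ?_))
    · exact le_add_self
    · have := Real.pi_lt_d2
      nlinarith
  have hv1 : volume T1 ≤ ENNReal.ofReal (8 * r / 33) := by
    have h1 := mul_volume_radii_le (K ∩ closedBall y r) y T1 33 (fun t ht => ht.2)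
    have h2 : ((33 : ℕ) : ℝ≥0∞) * volume T1 ≤ ENNReal.ofReal (8 * r) := h1.trans hlen
    rw [ENNReal.ofReal_div_of_pos (by norm_num)]
    rw [ENNReal.le_div_iff_mul_le (by simp) (by simp), mul_comm]
    convert h2 using 2
    norm_num
  have hv2 : volume T2 ≤ ENNReal.ofReal (r / 8 / 1) := by
    have hm : Measurable (fun z => ‖∇ u z‖ₑ ^ 2) := (measurable_gradient _).enorm.pow_const 2
    refine volume_bad_radii_le hm one_pos ?_
    refine le_trans (le_of_eq ?_) hD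
    unfold dirE
    exact setLIntegral_congr (sdiff_null_ae_eq_self h.volume_K).symm
  have hex : ∃ s ∈ Ioo (r / 2) r, s ∉ T1 ∪ T2 := by
    by_contra hcon
    push Not at hcon
    have h1 : volume (Ioo (r / 2) r) ≤ volume (T1 ∪ T2) := measure_mono hcon
    have h2 := (h1.trans (measure_union_le _ _)).trans (add_le_add hv1 hv2)
    rw [Real.volume_Ioo, ← ENNReal.ofReal_add (by positivity) (by positivity),
      ENNReal.ofReal_le_ofReal_iff (by positivity)] at h2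
    linarith
  obtain ⟨s, hs, hsT⟩ := hex
  have hs0 : 0 < s := by have := hs.1; linarith
  have hs1 : s ∉ T1 := fun hc => hsT (Or.inl hc)
  have hs2 : s ∉ T2 := fun hc => hsT (Or.inr hc)
  have he : (K ∩ closedBall y r) ∩ sphere y s = K ∩ sphere y s := by
    ext p
    constructor
    · rintro ⟨⟨h1, _⟩, h2⟩; exact ⟨h1, h2⟩
    · rintro ⟨h1, h2⟩
      refine ⟨⟨h1, ?_⟩, h2⟩
      rw [mem_closedBall, mem_sphere.1 h2]; exact hs.2.le
  have hcard : (K ∩ sphere y s).encard < ((33 : ℕ) : ℕ∞) := by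
    rw [← not_le, ← he]
    exact fun hc => hs1 ⟨⟨hs0, hs.2⟩, hc⟩
  have hfin : (K ∩ sphere y s).Finite := by
    rw [← encard_lt_top_iff]
    exact hcard.trans (by exact_mod_cast ENat.natCast_lt_top 33)
  refine ⟨s, hs, hfin, ?_, ?_⟩
  · rw [← hfin.cast_ncard_eq] at hcard
    have : (K ∩ sphere y s).ncard < 33 := by exact_mod_cast hcard
    omega
  · by_contra hcon
    exact hs2 ⟨⟨hs0, hs.2⟩, (not_le.1 hcon).le⟩

/-- for two distinct sectors there is an arm which is far from the other sectors -/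
lemma exists_arm (y : E2) (θ : ℝ) {ρ : ℝ} (hρ : 0 < ρ) {m : ℕ} (hm : m = 2 ∨ m = 3) {k l : ℕ}
    (hk : k < m) (hl : l < m) (hkl : k ≠ l) :
    ∃ a < m, ∀ j < m, j ≠ k → j ≠ l →
      depth m y (bis m θ j) (y + (ρ / 2) • dir (θ + 2 * π * a / m)) ≤ -(2 / 5 * ρ) := by
  rcases hm with rfl | rfl
  · exact ⟨0, by norm_num, fun j hj h1 h2 => by omega⟩
  · have hs := four_fifths_le_sin (m := 3) (Or.inr rfl)
    have key : ∀ a j : ℕ, (θ + 2 * π * a / (3:ℕ) - bis 3 θ j = π ∨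
        θ + 2 * π * a / (3:ℕ) - bis 3 θ j = -π) →
        depth 3 y (bis 3 θ j) (y + (ρ / 2) • dir (θ + 2 * π * a / (3:ℕ))) ≤ -(2 / 5 * ρ) := by
      intro a j haj
      have e := depth_cpt 3 y (bis 3 θ j) (by positivity : 0 ≤ ρ / 2) (θ + 2 * π * a / (3:ℕ))
      unfold cpt at e
      rw [e]
      have hc : cos (θ + 2 * π * a / (3:ℕ) - bis 3 θ j) = -1 := by
        rcases haj with h | h <;> rw [h] <;> simp
      have hsn : sin (θ + 2 * π * a / (3:ℕ) - bis 3 θ j) = 0 := by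
        rcases haj with h | h <;> rw [h] <;> simp
      rw [hc, hsn, abs_zero, mul_zero]
      nlinarith
    -- the third sector
    have h3 : ∃ a < 3, ∀ j < 3, j ≠ k → j ≠ l → (θ + 2 * π * (a:ℕ) / (3:ℕ) - bis 3 θ j = π ∨
        θ + 2 * π * (a:ℕ) / (3:ℕ) - bis 3 θ j = -π) := by
      by_cases h0 : k ≠ 0 ∧ l ≠ 0
      · refine ⟨2, by norm_num, ?_⟩
        intro j hj h1 h2
        have : j = 0 := by omega
        subst this
        left; unfold bis; push_cast; ring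
      · by_cases h1 : k ≠ 1 ∧ l ≠ 1
        · refine ⟨0, by norm_num, ?_⟩
          intro j hj h1 h2
          have : j = 1 := by omega
          subst this
          right; unfold bis; push_cast; ring
        · refine ⟨1, by norm_num, ?_⟩
          intro j hj h1 h2
          have : j = 2 := by omega
          subst this
          right; unfold bis; push_cast; ring
    obtain ⟨a, ha, h⟩ := h3
    exact ⟨a, ha, fun j hj h1 h2 => key a j (h j hj h1 h2)⟩

/-- **Jumps between the sectors.** -/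
theorem jump_values : ∃ κ : ℝ, 0 < κ ∧ ∃ η0 : ℝ, 0 < η0 ∧
    ∀ {U K : Set E2} {lam : ℝ} {u : E2 → ℝ}, IsSQM U lam u K →
    ∀ {y : E2} {ρ ε : ℝ}, 0 < ρ → ρ ≤ 1 → lam * ρ ≤ η0 → Regime U u K y (4 * ρ) η0 → y ∈ K →
    ∀ {m : ℕ}, m = 2 ∨ m = 3 → ∀ {θ : ℝ},
    HClose ε y (2 * ρ) K (star m y θ) → ε ≤ ρ / 1000 → ∀ k < m, ∀ l < m, k ≠ l →
      κ * √ρ ≤ |u (mk m y θ ρ k) - u (mk m y θ ρ l)| := by
  obtain ⟨κ0, hκ0, l0, hl0, hj⟩ := jump 33 1 zero_le_one
  obtain ⟨A, hA, hval⟩ := values (1 / 200) (by norm_num) le_rfl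
  set δ := κ0 / 24 with hδ
  have hδ0 : 0 < δ := by positivity
  obtain ⟨η0, hη0, hη1, hη2, hη3, hη4⟩ : ∃ η0 : ℝ, 0 < η0 ∧ η0 ≤ 1 / 32 ∧ η0 ≤ l0 ∧
      A * √η0 ≤ δ / 2 ∧ A * η0 ≤ δ / 2 := by
    refine ⟨min (min (1 / 32) l0) (min ((δ / (2 * A)) ^ 2) (δ / (2 * A))), by positivity,
      (min_le_left _ _).trans (min_le_left _ _), (min_le_left _ _).trans (min_le_right _ _), ?_, ?_⟩
    · have h1 : √(min (min (1 / 32) l0) (min ((δ / (2 * A)) ^ 2) (δ / (2 * A)))) ≤ δ / (2 * A) := by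
        rw [Real.sqrt_le_left (by positivity)]
        exact (min_le_right _ _).trans (min_le_left _ _)
      calc _ ≤ A * (δ / (2 * A)) := by gcongr
        _ = δ / 2 := by field_simp
    · have h1 : min (min (1 / 32) l0) (min ((δ / (2 * A)) ^ 2) (δ / (2 * A))) ≤ δ / (2 * A) :=
        (min_le_right _ _).trans (min_le_right _ _)
      calc _ ≤ A * (δ / (2 * A)) := by gcongr
        _ = δ / 2 := by field_simp
  refine ⟨δ, hδ0, η0, hη0, ?_⟩
  intro U K lam u h y ρ ε hρ hρ1 hlam hreg hy m hm θ hcl hε k hk l hl hkl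
  have hm2 : 2 ≤ m := by omega
  have hm0 : (0:ℝ) < m := by exact_mod_cast (by omega : 0 < m)
  have hlam0 := h.lam_nonneg
  obtain ⟨hv1, _⟩ := hval h.toIsQM hρ hreg hy hη0.le hη1 hm hcl (by linarith)
  have hδρ : A * (√η0 + lam * (ρ * √ρ)) * √ρ ≤ δ * √ρ := by
    gcongr
    have h1 : √ρ ≤ 1 := by
      rw [Real.sqrt_le_one]; exact hρ1
    have h2 : lam * (ρ * √ρ) ≤ η0 := by
      have : lam * ρ * √ρ ≤ lam * ρ * 1 := by gcongr
      nlinarith
    nlinarith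
  by_contra hcon
  push Not at hcon
  obtain ⟨a, ha, harm⟩ := exists_arm y θ hρ hm hk hl hkl
  set P := y + (ρ / 2) • dir (θ + 2 * π * a / m) with hP
  have hPs : P ∈ star m y θ := ⟨a, ha, ρ / 2, by positivity, rfl⟩
  have hPy : dist P y = ρ / 2 := by
    rw [hP, dist_eq_norm, add_sub_cancel_left, norm_smul, norm_dir, mul_one, Real.norm_eq_abs,
      abs_of_nonneg (by positivity)]
  obtain ⟨y', hy', hPy'⟩ := hcl.2 P ⟨hPs, by rw [mem_ball, hPy]; linarith⟩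
  have hy'y : dist y' y ≤ 3 / 5 * ρ := by
    have := dist_triangle y' P y
    rw [dist_comm y' P] at this
    linarith
  have hUy' : closedBall y' (ρ / 16) ⊆ U :=
    (closedBall_subset_closedBall' (by linarith)).trans hreg.sub
  have hD := hreg.dr y' hy' (by linarith) (ρ / 16) (by positivity) (by linarith)
  have hD2 : dirE u K (ball y' (ρ / 16)) ≤ ENNReal.ofReal (ρ / 16 / 8) :=
    dirE_le_of_Dr h.toIsQM hUy' (hD.trans (by nlinarith))
  obtain ⟨s, hs, hfin, hN, hE⟩ := exists_good_radius h.toIsQM (by positivity : 0 < ρ / 16) hUy'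
    (by nlinarith) hD2
  have hs0 : 0 < s := by have := hs.1; linarith
  have hmain := hj h y' hy' s hs0 (by have := hs.2; linarith)
    ((closedBall_subset_closedBall hs.2.le).trans hUy')
    (by
      have h1 : lam * s ≤ lam * ρ := mul_le_mul_of_nonneg_left (by have := hs.2; linarith) hlam0
      linarith) hfin hN hE
    (u (mk m y θ ρ k)) (12 * δ) ?_ (by positivity)
  · rw [hδ] at hmain
    linarith
  · intro z hz
    have hzs : dist z y' = s := mem_sphere.1 hz.1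
    have hzP : dist z P ≤ ρ / 16 + ρ / 1000 := by
      have := dist_triangle z y' P
      rw [dist_comm y' P] at this
      have := hs.2
      linarith
    have hzy : z ∈ ball y ρ \ K := by
      refine ⟨?_, hz.2⟩
      rw [mem_ball]
      have := dist_triangle z P y
      linarith
    obtain ⟨j, hj1, hj2, hj3⟩ := hv1 z hzy
    have hjkl : j = k ∨ j = l := by
      by_contra hne
      push Not at hne
      have h1 := harm j hj1 hne.1 hne.2
      have h2 := depth_le_add hm2 y (bis m θ j) z P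
      linarith
    have h5 : |u z - u (mk m y θ ρ k)| ≤ 2 * δ * √ρ := by
      rcases hjkl with rfl | rfl
      · have : 0 ≤ δ * √ρ := by positivity
        linarith
      · have e : u z - u (mk m y θ ρ k) = (u z - u (mk m y θ ρ j)) +
            -(u (mk m y θ ρ k) - u (mk m y θ ρ j)) := by ring
        rw [e]
        refine (abs_add_le _ _).trans ?_
        rw [abs_neg]
        linarith
    have h6 : √ρ ≤ 6 * √s := by
      have : √ρ ≤ √(36 * s) := Real.sqrt_le_sqrt (by have := hs.1; linarith)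
      rwa [Real.sqrt_mul (by norm_num), show (36:ℝ) = 6 ^ 2 by norm_num,
        Real.sqrt_sq (by norm_num)] at this
    calc |u z - u (mk m y θ ρ k)| ≤ 2 * δ * √ρ := h5
      _ ≤ 2 * δ * (6 * √s) := by gcongr
      _ = 12 * δ * √s := by ring

/-- **PHASE.** Near a line (`m = 2`) or a propeller (`m = 3`) the complement of the crack splits
into `m` separated phases (general thresholds `δ` for the values and `a` for the depth). -/
theorem phase_gen : ∃ κ : ℝ, 0 < κ ∧ ∀ δ a : ℝ, 0 < δ → 0 < a → a ≤ 1 / 200 → ∃ η0 : ℝ, 0 < η0 ∧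
    ∀ {U K : Set E2} {lam : ℝ} {u : E2 → ℝ}, IsSQM U lam u K →
    ∀ {y : E2} {ρ ε : ℝ}, 0 < ρ → ρ ≤ 1 → lam * ρ ≤ η0 → Regime U u K y (4 * ρ) η0 → y ∈ K →
    ∀ {m : ℕ}, m = 2 ∨ m = 3 → ∀ {θ : ℝ},
    HClose ε y (2 * ρ) K (star m y θ) → ε ≤ a * ρ / 5 →
    ∃ (χ : E2 → ℝ) (c : ℕ → ℝ), LocConstOn (ball y ρ \ K) χ ∧
      (∀ z ∈ ball y ρ \ K, ∃ k < m, χ z = (k : ℝ) ∧ |u z - c k| ≤ δ * √ρ) ∧
      (∀ k < m, ∀ z ∈ ball y ρ, a * ρ ≤ depth m y (bis m θ k) z → z ∉ K ∧ χ z = (k : ℝ)) ∧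
      (∀ k < m, ∀ l < m, k ≠ l → κ * √ρ ≤ |c k - c l|) := by
  obtain ⟨κ, hκ, η1, hη1, hjv⟩ := jump_values
  refine ⟨κ, hκ, ?_⟩
  intro δ' a hδ' ha ha1
  obtain ⟨A, hA, hval⟩ := values a ha ha1
  set δ := min δ' (κ / 8) with hδ
  have hδ0 : 0 < δ := by positivity
  have hδκ : δ ≤ κ / 8 := min_le_right _ _
  obtain ⟨η0, hη0, hη01, hη2, hη3, hη4⟩ : ∃ η0 : ℝ, 0 < η0 ∧ η0 ≤ 1 / 32 ∧ η0 ≤ η1 ∧
      A * √η0 ≤ δ / 2 ∧ A * η0 ≤ δ / 2 := by
    refine ⟨min (min (1 / 32) η1) (min ((δ / (2 * A)) ^ 2) (δ / (2 * A))), by positivity,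
      (min_le_left _ _).trans (min_le_left _ _), (min_le_left _ _).trans (min_le_right _ _), ?_, ?_⟩
    · have h1 : √(min (min (1 / 32) η1) (min ((δ / (2 * A)) ^ 2) (δ / (2 * A)))) ≤ δ / (2 * A) := by
        rw [Real.sqrt_le_left (by positivity)]
        exact (min_le_right _ _).trans (min_le_left _ _)
      calc _ ≤ A * (δ / (2 * A)) := by gcongr
        _ = δ / 2 := by field_simp
    · have h1 : min (min (1 / 32) η1) (min ((δ / (2 * A)) ^ 2) (δ / (2 * A))) ≤ δ / (2 * A) :=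
        (min_le_right _ _).trans (min_le_right _ _)
      calc _ ≤ A * (δ / (2 * A)) := by gcongr
        _ = δ / 2 := by field_simp
  refine ⟨η0, hη0, ?_⟩
  intro U K lam u h y ρ ε hρ hρ1 hlam hreg hy m hm θ hcl hε
  have hlam0 := h.lam_nonneg
  have hreg1 : Regime U u K y (4 * ρ) η1 := by
    refine ⟨hreg.sub, ?_, ?_⟩
    · intro z hz hzy s hs hsR
      obtain ⟨m, hm, v, θ, hc⟩ := hreg.fl z hz hzy s hs hsR
      have hle : η0 * s ≤ η1 * s := mul_le_mul_of_nonneg_right hη2 hs.le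
      refine ⟨m, hm, v, θ, ?_, ?_⟩
      · intro w hw
        obtain ⟨q, hq, hd⟩ := hc.1 w hw
        exact ⟨q, hq, hd.trans_le hle⟩
      · intro w hw
        obtain ⟨q, hq, hd⟩ := hc.2 w hw
        exact ⟨q, hq, hd.trans_le hle⟩
    · intro z hz hzy s hs hsR
      exact (hreg.dr z hz hzy s hs hsR).trans (mul_le_mul_of_nonneg_right hη2 hs.le)
  obtain ⟨hv1, hv2⟩ := hval h.toIsQM hρ hreg hy hη0.le hη01 hm hcl hε
  have hjmp := hjv h hρ hρ1 (hlam.trans hη2) hreg1 hy hm hcl (by nlinarith)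
  have hδρ : A * (√η0 + lam * (ρ * √ρ)) * √ρ ≤ δ * √ρ := by
    gcongr
    have h1 : √ρ ≤ 1 := by
      rw [Real.sqrt_le_one]; exact hρ1
    have h2 : lam * (ρ * √ρ) ≤ η0 := by
      have : lam * ρ * √ρ ≤ lam * ρ * 1 := by gcongr
      nlinarith
    nlinarith
  have hsρ : 0 < √ρ := Real.sqrt_pos.2 hρ
  set c : ℕ → ℝ := fun k => u (mk m y θ ρ k) with hc
  have hex : ∀ z ∈ ball y ρ \ K, ∃ k < m, |u z - c k| ≤ δ * √ρ := by
    intro z hz
    obtain ⟨k, hk, h1, _⟩ := hv1 z hz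
    exact ⟨k, hk, h1.trans hδρ⟩
  -- uniqueness
  have huniq : ∀ a b : ℝ, ∀ k < m, ∀ l < m, |a - c k| ≤ δ * √ρ → |b - c l| ≤ δ * √ρ →
      |a - b| ≤ 4 * δ * √ρ → k = l := by
    intro a b k hk l hl h1 h2 h3
    by_contra hkl
    have h4 := hjmp k hk l hl hkl
    have h5 : |c k - c l| ≤ 6 * δ * √ρ := by
      have e : c k - c l = -(a - c k) + (a - b) + (b - c l) := by ring
      rw [e]
      refine (abs_add_three _ _ _).trans ?_
      rw [abs_neg]
      linarith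
    have h6 : κ * √ρ ≤ 6 * δ * √ρ := h4.trans h5
    have h7 : κ ≤ 6 * δ := le_of_mul_le_mul_right h6 hsρ
    linarith
  classical
  set χ : E2 → ℝ := fun z => if hz : z ∈ ball y ρ \ K then ((hex z hz).choose : ℝ) else 0 with hχ
  have hχ1 : ∀ z ∈ ball y ρ \ K, ∃ k < m, χ z = (k : ℝ) ∧ |u z - c k| ≤ δ * √ρ := by
    intro z hz
    refine ⟨(hex z hz).choose, (hex z hz).choose_spec.1, ?_, (hex z hz).choose_spec.2⟩
    simp only [hχ, dif_pos hz]
  have hUball : ball y ρ ⊆ U :=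
    (ball_subset_closedBall.trans (closedBall_subset_closedBall (by linarith))).trans hreg.sub
  have hopen : IsOpen (ball y ρ \ K) := by
    have : ball y ρ \ K = ball y ρ ∩ (U \ K) := by
      ext z
      exact ⟨fun hz => ⟨hz.1, hUball hz.1, hz.2⟩, fun hz => ⟨hz.1, hz.2.2⟩⟩
    rw [this]
    exact isOpen_ball.inter h.toIsQM.isOpen_diff
  refine ⟨χ, c, ?_, ?_, ?_, ?_⟩
  · intro z hz
    have hcont : ContinuousAt u z := (h.toIsQM.contDiffAt ⟨hUball hz.1, hz.2⟩).continuousAt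
    have h1 : ∀ᶠ w in 𝓝 z, dist (u w) (u z) < δ * √ρ :=
      hcont.eventually (Metric.ball_mem_nhds (u z) (by positivity))
    filter_upwards [h1, hopen.mem_nhds hz] with w hw1 hw2
    obtain ⟨k, hk, e1, h2⟩ := hχ1 w hw2
    obtain ⟨l, hl, e2, h3⟩ := hχ1 z hz
    rw [e1, e2]
    rw [Real.dist_eq] at hw1
    have : k = l := huniq (u w) (u z) k hk l hl h2 h3 (by
      have : 0 ≤ δ * √ρ := by positivity
      linarith)
    rw [this]
  · intro z hz
    obtain ⟨k, hk, e1, h2⟩ := hχ1 z hz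
    exact ⟨k, hk, e1, h2.trans (by gcongr; exact min_le_left _ _)⟩
  · intro k hk z hz hzd
    obtain ⟨hzK, h1⟩ := hv2 k hk z hz hzd
    refine ⟨hzK, ?_⟩
    obtain ⟨l, hl, e2, h3⟩ := hχ1 z ⟨hz, hzK⟩
    rw [e2]
    have : l = k := huniq (u z) (u z) l hl k hk h3 (h1.trans hδρ) (by simp; positivity)
    rw [this]
  · exact hjmp

/-- **PHASE** with depth threshold `ρ / 200`. -/
theorem phase : ∃ κ : ℝ, 0 < κ ∧ ∀ δ : ℝ, 0 < δ → ∃ η0 : ℝ, 0 < η0 ∧
    ∀ {U K : Set E2} {lam : ℝ} {u : E2 → ℝ}, IsSQM U lam u K →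
    ∀ {y : E2} {ρ ε : ℝ}, 0 < ρ → ρ ≤ 1 → lam * ρ ≤ η0 → Regime U u K y (4 * ρ) η0 → y ∈ K →
    ∀ {m : ℕ}, m = 2 ∨ m = 3 → ∀ {θ : ℝ},
    HClose ε y (2 * ρ) K (star m y θ) → ε ≤ ρ / 1000 →
    ∃ (χ : E2 → ℝ) (c : ℕ → ℝ), LocConstOn (ball y ρ \ K) χ ∧
      (∀ z ∈ ball y ρ \ K, ∃ k < m, χ z = (k : ℝ) ∧ |u z - c k| ≤ δ * √ρ) ∧
      (∀ k < m, ∀ z ∈ ball y ρ, ρ / 200 ≤ depth m y (bis m θ k) z → z ∉ K ∧ χ z = (k : ℝ)) ∧
      (∀ k < m, ∀ l < m, k ≠ l → κ * √ρ ≤ |c k - c l|) := by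
  obtain ⟨κ, hκ, hgen⟩ := phase_gen
  refine ⟨κ, hκ, fun δ hδ => ?_⟩
  obtain ⟨η0, hη0, H⟩ := hgen δ (1 / 200) hδ (by norm_num) le_rfl
  refine ⟨η0, hη0, ?_⟩
  intro U K lam u h y ρ ε hρ hρ1 hlam hreg hy m hm θ hcl hε
  obtain ⟨χ, c, h1, h2, h3, h4⟩ := H h hρ hρ1 hlam hreg hy hm hcl (by linarith)
  exact ⟨χ, c, h1, h2, fun k hk z hz hd => h3 k hk z hz (by linarith), h4⟩

end Crest.Agent.R135.Phs
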