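import Mathlib

/-!
# Row 135 (Mumford-Shah): asymptotic Arzelà-Ascoli theorem (regularity toolbox, part 8)
-/

set_option autoImplicit false
open Metric Set Filter Topology

namespace Crest.Agent.R135.Reg

/-- diagonal extraction -/
theorem exists_diag {ι F : Type*} [Countable ι] [NormedAddCommGroup F] [ProperSpace F]
    (g : ℕ → ι → F) (hb : ∀ i, ∃ M : ℝ, ∀ᶠ n in atTop, ‖g n i‖ ≤ M) :
    ∃ φ : ℕ → ℕ, StrictMono φ ∧ ∃ a : ι → F, ∀ i, Tendsto (fun n => g (φ n) i) atTop (𝓝 (a i)) := by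
  classical
  choose M hM using hb
  set g' : ℕ → ι → F := fun n i => if ‖g n i‖ ≤ M i then g n i else 0 with hg'
  set S : Set (ι → F) := Set.pi univ fun i => closedBall (0 : F) (max (M i) 0) with hS
  have hSc : IsCompact S := isCompact_univ_pi fun i => isCompact_closedBall _ _
  have hmem : ∀ n, g' n ∈ S := by
    intro n i _
    rw [mem_closedBall_zero_iff]
    simp only [hg']
    split_ifs with h
    · exact h.trans (le_max_left _ _)
    · rw [norm_zero]; exact le_max_right _ _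
  obtain ⟨a, -, φ, hφ, ha⟩ := hSc.tendsto_subseq hmem
  refine ⟨φ, hφ, a, fun i => ?_⟩
  have h1 : Tendsto (fun n => g' (φ n) i) atTop (𝓝 (a i)) := (tendsto_pi_nhds.mp ha) i
  refine h1.congr' ?_
  filter_upwards [hφ.tendsto_atTop.eventually (hM i)] with n hn
  simp only [hg', hn, if_true]

/-- **Asymptotic Arzelà-Ascoli.** A sequence which is eventually bounded at each point and
asymptotically equicontinuous at each point of `W` has a subsequence converging locally
uniformly on `W`. -/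
theorem exists_locUnif {X F : Type*} [PseudoMetricSpace X] [SecondCountableTopology X]
    [NormedAddCommGroup F] [ProperSpace F] {W : Set X} (hW : IsOpen W) (g : ℕ → X → F)
    (hb : ∀ x ∈ W, ∃ M : ℝ, ∀ᶠ n in atTop, ‖g n x‖ ≤ M)
    (he : ∀ x ∈ W, ∀ ε > 0, ∃ δ > 0, ∀ᶠ n in atTop, ∀ y ∈ ball x δ, ‖g n y - g n x‖ ≤ ε) :
    ∃ φ : ℕ → ℕ, StrictMono φ ∧ ∃ a : X → F,
      TendstoLocallyUniformlyOn (fun n => g (φ n)) a atTop W := by
  classical
  obtain ⟨D, hDc, hD⟩ := TopologicalSpace.exists_countable_dense X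
  have hcount : Countable (D ∩ W : Set X) := (hDc.mono inter_subset_left).to_subtype
  obtain ⟨φ, hφ, a0, ha0⟩ := exists_diag (fun n (i : (D ∩ W : Set X)) => g n i)
    (fun i => hb i i.2.2)
  refine ⟨φ, hφ, ?_⟩
  have hcauchy : ∀ x ∈ W, CauchySeq fun n => g (φ n) x := by
    intro x hx
    rw [Metric.cauchySeq_iff]
    intro ε hε
    obtain ⟨δ, hδ, hδe⟩ := he x hx (ε / 4) (by positivity)
    obtain ⟨r, hr, hrW⟩ := Metric.isOpen_iff.mp hW x hx
    obtain ⟨s, hsD, hs⟩ := hD.exists_dist_lt x (lt_min hδ hr)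
    have hsW : s ∈ W := hrW (by rw [mem_ball, dist_comm]; exact hs.trans_le (min_le_right _ _))
    have hsδ : s ∈ ball x δ := by rw [mem_ball, dist_comm]; exact hs.trans_le (min_le_left _ _)
    have h1 := (ha0 ⟨s, hsD, hsW⟩).cauchySeq
    rw [Metric.cauchySeq_iff] at h1
    obtain ⟨N1, hN1⟩ := h1 (ε / 4) (by positivity)
    obtain ⟨N2, hN2⟩ := eventually_atTop.mp (hφ.tendsto_atTop.eventually hδe)
    refine ⟨max N1 N2, fun m hm n hn => ?_⟩
    have a1 := hN1 m ((le_max_left _ _).trans hm) n ((le_max_left _ _).trans hn)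
    have a2 := hN2 m ((le_max_right _ _).trans hm) s hsδ
    have a3 := hN2 n ((le_max_right _ _).trans hn) s hsδ
    rw [dist_eq_norm] at a1 ⊢
    have e : g (φ m) x - g (φ n) x = (g (φ m) s - g (φ n) s) - (g (φ m) s - g (φ m) x)
        + (g (φ n) s - g (φ n) x) := by abel
    rw [e]
    calc _ ≤ ‖(g (φ m) s - g (φ n) s) - (g (φ m) s - g (φ m) x)‖ + ‖g (φ n) s - g (φ n) x‖ :=
          norm_add_le _ _
      _ ≤ ‖g (φ m) s - g (φ n) s‖ + ‖g (φ m) s - g (φ m) x‖ + ‖g (φ n) s - g (φ n) x‖ := by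
          gcongr; exact norm_sub_le _ _
      _ < ε / 4 + ε / 4 + ε / 2 := by
          have : ‖g (φ n) s - g (φ n) x‖ < ε / 2 := by linarith
          have a1' : ‖g (φ m) s - g (φ n) s‖ < ε / 4 := a1
          linarith
      _ = ε := by ring
  have hlim : ∀ x ∈ W, ∃ l, Tendsto (fun n => g (φ n) x) atTop (𝓝 l) := fun x hx =>
    cauchySeq_tendsto_of_complete (hcauchy x hx)
  choose! a ha using hlim
  refine ⟨a, ?_⟩
  rw [Metric.tendstoLocallyUniformlyOn_iff]
  intro ε hε x hx
  obtain ⟨δ, hδ, hδe⟩ := he x hx (ε / 4) (by positivity)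
  obtain ⟨r, hr, hrW⟩ := Metric.isOpen_iff.mp hW x hx
  refine ⟨ball x (min δ r), mem_nhdsWithin_of_mem_nhds (ball_mem_nhds x (lt_min hδ hr)), ?_⟩
  have h1 : ∀ᶠ n in atTop, ∀ y ∈ ball x δ, ‖g (φ n) y - g (φ n) x‖ ≤ ε / 4 :=
    hφ.tendsto_atTop.eventually hδe
  have h2 : ∀ᶠ n in atTop, ‖g (φ n) x - a x‖ < ε / 4 := by
    have := (ha x hx).eventually (Metric.ball_mem_nhds (a x) (show 0 < ε / 4 by positivity))
    filter_upwards [this] with n hn
    rwa [dist_eq_norm] at hn
  have h3 : ∀ y ∈ ball x (min δ r), ‖a y - a x‖ ≤ ε / 4 := by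
    intro y hy
    have hyW : y ∈ W := hrW (ball_subset_ball (min_le_right _ _) hy)
    have hyδ : y ∈ ball x δ := ball_subset_ball (min_le_left _ _) hy
    refine le_of_tendsto ((ha y hyW).sub (ha x hx)).norm ?_
    filter_upwards [h1] with n hn
    exact hn y hyδ
  filter_upwards [h1, h2] with n hn1 hn2 y hy
  have hyδ : y ∈ ball x δ := ball_subset_ball (min_le_left _ _) hy
  rw [dist_eq_norm]
  have e : a y - g (φ n) y = (a y - a x) - (g (φ n) x - a x) - (g (φ n) y - g (φ n) x) := by abel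
  rw [e]
  calc _ ≤ ‖(a y - a x) - (g (φ n) x - a x)‖ + ‖g (φ n) y - g (φ n) x‖ := norm_sub_le _ _
    _ ≤ ‖a y - a x‖ + ‖g (φ n) x - a x‖ + ‖g (φ n) y - g (φ n) x‖ := by
        gcongr; exact norm_sub_le _ _
    _ < ε / 4 + ε / 4 + ε / 2 := by
        have := hn1 y hyδ
        have := h3 y hy
        linarith
    _ = ε := by ring

/-- a chosen point of a set -/
noncomputable def bpt {X : Type*} [Nonempty X] (S : Set X) : X :=
  open Classical in if h : S.Nonempty then h.some else Classical.arbitrary X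

theorem bpt_mem {X : Type*} [Nonempty X] {S : Set X} (h : S.Nonempty) : bpt S ∈ S := by
  unfold bpt
  rw [dif_pos h]
  exact h.some_mem

/-- base point of the component of `x` in `W` -/
noncomputable def cpt0 {X : Type*} [TopologicalSpace X] [Nonempty X] (W : Set X) (x : X) : X :=
  bpt (connectedComponentIn W x)

theorem cpt0_mem {X : Type*} [TopologicalSpace X] [Nonempty X] {W : Set X} {x : X} (hx : x ∈ W) :
    cpt0 W x ∈ connectedComponentIn W x :=
  bpt_mem ⟨x, mem_connectedComponentIn hx⟩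

theorem cpt0_eq {X : Type*} [TopologicalSpace X] [Nonempty X] {W : Set X} {x y : X}
    (hy : y ∈ connectedComponentIn W x) : cpt0 W y = cpt0 W x := by
  unfold cpt0
  rw [connectedComponentIn_eq hy]

/-- **Convergence of potentials.** If the derivatives converge locally uniformly on the open set
`W`, and the functions converge at one point of each component, then the functions converge
locally uniformly on `W`, to a function with the right derivative. -/
theorem exists_potential {E : Type*} [NormedAddCommGroup E] [NormedSpace ℝ E] [ProperSpace E]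
    {W : Set E} (hW : IsOpen W) {v : ℕ → E → ℝ}
    (hd : ∀ x ∈ W, ∃ r > 0, ∀ᶠ n in atTop, ∀ y ∈ ball x r, DifferentiableAt ℝ (v n) y)
    {g : E → (E →L[ℝ] ℝ)} (hg : TendstoLocallyUniformlyOn (fun n => fderiv ℝ (v n)) g atTop W)
    (hbase : ∀ x ∈ W, ∃ z ∈ connectedComponentIn W x, ∃ l, Tendsto (fun n => v n z) atTop (𝓝 l)) :
    ∃ h : E → ℝ, TendstoLocallyUniformlyOn v h atTop W ∧ ∀ x ∈ W, HasFDerivAt h (g x) x := by
  classical
  -- local statement
  have hloc : ∀ x ∈ W, ∃ r > 0, ball x r ⊆ W ∧ ∀ ε > 0, ∃ N : ℕ, ∀ n ≥ N, ∀ m ≥ N,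
      ∀ y ∈ ball x r, ∀ z ∈ ball x r, |(v n y - v m y) - (v n z - v m z)| ≤ ε := by
    intro x hx
    obtain ⟨r0, hr0, hr0d⟩ := hd x hx
    obtain ⟨r1, hr1, hr1W⟩ := Metric.isOpen_iff.mp hW x hx
    obtain ⟨r, hr, hrr⟩ : ∃ r > 0, r < min r0 r1 := ⟨min r0 r1 / 2, by positivity,
      half_lt_self (lt_min hr0 hr1)⟩
    have hrW : closedBall x r ⊆ W := (closedBall_subset_ball (hrr.trans_le (min_le_right _ _))).trans hr1W
    have hr0' : ball x r ⊆ ball x r0 := ball_subset_ball (hrr.le.trans (min_le_left _ _))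
    have hu : TendstoUniformlyOn (fun n => fderiv ℝ (v n)) g atTop (closedBall x r) :=
      (tendstoLocallyUniformlyOn_iff_forall_isCompact hW).mp hg _ hrW (isCompact_closedBall x r)
    refine ⟨r, hr, ball_subset_closedBall.trans hrW, fun ε hε => ?_⟩
    rw [Metric.tendstoUniformlyOn_iff] at hu
    have h1 := hu (ε / (4 * r)) (by positivity)
    obtain ⟨N, hN⟩ := eventually_atTop.mp (h1.and hr0d)
    refine ⟨N, fun n hn m hm y hy z hz => ?_⟩
    have hdn : ∀ p ∈ ball x r, DifferentiableAt ℝ (v n) p := fun p hp => (hN n hn).2 p (hr0' hp)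
    have hdm : ∀ p ∈ ball x r, DifferentiableAt ℝ (v m) p := fun p hp => (hN m hm).2 p (hr0' hp)
    have hb : ∀ p ∈ ball x r, ‖fderiv ℝ (fun q => v n q - v m q) p‖ ≤ ε / (2 * r) := by
      intro p hp
      rw [fderiv_fun_sub (hdn p hp) (hdm p hp)]
      have a1 := (hN n hn).1 p (ball_subset_closedBall hp)
      have a2 := (hN m hm).1 p (ball_subset_closedBall hp)
      have e : fderiv ℝ (v n) p - fderiv ℝ (v m) p
          = (g p - fderiv ℝ (v m) p) - (g p - fderiv ℝ (v n) p) := by abel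
      rw [e]
      refine (norm_sub_le _ _).trans ?_
      rw [dist_eq_norm] at a1 a2
      have : ε / (4 * r) + ε / (4 * r) = ε / (2 * r) := by field_simp; norm_num
      linarith
    have hmv := (convex_ball x r).norm_image_sub_le_of_norm_fderiv_le (𝕜 := ℝ)
      (f := fun q => v n q - v m q) (fun p hp => (hdn p hp).sub (hdm p hp)) hb hz hy
    rw [Real.norm_eq_abs] at hmv
    refine hmv.trans ?_
    have h2 : ‖y - z‖ ≤ 2 * r := by
      rw [← dist_eq_norm]
      rw [mem_ball] at hy hz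
      linarith [dist_triangle_right y z x]
    calc ε / (2 * r) * ‖y - z‖ ≤ ε / (2 * r) * (2 * r) :=
          mul_le_mul_of_nonneg_left h2 (by positivity)
      _ = ε := by field_simp
  -- the set of convergence
  set A : Set E := {x | x ∈ W ∧ CauchySeq fun n => v n x} with hA
  have hball : ∀ x ∈ W, ∃ r > 0, ball x r ⊆ W ∧ ((A ∩ ball x r).Nonempty → ball x r ⊆ A) := by
    intro x hx
    obtain ⟨r, hr, hrW, hl⟩ := hloc x hx
    refine ⟨r, hr, hrW, ?_⟩
    rintro ⟨z, ⟨hzW, hz⟩, hzr⟩ y hy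
    refine ⟨hrW hy, ?_⟩
    rw [Metric.cauchySeq_iff] at hz ⊢
    intro ε hε
    obtain ⟨N1, hN1⟩ := hz (ε / 2) (by positivity)
    obtain ⟨N2, hN2⟩ := hl (ε / 4) (by positivity)
    refine ⟨max N1 N2, fun n hn m hm => ?_⟩
    have a1 := hN1 n ((le_max_left _ _).trans hn) m ((le_max_left _ _).trans hm)
    have a2 := hN2 n ((le_max_right _ _).trans hn) m ((le_max_right _ _).trans hm) y hy z hzr
    rw [Real.dist_eq] at a1 ⊢
    rw [abs_lt] at a1 ⊢
    rw [abs_le] at a2
    constructor <;> linarith [a1.1, a1.2, a2.1, a2.2]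
  have hAo : IsOpen A := by
    rw [Metric.isOpen_iff]
    intro x hx
    obtain ⟨r, hr, -, h⟩ := hball x hx.1
    exact ⟨r, hr, h ⟨x, hx, mem_ball_self hr⟩⟩
  have hAW : ∀ x ∈ W, x ∈ A := by
    intro x hx
    obtain ⟨z, hz, l, hl⟩ := hbase x hx
    have hsub : connectedComponentIn W x ⊆ A := by
      refine isPreconnected_connectedComponentIn.subset_of_closure_inter_subset hAo
        ⟨z, hz, connectedComponentIn_subset W x hz, hl.cauchySeq⟩ ?_
      rintro y ⟨hyA, hyC⟩
      obtain ⟨r, hr, -, h⟩ := hball y (connectedComponentIn_subset W x hyC)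
      obtain ⟨p, hpA, hpy⟩ := Metric.mem_closure_iff.mp hyA r hr
      exact h ⟨p, hpA, by rwa [mem_ball, dist_comm]⟩ (mem_ball_self hr)
    exact hsub (mem_connectedComponentIn hx)
  have hlim : ∀ x ∈ W, ∃ l, Tendsto (fun n => v n x) atTop (𝓝 l) := fun x hx =>
    cauchySeq_tendsto_of_complete (hAW x hx).2
  choose! h hh using hlim
  refine ⟨h, ?_, ?_⟩
  · rw [Metric.tendstoLocallyUniformlyOn_iff]
    intro ε hε x hx
    obtain ⟨r, hr, hrW, hl⟩ := hloc x hx
    refine ⟨ball x r, mem_nhdsWithin_of_mem_nhds (ball_mem_nhds x hr), ?_⟩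
    obtain ⟨N, hN⟩ := hl (ε / 4) (by positivity)
    have h2 : ∀ᶠ n in atTop, dist (v n x) (h x) < ε / 4 :=
      (hh x hx).eventually (Metric.ball_mem_nhds (h x) (by positivity))
    filter_upwards [h2, eventually_ge_atTop N] with n hn hnN y hy
    have h3 : |(v n y - h y) - (v n x - h x)| ≤ ε / 4 := by
      have h4 : Tendsto (fun m => |(v n y - v m y) - (v n x - v m x)|) atTop
          (𝓝 |(v n y - h y) - (v n x - h x)|) :=
        ((tendsto_const_nhds.sub (hh y (hrW hy))).sub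
          (tendsto_const_nhds.sub (hh x (hrW (mem_ball_self hr))))).abs
      refine le_of_tendsto h4 ?_
      filter_upwards [eventually_ge_atTop N] with m hm
      exact hN n hnN m hm y hy x (mem_ball_self hr)
    rw [Real.dist_eq] at hn ⊢
    rw [abs_lt] at hn ⊢
    rw [abs_le] at h3
    constructor <;> linarith [hn.1, hn.2, h3.1, h3.2]
  · intro x hx
    obtain ⟨r0, hr0, hr0d⟩ := hd x hx
    refine hasFDerivAt_of_tendstoUniformlyOnFilter (l := atTop) (f := v)
      (f' := fun n => fderiv ℝ (v n)) ?_ ?_ ?_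
    · have := (tendstoLocallyUniformlyOn_iff_filter.mp hg) x hx
      rwa [hW.nhdsWithin_eq hx] at this
    · have h1 : ∀ᶠ p : ℕ × E in atTop ×ˢ 𝓝 x, (∀ y ∈ ball x r0, DifferentiableAt ℝ (v p.1) y) ∧
          p.2 ∈ ball x r0 := hr0d.prod_mk (ball_mem_nhds x hr0)
      filter_upwards [h1] with p hp
      exact (hp.1 p.2 hp.2).hasFDerivAt
    · filter_upwards [hW.mem_nhds hx] with y hy
      exact hh y hy

end Crest.Agent.R135.Reg
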