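import Crest.Agent.R135.RegDec

/-!
# Row 135 (Mumford-Shah): `C¹` representatives (regularity toolbox, part 4)
-/

set_option autoImplicit false
open MeasureTheory Metric Set Filter Topology Laplacian InnerProductSpace
open scoped RealInnerProductSpace NNReal ENNReal ContDiff Gradient

namespace Crest.Agent.R135.Reg
open Crest.Agent.R097 Crest.AnalysisR.PDE.OnePhase

/-- two continuous functions that agree a.e. on an open set agree -/
theorem eq_of_ae_eq_open {V : Set P} (hV : IsOpen V) {f g : P → ℝ} (hf : ContinuousOn f V)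
    (hg : ContinuousOn g V) (h : ∀ᵐ x ∂(volume.restrict V), f x = g x) : EqOn f g V :=
  Measure.eqOn_open_of_ae_eq h hV hf hg

/-- patching of local continuous representatives -/
theorem exists_patch {U : Set P} {u : P → ℝ}
    (h : ∀ x ∈ U, ∃ (V : Set P) (w : P → ℝ), IsOpen V ∧ x ∈ V ∧ V ⊆ U ∧ ContinuousOn w V ∧
      ∀ᵐ y ∂(volume.restrict V), u y = w y) :
    ∃ ut : P → ℝ, (∀ᵐ y ∂(volume.restrict U), u y = ut y) ∧ ContinuousOn ut U := by
  classical
  choose! V w hVo hxV hVU hwc hae using h
  set ut : P → ℝ := fun x => if x ∈ U then w x x else u x with hut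
  have key : ∀ x ∈ U, EqOn ut (w x) (V x) := by
    intro x hx y hy
    have hyU := hVU x hx hy
    rw [hut]
    simp only [hyU, if_true]
    have h1 : EqOn (w y) (w x) (V y ∩ V x) := by
      refine eq_of_ae_eq_open ((hVo y hyU).inter (hVo x hx)) ((hwc y hyU).mono inter_subset_left)
        ((hwc x hx).mono inter_subset_right) ?_
      have h2 := ae_restrict_of_ae_restrict_of_subset (inter_subset_left (t := V x)) (hae y hyU)
      have h3 := ae_restrict_of_ae_restrict_of_subset (inter_subset_right (s := V y)) (hae x hx)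
      filter_upwards [h2, h3] with z hz1 hz2
      rw [← hz1, ← hz2]
    exact h1 ⟨hxV y hyU, hy⟩
  refine ⟨ut, ?_, ?_⟩
  · obtain ⟨T, hTU, hTc, hT⟩ := TopologicalSpace.isOpen_biUnion_countable U V
      (fun x hx => hVo x hx)
    have hcov : U ⊆ ⋃ x ∈ T, V x := by
      rw [hT]
      intro x hx
      exact mem_biUnion hx (hxV x hx)
    have h1 : ∀ᵐ y ∂(volume.restrict (⋃ x ∈ T, V x)), u y = ut y := by
      rw [ae_restrict_biUnion_iff _ hTc]
      intro x hx
      have hxU := hTU hx
      filter_upwards [hae x hxU, ae_restrict_mem (hVo x hxU).measurableSet] with y hy hyV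
      rw [hy, key x hxU hyV]
    exact ae_restrict_of_ae_restrict_of_subset hcov h1
  · intro x hx
    exact (((hwc x hx).congr (key x hx)).continuousAt ((hVo x hx).mem_nhds (hxV x hx))).continuousWithinAt

/-- weak Laplacian restricted to a smaller set -/
theorem WLap.mono {U V : Set P} {u f : P → ℝ} (h : WLap U u f) (hVU : V ⊆ U) : WLap V u f :=
  fun φ hφ hc hs => h φ hφ hc (hs.trans hVU)

theorem WLap.congr {U : Set P} {u f v g : P → ℝ} (h : WLap U u f)
    (huv : ∀ᵐ x ∂(volume.restrict U), u x = v x) (hfg : ∀ᵐ x ∂(volume.restrict U), f x = g x)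
    (hU : MeasurableSet U) : WLap U v g := by
  intro φ hφ hc hs
  rw [ae_restrict_iff' hU] at huv hfg
  have h1 : ∫ x, v x * (Δ φ) x = ∫ x, u x * (Δ φ) x := by
    apply integral_congr_ae
    filter_upwards [huv] with x hx
    by_cases hxs : x ∈ tsupport φ
    · rw [hx (hs hxs)]
    · rw [lap_eq_zero hxs, mul_zero, mul_zero]
  have h2 : ∫ x, g x * φ x = ∫ x, f x * φ x := by
    apply integral_congr_ae
    filter_upwards [hfg] with x hx
    by_cases hxs : x ∈ tsupport φ
    · rw [hx (hs hxs)]
    · rw [image_eq_zero_of_notMem_tsupport hxs, mul_zero, mul_zero]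
  rw [h1, h2, h φ hφ hc hs]

/-- solutions of `Δ u = f`, `f ∈ L²_loc`, are continuous -/
theorem exists_continuous_rep {U : Set P} (hU : IsOpen U) {u f : P → ℝ}
    (hu : LocallyIntegrableOn u U)
    (hf : ∀ x ∈ U, ∃ r > 0, ball x r ⊆ U ∧ MemLp f 2 (volume.restrict (ball x r)))
    (h : WLap U u f) :
    ∃ ut : P → ℝ, (∀ᵐ y ∂(volume.restrict U), u y = ut y) ∧ ContinuousOn ut U := by
  apply exists_patch
  intro x hx
  obtain ⟨r, hr, hrU, hfr⟩ := hf x hx
  obtain ⟨C, hC, hdec⟩ := decomp
  obtain ⟨H, F, hH, hae, hFc, -, -⟩ := hdec x r hr u f (hu.mono_set hrU) hfr (h.mono hrU)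
  exact ⟨ball x r, fun y => H y + F y, isOpen_ball, mem_ball_self hr, hrU,
    hH.1.continuousOn.add hFc.continuousOn, hae⟩

/-- continuous solutions of `Δ u = f` with `f` locally bounded are `C¹` -/
theorem contDiffOn_one_of_WLap {U : Set P} (hU : IsOpen U) {u f : P → ℝ}
    (hu : ContinuousOn u U) (hfm : AEStronglyMeasurable f (volume.restrict U))
    (hf : ∀ x ∈ U, ∃ r > 0, ∃ A : ℝ, ball x r ⊆ U ∧ ∀ y ∈ ball x r, |f y| ≤ A)
    (h : WLap U u f) : ContDiffOn ℝ 1 u U := by
  intro x hx
  obtain ⟨r, hr, A, hrU, hA⟩ := hf x hx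
  obtain ⟨C, hC, hdec⟩ := decomp
  have hfin : IsFiniteMeasure (volume.restrict (ball x r)) :=
    ⟨by rw [Measure.restrict_apply_univ]; exact measure_ball_lt_top⟩
  have hf2 : MemLp f 2 (volume.restrict (ball x r)) := by
    refine MemLp.of_bound (hfm.mono_set hrU) A ?_
    filter_upwards [ae_restrict_mem isOpen_ball.measurableSet] with y hy
    exact hA y hy
  obtain ⟨H, F, hH, hae, hFc, -, hF⟩ := hdec x r hr u f
    ((hu.mono hrU).locallyIntegrableOn isOpen_ball.measurableSet) hf2 (h.mono hrU)
  obtain ⟨hF1, -⟩ := hF A hA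
  have he : EqOn u (fun y => H y + F y) (ball x r) :=
    eq_of_ae_eq_open isOpen_ball (hu.mono hrU) (hH.1.continuousOn.add hFc.continuousOn) hae
  have h1 : ContDiffOn ℝ 1 (fun y => H y + F y) (ball x r) :=
    (hH.1.of_le (by simp)).add hF1.contDiffOn
  exact ((h1.congr he).contDiffAt (isOpen_ball.mem_nhds (mem_ball_self hr))).contDiffWithinAt

/-- from the weak Euler-Lagrange equation to the weak Laplacian -/
theorem wlap_of_weakGrad {U : Set P} {u f : P → ℝ} {G : P → P}
    (hu : IsWeakGradOn U u G)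
    (h0 : ∀ φ : P → ℝ, ContDiff ℝ ∞ φ → HasCompactSupport φ → tsupport φ ⊆ U →
      ∫ x in U, ⟪G x, ∇ φ x⟫_ℝ = - ∫ x in U, f x * φ x) : WLap U u f := by
  obtain ⟨hu1, hG1, hw⟩ := hu
  have htest : ∀ φ : P → ℝ, ContDiff ℝ ∞ φ → HasCompactSupport φ → tsupport φ ⊆ U →
      ∀ i, ContDiff ℝ ∞ (fun x => partialD φ i x) ∧ HasCompactSupport (fun x => partialD φ i x) ∧
        tsupport (fun x => partialD φ i x) ⊆ U := by
    intro φ hφ hc hs i
    have h1 : ContDiff ℝ ∞ (fun x => partialD φ i x) := by
      unfold partialD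
      exact (hφ.fderiv_right (by simp)).clm_apply contDiff_const
    have h2 : tsupport (fun x => partialD φ i x) ⊆ tsupport φ :=
      tsupport_fderiv_apply_subset ℝ _
    exact ⟨h1, hc.of_isClosed_subset (isClosed_tsupport _) h2, h2.trans hs⟩
  intro φ hφ hc hs
  have hφ2 : ContDiff ℝ 2 φ := contDiff_infty.mp hφ 2
  have e1 : ∀ x, (Δ φ) x = ∑ i, partialD (fun y => partialD φ i y) i x := by
    intro x
    exact Crest.Agent.R097.laplacian_eq_sum hφ2.contDiffAt
  have e2 : ∫ x, u x * (Δ φ) x = ∑ i, ∫ x, u x * partialD (fun y => partialD φ i y) i x := by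
    rw [← integral_finsetSum]
    · congr 1
      ext x
      rw [e1, Finset.mul_sum]
    · intro i _
      obtain ⟨a1, a2, a3⟩ := htest φ hφ hc hs i
      obtain ⟨b1, b2, b3⟩ := htest _ a1 a2 a3 i
      exact int_mul_test hu1 b1.continuous b2 b3
  rw [e2]
  have e3 : ∀ i, ∫ x, u x * partialD (fun y => partialD φ i y) i x
      = - ∫ x, G x i * partialD φ i x := by
    intro i
    obtain ⟨a1, a2, a3⟩ := htest φ hφ hc hs i
    obtain ⟨b1, b2, b3⟩ := htest _ a1 a2 a3 i
    have := hw _ a1 a2 a3 i
    rw [setInt_test b3, setInt_test a3] at this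
    exact this
  simp_rw [e3]
  rw [Finset.sum_neg_distrib, ← integral_finsetSum]
  · have e4 := h0 φ hφ hc hs
    rw [setIntegral_eq_integral_of_forall_compl_eq_zero, setInt_test hs] at e4
    · rw [← neg_neg (∫ x, f x * φ x), ← e4]
      congr 2
      ext x
      rw [PiLp.inner_apply]
      refine Finset.sum_congr rfl fun i _ => ?_
      rw [gradient_coord]
      simp [bv, partialD, mul_comm]
    · intro x hx
      have : ∇ φ x = 0 := by
        rw [← norm_eq_zero, norm_gradient, norm_eq_zero]
        exact fderiv_eq_zero_of_notMem_tsupport (fun h => hx (hs h))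
      rw [this, inner_zero_right]
  · intro i _
    obtain ⟨a1, a2, a3⟩ := htest φ hφ hc hs i
    exact int_mul_test (locInt_coord hG1 i) a1.continuous a2 a3

/-- the weak gradient of a function with a `C¹` representative is the classical gradient -/
theorem weakGrad_eq_grad {U : Set P} (hU : IsOpen U) {u h : P → ℝ} {G : P → P}
    (hu : IsWeakGradOn U u G) (hh : ContDiffOn ℝ 1 h U)
    (hae : ∀ᵐ x ∂(volume.restrict U), u x = h x) : ∀ᵐ x ∂(volume.restrict U), G x = ∇ h x := by
  obtain ⟨hu1, hG1, hw⟩ := hu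
  have hcoord : ∀ i : Fin 2, ∀ᵐ x ∂(volume.restrict U), G x i = fderiv ℝ h x (bv i) := by
    intro i
    have hfc : ContinuousOn (fun x => fderiv ℝ h x (bv i)) U := by
      have h1 : ContinuousOn (fderiv ℝ h) U := hh.continuousOn_fderiv_of_isOpen hU (by simp)
      exact h1.clm_apply continuousOn_const
    have hLI : LocallyIntegrableOn (fun x => G x i - fderiv ℝ h x (bv i)) U :=
      (locInt_coord hG1 i).sub (hfc.locallyIntegrableOn hU.measurableSet)
    have h2 : ∀ᵐ x ∂volume, x ∈ U → G x i - fderiv ℝ h x (bv i) = 0 := by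
      apply hU.ae_eq_zero_of_integral_contDiff_smul_eq_zero hLI
      intro φ hφ hc hs
      have h2 : tsupport (fun x => partialD φ i x) ⊆ tsupport φ :=
        tsupport_fderiv_apply_subset ℝ _
      have a3 : tsupport (fun x => partialD φ i x) ⊆ U := h2.trans hs
      have e1 : ∫ x, G x i * φ x = - ∫ x, u x * partialD φ i x := by
        have := hw φ hφ hc hs i
        rw [setInt_test a3, setInt_test hs] at this
        rw [this, neg_neg]
      have e2 : ∫ x, u x * partialD φ i x = ∫ x, h x * partialD φ i x := by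
        rw [← setInt_test a3, ← setInt_test (f := h) a3]
        apply integral_congr_ae
        filter_upwards [hae] with x hx
        rw [hx]
      obtain ⟨g, hg, hgc, hgv⟩ := Hm.exists_ext (m := 1) hU hh hc.isCompact hs
      obtain ⟨C, hC⟩ := lip_of_contDiff_compact (contDiff_infty.mp hφ 1) hc
      have e3 := ibp1 (f := g) hg hC hc (bv i)
      have e4 : ∫ x, h x * partialD φ i x = ∫ x, g x * fderiv ℝ φ x (bv i) := by
        congr 1
        ext x
        by_cases hx : x ∈ tsupport φ
        · rw [(hgv x hx).eq_of_nhds]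
          rfl
        · have : fderiv ℝ φ x = 0 := fderiv_eq_zero_of_notMem_tsupport hx
          simp [partialD, this]
      have e5 : ∫ x, fderiv ℝ g x (bv i) * φ x = ∫ x, fderiv ℝ h x (bv i) * φ x := by
        congr 1
        ext x
        by_cases hx : x ∈ tsupport φ
        · rw [(hgv x hx).fderiv_eq]
        · rw [image_eq_zero_of_notMem_tsupport hx, mul_zero, mul_zero]
      have e6 : ∫ x, G x i * φ x = ∫ x, fderiv ℝ h x (bv i) * φ x := by
        rw [e1, e2, e4, e3, e5, neg_neg]
      have e7 := integral_sub (int_mul_test (locInt_coord hG1 i) hφ.continuous hc hs)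
        (int_mul_test (hfc.locallyIntegrableOn hU.measurableSet) hφ.continuous hc hs)
      rw [e6, sub_self] at e7
      rw [← e7]
      congr 1
      ext x
      rw [smul_eq_mul]
      ring
    rw [ae_restrict_iff' hU.measurableSet]
    filter_upwards [h2] with x hx hxΩ
    have := hx hxΩ
    linarith
  filter_upwards [ae_all_iff.mpr hcoord] with x hx
  ext i
  rw [hx i, gradient_coord]

end Crest.Agent.R135.Reg
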