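import Crest.Agent.R135.RegMod
import Crest.Agent.R135.RegAA
import Crest.Agent.R135.FV1
import Crest.Agent.R135.Core

/-!
# Row 135 (Mumford-Shah): compactness off the crack (regularity toolbox, part 9)
-/

set_option autoImplicit false
open MeasureTheory Metric Set Filter Topology Laplacian InnerProductSpace
open scoped RealInnerProductSpace NNReal ENNReal ContDiff Gradient

namespace Crest.Agent.R135.Reg
open Crest.Agent.R097 Crest.AnalysisR.PDE.OnePhase

theorem enorm_gradient (u : P → ℝ) (x : P) : ‖∇ u x‖ₑ = ‖fderiv ℝ u x‖ₑ := by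
  rw [← ofReal_norm, ← ofReal_norm, Crest.Agent.R097.norm_grad]

theorem norm_gradient_sub (u : P → ℝ) (x y : P) :
    ‖∇ u x - ∇ u y‖ = ‖fderiv ℝ u x - fderiv ℝ u y‖ := by
  unfold gradient
  rw [← map_sub, LinearIsometryEquiv.norm_map]

/-- locally constant functions are harmonic -/
theorem LocConst_harm {W : Set P} {c : P → ℝ} (hc : LocConstOn W c) : Harm c W := by
  have h1 : ∀ x ∈ W, c =ᶠ[𝓝 x] fun _ => c x := fun x hx => hc x hx
  constructor
  · intro x hx
    exact ((contDiffAt_const (c := c x)).congr_of_eventuallyEq (h1 x hx)).contDiffWithinAt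
  · intro x hx
    rw [(laplacian_congr_nhds (h1 x hx)).eq_of_nhds, laplacian_const]
    rfl

theorem harm_wlap {W : Set P} (hW : IsOpen W) {c : P → ℝ} (hc : Harm c W) :
    WLap W c (fun _ => 0) := by
  intro φ hφ hφc hs
  rw [Hm.green_on hW hc.contDiffOn_two hφ hφc hs]
  have : ∀ x, (Δ c) x * φ x = 0 * φ x := by
    intro x
    by_cases hx : x ∈ tsupport φ
    · rw [hc.2 x (hs hx)]
    · rw [image_eq_zero_of_notMem_tsupport hx, mul_zero, mul_zero]
  simp only [this]

/-- functions of the base point are locally constant -/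
theorem locConst_cpt0 {W : Set P} (hW : IsOpen W) (F : P → ℝ) :
    LocConstOn W (fun x => F (cpt0 W x)) := by
  intro x hx
  filter_upwards [(hW.connectedComponentIn).mem_nhds (mem_connectedComponentIn hx)] with y hy
  rw [cpt0_eq hy]

theorem cpt0_cpt0 {W : Set P} {x : P} (hx : x ∈ W) : cpt0 W (cpt0 W x) = cpt0 W x :=
  cpt0_eq (cpt0_mem hx)

/-- **Compactness off the crack.** -/
theorem exists_limit {W : Set P} (hW : IsOpen W) {V : ℕ → Set P} {u f : ℕ → P → ℝ} {A : ℕ → ℝ}
    (hVW : ∀ C, IsCompact C → C ⊆ W → ∀ᶠ n in atTop, C ⊆ V n)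
    (hu : ∀ n, ContDiffOn ℝ 1 (u n) (V n))
    (hfm : ∀ n, AEStronglyMeasurable (f n) (volume.restrict (V n)))
    (hfA : ∀ n, ∀ x ∈ V n, |f n x| ≤ A n) (hA : Tendsto A atTop (𝓝 0))
    (hw : ∀ n, WLap (V n) (u n) (f n))
    (hE : ∀ x ∈ W, ∃ r > 0, ∃ B : ℝ≥0∞, B < ⊤ ∧
      ∀ᶠ n in atTop, ∫⁻ y in ball x r ∩ V n, ‖∇ (u n) y‖ₑ ^ 2 ≤ B) :
    ∃ φ : ℕ → ℕ, StrictMono φ ∧ ∃ h : P → ℝ, Harm h W ∧
      TendstoLocallyUniformlyOn (fun n x => u (φ n) x - u (φ n) (cpt0 W x)) h atTop W ∧
      TendstoLocallyUniformlyOn (fun n x => ∇ (u (φ n)) x) (fun x => ∇ h x) atTop W := by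
  obtain ⟨C1, hC1, hb1⟩ := fderiv_bound_L2
  obtain ⟨C2, hC2, hb2⟩ := fderiv_modulus
  have hA1 : ∀ᶠ n in atTop, A n ≤ 1 := by
    filter_upwards [hA.eventually (gt_mem_nhds (show (0 : ℝ) < 1 by norm_num))] with n hn
    exact hn.le
  -- local gradient bounds
  have hb0 : ∀ x ∈ W, ∃ r > 0, ball x r ⊆ W ∧ ∃ M : ℝ, 0 ≤ M ∧ ∀ᶠ n in atTop,
      ball x r ⊆ V n ∧ A n ≤ 1 ∧ ∀ y ∈ ball x r, ‖fderiv ℝ (u n) y‖ ≤ M := by
    intro x hx
    obtain ⟨r0, hr0, B, hB, hBn⟩ := hE x hx
    obtain ⟨r1, hr1, hr1W⟩ := Metric.isOpen_iff.mp hW x hx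
    obtain ⟨r, hr, hrr⟩ : ∃ r > 0, r < min r0 r1 := ⟨min r0 r1 / 2, by positivity,
      half_lt_self (lt_min hr0 hr1)⟩
    have hrW : closedBall x r ⊆ W :=
      (closedBall_subset_ball (hrr.trans_le (min_le_right _ _))).trans hr1W
    have hr0' : ball x r ⊆ ball x r0 := ball_subset_ball (hrr.le.trans (min_le_left _ _))
    refine ⟨r / 2, by positivity, (ball_subset_ball (by linarith)).trans
      (ball_subset_closedBall.trans hrW), C1 * √B.toReal / r + C1 * 1 * r, by positivity, ?_⟩
    filter_upwards [hBn, hVW _ (isCompact_closedBall x r) hrW, hA1] with n hn1 hn2 hn3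
    have hsub : ball x r ⊆ V n := ball_subset_closedBall.trans hn2
    refine ⟨(ball_subset_ball (by linarith)).trans hsub, hn3, ?_⟩
    refine hb1 (u n) (f n) x r 1 B.toReal hr ((hu n).mono hsub) ((hfm n).mono_set hsub)
      (fun y hy => (hfA n y (hsub hy)).trans hn3) ((hw n).mono hsub) ENNReal.toReal_nonneg ?_
    rw [ENNReal.ofReal_toReal hB.ne]
    refine le_trans ?_ hn1
    simp only [← enorm_gradient]
    exact lintegral_mono_set (subset_inter hr0' hsub)
  -- Arzela-Ascoli for the gradients
  obtain ⟨φ, hφ, G, hG⟩ := exists_locUnif hW (fun n x => ∇ (u n) x)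
    (fun x hx => by
      obtain ⟨r, hr, -, M, -, hM⟩ := hb0 x hx
      refine ⟨M, ?_⟩
      filter_upwards [hM] with n hn
      rw [Crest.Agent.R097.norm_grad]
      exact hn.2.2 x (mem_ball_self hr))
    (fun x hx ε hε => by
      obtain ⟨r, hr, -, M, hM0, hM⟩ := hb0 x hx
      set q : ℝ := ε / (C2 * (M + 1 * r)) with hq
      have hq0 : 0 < q := by positivity
      refine ⟨min (r / 2) (q ^ 2 * r), by positivity, ?_⟩
      filter_upwards [hM] with n hn y hy
      rw [norm_gradient_sub]
      have h1 := hb2 (u n) (f n) x r 1 M hr ((hu n).mono hn.1) ((hfm n).mono_set hn.1)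
        (fun y hy => (hfA n y (hn.1 hy)).trans hn.2.1) ((hw n).mono hn.1) hn.2.2
        y (ball_subset_ball (min_le_left _ _) hy) x (mem_ball_self (by positivity))
      refine h1.trans ?_
      have h2 : √(dist y x / r) ≤ q := by
        refine Real.sqrt_le_iff.mpr ⟨hq0.le, ?_⟩
        rw [div_le_iff₀ hr]
        exact (mem_ball.mp (ball_subset_ball (min_le_right _ _) hy)).le
      calc C2 * (M + 1 * r) * √(dist y x / r) ≤ C2 * (M + 1 * r) * q :=
            mul_le_mul_of_nonneg_left h2 (by positivity)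
        _ = ε := by
            rw [hq]
            field_simp)
  set c : ℕ → P → ℝ := fun n x => u (φ n) (cpt0 W x) with hc
  set v : ℕ → P → ℝ := fun n x => u (φ n) x - c n x with hv
  have hcl : ∀ n, LocConstOn W (c n) := fun n => locConst_cpt0 hW _
  have hvloc : ∀ n, ∀ x ∈ W, v n =ᶠ[𝓝 x] fun y => u (φ n) y - c n x := by
    intro n x hx
    filter_upwards [hcl n x hx] with y hy
    simp only [hv, hy]
  have hvf : ∀ n, ∀ x ∈ W, fderiv ℝ (v n) x = fderiv ℝ (u (φ n)) x := by
    intro n x hx
    rw [(hvloc n x hx).fderiv_eq, fderiv_sub_const]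
  have hdn : ∀ x ∈ W, ∃ r > 0, ∀ᶠ n in atTop, ∀ y ∈ ball x r, DifferentiableAt ℝ (v n) y := by
    intro x hx
    obtain ⟨r, hr, hrW, M, -, hM⟩ := hb0 x hx
    refine ⟨r, hr, ?_⟩
    filter_upwards [hφ.tendsto_atTop.eventually hM] with n hn y hy
    have h1 : DifferentiableAt ℝ (u (φ n)) y :=
      (((hu (φ n)).mono hn.1).contDiffAt (isOpen_ball.mem_nhds hy)).differentiableAt (by simp)
    exact (h1.sub_const _).congr_of_eventuallyEq (hvloc n y (hrW hy))
  set g : P → (P →L[ℝ] ℝ) := fun x => toDual ℝ P (G x) with hg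
  have hgconv : TendstoLocallyUniformlyOn (fun n => fderiv ℝ (v n)) g atTop W := by
    have h1 : TendstoLocallyUniformlyOn (fun n => (toDual ℝ P) ∘ (fun x => ∇ (u (φ n)) x))
        ((toDual ℝ P) ∘ G) atTop W :=
      (toDual ℝ P).isometry.uniformContinuous.comp_tendstoLocallyUniformlyOn hG
    refine h1.congr ?_
    intro n x hx
    simp only [Function.comp_apply]
    rw [hvf n x hx]
    unfold gradient
    simp
  obtain ⟨h, hh, hhd⟩ := exists_potential hW hdn hgconv (fun x hx =>
    ⟨cpt0 W x, cpt0_mem hx, 0, by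
      have : ∀ n, v n (cpt0 W x) = 0 := by
        intro n
        simp only [hv, hc]
        rw [cpt0_cpt0 hx, sub_self]
      simp only [this]
      exact tendsto_const_nhds⟩)
  have hgrad : ∀ x ∈ W, ∇ h x = G x := by
    intro x hx
    have : HasGradientAt h (G x) x := hhd x hx
    exact this.gradient
  refine ⟨φ, hφ, h, ?_, hh, ?_⟩
  · -- harmonicity
    have hhc : ContinuousOn h W := fun x hx => (hhd x hx).continuousAt.continuousWithinAt
    apply Crest.Agent.R097.weyl_cont hW hhc
    intro ψ hψ hψc hψs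
    have hΔc := continuous_lap hψ
    have hΔs := hasCompactSupport_lap hψc
    have hS : IsCompact (tsupport ψ) := hψc
    have hunif : TendstoUniformlyOn v h atTop (tsupport ψ) :=
      (tendstoLocallyUniformlyOn_iff_forall_isCompact hW).mp hh _ hψs hS
    have hev : ∀ᶠ n in atTop, tsupport ψ ⊆ V (φ n) :=
      hφ.tendsto_atTop.eventually (hVW _ hS hψs)
    have hcz : ∀ n, ∫ x, c n x * (Δ ψ) x = 0 := by
      intro n
      have := harm_wlap hW (LocConst_harm (hcl n)) ψ hψ hψc hψs
      rw [this]
      simp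
    have hintc : ∀ n, Integrable fun x => c n x * (Δ ψ) x := by
      intro n
      refine Crest.Agent.R097.int_mul_test
        ((LocConst_harm (hcl n)).1.continuousOn.locallyIntegrableOn hW.measurableSet) hΔc hΔs ?_
      exact (closure_minimal (fun x hx => by
        by_contra hcon
        exact hx (lap_eq_zero hcon)) (isClosed_tsupport ψ)).trans hψs
    have hΔts : tsupport (Δ ψ) ⊆ tsupport ψ := closure_minimal (fun x hx => by
        by_contra hcon
        exact hx (lap_eq_zero hcon)) (isClosed_tsupport ψ)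
    have hval : ∀ᶠ n in atTop, ∫ x, v n x * (Δ ψ) x = ∫ x, f (φ n) x * ψ x := by
      filter_upwards [hev] with n hn
      have hintu : Integrable fun x => u (φ n) x * (Δ ψ) x := by
        have hc1 : ContinuousOn (u (φ n)) (tsupport ψ) := (hu (φ n)).continuousOn.mono hn
        have hi : IntegrableOn (fun x => u (φ n) x * (Δ ψ) x) (tsupport ψ) :=
          (hc1.mul hΔc.continuousOn).integrableOn_compact hS
        rw [← integrableOn_univ]
        refine hi.of_forall_sdiff_eq_zero MeasurableSet.univ ?_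
        intro x hx
        rw [lap_eq_zero hx.2, mul_zero]
      have e : ∀ x, v n x * (Δ ψ) x = u (φ n) x * (Δ ψ) x - c n x * (Δ ψ) x := by
        intro x
        simp only [hv]
        ring
      simp only [e]
      rw [integral_sub hintu (hintc n), hcz n, sub_zero]
      exact hw (φ n) ψ hψ hψc hn
    -- right-hand side tends to 0
    have hr : Tendsto (fun n => ∫ x, f (φ n) x * ψ x) atTop (𝓝 0) := by
      have hAφ : Tendsto (fun n => A (φ n) * ∫ x, |ψ x|) atTop (𝓝 0) := by
        have := (hA.comp hφ.tendsto_atTop).mul_const (∫ x, |ψ x|)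
        simpa using this
      refine squeeze_zero_norm' ?_ hAφ
      filter_upwards [hev] with n hn
      refine (norm_integral_le_integral_norm _).trans ?_
      rw [← integral_const_mul]
      refine integral_mono_of_nonneg (Eventually.of_forall fun x => norm_nonneg _)
        ((hψ.continuous.abs.integrable_of_hasCompactSupport hψc.norm).const_mul _)
        (Eventually.of_forall fun x => ?_)
      simp only [norm_mul, Real.norm_eq_abs]
      by_cases hx : x ∈ tsupport ψ
      · exact mul_le_mul_of_nonneg_right (hfA _ x (hn hx)) (abs_nonneg _)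
      · rw [image_eq_zero_of_notMem_tsupport hx]
        simp
    -- left-hand side tends to the integral of the limit
    have hl : Tendsto (fun n => ∫ x, v n x * (Δ ψ) x) atTop (𝓝 (∫ x, h x * (Δ ψ) x)) := by
      rw [Metric.tendsto_atTop]
      intro ε hε
      set I : ℝ := ∫ x, |(Δ ψ) x| with hI
      have hI0 : 0 ≤ I := integral_nonneg fun x => abs_nonneg _
      rw [Metric.tendstoUniformlyOn_iff] at hunif
      have h1 := hunif (ε / (I + 1)) (by positivity)
      obtain ⟨N, hN⟩ := eventually_atTop.mp (h1.and hev)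
      refine ⟨N, fun n hn => ?_⟩
      obtain ⟨hn1, hn2⟩ := hN n hn
      have hinth : Integrable fun x => h x * (Δ ψ) x :=
        Crest.Agent.R097.int_mul_test (hhc.locallyIntegrableOn hW.measurableSet) hΔc hΔs
          (hΔts.trans hψs)
      have hintv : Integrable fun x => v n x * (Δ ψ) x := by
        have hc1 : ContinuousOn (v n) (tsupport ψ) :=
          ((hu (φ n)).continuousOn.mono hn2).sub ((LocConst_harm (hcl n)).1.continuousOn.mono hψs)
        have hi : IntegrableOn (fun x => v n x * (Δ ψ) x) (tsupport ψ) :=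
          (hc1.mul hΔc.continuousOn).integrableOn_compact hS
        rw [← integrableOn_univ]
        refine hi.of_forall_sdiff_eq_zero MeasurableSet.univ ?_
        intro x hx
        rw [lap_eq_zero hx.2, mul_zero]
      rw [Real.dist_eq, ← integral_sub hintv hinth]
      refine lt_of_le_of_lt (abs_integral_le_integral_abs) ?_
      calc ∫ x, |v n x * (Δ ψ) x - h x * (Δ ψ) x| ≤ ∫ x, ε / (I + 1) * |(Δ ψ) x| := by
            refine integral_mono (hintv.sub hinth).abs
              ((hΔc.abs.integrable_of_hasCompactSupport hΔs.norm).const_mul _) fun x => ?_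
            simp only
            rw [← sub_mul, abs_mul]
            by_cases hx : x ∈ tsupport ψ
            · apply mul_le_mul_of_nonneg_right _ (abs_nonneg _)
              have := hn1 x hx
              rw [Real.dist_eq, abs_sub_comm] at this
              exact this.le
            · rw [lap_eq_zero hx]
              simp
        _ = ε / (I + 1) * I := by rw [integral_const_mul]
        _ < ε := by
            rw [div_mul_eq_mul_div, div_lt_iff₀ (by positivity)]
            nlinarith
    refine tendsto_nhds_unique hl (hr.congr' ?_)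
    filter_upwards [hval] with n hn
    rw [hn]
  · -- gradients
    refine hG.congr_right ?_
    intro x hx
    exact (hgrad x hx).symm

end Crest.Agent.R135.Reg
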