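import Crest.Agent.R135.RegC1

/-!
# Row 135 (Mumford-Shah): main regularity theorem and interior estimates (regularity toolbox, part 5)
-/

set_option autoImplicit false
open MeasureTheory Metric Set Filter Topology Laplacian InnerProductSpace
open scoped RealInnerProductSpace NNReal ENNReal ContDiff Gradient

namespace Crest.Agent.R135.Reg
open Crest.Agent.R097 Crest.AnalysisR.PDE.OnePhase

/-- **Regularity off the crack.** If `u` has a weak gradient `G` on the open set `U` and
`Δ u = β (u - g)` weakly there, with `g` bounded and `u` locally square integrable, then `u` has a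
`C¹` representative, whose gradient is `G` a.e. -/
theorem exists_C1_rep {U : Set P} (hU : IsOpen U) {u g : P → ℝ} {G : P → P} {β M : ℝ}
    (hu : IsWeakGradOn U u G)
    (hu2 : ∀ x ∈ U, ∃ r > 0, ball x r ⊆ U ∧ MemLp u 2 (volume.restrict (ball x r)))
    (hgm : AEStronglyMeasurable g (volume.restrict U)) (hgM : ∀ x ∈ U, |g x| ≤ M)
    (hEL : ∀ φ : P → ℝ, ContDiff ℝ ∞ φ → HasCompactSupport φ → tsupport φ ⊆ U →
      (∫ x in U, ⟪G x, ∇ φ x⟫_ℝ) + β * ∫ x in U, (u x - g x) * φ x = 0) :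
    ∃ ut : P → ℝ, ContDiffOn ℝ 1 ut U ∧ (∀ᵐ x ∂(volume.restrict U), u x = ut x) ∧
      (∀ᵐ x ∂(volume.restrict U), G x = ∇ ut x) ∧ WLap U ut (fun x => β * (ut x - g x)) := by
  have hw : WLap U u (fun x => β * (u x - g x)) := by
    apply wlap_of_weakGrad hu
    intro φ hφ hc hs
    have h1 := hEL φ hφ hc hs
    have h2 : ∫ x in U, β * (u x - g x) * φ x = β * ∫ x in U, (u x - g x) * φ x := by
      rw [← integral_const_mul]
      congr 1
      funext x
      ring
    rw [h2]
    linarith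
  have hfin : ∀ x r, IsFiniteMeasure (volume.restrict (ball (x : P) r)) := fun x r =>
    ⟨by rw [Measure.restrict_apply_univ]; exact measure_ball_lt_top⟩
  obtain ⟨ut, hae, hutc⟩ := exists_continuous_rep hU hu.1 (fun x hx => by
    obtain ⟨r, hr, hrU, hur⟩ := hu2 x hx
    have := hfin x r
    refine ⟨r, hr, hrU, ?_⟩
    have hg2 : MemLp g 2 (volume.restrict (ball x r)) := by
      refine MemLp.of_bound (hgm.mono_set hrU) M ?_
      filter_upwards [ae_restrict_mem isOpen_ball.measurableSet] with y hy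
      exact hgM y (hrU hy)
    exact (hur.sub hg2).const_mul β) hw
  have hw' : WLap U ut (fun x => β * (ut x - g x)) := by
    refine hw.congr hae ?_ hU.measurableSet
    filter_upwards [hae] with x hx
    rw [hx]
  have hC1 : ContDiffOn ℝ 1 ut U := by
    refine contDiffOn_one_of_WLap hU hutc ?_ ?_ hw'
    · exact ((hutc.aestronglyMeasurable hU.measurableSet).sub hgm).const_mul β
    · intro x hx
      obtain ⟨r, hr, hrU⟩ := Metric.isOpen_iff.mp hU x hx
      obtain ⟨B, hB⟩ := (isCompact_closedBall x (r / 2)).exists_bound_of_continuousOn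
        (hutc.mono ((closedBall_subset_ball (half_lt_self hr)).trans hrU))
      refine ⟨r / 2, by positivity, |β| * (B + M), (ball_subset_ball (by linarith)).trans hrU, ?_⟩
      intro y hy
      rw [abs_mul]
      apply mul_le_mul_of_nonneg_left _ (abs_nonneg _)
      have h1 := hB y (ball_subset_closedBall hy)
      have h2 := hgM y (hrU (ball_subset_ball (by linarith) hy))
      rw [Real.norm_eq_abs] at h1
      exact (abs_sub _ _).trans (add_le_add h1 h2)
  exact ⟨ut, hC1, hae, weakGrad_eq_grad hU hu hC1 hae, hw'⟩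

/-! ### interior estimates -/

/-- harmonic functions are bounded by their means -/
theorem harm_mean_bound : ∃ C : ℝ, 0 < C ∧ ∀ (h : P → ℝ) (x : P) (R : ℝ), 0 < R →
    ContDiffOn ℝ 2 h (ball x R) → (∀ y ∈ ball x R, (Δ h) y = 0) → IntegrableOn h (ball x R) →
    |h x| ≤ C / R ^ 2 * ∫ y in ball x R, |h y| := by
  have hκ : 0 < Hm.kap 2 1 := Hm.kap_pos 1
  refine ⟨(Hm.kap 2 1)⁻¹ * 4, by positivity, ?_⟩
  intro h x R hR hh h0 hi
  have ht : 0 < R / 2 := by linarith
  have h1 := Hm.mean_ker 1 ht (show R / 2 < R by linarith) hh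
    (fun y hy => h0 y (ball_subset_ball (by linarith) hy))
  have h2 : |Hm.MM 1 (R / 2) h x| ≤ 4 / R ^ 2 * ∫ y in ball x R, |h y| := by
    unfold Hm.MM
    rw [← integral_const_mul, ← integral_indicator isOpen_ball.measurableSet, ← Real.norm_eq_abs]
    refine norm_integral_le_of_norm_le ?_ (Eventually.of_forall fun y => ?_)
    · rw [integrable_indicator_iff isOpen_ball.measurableSet]
      exact hi.abs.const_mul _
    · by_cases hy : y ∈ ball x R
      · rw [indicator_of_mem hy, norm_mul, Real.norm_eq_abs, Real.norm_eq_abs, mul_comm]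
        refine mul_le_mul_of_nonneg_right ((Hm.abs_ker_le 1 ht.le x y).trans (le_of_eq ?_))
          (abs_nonneg _)
        field_simp
        norm_num
      · rw [indicator_of_notMem hy]
        rw [mem_ball, dist_eq_norm, not_lt] at hy
        rw [Hm.ker_zero 1 ht (by linarith), mul_zero, norm_zero]
  have h3 : h x = (Hm.kap 2 1)⁻¹ * Hm.MM 1 (R / 2) h x := by
    rw [h1, ← mul_assoc, inv_mul_cancel₀ hκ.ne', one_mul]
  rw [h3, abs_mul, abs_of_pos (by positivity)]
  calc (Hm.kap 2 1)⁻¹ * |Hm.MM 1 (R / 2) h x| ≤ (Hm.kap 2 1)⁻¹ * (4 / R ^ 2 * ∫ y in ball x R, |h y|) :=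
        mul_le_mul_of_nonneg_left h2 (by positivity)
    _ = _ := by ring

/-- gradients of harmonic functions are bounded by their means -/
theorem harm_fderiv_mean_bound : ∃ C : ℝ, 0 < C ∧ ∀ (H : P → ℝ) (x : P) (R : ℝ), 0 < R →
    Harm H (ball x R) → IntegrableOn (fun y => ‖fderiv ℝ H y‖) (ball x R) →
    ‖fderiv ℝ H x‖ ≤ C / R ^ 2 * ∫ y in ball x R, ‖fderiv ℝ H y‖ := by
  obtain ⟨C, hC, hmb⟩ := harm_mean_bound
  refine ⟨C, hC, ?_⟩
  intro H x R hR hH hi
  have hI : 0 ≤ ∫ y in ball x R, ‖fderiv ℝ H y‖ := integral_nonneg fun y => norm_nonneg _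
  refine ContinuousLinearMap.opNorm_le_bound _ (by positivity) fun v => ?_
  set ℓ : (P →L[ℝ] ℝ) →L[ℝ] ℝ := ContinuousLinearMap.apply ℝ ℝ v with hℓ
  have hD : ContDiffOn ℝ ∞ (fderiv ℝ H) (ball x R) := Hm.contDiffOn_fderiv isOpen_ball hH.1
  have hD2 : ContDiffOn ℝ 2 (ℓ ∘ fderiv ℝ H) (ball x R) :=
    contDiffOn_infty.mp (ℓ.contDiff.comp_contDiffOn hD) 2
  have h0 : ∀ y ∈ ball x R, (Δ (ℓ ∘ fderiv ℝ H)) y = 0 := by
    intro y hy
    have h1 : ContDiffAt ℝ 2 (fderiv ℝ H) y :=
      (contDiffOn_infty.mp hD 2).contDiffAt (isOpen_ball.mem_nhds hy)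
    rw [h1.laplacian_CLM_comp_left, Function.comp, Hm.lap_fderiv isOpen_ball hH.1 hH.2 y hy, map_zero]
  have hm : AEStronglyMeasurable (fderiv ℝ H) (volume.restrict (ball x R)) :=
    (hD.continuousOn).aestronglyMeasurable isOpen_ball.measurableSet
  have hi2 : IntegrableOn (ℓ ∘ fderiv ℝ H) (ball x R) :=
    ℓ.integrable_comp ((integrable_norm_iff hm).mp hi)
  have h1 := hmb (ℓ ∘ fderiv ℝ H) x R hR hD2 h0 hi2
  have h2 : ∫ y in ball x R, |(ℓ ∘ fderiv ℝ H) y| ≤ (∫ y in ball x R, ‖fderiv ℝ H y‖) * ‖v‖ := by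
    rw [← integral_mul_const]
    refine integral_mono hi2.abs (hi.mul_const _) fun y => ?_
    exact (fderiv ℝ H y).le_opNorm v
  calc ‖(fderiv ℝ H x) v‖ = |(ℓ ∘ fderiv ℝ H) x| := rfl
    _ ≤ C / R ^ 2 * ∫ y in ball x R, |(ℓ ∘ fderiv ℝ H) y| := h1
    _ ≤ C / R ^ 2 * ((∫ y in ball x R, ‖fderiv ℝ H y‖) * ‖v‖) :=
        mul_le_mul_of_nonneg_left h2 (by positivity)
    _ = _ := by ring

/-- interior gradient bound for `Δ u = f`, `f` bounded -/
theorem fderiv_bound : ∃ C : ℝ, 0 < C ∧ ∀ (u f : P → ℝ) (x : P) (R A : ℝ), 0 < R →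
    ContDiffOn ℝ 1 u (ball x R) → AEStronglyMeasurable f (volume.restrict (ball x R)) →
    (∀ y ∈ ball x R, |f y| ≤ A) → WLap (ball x R) u f →
    IntegrableOn (fun y => ‖fderiv ℝ u y‖) (ball x R) →
    ‖fderiv ℝ u x‖ ≤ C / R ^ 2 * (∫ y in ball x R, ‖fderiv ℝ u y‖) + C * A * R := by
  obtain ⟨C1, hC1, hdec⟩ := decomp
  obtain ⟨C2, hC2, hmb⟩ := harm_fderiv_mean_bound
  set V : ℝ := (volume (ball (0 : P) 1)).toReal with hV
  have hV0 : 0 ≤ V := ENNReal.toReal_nonneg
  refine ⟨C2 + C2 * C1 * V + C1, by positivity, ?_⟩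
  intro u f x R A hR hu hfm hA h hi
  have hA0 : 0 ≤ A := (abs_nonneg _).trans (hA x (mem_ball_self hR))
  have hfin : IsFiniteMeasure (volume.restrict (ball x R)) :=
    ⟨by rw [Measure.restrict_apply_univ]; exact measure_ball_lt_top⟩
  have hf2 : MemLp f 2 (volume.restrict (ball x R)) := by
    refine MemLp.of_bound hfm A ?_
    filter_upwards [ae_restrict_mem isOpen_ball.measurableSet] with y hy
    exact hA y hy
  obtain ⟨H, F, hH, hae, hFc, -, hF⟩ := hdec x R hR u f
    (hu.continuousOn.locallyIntegrableOn isOpen_ball.measurableSet) hf2 h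
  obtain ⟨hF1, hFb⟩ := hF A hA
  have he : EqOn u (fun y => H y + F y) (ball x R) :=
    eq_of_ae_eq_open isOpen_ball hu.continuousOn (hH.1.continuousOn.add hFc.continuousOn) hae
  have hfd : ∀ y ∈ ball x R, fderiv ℝ u y = fderiv ℝ H y + fderiv ℝ F y := by
    intro y hy
    have h1 : u =ᶠ[𝓝 y] fun y => H y + F y := he.eventuallyEq_of_mem (isOpen_ball.mem_nhds hy)
    rw [h1.fderiv_eq, fderiv_fun_add
      ((hH.1.contDiffAt (isOpen_ball.mem_nhds hy)).differentiableAt (by simp))
      ((hF1.contDiffAt).differentiableAt (by simp))]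
  have hfdH : ∀ y ∈ ball x R, ‖fderiv ℝ H y‖ ≤ ‖fderiv ℝ u y‖ + C1 * A * R := by
    intro y hy
    have h1 : fderiv ℝ H y = fderiv ℝ u y - fderiv ℝ F y := by rw [hfd y hy]; abel
    rw [h1]
    exact (norm_sub_le _ _).trans (by linarith [(hFb y hy).2])
  have hmH : AEStronglyMeasurable (fun y => ‖fderiv ℝ H y‖) (volume.restrict (ball x R)) :=
    ((Hm.contDiffOn_fderiv isOpen_ball hH.1).continuousOn.norm).aestronglyMeasurable
      isOpen_ball.measurableSet
  have hiH : IntegrableOn (fun y => ‖fderiv ℝ H y‖) (ball x R) := by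
    refine Integrable.mono' (hi.add (integrable_const (C1 * A * R))) hmH ?_
    filter_upwards [ae_restrict_mem isOpen_ball.measurableSet] with y hy
    rw [norm_norm]
    exact hfdH y hy
  have h1 := hmb H x R hR hH hiH
  have h2 : ∫ y in ball x R, ‖fderiv ℝ H y‖ ≤ (∫ y in ball x R, ‖fderiv ℝ u y‖) + C1 * A * R * (V * R ^ 2) := by
    have h3 : ∫ y in ball x R, (‖fderiv ℝ u y‖ + C1 * A * R)
        = (∫ y in ball x R, ‖fderiv ℝ u y‖) + C1 * A * R * (V * R ^ 2) := by
      rw [integral_add hi (integrable_const _), setIntegral_const, smul_eq_mul]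
      congr 1
      have h4 : volume.real (ball x R) = V * R ^ 2 := by
        rw [Measure.real, Measure.addHaar_ball _ _ hR.le, ENNReal.toReal_mul,
          ENNReal.toReal_ofReal (by positivity)]
        simp [hV, mul_comm]
      rw [h4]
      ring
    rw [← h3]
    refine setIntegral_mono_on hiH (hi.add (integrable_const _)) isOpen_ball.measurableSet hfdH
  have h3 : ‖fderiv ℝ u x‖ ≤ ‖fderiv ℝ H x‖ + C1 * A * R := by
    rw [hfd x (mem_ball_self hR)]
    exact (norm_add_le _ _).trans (by linarith [(hFb x (mem_ball_self hR)).2])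
  have hI : 0 ≤ ∫ y in ball x R, ‖fderiv ℝ u y‖ := integral_nonneg fun y => norm_nonneg _
  calc ‖fderiv ℝ u x‖ ≤ C2 / R ^ 2 * ((∫ y in ball x R, ‖fderiv ℝ u y‖) + C1 * A * R * (V * R ^ 2))
        + C1 * A * R := by
        have := mul_le_mul_of_nonneg_left h2 (show 0 ≤ C2 / R ^ 2 by positivity)
        linarith
    _ = C2 / R ^ 2 * (∫ y in ball x R, ‖fderiv ℝ u y‖) + (C2 * C1 * V + C1) * A * R := by
        field_simp
        ring
    _ ≤ _ := by
        have e1 : C2 / R ^ 2 * (∫ y in ball x R, ‖fderiv ℝ u y‖)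
            ≤ (C2 + C2 * C1 * V + C1) / R ^ 2 * (∫ y in ball x R, ‖fderiv ℝ u y‖) := by
          apply mul_le_mul_of_nonneg_right _ hI
          apply div_le_div_of_nonneg_right _ (by positivity)
          have : 0 ≤ C2 * C1 * V := by positivity
          linarith
        have e2 : (C2 * C1 * V + C1) * A * R ≤ (C2 + C2 * C1 * V + C1) * A * R := by
          apply mul_le_mul_of_nonneg_right _ hR.le
          apply mul_le_mul_of_nonneg_right _ hA0
          linarith
        linarith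

end Crest.Agent.R135.Reg
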