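import Crest.Agent.R097.Harm

/-!
# Row 135 (Mumford-Shah): the logarithmic kernel in the plane (regularity toolbox, part 1)
-/

set_option autoImplicit false
open MeasureTheory Metric Set Filter Topology Laplacian InnerProductSpace
open scoped RealInnerProductSpace NNReal ENNReal ContDiff Gradient

namespace Crest.Agent.R135.Reg

/-- the plane -/
abbrev P := EuclideanSpace ℝ (Fin 2)

/-! ### local integrability of negative powers of the norm -/

theorem integrableOn_norm_rpow {s : ℝ} (hs : s < 2) (R : ℝ) :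
    IntegrableOn (fun z : P => ‖z‖ ^ (-s)) (ball 0 R) := by
  have h1 : Integrable (fun z : P => ((Iio R).indicator (fun t : ℝ => t ^ (-s))) ‖z‖) := by
    rw [integrable_fun_norm_addHaar (volume : Measure P) (f := (Iio R).indicator (fun t : ℝ => t ^ (-s)))]
    have h2 : IntegrableOn (fun t : ℝ => t ^ (1 - s)) (Ioo 0 R) := by
      rcases le_or_gt R 0 with hR | hR
      · rw [Ioo_eq_empty (not_lt.mpr hR)]
        exact integrableOn_empty
      · have := (intervalIntegral.intervalIntegrable_rpow' (a := 0) (b := R) (r := 1 - s)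
          (by linarith)).1
        exact this.mono_set Ioo_subset_Ioc_self
    have h3 : IntegrableOn ((Iio R).indicator (fun t : ℝ => t ^ (1 - s))) (Ioi 0) := by
      rw [integrableOn_indicator_iff measurableSet_Iio]
      have : Iio R ∩ Ioi 0 = Ioo 0 R := by
        ext x; simp [and_comm]
      rwa [this]
    refine h3.congr_fun ?_ measurableSet_Ioi
    intro t ht
    have ht' : 0 < t := ht
    simp only [finrank_euclideanSpace, Fintype.card_fin, Nat.add_one_sub_one, pow_one, smul_eq_mul,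
      indicator]
    split_ifs with h
    · rw [Real.rpow_sub ht', Real.rpow_one, Real.rpow_neg ht'.le]
      rfl
    · simp
  have h4 : (fun z : P => ((Iio R).indicator (fun t : ℝ => t ^ (-s))) ‖z‖)
      = (ball (0 : P) R).indicator (fun z : P => ‖z‖ ^ (-s)) := by
    funext z
    simp only [indicator, mem_Iio, mem_ball_zero_iff]
  rw [h4, integrable_indicator_iff isOpen_ball.measurableSet] at h1
  exact h1

/-! ### the kernels -/

/-- the regularised logarithmic kernel -/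
noncomputable def Lk (ε : ℝ) (z : P) : ℝ := (1 / 2) * Real.log (‖z‖ ^ 2 + ε ^ 2)

/-- its gradient -/
noncomputable def gk (ε : ℝ) (z : P) : P := (‖z‖ ^ 2 + ε ^ 2)⁻¹ • z

/-- the normalising constant -/
noncomputable def c0 : ℝ := ∫ x : P, 2 / (‖x‖ ^ 2 + 1) ^ 2

theorem integrable_peak : Integrable (fun x : P => 2 / (‖x‖ ^ 2 + 1) ^ 2) := by
  have h := integrable_rpow_neg_one_add_norm_sq (E := P) (μ := volume) (r := 4) (by
    simp; norm_num)
  refine (h.const_mul 2).congr (Eventually.of_forall fun x => ?_)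
  have h1 : (0 : ℝ) < 1 + ‖x‖ ^ 2 := by positivity
  simp only
  rw [show (-4 / 2 : ℝ) = -((2 : ℕ) : ℝ) by norm_num, Real.rpow_neg h1.le, Real.rpow_natCast,
    add_comm (‖x‖ ^ 2)]
  rfl

theorem c0_pos : 0 < c0 := by
  unfold c0
  rw [integral_pos_iff_support_of_nonneg (fun x => by positivity) integrable_peak]
  have : Function.support (fun x : P => 2 / (‖x‖ ^ 2 + 1) ^ 2) = univ := by
    ext x
    simp only [Function.mem_support, ne_eq, mem_univ, iff_true]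
    positivity
  rw [this]
  simp

theorem continuous_Lk {ε : ℝ} (hε : 0 < ε) : Continuous (Lk ε) := by
  unfold Lk
  refine continuous_const.mul (Continuous.log ?_ fun x => by positivity)
  fun_prop

theorem measurable_Lk (ε : ℝ) : Measurable (Lk ε) := by
  unfold Lk
  fun_prop

theorem measurable_gk (ε : ℝ) : Measurable (gk ε) := by
  unfold gk
  fun_prop

theorem continuous_gk {ε : ℝ} (hε : 0 < ε) : Continuous (gk ε) := by
  have h1 : Continuous fun z : P => (‖z‖ ^ 2 + ε ^ 2)⁻¹ :=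
    Continuous.inv₀ (by fun_prop) fun x => by positivity
  exact h1.smul continuous_id

theorem hasFDerivAt_Lk {ε : ℝ} {z : P} (h : ‖z‖ ^ 2 + ε ^ 2 ≠ 0) :
    HasFDerivAt (Lk ε) (innerSL ℝ (gk ε z)) z := by
  have h1 : HasFDerivAt (fun z : P => ‖z‖ ^ 2 + ε ^ 2) (2 • (innerSL ℝ z)) z := by
    have := ((hasFDerivAt_id z).norm_sq).add_const (ε ^ 2)
    simpa using this
  have h2 := (h1.log h).const_mul (1 / 2 : ℝ)
  have h3 : (1 / 2 : ℝ) • ((‖z‖ ^ 2 + ε ^ 2)⁻¹ • (2 • (innerSL ℝ z))) = innerSL ℝ (gk ε z) := by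
    ext v
    unfold gk
    simp only [smul_apply, innerSL_apply_apply, smul_eq_mul, real_inner_smul_left, nsmul_eq_mul,
      Nat.cast_ofNat]
    ring
  rw [← h3]
  exact h2

theorem norm_gk_le (ε : ℝ) (z : P) : ‖gk ε z‖ ≤ ‖z‖⁻¹ := by
  unfold gk
  rcases eq_or_ne z 0 with rfl | hz
  · simp
  · have hz' : 0 < ‖z‖ := norm_pos_iff.mpr hz
    rw [norm_smul, Real.norm_eq_abs, abs_of_nonneg (by positivity)]
    rw [inv_mul_eq_div, div_le_iff₀ (by positivity)]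
    have : ‖z‖⁻¹ * (‖z‖ ^ 2 + ε ^ 2) = ‖z‖ + ‖z‖⁻¹ * ε ^ 2 := by field_simp
    rw [this]
    have : 0 ≤ ‖z‖⁻¹ * ε ^ 2 := by positivity
    linarith

theorem norm_gk_le' {ε : ℝ} (hε : 0 < ε) (z : P) : ‖gk ε z‖ ≤ ε⁻¹ := by
  unfold gk
  rw [norm_smul, Real.norm_eq_abs, abs_of_nonneg (by positivity), inv_mul_eq_div,
    div_le_iff₀ (by positivity)]
  have h1 : ε⁻¹ * (‖z‖ ^ 2 + ε ^ 2) = ε⁻¹ * ‖z‖ ^ 2 + ε := by field_simp
  rw [h1]
  have h2 : 0 ≤ ε⁻¹ * (‖z‖ - ε) ^ 2 := by positivity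
  have h3 : ε⁻¹ * (‖z‖ - ε) ^ 2 = ε⁻¹ * ‖z‖ ^ 2 - 2 * ‖z‖ + ε := by
    field_simp
    ring
  have h4 : 0 ≤ ‖z‖ := norm_nonneg z
  linarith

/-- the gradients converge -/
theorem norm_gk_sub_le {ε : ℝ} (hε : 0 < ε) (z : P) :
    ‖gk ε z - gk 0 z‖ ≤ ε ^ (1 / 2 : ℝ) * ‖z‖ ^ (-(3 / 2) : ℝ) := by
  rcases eq_or_ne z 0 with rfl | hz
  · unfold gk
    simp
  · have hz' : 0 < ‖z‖ := norm_pos_iff.mpr hz
    have h1 : gk ε z - gk 0 z = (-(ε ^ 2 / (‖z‖ ^ 2 * (‖z‖ ^ 2 + ε ^ 2)))) • z := by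
      unfold gk
      rw [← sub_smul]
      congr 1
      field_simp
      ring
    rw [h1, norm_smul, Real.norm_eq_abs, abs_neg, abs_of_nonneg (by positivity)]
    have h2 : ε ^ 2 / (‖z‖ ^ 2 * (‖z‖ ^ 2 + ε ^ 2)) * ‖z‖ = (ε ^ 2 / (‖z‖ ^ 2 + ε ^ 2)) * ‖z‖⁻¹ := by
      field_simp
    rw [h2]
    have h3 : ε ^ 2 / (‖z‖ ^ 2 + ε ^ 2) ≤ (ε / ‖z‖) ^ (1 / 2 : ℝ) := by
      rcases le_or_gt ε ‖z‖ with h | h
      · have h4 : ε / ‖z‖ ≤ 1 := (div_le_one hz').mpr h
        have h5 : 0 < ε / ‖z‖ := by positivity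
        calc ε ^ 2 / (‖z‖ ^ 2 + ε ^ 2) ≤ ε ^ 2 / ‖z‖ ^ 2 := by
              apply div_le_div_of_nonneg_left (by positivity) (by positivity)
              nlinarith
          _ = (ε / ‖z‖) ^ (2 : ℝ) := by
              rw [← div_pow]
              norm_num
          _ ≤ (ε / ‖z‖) ^ (1 / 2 : ℝ) := Real.rpow_le_rpow_of_exponent_ge h5 h4 (by norm_num)
      · have h4 : 1 ≤ ε / ‖z‖ := by
          rw [le_div_iff₀ hz']; linarith
        calc ε ^ 2 / (‖z‖ ^ 2 + ε ^ 2) ≤ 1 := by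
              rw [div_le_one (by positivity)]
              nlinarith [sq_nonneg ‖z‖]
          _ ≤ (ε / ‖z‖) ^ (1 / 2 : ℝ) := Real.one_le_rpow h4 (by norm_num)
    calc (ε ^ 2 / (‖z‖ ^ 2 + ε ^ 2)) * ‖z‖⁻¹ ≤ (ε / ‖z‖) ^ (1 / 2 : ℝ) * ‖z‖⁻¹ :=
          mul_le_mul_of_nonneg_right h3 (by positivity)
      _ = ε ^ (1 / 2 : ℝ) * ‖z‖ ^ (-(3 / 2) : ℝ) := by
          rw [Real.div_rpow hε.le hz'.le, div_mul_eq_mul_div, mul_div_assoc]
          congr 1
          rw [← Real.rpow_neg_one, ← Real.rpow_sub hz']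
          norm_num

/-- the kernels converge -/
theorem Lk_sub_le {ε : ℝ} (hε : 0 < ε) {z : P} (hz : z ≠ 0) :
    |Lk ε z - Lk 0 z| ≤ 2 * (ε ^ (1 / 2 : ℝ) * ‖z‖ ^ (-(1 / 2) : ℝ)) := by
  have hz' : 0 < ‖z‖ := norm_pos_iff.mpr hz
  have h1 : Lk ε z - Lk 0 z = (1 / 2) * Real.log (1 + (ε / ‖z‖) ^ 2) := by
    unfold Lk
    rw [← mul_sub, ← Real.log_div (by positivity) (by positivity)]
    congr 2
    field_simp
    ring
  have h2 : 0 < ε / ‖z‖ := by positivity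
  have h3 : 0 ≤ Real.log (1 + (ε / ‖z‖) ^ 2) := Real.log_nonneg (by nlinarith [sq_nonneg (ε / ‖z‖)])
  rw [h1, abs_of_nonneg (by positivity)]
  have h4 : Real.log (1 + (ε / ‖z‖) ^ 2) ≤ 4 * (ε / ‖z‖) ^ (1 / 2 : ℝ) := by
    set t := (ε / ‖z‖) ^ (1 / 2 : ℝ) with ht
    have ht0 : 0 < t := by positivity
    have h5 : ε / ‖z‖ = t ^ 2 := by
      rw [ht, ← Real.rpow_natCast, ← Real.rpow_mul h2.le]
      norm_num
    rw [h5]
    have h6 : 1 + (t ^ 2) ^ 2 ≤ (1 + t) ^ 4 := by nlinarith [pow_pos ht0 2, pow_pos ht0 3]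
    calc Real.log (1 + (t ^ 2) ^ 2) ≤ Real.log ((1 + t) ^ 4) :=
          Real.log_le_log (by positivity) h6
      _ = 4 * Real.log (1 + t) := by rw [Real.log_pow]; norm_num
      _ ≤ 4 * t := by
          have := Real.log_le_sub_one_of_pos (show 0 < 1 + t by positivity)
          linarith
  have h5 : (ε / ‖z‖) ^ (1 / 2 : ℝ) = ε ^ (1 / 2 : ℝ) * ‖z‖ ^ (-(1 / 2) : ℝ) := by
    rw [Real.div_rpow hε.le hz'.le, Real.rpow_neg hz'.le]
    rfl
  rw [h5] at h4
  linarith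

/-- size of the logarithm -/
theorem abs_Lk_zero_le {z : P} (hz : z ≠ 0) :
    |Lk 0 z| ≤ ‖z‖ + 2 * ‖z‖ ^ (-(1 / 2) : ℝ) := by
  have hz' : 0 < ‖z‖ := norm_pos_iff.mpr hz
  have h1 : Lk 0 z = Real.log ‖z‖ := by
    unfold Lk
    rw [zero_pow two_ne_zero, add_zero, Real.log_pow]
    push_cast
    ring
  rw [h1, abs_le]
  constructor
  · have h2 : Real.log (‖z‖ ^ (-(1 / 2) : ℝ)) ≤ ‖z‖ ^ (-(1 / 2) : ℝ) - 1 :=
      Real.log_le_sub_one_of_pos (by positivity)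
    rw [Real.log_rpow hz'] at h2
    linarith
  · have h2 := Real.log_le_sub_one_of_pos hz'
    have h3 : 0 ≤ ‖z‖ ^ (-(1 / 2) : ℝ) := by positivity
    linarith

/-! ### the fundamental solution -/

theorem lap_Lk {ε : ℝ} (hε : 0 < ε) (y x : P) :
    (Δ (fun x : P => Lk ε (x - y))) x = 2 * ε ^ 2 / (‖x - y‖ ^ 2 + ε ^ 2) ^ 2 := by
  have h0 : ∀ t : ℝ, 0 ≤ t → HasDerivAt (fun t => (1 / 2) * Real.log (t + ε ^ 2))
      ((1 / 2) * (t + ε ^ 2)⁻¹) t := by
    intro t ht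
    have h1 : t + ε ^ 2 ≠ 0 := by positivity
    have := (((hasDerivAt_id t).add_const (ε ^ 2)).log h1).const_mul (1 / 2 : ℝ)
    simpa using this
  have h1 : ∀ t : ℝ, 0 ≤ t → HasDerivAt (fun t => (1 / 2) * (t + ε ^ 2)⁻¹)
      (-(1 / 2) * ((t + ε ^ 2) ^ 2)⁻¹) t := by
    intro t ht
    have h1 : t + ε ^ 2 ≠ 0 := by positivity
    have := (((hasDerivAt_id t).add_const (ε ^ 2)).inv h1).const_mul (1 / 2 : ℝ)
    refine this.congr_deriv ?_
    simp only [id]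
    field_simp
  have h2 : Continuous fun x : P => -(1 / 2) * ((‖x - y‖ ^ 2 + ε ^ 2) ^ 2)⁻¹ := by
    refine continuous_const.mul (Continuous.inv₀ (by fun_prop) fun x => by positivity)
  have h3 := Crest.Agent.R077.lap_radial (x := y) h0 h1 h2 x
  unfold Lk
  rw [h3]
  have : ‖x - y‖ ^ 2 + ε ^ 2 ≠ 0 := by positivity
  field_simp
  push_cast
  ring

theorem contDiff_Lk {ε : ℝ} (hε : 0 < ε) (y : P) : ContDiff ℝ 2 (fun x : P => Lk ε (x - y)) := by
  unfold Lk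
  refine contDiff_const.mul (ContDiff.log ?_ fun x => by positivity)
  exact (((contDiff_id.sub contDiff_const).norm_sq ℝ).add contDiff_const)

/-- the regularised kernel tested against `Δ φ` -/
theorem Lk_test {ε : ℝ} (hε : 0 < ε) (y : P) {φ : P → ℝ} (hφ : ContDiff ℝ ∞ φ)
    (hc : HasCompactSupport φ) :
    ∫ x, Lk ε (x - y) * (Δ φ) x = ∫ x, 2 * ε ^ 2 / (‖x - y‖ ^ 2 + ε ^ 2) ^ 2 * φ x := by
  rw [Crest.Agent.R097.Hm.green_on isOpen_univ (contDiff_Lk hε y).contDiffOn hφ hc (subset_univ _)]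
  congr 1
  funext x
  rw [lap_Lk hε]

theorem peak_tendsto {g : P → ℝ} (hg : Integrable g) (y : P) (hgc : ContinuousAt g y) :
    Tendsto (fun n : ℕ => ∫ x, 2 * ((1 : ℝ) / (n + 1)) ^ 2 / (‖x - y‖ ^ 2 + ((1 : ℝ) / (n + 1)) ^ 2) ^ 2 * g x)
      atTop (𝓝 (c0 * g y)) := by
  have h1 := tendsto_integral_comp_smul_smul_of_integrable' (μ := (volume : Measure P))
    (φ := fun x : P => c0⁻¹ * (2 / (‖x‖ ^ 2 + 1) ^ 2)) (x₀ := y) (g := g)
    (fun x => by have := c0_pos; positivity)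
    (by rw [integral_const_mul]; exact inv_mul_cancel₀ c0_pos.ne') ?_ hg hgc
  · have h2 := (h1.comp (tendsto_natCast_atTop_atTop.atTop_add (tendsto_const_nhds (x := (1:ℝ))))).const_mul c0
    refine h2.congr fun n => ?_
    simp only [Function.comp, smul_eq_mul]
    rw [← integral_const_mul]
    congr 1
    funext x
    have hn : (0 : ℝ) < (n : ℝ) + 1 := by positivity
    rw [norm_smul, Real.norm_eq_abs, abs_of_pos hn, norm_sub_rev y x]
    simp only [finrank_euclideanSpace, Fintype.card_fin]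
    have hc := c0_pos.ne'
    have h3 : (((n : ℝ) + 1) * ‖x - y‖) ^ 2 + 1 ≠ 0 := by positivity
    have h4 : ‖x - y‖ ^ 2 + (1 / ((n : ℝ) + 1)) ^ 2 ≠ 0 := by positivity
    field_simp
  · have h3 : Tendsto (fun t : ℝ => t ^ 2 * (c0⁻¹ * (2 / (t ^ 2 + 1) ^ 2))) atTop (𝓝 0) := by
      have h4 : Tendsto (fun t : ℝ => 2 * c0⁻¹ * (t ^ 2)⁻¹) atTop (𝓝 0) := by
        have := (tendsto_pow_atTop (α := ℝ) two_ne_zero).inv_tendsto_atTop.const_mul (2 * c0⁻¹)
        simpa using this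
      refine squeeze_zero' (Eventually.of_forall fun t => by have := c0_pos; positivity) ?_ h4
      filter_upwards [eventually_gt_atTop 0] with t ht
      have hc := c0_pos
      have : t ^ 2 * (c0⁻¹ * (2 / (t ^ 2 + 1) ^ 2)) = 2 * c0⁻¹ * (t ^ 2 / (t ^ 2 + 1) ^ 2) := by ring
      rw [this]
      apply mul_le_mul_of_nonneg_left _ (by positivity)
      rw [div_le_iff₀ (by positivity)]
      have h5 : (t ^ 2)⁻¹ * (t ^ 2 + 1) ^ 2 = t ^ 2 + 2 + (t ^ 2)⁻¹ := by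
        field_simp
        ring
      rw [h5]
      have : 0 ≤ (t ^ 2)⁻¹ := by positivity
      linarith
    have h4 := h3.comp (tendsto_norm_cobounded_atTop (E := P))
    refine h4.congr fun x => ?_
    simp [Function.comp]

end Crest.Agent.R135.Reg
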