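import Crest.Agent.R135.RegEst

/-!
# Row 135 (Mumford-Shah): L² gradient bound and modulus of continuity of the gradient
(regularity toolbox, part 7)
-/

set_option autoImplicit false
open MeasureTheory Metric Set Filter Topology Laplacian InnerProductSpace
open scoped RealInnerProductSpace NNReal ENNReal ContDiff Gradient

namespace Crest.Agent.R135.Reg
open Crest.Agent.R097 Crest.AnalysisR.PDE.OnePhase

/-- for bounded `f` on a ball, `f ∈ L²` -/
theorem memLp_ball {f : P → ℝ} {x : P} {R A : ℝ}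
    (hfm : AEStronglyMeasurable f (volume.restrict (ball x R)))
    (hA : ∀ y ∈ ball x R, |f y| ≤ A) : MemLp f 2 (volume.restrict (ball x R)) := by
  have hfin : IsFiniteMeasure (volume.restrict (ball x R)) :=
    ⟨by rw [Measure.restrict_apply_univ]; exact measure_ball_lt_top⟩
  refine MemLp.of_bound hfm A ?_
  filter_upwards [ae_restrict_mem isOpen_ball.measurableSet] with y hy
  exact hA y hy

/-- the decomposition for `C¹` functions, everywhere and with gradients -/
theorem decomp_C1 : ∃ C : ℝ, 0 < C ∧ ∀ (u f : P → ℝ) (x : P) (R A : ℝ), 0 < R →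
    ContDiffOn ℝ 1 u (ball x R) → AEStronglyMeasurable f (volume.restrict (ball x R)) →
    (∀ y ∈ ball x R, |f y| ≤ A) → WLap (ball x R) u f →
    ∃ H F : P → ℝ, Harm H (ball x R) ∧ ContDiff ℝ 1 F ∧ (∀ y ∈ ball x R, u y = H y + F y) ∧
      (∀ y ∈ ball x R, fderiv ℝ u y = fderiv ℝ H y + fderiv ℝ F y) ∧
      ∀ y ∈ ball x R, |F y| ≤ C * A * R ^ 2 ∧ ‖fderiv ℝ F y‖ ≤ C * A * R := by
  obtain ⟨C1, hC1, hdec⟩ := decomp
  refine ⟨C1, hC1, ?_⟩
  intro u f x R A hR hu hfm hA h
  obtain ⟨H, F, hH, hae, hFc, -, hF⟩ := hdec x R hR u f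
    (hu.continuousOn.locallyIntegrableOn isOpen_ball.measurableSet) (memLp_ball hfm hA) h
  obtain ⟨hF1, hFb⟩ := hF A hA
  have he : EqOn u (fun y => H y + F y) (ball x R) :=
    eq_of_ae_eq_open isOpen_ball hu.continuousOn (hH.1.continuousOn.add hFc.continuousOn) hae
  refine ⟨H, F, hH, hF1, he, ?_, hFb⟩
  intro y hy
  have h1 : u =ᶠ[𝓝 y] fun y => H y + F y := he.eventuallyEq_of_mem (isOpen_ball.mem_nhds hy)
  rw [h1.fderiv_eq, fderiv_fun_add
    ((hH.1.contDiffAt (isOpen_ball.mem_nhds hy)).differentiableAt (by simp))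
    ((hF1.contDiffAt).differentiableAt (by simp))]

/-- **Modulus of continuity of the gradient** -/
theorem fderiv_modulus : ∃ C : ℝ, 0 < C ∧ ∀ (u f : P → ℝ) (x : P) (R A M : ℝ), 0 < R →
    ContDiffOn ℝ 1 u (ball x R) → AEStronglyMeasurable f (volume.restrict (ball x R)) →
    (∀ y ∈ ball x R, |f y| ≤ A) → WLap (ball x R) u f →
    (∀ y ∈ ball x R, ‖fderiv ℝ u y‖ ≤ M) →
    ∀ y ∈ ball x (R / 2), ∀ z ∈ ball x (R / 2),
      ‖fderiv ℝ u y - fderiv ℝ u z‖ ≤ C * (M + A * R) * √(dist y z / R) := by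
  obtain ⟨C1, hC1, hdec⟩ := decomp_C1
  obtain ⟨C2, hC2, hgs⟩ := Hm.grad_sup_F 2
  refine ⟨8 + 2 * C2 + 2 * C2 * C1 + 2 * C1, by positivity, ?_⟩
  intro u f x R A M hR hu hfm hA h hM y hy z hz
  have hA0 : 0 ≤ A := (abs_nonneg _).trans (hA x (mem_ball_self hR))
  have hM0 : 0 ≤ M := (norm_nonneg _).trans (hM x (mem_ball_self hR))
  have hyR : y ∈ ball x R := ball_subset_ball (by linarith) hy
  have hzR : z ∈ ball x R := ball_subset_ball (by linarith) hz
  set δ : ℝ := dist y z with hδ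
  have hδ0 : 0 ≤ δ := dist_nonneg
  set τ : ℝ := δ / R with hτ
  have hτ0 : 0 ≤ τ := by positivity
  set s : ℝ := √τ with hs
  have hs0 : 0 ≤ s := Real.sqrt_nonneg _
  have hss : s * s = τ := Real.mul_self_sqrt hτ0
  have hMA : 0 ≤ M + A * R := by positivity
  rcases eq_or_lt_of_le hδ0 with hδz | hδpos
  · have : y = z := dist_eq_zero.mp (hδ ▸ hδz.symm)
    rw [this, sub_self, norm_zero]
    positivity
  have hτpos : 0 < τ := by positivity
  have hspos : 0 < s := Real.sqrt_pos.mpr hτpos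
  by_cases hcase : 1 / 4 ≤ s
  · have h1 : ‖fderiv ℝ u y - fderiv ℝ u z‖ ≤ 2 * M :=
      (norm_sub_le _ _).trans (by linarith [hM y hyR, hM z hzR])
    have h2 : 2 * M ≤ 8 * (M + A * R) * s := by
      have : M ≤ M + A * R := by linarith [mul_nonneg hA0 hR.le]
      nlinarith
    have h3 : 8 * (M + A * R) * s ≤ (8 + 2 * C2 + 2 * C2 * C1 + 2 * C1) * (M + A * R) * s := by
      apply mul_le_mul_of_nonneg_right _ hs0
      apply mul_le_mul_of_nonneg_right _ hMA
      have : 0 ≤ C2 * C1 := by positivity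
      linarith
    linarith
  · rw [not_le] at hcase
    set ρ : ℝ := R * s with hρ
    have hρ0 : 0 < ρ := by positivity
    have hρR : ρ < R / 4 := by rw [hρ]; nlinarith
    have hδρ : δ = ρ * s := by
      rw [hρ, mul_assoc, hss, hτ]
      field_simp
    have hδρ4 : δ < ρ / 4 := by rw [hδρ]; nlinarith
    have hsub : ball y ρ ⊆ ball x R := by
      refine ball_subset_ball' ?_
      rw [mem_ball] at hy
      linarith
    obtain ⟨H, F, hH, hF1, he, hfd, hFb⟩ := hdec u f y ρ A hρ0 (hu.mono hsub)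
      (hfm.mono_set hsub) (fun p hp => hA p (hsub hp)) (h.mono hsub)
    have hHb : ∀ p ∈ ball y ρ, ‖fderiv ℝ H p‖ ≤ M + C1 * A * ρ := by
      intro p hp
      have h1 : fderiv ℝ H p = fderiv ℝ u p - fderiv ℝ F p := by rw [hfd p hp]; abel
      rw [h1]
      exact (norm_sub_le _ _).trans (add_le_add (hM p (hsub hp)) (hFb p hp).2)
    have hDH : ContDiffOn ℝ ∞ (fderiv ℝ H) (ball y ρ) := Hm.contDiffOn_fderiv isOpen_ball hH.1
    have hgrad : ∀ p ∈ ball y (ρ / 2), ‖fderiv ℝ (fderiv ℝ H) p‖ ≤ C2 * (M + C1 * A * ρ) / (ρ / 2) := by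
      intro p hp
      have hsub2 : ball p (ρ / 2) ⊆ ball y ρ := by
        refine ball_subset_ball' ?_
        rw [mem_ball] at hp
        linarith
      exact hgs (fderiv ℝ H) p (ρ / 2) (M + C1 * A * ρ) (by positivity)
        (contDiffOn_infty.mp (hDH.mono hsub2) 2)
        (fun q hq => Hm.lap_fderiv isOpen_ball hH.1 hH.2 q (hsub2 hq))
        (fun q hq => hHb q (hsub2 hq))
    have hyb : y ∈ ball y (ρ / 2) := mem_ball_self (by positivity)
    have hzb : z ∈ ball y (ρ / 2) := by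
      rw [mem_ball, dist_comm]; linarith
    have hlip : ‖fderiv ℝ H y - fderiv ℝ H z‖ ≤ C2 * (M + C1 * A * ρ) / (ρ / 2) * ‖y - z‖ := by
      refine (convex_ball y (ρ / 2)).norm_image_sub_le_of_norm_fderiv_le (𝕜 := ℝ) ?_ hgrad hzb hyb
      intro p hp
      exact ((hDH.contDiffAt (isOpen_ball.mem_nhds
        (ball_subset_ball (by linarith) hp))).differentiableAt (by simp))
    have hyρ : y ∈ ball y ρ := mem_ball_self hρ0
    have hzρ : z ∈ ball y ρ := ball_subset_ball (by linarith) hzb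
    have h1 : fderiv ℝ u y - fderiv ℝ u z
        = (fderiv ℝ H y - fderiv ℝ H z) + (fderiv ℝ F y - fderiv ℝ F z) := by
      rw [hfd y hyρ, hfd z hzρ]; abel
    have h2 : ‖fderiv ℝ F y - fderiv ℝ F z‖ ≤ 2 * (C1 * A * ρ) :=
      (norm_sub_le _ _).trans (by linarith [(hFb y hyρ).2, (hFb z hzρ).2])
    have h3 : C2 * (M + C1 * A * ρ) / (ρ / 2) * ‖y - z‖ = 2 * C2 * (M + C1 * A * ρ) * s := by
      rw [← dist_eq_norm, ← hδ, hδρ]
      field_simp
    rw [h3] at hlip
    have h4 : ‖fderiv ℝ u y - fderiv ℝ u z‖ ≤ 2 * C2 * (M + C1 * A * ρ) * s + 2 * (C1 * A * ρ) := by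
      rw [h1]
      exact (norm_add_le _ _).trans (add_le_add hlip h2)
    have h5 : 2 * C2 * (M + C1 * A * ρ) * s + 2 * (C1 * A * ρ)
        ≤ (8 + 2 * C2 + 2 * C2 * C1 + 2 * C1) * (M + A * R) * s := by
      have e1 : ρ ≤ R := by linarith
      have e2 : C1 * A * ρ ≤ C1 * (A * R) := by
        rw [mul_assoc]
        exact mul_le_mul_of_nonneg_left (mul_le_mul_of_nonneg_left e1 hA0) hC1.le
      have e3 : 2 * C2 * (M + C1 * A * ρ) * s ≤ 2 * C2 * (M + C1 * (A * R)) * s := by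
        apply mul_le_mul_of_nonneg_right _ hs0
        apply mul_le_mul_of_nonneg_left _ (by positivity)
        linarith
      have e4 : 2 * (C1 * A * ρ) = 2 * C1 * (A * R) * s := by rw [hρ]; ring
      rw [e4]
      have e5 : 0 ≤ A * R := by positivity
      have e6 : (8 + 2 * C2 + 2 * C2 * C1 + 2 * C1) * (M + A * R) * s
          - (2 * C2 * (M + C1 * (A * R)) * s + 2 * C1 * (A * R) * s)
          = (8 * (M + A * R) + 2 * C2 * (A * R) + 2 * C2 * C1 * M + 2 * C1 * M) * s := by ring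
      have e7 : 0 ≤ (8 * (M + A * R) + 2 * C2 * (A * R) + 2 * C2 * C1 * M + 2 * C1 * M) * s := by
        positivity
      linarith
    linarith

/-- gradient bound on the half ball by the Dirichlet energy -/
theorem fderiv_bound_L2 : ∃ C : ℝ, 0 < C ∧ ∀ (u f : P → ℝ) (x : P) (R A E : ℝ), 0 < R →
    ContDiffOn ℝ 1 u (ball x R) → AEStronglyMeasurable f (volume.restrict (ball x R)) →
    (∀ y ∈ ball x R, |f y| ≤ A) → WLap (ball x R) u f → 0 ≤ E →
    (∫⁻ y in ball x R, ‖fderiv ℝ u y‖ₑ ^ 2) ≤ ENNReal.ofReal E →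
    ∀ y ∈ ball x (R / 2), ‖fderiv ℝ u y‖ ≤ C * √E / R + C * A * R := by
  obtain ⟨C1, hC1, hb⟩ := fderiv_bound
  set V : ℝ := (volume (ball (0 : P) 1)).toReal with hV
  have hV0 : 0 ≤ V := ENNReal.toReal_nonneg
  refine ⟨C1 * (V + 2) + C1, by positivity, ?_⟩
  intro u f x R A E hR hu hfm hA h hE hE2 y hy
  have hA0 : 0 ≤ A := (abs_nonneg _).trans (hA x (mem_ball_self hR))
  have hsub : ball y (R / 2) ⊆ ball x R := by
    refine ball_subset_ball' ?_
    rw [mem_ball] at hy
    linarith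
  have hfin : IsFiniteMeasure (volume.restrict (ball y (R / 2))) :=
    ⟨by rw [Measure.restrict_apply_univ]; exact measure_ball_lt_top⟩
  have hcont : ContinuousOn (fun y => ‖fderiv ℝ u y‖) (ball x R) :=
    (hu.continuousOn_fderiv_of_isOpen isOpen_ball (by simp)).norm
  have hm : AEStronglyMeasurable (fun y => ‖fderiv ℝ u y‖) (volume.restrict (ball y (R / 2))) :=
    (hcont.mono hsub).aestronglyMeasurable isOpen_ball.measurableSet
  have hlt : ∫⁻ p in ball y (R / 2), ‖fderiv ℝ u p‖ₑ ^ 2 ≤ ENNReal.ofReal E :=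
    (lintegral_mono_set hsub).trans hE2
  have heq : ∀ p, ‖fderiv ℝ u p‖ₑ ^ 2 = ENNReal.ofReal (‖fderiv ℝ u p‖ ^ 2) := fun p => by
    rw [ENNReal.ofReal_pow (norm_nonneg _), ofReal_norm]
  have hi2 : IntegrableOn (fun p => ‖fderiv ℝ u p‖ ^ 2) (ball y (R / 2)) := by
    refine ⟨hm.pow 2, ?_⟩
    rw [hasFiniteIntegral_iff_ofReal (Eventually.of_forall fun p => by positivity)]
    simp only [← heq]
    exact hlt.trans_lt ENNReal.ofReal_lt_top
  have hI2 : ∫ p in ball y (R / 2), ‖fderiv ℝ u p‖ ^ 2 ≤ E := by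
    rw [integral_eq_lintegral_of_nonneg_ae (f := fun p => ‖fderiv ℝ u p‖ ^ 2)
      (Eventually.of_forall fun p => by positivity) hi2.1]
    simp only [← heq]
    exact ENNReal.toReal_le_of_le_ofReal hE hlt
  have hi1 : IntegrableOn (fun p => ‖fderiv ℝ u p‖) (ball y (R / 2)) := by
    refine Integrable.mono' (hi2.add (integrable_const 1)) hm ?_
    refine Eventually.of_forall fun p => ?_
    rw [norm_norm]
    simp only [Pi.add_apply]
    nlinarith [sq_nonneg (‖fderiv ℝ u p‖ - 1 / 2)]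
  have hvol : volume.real (ball y (R / 2)) = V * (R / 2) ^ 2 := by
    rw [Measure.real, Measure.addHaar_ball _ _ (by positivity), ENNReal.toReal_mul,
      ENNReal.toReal_ofReal (by positivity)]
    simp [hV, mul_comm]
  have hI1 : ∀ t : ℝ, 0 < t → ∫ p in ball y (R / 2), ‖fderiv ℝ u p‖
      ≤ t / 2 * (V * (R / 2) ^ 2) + E / (2 * t) := by
    intro t ht
    have h1 : ∫ p in ball y (R / 2), ‖fderiv ℝ u p‖
        ≤ ∫ p in ball y (R / 2), (t / 2 + (2 * t)⁻¹ * ‖fderiv ℝ u p‖ ^ 2) := by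
      refine integral_mono hi1 ((integrable_const _).add (hi2.const_mul _)) fun p => ?_
      have h2 : t / 2 + (2 * t)⁻¹ * ‖fderiv ℝ u p‖ ^ 2 - ‖fderiv ℝ u p‖
          = (‖fderiv ℝ u p‖ - t) ^ 2 / (2 * t) := by
        field_simp
        ring
      have h3 : 0 ≤ (‖fderiv ℝ u p‖ - t) ^ 2 / (2 * t) := by positivity
      simp only
      linarith
    rw [integral_add (integrable_const _) (hi2.const_mul _), integral_const_mul,
      setIntegral_const, hvol, smul_eq_mul] at h1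
    refine h1.trans ?_
    have h4 : (2 * t)⁻¹ * ∫ p in ball y (R / 2), ‖fderiv ℝ u p‖ ^ 2 ≤ E / (2 * t) := by
      rw [div_eq_inv_mul E (2 * t)]
      exact mul_le_mul_of_nonneg_left hI2 (by positivity)
    linarith
  have hI : ∫ p in ball y (R / 2), ‖fderiv ℝ u p‖ ≤ (V / 4 + 1 / 2) * √E * R := by
    refine le_of_forall_pos_le_add fun ε hε => ?_
    set η : ℝ := ε / (V / 4 * R + 1) with hη
    have hden : 0 < V / 4 * R + 1 := by positivity
    have hη0 : 0 < η := by positivity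
    have hsE : 0 ≤ √E := Real.sqrt_nonneg _
    have h1 := hI1 ((√E + η) / R) (by positivity)
    have h2 : E / (2 * ((√E + η) / R)) ≤ √E * R / 2 := by
      have h3 : E = √E * √E := (Real.mul_self_sqrt hE).symm
      have h4 : E / (2 * ((√E + η) / R)) = (E / (√E + η)) * R / 2 := by
        field_simp
      rw [h4]
      have h5 : E / (√E + η) ≤ √E := by
        rw [div_le_iff₀ (by positivity)]
        nlinarith
      nlinarith
    have h6 : (√E + η) / R / 2 * (V * (R / 2) ^ 2) = (√E + η) * R * V / 8 := by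
      field_simp
      ring
    rw [h6] at h1
    have h7 : η * (V / 4 * R + 1) = ε := by
      rw [hη]
      field_simp
    nlinarith [mul_nonneg (mul_nonneg hsE hR.le) hV0]
  have h1 := hb u f y (R / 2) A (by positivity) (hu.mono hsub) (hfm.mono_set hsub)
    (fun p hp => hA p (hsub hp)) (h.mono hsub) hi1
  have h2 : C1 / (R / 2) ^ 2 * ∫ p in ball y (R / 2), ‖fderiv ℝ u p‖
      ≤ C1 / (R / 2) ^ 2 * ((V / 4 + 1 / 2) * √E * R) :=
    mul_le_mul_of_nonneg_left hI (by positivity)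
  have h3 : C1 / (R / 2) ^ 2 * ((V / 4 + 1 / 2) * √E * R) = C1 * (V + 2) * √E / R := by
    field_simp
    ring
  have h4 : C1 * A * (R / 2) ≤ (C1 * (V + 2) + C1) * A * R := by
    have : 0 ≤ C1 * A * R := by positivity
    have h5 : 0 ≤ C1 * (V + 2) * A * R := by positivity
    nlinarith
  have h5 : C1 * (V + 2) * √E / R ≤ (C1 * (V + 2) + C1) * √E / R := by
    apply div_le_div_of_nonneg_right _ hR.le
    apply mul_le_mul_of_nonneg_right _ (Real.sqrt_nonneg _)
    linarith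
  linarith

end Crest.Agent.R135.Reg
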