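import Crest.Agent.R135.RegKer

/-!
# Row 135 (Mumford-Shah): logarithmic potentials (regularity toolbox, part 2)
-/

set_option autoImplicit false
open MeasureTheory Metric Set Filter Topology Laplacian InnerProductSpace
open scoped RealInnerProductSpace NNReal ENNReal ContDiff Gradient

namespace Crest.Agent.R135.Reg

/-! ### integrability of kernels -/

theorem locInt_of_balls {F : Type*} [NormedAddCommGroup F] {k : P → F}
    (h : ∀ R : ℝ, IntegrableOn k (ball 0 R)) : LocallyIntegrable k := by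
  intro x
  exact ⟨ball 0 (‖x‖ + 1), isOpen_ball.mem_nhds (by simp), h _⟩

theorem integrableOn_Lk_zero (R : ℝ) : IntegrableOn (Lk 0) (ball 0 R) := by
  have h1 : IntegrableOn (fun z : P => ‖z‖ + 2 * ‖z‖ ^ (-(1 / 2) : ℝ)) (ball 0 R) := by
    refine IntegrableOn.add ?_ ?_
    · exact ((continuous_norm.continuousOn).integrableOn_compact
        (isCompact_closedBall (0 : P) R)).mono_set ball_subset_closedBall
    · exact (integrableOn_norm_rpow (s := 1 / 2) (by norm_num) R).const_mul 2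
  refine Integrable.mono' h1 (measurable_Lk 0).aestronglyMeasurable ?_
  have h2 : ∀ᵐ z : P, z ≠ 0 := by
    rw [ae_iff]; simp
  filter_upwards [ae_restrict_of_ae h2] with z hz
  exact abs_Lk_zero_le hz

theorem integrableOn_Lk_zero_sq (R : ℝ) : IntegrableOn (fun z => Lk 0 z ^ 2) (ball 0 R) := by
  have h1 : IntegrableOn (fun z : P => 2 * ‖z‖ ^ 2 + 8 * ‖z‖ ^ (-1 : ℝ)) (ball 0 R) := by
    refine IntegrableOn.add ?_ ?_
    · have : Continuous fun z : P => 2 * ‖z‖ ^ 2 := by fun_prop
      exact ((this.continuousOn).integrableOn_compact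
        (isCompact_closedBall (0 : P) R)).mono_set ball_subset_closedBall
    · exact (integrableOn_norm_rpow (s := 1) (by norm_num) R).const_mul 8
  refine Integrable.mono' h1 ((measurable_Lk 0).pow_const 2).aestronglyMeasurable ?_
  have h2 : ∀ᵐ z : P, z ≠ 0 := by
    rw [ae_iff]; simp
  filter_upwards [ae_restrict_of_ae h2] with z hz
  have h3 := abs_Lk_zero_le hz
  have hz' : 0 < ‖z‖ := norm_pos_iff.mpr hz
  rw [Real.norm_eq_abs, abs_pow]
  set t := ‖z‖ ^ (-(1 / 2) : ℝ) with ht
  have ht0 : 0 < t := by positivity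
  have h4 : ‖z‖ ^ (-1 : ℝ) = t ^ 2 := by
    rw [ht, ← Real.rpow_natCast, ← Real.rpow_mul hz'.le]
    norm_num
  rw [h4]
  calc |Lk 0 z| ^ 2 ≤ (‖z‖ + 2 * t) ^ 2 := by
        apply pow_le_pow_left₀ (abs_nonneg _) h3
    _ ≤ 2 * ‖z‖ ^ 2 + 8 * t ^ 2 := by nlinarith [sq_nonneg (‖z‖ - 2 * t)]

theorem integrable_shift {k ψ : P → ℝ} (hk : LocallyIntegrable k) (y : P) (hψ : Continuous ψ)
    (hc : HasCompactSupport ψ) : Integrable (fun x => k (x - y) * ψ x) := by
  have hc' : HasCompactSupport (fun z => ψ (z + y)) :=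
    hc.comp_homeomorph (Homeomorph.addRight y)
  have h1 : Integrable (fun z => k z * ψ (z + y)) := by
    have := hk.integrable_smul_left_of_hasCompactSupport (g := fun z => ψ (z + y))
      (hψ.comp (continuous_id.add continuous_const)) hc'
    refine this.congr (Eventually.of_forall fun z => ?_)
    simp only [smul_eq_mul]
    ring
  have h2 := h1.comp_sub_right y
  simpa using h2

/-- the fundamental solution -/
theorem Lk_zero_test (y : P) {φ : P → ℝ} (hφ : ContDiff ℝ ∞ φ) (hc : HasCompactSupport φ) :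
    ∫ x, Lk 0 (x - y) * (Δ φ) x = c0 * φ y := by
  have hΔc : Continuous (Δ φ) := by
    have hφ2 : ContDiff ℝ 2 φ := contDiff_infty.mp hφ 2
    have := Crest.Agent.R097.Hm.continuousOn_lap isOpen_univ hφ2.contDiffOn
    rwa [← continuousOn_univ]
  have hΔs : HasCompactSupport (Δ φ) := by
    refine HasCompactSupport.of_support_subset_isCompact hc ?_
    intro x hx
    by_contra h
    exact hx (Crest.Agent.R097.Hm.tsupport_lap_subset φ x h)
  have hL0 : LocallyIntegrable (Lk 0) := locInt_of_balls integrableOn_Lk_zero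
  have hr : LocallyIntegrable (fun z : P => ‖z‖ ^ (-(1 / 2) : ℝ)) :=
    locInt_of_balls fun R => integrableOn_norm_rpow (s := 1 / 2) (by norm_num) R
  -- the regularised integrals converge to both sides
  have h1 := peak_tendsto (hφ.continuous.integrable_of_hasCompactSupport hc) y
    hφ.continuous.continuousAt
  have h2 : Tendsto (fun n : ℕ => ∫ x, Lk ((1 : ℝ) / (n + 1)) (x - y) * (Δ φ) x) atTop
      (𝓝 (∫ x, Lk 0 (x - y) * (Δ φ) x)) := by
    have h3 : Tendsto (fun n : ℕ => 2 * ((1 : ℝ) / (n + 1)) ^ (1 / 2 : ℝ)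
        * ∫ x, ‖x - y‖ ^ (-(1 / 2) : ℝ) * |(Δ φ) x|) atTop (𝓝 0) := by
      have h4 : Tendsto (fun n : ℕ => ((1 : ℝ) / (n + 1)) ^ (1 / 2 : ℝ)) atTop (𝓝 0) := by
        have := (tendsto_one_div_add_atTop_nhds_zero_nat (𝕜 := ℝ)).rpow_const
          (p := 1 / 2) (Or.inr (by norm_num))
        simpa using this
      have := (h4.const_mul 2).mul_const (∫ x, ‖x - y‖ ^ (-(1 / 2) : ℝ) * |(Δ φ) x|)
      simpa using this
    rw [tendsto_iff_norm_sub_tendsto_zero]
    refine squeeze_zero (fun n => norm_nonneg _) (fun n => ?_) h3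
    have hn : (0 : ℝ) < 1 / ((n : ℝ) + 1) := by positivity
    have i1 : Integrable fun x => Lk ((1 : ℝ) / (n + 1)) (x - y) * (Δ φ) x :=
      integrable_shift (continuous_Lk hn).locallyIntegrable y hΔc hΔs
    have i2 : Integrable fun x => Lk 0 (x - y) * (Δ φ) x := integrable_shift hL0 y hΔc hΔs
    have i3 : Integrable fun x => ‖x - y‖ ^ (-(1 / 2) : ℝ) * |(Δ φ) x| :=
      integrable_shift hr y hΔc.abs hΔs.abs
    rw [← integral_sub i1 i2, ← integral_const_mul]
    refine norm_integral_le_of_norm_le (i3.const_mul _) ?_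
    have h2 : ∀ᵐ z : P, z ≠ y := by
      rw [ae_iff]; simp
    filter_upwards [h2] with x hx
    rw [← sub_mul, norm_mul, Real.norm_eq_abs, Real.norm_eq_abs]
    have h5 := Lk_sub_le hn (sub_ne_zero.mpr hx)
    calc |Lk (1 / ((n : ℝ) + 1)) (x - y) - Lk 0 (x - y)| * |(Δ φ) x|
        ≤ 2 * ((1 / ((n : ℝ) + 1)) ^ (1 / 2 : ℝ) * ‖x - y‖ ^ (-(1 / 2) : ℝ)) * |(Δ φ) x| :=
          mul_le_mul_of_nonneg_right h5 (abs_nonneg _)
      _ = _ := by ring
  refine tendsto_nhds_unique h2 (h1.congr fun n => ?_)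
  exact (Lk_test (by positivity) y hφ hc).symm

/-! ### potentials -/

/-- the (regularised) logarithmic potential, without normalising constant -/
noncomputable def pot (ε : ℝ) (f : P → ℝ) (x : P) : ℝ := ∫ y, Lk ε (x - y) * f y

/-- its derivative -/
noncomputable def potD (ε : ℝ) (f : P → ℝ) (x : P) : P →L[ℝ] ℝ :=
  ∫ y, f y • innerSL ℝ (gk ε (x - y))

/-- Cauchy-Schwarz for a kernel -/
theorem ker_cs {k f : P → ℝ} (hk : Measurable k) {x : P} {R : ℝ} (hR : ‖x‖ + 1 ≤ R)
    (hk2 : IntegrableOn (fun z => k z ^ 2) (ball 0 R))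
    (hf : MemLp f 2) (hs : ∀ y, y ∉ ball (0 : P) 1 → f y = 0) :
    Integrable (fun y => k (x - y) * f y) ∧
      |∫ y, k (x - y) * f y| ≤ √(∫ z in ball (0 : P) R, k z ^ 2) * √(∫ y, f y ^ 2) := by
  set g : P → ℝ := (ball (0 : P) R).indicator k with hg
  have hgm : Measurable g := hk.indicator isOpen_ball.measurableSet
  have hg2 : MemLp g 2 := by
    rw [memLp_two_iff_integrable_sq hgm.aestronglyMeasurable]
    have : (fun z => g z ^ 2) = (ball (0 : P) R).indicator (fun z => k z ^ 2) := by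
      funext z
      simp only [hg, indicator]
      split_ifs <;> simp
    rw [this, integrable_indicator_iff isOpen_ball.measurableSet]
    exact hk2
  have hgx : MemLp (fun y => g (x - y)) 2 :=
    hg2.comp_measurePreserving (Measure.measurePreserving_sub_left volume x)
  have he : ∀ y, k (x - y) * f y = g (x - y) * f y := by
    intro y
    by_cases hy : y ∈ ball (0 : P) 1
    · have : x - y ∈ ball (0 : P) R := by
        rw [mem_ball_zero_iff] at hy ⊢
        have := norm_sub_le x y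
        linarith
      simp only [hg, indicator_of_mem this]
    · rw [hs y hy, mul_zero, mul_zero]
  have hi : Integrable (fun y => g (x - y) * f y) := by
    have := hgx.integrable_mul hf
    exact this
  simp_rw [he]
  refine ⟨hi, ?_⟩
  have h1 : |∫ y, g (x - y) * f y| ≤ ∫ y, ‖g (x - y)‖ * ‖f y‖ := by
    refine (abs_integral_le_integral_abs).trans (le_of_eq ?_)
    congr 1
    funext y
    rw [abs_mul]
    rfl
  have h2 := integral_mul_norm_le_Lp_mul_Lq (μ := (volume : Measure P)) (f := fun y => g (x - y))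
    (g := f) (p := 2) (q := 2) (Real.HolderConjugate.two_two) (by simpa using hgx) (by simpa using hf)
  have h3 : ∫ y, ‖g (x - y)‖ ^ (2 : ℝ) = ∫ z in ball (0 : P) R, k z ^ 2 := by
    rw [← integral_indicator isOpen_ball.measurableSet,
      ← integral_sub_left_eq_self (fun z => (ball (0 : P) R).indicator (fun z => k z ^ 2) z) volume x]
    congr 1
    funext y
    simp only [hg, indicator]
    split_ifs <;> simp
  have h4 : ∫ y, ‖f y‖ ^ (2 : ℝ) = ∫ y, f y ^ 2 := by
    congr 1
    funext y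
    simp
  rw [h3, h4, ← Real.sqrt_eq_rpow, ← Real.sqrt_eq_rpow] at h2
  exact h1.trans h2

theorem integrable_of_L2 {f : P → ℝ} (hf : MemLp f 2) (hs : ∀ y, y ∉ ball (0 : P) 1 → f y = 0) :
    Integrable f := by
  have h1 : MemLp f 2 (volume.restrict (ball (0 : P) 1)) := hf.restrict _
  have : IsFiniteMeasure (volume.restrict (ball (0 : P) 1)) :=
    ⟨by rw [Measure.restrict_apply_univ]; exact measure_ball_lt_top⟩
  have h2 : IntegrableOn f (ball (0 : P) 1) := h1.integrable (by norm_num)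
  rw [← integrableOn_univ]
  exact h2.of_forall_sdiff_eq_zero MeasurableSet.univ fun x hx => hs x hx.2

theorem continuous_pot {ε : ℝ} (hε : 0 < ε) {f : P → ℝ} (hf : Integrable f)
    (hs : ∀ y, y ∉ ball (0 : P) 1 → f y = 0) : Continuous (pot ε f) := by
  rw [continuous_iff_continuousAt]
  intro x0
  obtain ⟨C, hC⟩ := (isCompact_closedBall (0 : P) (‖x0‖ + 2)).exists_bound_of_continuousOn
    (continuous_Lk hε).continuousOn
  unfold pot
  refine continuousAt_of_dominated (bound := fun y => C * |f y|) ?_ ?_ (hf.abs.const_mul C) ?_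
  · refine Eventually.of_forall fun x => ?_
    exact (((measurable_Lk ε).comp (measurable_const.sub measurable_id)).aestronglyMeasurable).mul
      hf.aestronglyMeasurable
  · filter_upwards [ball_mem_nhds x0 one_pos] with x hx
    refine Eventually.of_forall fun y => ?_
    by_cases hy : y ∈ ball (0 : P) 1
    · rw [norm_mul]
      refine mul_le_mul_of_nonneg_right (hC _ ?_) (abs_nonneg _)
      rw [mem_ball_zero_iff] at hy
      rw [mem_ball, dist_eq_norm] at hx
      rw [mem_closedBall_zero_iff]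
      have h1 := norm_sub_le x y
      have h2 : ‖x‖ ≤ ‖x - x0‖ + ‖x0‖ := by
        have := norm_add_le (x - x0) x0
        simpa using this
      linarith
    · rw [hs y hy]
      simp
  · refine Eventually.of_forall fun y => ?_
    exact (((continuous_Lk hε).comp (continuous_id.sub continuous_const)).mul
      continuous_const).continuousAt

/-- square-integrable difference of kernels -/
theorem Lk_sub_sq {ε : ℝ} (hε : 0 < ε) (R : ℝ) :
    IntegrableOn (fun z : P => (Lk ε z - Lk 0 z) ^ 2) (ball 0 R) ∧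
      ∫ z in ball (0 : P) R, (Lk ε z - Lk 0 z) ^ 2 ≤ 4 * ε * ∫ z in ball (0 : P) R, ‖z‖ ^ (-1 : ℝ) := by
  have h0 : ∀ᵐ z : P, z ≠ 0 := by
    rw [ae_iff]; simp
  have h1 : ∀ᵐ z : P, ‖(Lk ε z - Lk 0 z) ^ 2‖ ≤ 4 * ε * ‖z‖ ^ (-1 : ℝ) := by
    filter_upwards [h0] with z hz
    have hz' : 0 < ‖z‖ := norm_pos_iff.mpr hz
    have h2 := Lk_sub_le hε hz
    rw [norm_pow, Real.norm_eq_abs]
    calc |Lk ε z - Lk 0 z| ^ 2 ≤ (2 * (ε ^ (1 / 2 : ℝ) * ‖z‖ ^ (-(1 / 2) : ℝ))) ^ 2 :=
          pow_le_pow_left₀ (abs_nonneg _) h2 2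
      _ = 4 * ((ε ^ (1 / 2 : ℝ)) ^ 2 * (‖z‖ ^ (-(1 / 2) : ℝ)) ^ 2) := by ring
      _ = 4 * ε * ‖z‖ ^ (-1 : ℝ) := by
          rw [← Real.rpow_natCast, ← Real.rpow_mul hε.le, ← Real.rpow_natCast, ← Real.rpow_mul hz'.le]
          norm_num
          ring
  have h2 : IntegrableOn (fun z : P => 4 * ε * ‖z‖ ^ (-1 : ℝ)) (ball 0 R) :=
    (integrableOn_norm_rpow (s := 1) (by norm_num) R).const_mul _
  have h3 : IntegrableOn (fun z : P => (Lk ε z - Lk 0 z) ^ 2) (ball 0 R) :=
    Integrable.mono' h2 (((measurable_Lk ε).sub (measurable_Lk 0)).pow_const 2).aestronglyMeasurable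
      (ae_restrict_of_ae h1)
  refine ⟨h3, ?_⟩
  rw [← integral_const_mul]
  refine integral_mono_ae h3 h2 ?_
  filter_upwards [ae_restrict_of_ae (s := ball (0 : P) R) h1] with z hz
  exact (le_abs_self _).trans hz

theorem pot_sub_le {ε : ℝ} (hε : 0 < ε) {f : P → ℝ} (hf : MemLp f 2)
    (hs : ∀ y, y ∉ ball (0 : P) 1 → f y = 0) {x : P} {R : ℝ} (hR : ‖x‖ + 1 ≤ R) :
    |pot ε f x - pot 0 f x| ≤ √(4 * ε * ∫ z in ball (0 : P) R, ‖z‖ ^ (-1 : ℝ)) * √(∫ y, f y ^ 2) := by
  obtain ⟨h1, h2⟩ := Lk_sub_sq hε R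
  have h3 := ker_cs (k := fun z => Lk ε z - Lk 0 z) ((measurable_Lk ε).sub (measurable_Lk 0)) hR
    h1 hf hs
  have h4 := (ker_cs (measurable_Lk 0) hR (integrableOn_Lk_zero_sq R) hf hs).1
  have h5 : Integrable (fun y => Lk ε (x - y) * f y) := by
    have h6 : Integrable (fun y => (Lk ε (x - y) - Lk 0 (x - y)) * f y + Lk 0 (x - y) * f y) :=
      h3.1.add h4
    refine h6.congr (Eventually.of_forall fun y => ?_)
    simp only
    ring
  have h6 : pot ε f x - pot 0 f x = ∫ y, (Lk ε (x - y) - Lk 0 (x - y)) * f y := by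
    unfold pot
    rw [← integral_sub h5 h4]
    congr 1
    funext y
    ring
  rw [h6]
  refine h3.2.trans (mul_le_mul_of_nonneg_right (Real.sqrt_le_sqrt h2) (Real.sqrt_nonneg _))

/-- potentials of square integrable functions are continuous -/
theorem continuous_pot_zero {f : P → ℝ} (hf : MemLp f 2)
    (hs : ∀ y, y ∉ ball (0 : P) 1 → f y = 0) : Continuous (pot 0 f) := by
  have hfi := integrable_of_L2 hf hs
  rw [continuous_iff_continuousAt]
  intro x0
  set R : ℝ := ‖x0‖ + 2 with hR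
  have h1 : TendstoUniformlyOn (fun n : ℕ => pot ((1 : ℝ) / (n + 1)) f) (pot 0 f) atTop
      (ball x0 1) := by
    rw [Metric.tendstoUniformlyOn_iff]
    intro δ hδ
    have h2 : Tendsto (fun n : ℕ => √(4 * ((1 : ℝ) / (n + 1)) * ∫ z in ball (0 : P) R, ‖z‖ ^ (-1 : ℝ))
        * √(∫ y, f y ^ 2)) atTop (𝓝 0) := by
      have h3 := (((tendsto_one_div_add_atTop_nhds_zero_nat (𝕜 := ℝ)).const_mul 4).mul_const
        (∫ z in ball (0 : P) R, ‖z‖ ^ (-1 : ℝ))).sqrt.mul_const (√(∫ y, f y ^ 2))
      simpa using h3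
    filter_upwards [h2.eventually_lt_const hδ] with n hn x hx
    rw [dist_comm, Real.dist_eq]
    refine lt_of_le_of_lt (pot_sub_le (by positivity) hf hs ?_) hn
    rw [mem_ball, dist_eq_norm] at hx
    have h2 : ‖x‖ ≤ ‖x - x0‖ + ‖x0‖ := by
      have := norm_add_le (x - x0) x0
      simpa using this
    linarith
  have h2 : ContinuousOn (pot 0 f) (ball x0 1) := by
    refine h1.continuousOn (Eventually.of_forall fun n => ?_).frequently
    exact (continuous_pot (by positivity) hfi hs).continuousOn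
  exact h2.continuousAt (ball_mem_nhds x0 one_pos)

/-- the sup bound -/
theorem abs_pot_zero_le {f : P → ℝ} (hf : MemLp f 2) (hs : ∀ y, y ∉ ball (0 : P) 1 → f y = 0)
    {x : P} (hx : ‖x‖ ≤ 1) :
    |pot 0 f x| ≤ √(∫ z in ball (0 : P) 2, Lk 0 z ^ 2) * √(∫ y, f y ^ 2) :=
  (ker_cs (measurable_Lk 0) (by linarith) (integrableOn_Lk_zero_sq 2) hf hs).2

/-! ### potentials of bounded functions are `C¹` -/

theorem memLp_of_bdd {f : P → ℝ} {A : ℝ} (hm : AEStronglyMeasurable f) (hA : ∀ y, |f y| ≤ A)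
    (hs : ∀ y, y ∉ ball (0 : P) 1 → f y = 0) : MemLp f 2 := by
  have h1 : MemLp ((ball (0 : P) 1).indicator (fun _ => A)) 2 :=
    memLp_indicator_const _ isOpen_ball.measurableSet _ (Or.inr measure_ball_lt_top.ne)
  refine h1.mono hm (Eventually.of_forall fun y => ?_)
  by_cases hy : y ∈ ball (0 : P) 1
  · rw [indicator_of_mem hy]
    exact (hA y).trans (le_abs_self _)
  · rw [hs y hy]
    simp

theorem norm_dk (ε : ℝ) (z : P) : ‖innerSL ℝ (gk ε z)‖ = ‖gk ε z‖ := innerSL_apply_norm ℝ _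

theorem measurable_dk (ε : ℝ) (x : P) : Measurable fun y : P => innerSL ℝ (gk ε (x - y)) :=
  (innerSL ℝ (E := P)).continuous.measurable.comp
    ((measurable_gk ε).comp (measurable_const.sub measurable_id))

theorem hasFDerivAt_shift {g : P → ℝ} {L : P →L[ℝ] ℝ} {x y : P}
    (h : HasFDerivAt g L (x - y)) : HasFDerivAt (fun x => g (x - y)) L x := by
  have h1 := h.comp x ((hasFDerivAt_id x).sub_const y)
  have h2 : L.comp (ContinuousLinearMap.id ℝ P) = L := ContinuousLinearMap.comp_id L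
  rw [h2] at h1
  exact h1

theorem hasFDerivAt_pot {ε : ℝ} (hε : 0 < ε) {f : P → ℝ} (hf : Integrable f) 
    (hs : ∀ y, y ∉ ball (0 : P) 1 → f y = 0) (x0 : P) :
    HasFDerivAt (pot ε f) (potD ε f x0) x0 := by
  obtain ⟨C, hC⟩ := (isCompact_closedBall (0 : P) (‖x0‖ + 1)).exists_bound_of_continuousOn
    (continuous_Lk hε).continuousOn
  unfold pot potD
  refine hasFDerivAt_integral_of_dominated_of_fderiv_le (𝕜 := ℝ) (s := (univ : Set P))
    (bound := fun y => |f y| * ε⁻¹)
    (F := fun (x : P) (y : P) => Lk ε (x - y) * f y)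
    (F' := fun (x : P) (y : P) => f y • innerSL ℝ (gk ε (x - y)))
    univ_mem ?_ ?_ ?_ ?_ (hf.abs.mul_const _) ?_
  · refine Eventually.of_forall fun x => ?_
    exact (((measurable_Lk ε).comp (measurable_const.sub measurable_id)).aestronglyMeasurable).mul
      hf.aestronglyMeasurable
  · refine Integrable.mono' (hf.abs.const_mul C)
      ((((measurable_Lk ε).comp (measurable_const.sub measurable_id)).aestronglyMeasurable).mul
      hf.aestronglyMeasurable) (Eventually.of_forall fun y => ?_)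
    by_cases hy : y ∈ ball (0 : P) 1
    · rw [norm_mul]
      refine mul_le_mul_of_nonneg_right (hC _ ?_) (abs_nonneg _)
      rw [mem_ball_zero_iff] at hy
      rw [mem_closedBall_zero_iff]
      have h1 := norm_sub_le x0 y
      linarith
    · rw [hs y hy]
      simp
  · exact hf.aestronglyMeasurable.smul (measurable_dk ε x0).aestronglyMeasurable
  · refine Eventually.of_forall fun y x _ => ?_
    rw [norm_smul, norm_dk, Real.norm_eq_abs]
    exact mul_le_mul_of_nonneg_left (norm_gk_le' hε _) (abs_nonneg _)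
  · refine Eventually.of_forall fun y x _ => ?_
    have h1 : HasFDerivAt (fun x : P => Lk ε (x - y)) (innerSL ℝ (gk ε (x - y))) x := by
      have h2 : ‖x - y‖ ^ 2 + ε ^ 2 ≠ 0 := by positivity
      exact hasFDerivAt_shift (hasFDerivAt_Lk h2)
    have h2 := h1.mul_const (f y)
    exact h2

theorem integrable_potD {ε : ℝ} (hε : 0 < ε) {f : P → ℝ} (hf : Integrable f) (x : P) :
    Integrable fun y => f y • innerSL ℝ (gk ε (x - y)) := by
  refine Integrable.mono' (hf.abs.mul_const ε⁻¹)
    (hf.aestronglyMeasurable.smul (measurable_dk ε x).aestronglyMeasurable)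
    (Eventually.of_forall fun y => ?_)
  rw [norm_smul, norm_dk, Real.norm_eq_abs]
  exact mul_le_mul_of_nonneg_left (norm_gk_le' hε _) (abs_nonneg _)

theorem continuous_potD {ε : ℝ} (hε : 0 < ε) {f : P → ℝ} (hf : Integrable f) :
    Continuous (potD ε f) := by
  unfold potD
  refine continuous_of_dominated (bound := fun y => |f y| * ε⁻¹) ?_ ?_ (hf.abs.mul_const _) ?_
  · intro x
    exact hf.aestronglyMeasurable.smul (measurable_dk ε x).aestronglyMeasurable
  · intro x
    refine Eventually.of_forall fun y => ?_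
    rw [norm_smul, norm_dk, Real.norm_eq_abs]
    exact mul_le_mul_of_nonneg_left (norm_gk_le' hε _) (abs_nonneg _)
  · refine Eventually.of_forall fun y => ?_
    have h1 : Continuous fun x : P => innerSL ℝ (gk ε (x - y)) :=
      (innerSL ℝ (E := P)).continuous.comp
        ((continuous_gk hε).comp (continuous_id.sub continuous_const))
    exact h1.const_smul (f y)

/-- `L¹` bound for kernel integrals against bounded functions supported in the unit ball -/
theorem ker_sup {f : P → ℝ} {A : ℝ} (hA : ∀ y, |f y| ≤ A) (hm : AEStronglyMeasurable f)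
    (hs : ∀ y, y ∉ ball (0 : P) 1 → f y = 0)
    {k : P → ℝ} (hk0 : ∀ z, 0 ≤ k z) {x : P} {R : ℝ} (hR : ‖x‖ + 1 ≤ R) 
    (hk : IntegrableOn k (ball 0 R)) :
    Integrable (fun y => |f y| * k (x - y)) ∧
    ∫ y, |f y| * k (x - y) ≤ A * ∫ z in ball (0 : P) R, k z := by
  have hA0 : 0 ≤ A := (abs_nonneg _).trans (hA 0)
  have h1 : Integrable fun y => (ball (0 : P) R).indicator k (x - y) :=
    ((integrable_indicator_iff isOpen_ball.measurableSet).mpr hk).comp_sub_left x
  have h0 : ∀ z, 0 ≤ (ball (0 : P) R).indicator k z := fun z => indicator_nonneg (fun z _ => hk0 z) z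
  have h2 : ∀ y, |f y| * k (x - y) = |f y| * (ball (0 : P) R).indicator k (x - y) := by
    intro y
    by_cases hy : y ∈ ball (0 : P) 1
    · have : x - y ∈ ball (0 : P) R := by
        rw [mem_ball_zero_iff] at hy ⊢
        have := norm_sub_le x y
        linarith
      rw [indicator_of_mem this]
    · rw [hs y hy, abs_zero, zero_mul, zero_mul]
  have h3 : Integrable fun y => |f y| * (ball (0 : P) R).indicator k (x - y) := by
    refine Integrable.mono' (h1.const_mul A) (hm.norm.mul h1.aestronglyMeasurable)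
      (Eventually.of_forall fun y => ?_)
    rw [norm_mul, Real.norm_eq_abs, abs_abs, Real.norm_eq_abs, abs_of_nonneg (h0 _)]
    exact mul_le_mul_of_nonneg_right (hA y) (h0 _)
  simp_rw [h2]
  refine ⟨h3, ?_⟩
  calc ∫ y, |f y| * (ball (0 : P) R).indicator k (x - y)
      ≤ ∫ y, A * (ball (0 : P) R).indicator k (x - y) :=
        integral_mono h3 (h1.const_mul A) fun y => mul_le_mul_of_nonneg_right (hA y) (h0 _)
    _ = A * ∫ z in ball (0 : P) R, k z := by
        rw [integral_const_mul, ← integral_indicator isOpen_ball.measurableSet,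
          integral_sub_left_eq_self (fun z => (ball (0 : P) R).indicator k z) volume x]

theorem potD_sub_le {ε : ℝ} (hε : 0 < ε) {f : P → ℝ} {A : ℝ} (hA : ∀ y, |f y| ≤ A)
    (hm : AEStronglyMeasurable f) (hs : ∀ y, y ∉ ball (0 : P) 1 → f y = 0) {x : P} {R : ℝ}
    (hR : ‖x‖ + 1 ≤ R) :
    ‖potD ε f x - potD 0 f x‖ ≤
      A * (ε ^ (1 / 2 : ℝ) * ∫ z in ball (0 : P) R, ‖z‖ ^ (-(3 / 2) : ℝ)) := by
  have hf := integrable_of_L2 (memLp_of_bdd hm hA hs) hs
  have h1 := ker_sup hA hm hs (k := fun z => ε ^ (1 / 2 : ℝ) * ‖z‖ ^ (-(3 / 2) : ℝ))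
    (fun z => by positivity) hR ((integrableOn_norm_rpow (s := 3 / 2) (by norm_num) R).const_mul _)
  have h2 := integrable_potD hε hf x
  have h3 : Integrable fun y => f y • (innerSL ℝ (gk ε (x - y)) - innerSL ℝ (gk 0 (x - y))) := by
    refine Integrable.mono' h1.1 (hf.aestronglyMeasurable.smul
      ((measurable_dk ε x).sub (measurable_dk 0 x)).aestronglyMeasurable)
      (Eventually.of_forall fun y => ?_)
    rw [norm_smul, ← map_sub, innerSL_apply_norm ℝ, Real.norm_eq_abs]
    exact mul_le_mul_of_nonneg_left (norm_gk_sub_le hε _) (abs_nonneg _)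
  have h4 : Integrable fun y => f y • innerSL ℝ (gk 0 (x - y)) := by
    refine (h2.sub h3).congr (Eventually.of_forall fun y => ?_)
    simp only [Pi.sub_apply, smul_sub]
    abel
  have h5 : potD ε f x - potD 0 f x
      = ∫ y, f y • (innerSL ℝ (gk ε (x - y)) - innerSL ℝ (gk 0 (x - y))) := by
    unfold potD
    rw [← integral_sub h2 h4]
    congr 1
    funext y
    rw [smul_sub]
  rw [h5]
  refine (norm_integral_le_of_norm_le h1.1 (Eventually.of_forall fun y => ?_)).trans ?_
  · rw [norm_smul, ← map_sub, innerSL_apply_norm ℝ, Real.norm_eq_abs]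
    exact mul_le_mul_of_nonneg_left (norm_gk_sub_le hε _) (abs_nonneg _)
  · refine h1.2.trans (le_of_eq ?_)
    rw [integral_const_mul]

theorem pot_C1 {f : P → ℝ} {A : ℝ} (hA : ∀ y, |f y| ≤ A)
    (hm : AEStronglyMeasurable f) (hs : ∀ y, y ∉ ball (0 : P) 1 → f y = 0) :
    (∀ x, HasFDerivAt (pot 0 f) (potD 0 f x) x) ∧ Continuous (potD 0 f) := by
  have hf2 := memLp_of_bdd hm hA hs
  have hf := integrable_of_L2 hf2 hs
  have key : ∀ x0 : P, TendstoUniformlyOn (fun n : ℕ => potD ((1 : ℝ) / (n + 1)) f) (potD 0 f) atTop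
      (ball x0 1) := by
    intro x0
    set R : ℝ := ‖x0‖ + 2 with hR
    rw [Metric.tendstoUniformlyOn_iff]
    intro δ hδ
    have h2 : Tendsto (fun n : ℕ => A * (((1 : ℝ) / (n + 1)) ^ (1 / 2 : ℝ)
        * ∫ z in ball (0 : P) R, ‖z‖ ^ (-(3 / 2) : ℝ))) atTop (𝓝 0) := by
      have h4 : Tendsto (fun n : ℕ => ((1 : ℝ) / (n + 1)) ^ (1 / 2 : ℝ)) atTop (𝓝 0) := by
        have := (tendsto_one_div_add_atTop_nhds_zero_nat (𝕜 := ℝ)).rpow_const
          (p := 1 / 2) (Or.inr (by norm_num))
        simpa using this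
      have := (h4.mul_const (∫ z in ball (0 : P) R, ‖z‖ ^ (-(3 / 2) : ℝ))).const_mul A
      simpa using this
    filter_upwards [h2.eventually_lt_const hδ] with n hn x hx
    rw [dist_comm, dist_eq_norm]
    refine lt_of_le_of_lt (potD_sub_le (by positivity) hA hm hs ?_) hn
    rw [mem_ball, dist_eq_norm] at hx
    have h2 : ‖x‖ ≤ ‖x - x0‖ + ‖x0‖ := by
      have := norm_add_le (x - x0) x0
      simpa using this
    linarith
  constructor
  · intro x0
    refine hasFDerivAt_of_tendstoUniformlyOn isOpen_ball (key x0)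
      (fun n x _ => hasFDerivAt_pot (by positivity) hf hs x) (fun x _ => ?_) (mem_ball_self one_pos)
    rw [tendsto_iff_norm_sub_tendsto_zero]
    have h3 : Tendsto (fun n : ℕ => √(4 * ((1 : ℝ) / (n + 1)) * ∫ z in ball (0 : P) (‖x‖ + 1),
        ‖z‖ ^ (-1 : ℝ)) * √(∫ y, f y ^ 2)) atTop (𝓝 0) := by
      have h3 := (((tendsto_one_div_add_atTop_nhds_zero_nat (𝕜 := ℝ)).const_mul 4).mul_const
        (∫ z in ball (0 : P) (‖x‖ + 1), ‖z‖ ^ (-1 : ℝ))).sqrt.mul_const (√(∫ y, f y ^ 2))
      simpa using h3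
    exact squeeze_zero (fun n => norm_nonneg _)
      (fun n => pot_sub_le (by positivity) hf2 hs le_rfl) h3
  · rw [continuous_iff_continuousAt]
    intro x0
    have h2 : ContinuousOn (potD 0 f) (ball x0 1) := by
      refine (key x0).continuousOn (Eventually.of_forall fun n => ?_).frequently
      exact (continuous_potD (by positivity) hf).continuousOn
    exact h2.continuousAt (ball_mem_nhds x0 one_pos)

theorem norm_potD_le {f : P → ℝ} {A : ℝ} (hA : ∀ y, |f y| ≤ A)
    (hm : AEStronglyMeasurable f) (hs : ∀ y, y ∉ ball (0 : P) 1 → f y = 0) {x : P} (hx : ‖x‖ ≤ 1) :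
    ‖potD 0 f x‖ ≤ A * ∫ z in ball (0 : P) 2, ‖z‖ ^ (-1 : ℝ) := by
  have h1 := ker_sup hA hm hs (k := fun z => ‖z‖ ^ (-1 : ℝ))
    (fun z => by positivity) (show ‖x‖ + 1 ≤ 2 by linarith)
    (integrableOn_norm_rpow (s := 1) (by norm_num) 2)
  refine (norm_integral_le_of_norm_le h1.1 (Eventually.of_forall fun y => ?_)).trans h1.2
  rw [norm_smul, innerSL_apply_norm ℝ, Real.norm_eq_abs]
  refine mul_le_mul_of_nonneg_left ?_ (abs_nonneg _)
  rw [Real.rpow_neg_one]
  exact norm_gk_le 0 _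

end Crest.Agent.R135.Reg
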