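import Crest.Agent.R135.SepArc
import Crest.Agent.R135.PolarD

/-!
R135, block SEP (helper990): the two sides of an arc of circle joining two unbounded connected
subsets of `K` (or one connected subset of `K`) are separated by `K ∪ arc`.
-/

set_option autoImplicit false

open Set Filter Topology Metric

namespace Crest.Agent.R135.Sep

open Crest.Agent.R135

lemma isPreconnected_compl_ball (x : E2) {R : ℝ} (hR : 0 < R) :
    IsPreconnected ((ball x R)ᶜ : Set E2) := by
  have h1 : ((ball x R)ᶜ : Set E2) =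
      (fun p : ℝ × ℝ => cpt x p.1 p.2) '' (Ici R ×ˢ univ) := by
    ext y
    constructor
    · intro hy
      have hy' : R ≤ dist y x := by simpa using hy
      obtain ⟨θ, -, hθ⟩ := exists_cpt_eq (x := x) (y := y) (t := dist y x) (by linarith)
        (mem_sphere.2 rfl) 0
      exact ⟨(dist y x, θ), ⟨hy', mem_univ _⟩, hθ⟩
    · rintro ⟨⟨s, θ⟩, ⟨hs, -⟩, rfl⟩
      have hs' : R ≤ s := hs
      simp only [mem_compl_iff, mem_ball, dist_cpt, not_lt]
      rw [abs_of_nonneg (by linarith)]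
      exact hs'
  rw [h1]
  exact ((convex_Ici R).prod convex_univ).isPreconnected.image _
    (continuous_cpt x).continuousOn

lemma continuous_cpt_ang (x : E2) (t : ℝ) : Continuous (fun θ : ℝ => cpt x t θ) :=
  (continuous_cpt x).comp (by fun_prop : Continuous (fun θ : ℝ => (t, θ)))

lemma continuous_cpt_rad (x : E2) (θ : ℝ) : Continuous (fun t : ℝ => cpt x t θ) :=
  (continuous_cpt x).comp (by fun_prop : Continuous (fun t : ℝ => (t, θ)))

/-- on a preconnected set off the arc, on which the ratio has a continuous logarithm `L`, the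
function `Im L - A` is constant. -/
theorem CArc.const_of_log (I : CArc) {T : Set E2} (hT : IsPreconnected T) (hTI : Disjoint T I.set)
    {L : E2 → ℂ} (hL : ContinuousOn L T) (hLe : ∀ z ∈ T, Complex.exp (L z) = I.w z) {z1 z2 : E2}
    (h1 : z1 ∈ T) (h2 : z2 ∈ T) : (L z1).im - I.A z1 = (L z2).im - I.A z2 := by
  have hTn : ∀ z ∈ T, z ∉ I.set := fun z hz => Set.disjoint_left.1 hTI hz
  have hA : ContinuousOn I.A T := fun z hz => (I.continuousAt_A (hTn z hz)).continuousWithinAt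
  have key := eq_of_exp_eq hT (f := fun z => ((L z).im : ℂ) * Complex.I)
    (g := fun z => ((I.A z + I.del : ℝ) : ℂ) * Complex.I) ?_ ?_ ?_ h1 h2
  · have h3 := congrArg Complex.im key
    simp at h3
    linarith
  · exact (Complex.continuous_ofReal.comp_continuousOn
      (Complex.continuous_im.comp_continuousOn hL)).mul continuousOn_const
  · exact (Complex.continuous_ofReal.comp_continuousOn (hA.add continuousOn_const)).mul
      continuousOn_const
  · intro z hz
    have hzI := hTn z hz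
    have hs : z ≠ I.src := fun h => hzI (h ▸ I.src_mem)
    have ht : z ≠ I.tgt := fun h => hzI (h ▸ I.tgt_mem)
    have h3 := I.exp_A hs ht
    have h4 := hLe z hz
    have h5 : ‖I.w z‖ = Real.exp (L z).re := by rw [← h4, Complex.norm_exp]
    have h6 : Complex.exp (L z) = Complex.exp ((L z).re : ℂ) *
        Complex.exp (((L z).im : ℂ) * Complex.I) := by
      rw [← Complex.exp_add, Complex.re_add_im]
    have h7 : ((Real.exp (L z).re : ℝ) : ℂ) ≠ 0 := by
      exact_mod_cast (Real.exp_pos _).ne'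
    rw [h5, ← h4, h6, ← Complex.ofReal_exp] at h3
    exact (mul_left_cancel₀ h7 h3).symm

/-- **Separation, abstract form.** `C` preconnected, containing the end points of the arc, and
`T` preconnected, disjoint from the arc and from `C`, containing points of the radial segment on
both sides. Impossible. -/
theorem CArc.no_crossing (I : CArc) {C Γ : Set E2} (hC : IsPreconnected C) (hs : I.src ∈ C)
    (ht : I.tgt ∈ C) (hΓ : IsCompact Γ) (hΓc : IsPreconnected Γ) (hΓC : Disjoint Γ C)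
    (hΓI : Disjoint Γ I.set) {θ s1 s2 : ℝ}
    (hθ : θ ∈ Ioo I.a I.b) (h1 : 0 < s1) (h1' : s1 < I.t) (h2 : I.t < s2)
    (hseg : ∀ s ∈ Icc s1 s2, cpt I.x s θ ∉ C) (hm1 : cpt I.x s1 θ ∈ Γ)
    (hm2 : cpt I.x s2 θ ∈ Γ) : False := by
  set seg : Set E2 := (fun s => cpt I.x s θ) '' Icc s1 s2 with hsegdef
  have hsegc : IsCompact seg := isCompact_Icc.image (continuous_cpt_rad I.x θ)
  have hG : IsCompact (Γ ∪ seg) := hΓ.union hsegc
  have hGC : Disjoint (cx '' (Γ ∪ seg)) (cx '' C) := by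
    rw [Set.disjoint_image_iff cx_injective, Set.disjoint_union_left]
    refine ⟨hΓC, ?_⟩
    rw [Set.disjoint_left]
    rintro _ ⟨s, hs, rfl⟩ hC'
    exact hseg s hs hC'
  obtain ⟨L, hL, hLe⟩ := exists_log_closed (hG.image continuous_cx).isClosed
    (hC.image _ continuous_cx.continuousOn) hGC (mem_image_of_mem cx hs) (mem_image_of_mem cx ht)
  have hLc : ContinuousOn (fun z => L (cx z)) (Γ ∪ seg) :=
    hL.comp continuous_cx.continuousOn (mapsTo_image _ _)
  have hLe' : ∀ z ∈ Γ ∪ seg, Complex.exp (L (cx z)) = I.w z :=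
    fun z hz => hLe (cx z) (mem_image_of_mem cx hz)
  -- the preconnected set T
  set sg1 : Set E2 := (fun s => cpt I.x s θ) '' Ico s1 I.t with hsg1
  set sg2 : Set E2 := (fun s => cpt I.x s θ) '' Ioc I.t s2 with hsg2
  have hc1 : IsPreconnected sg1 := isPreconnected_Ico.image _ (continuous_cpt_rad I.x θ).continuousOn
  have hc2 : IsPreconnected sg2 := isPreconnected_Ioc.image _ (continuous_cpt_rad I.x θ).continuousOn
  have hmem1 : cpt I.x s1 θ ∈ sg1 := ⟨s1, ⟨le_rfl, h1'⟩, rfl⟩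
  have hmem2 : cpt I.x s2 θ ∈ sg2 := ⟨s2, ⟨h2, le_rfl⟩, rfl⟩
  have hT : IsPreconnected ((Γ ∪ sg1) ∪ sg2) :=
    (hΓc.union _ hm1 hmem1 hc1).union (cpt I.x s2 θ) (Or.inl hm2) hmem2 hc2
  have hsub : (Γ ∪ sg1) ∪ sg2 ⊆ Γ ∪ seg := by
    rintro z ((hz | ⟨s, hs, rfl⟩) | ⟨s, hs, rfl⟩)
    · exact Or.inl hz
    · exact Or.inr ⟨s, ⟨hs.1, by linarith [hs.2]⟩, rfl⟩
    · exact Or.inr ⟨s, ⟨by linarith [hs.1], hs.2⟩, rfl⟩
  have hsph : ∀ z ∈ I.set, dist z I.x = I.t := by
    rintro _ ⟨θ', -, rfl⟩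
    rw [dist_cpt, abs_of_pos I.ht]
  have hTI : Disjoint ((Γ ∪ sg1) ∪ sg2) I.set := by
    rw [Set.disjoint_left]
    rintro z ((hz | ⟨s, hs, rfl⟩) | ⟨s, hs, rfl⟩) hzI
    · exact Set.disjoint_left.1 hΓI hz hzI
    · have := hsph _ hzI
      simp only [dist_cpt] at this
      rw [abs_of_pos (by linarith [hs.1])] at this
      linarith [hs.2]
    · have := hsph _ hzI
      simp only [dist_cpt] at this
      rw [abs_of_pos (by linarith [hs.1, I.ht])] at this
      linarith [hs.1]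
  have hconst := fun z1 z2 h1 h2 => I.const_of_log hT hTI (hLc.mono hsub)
    (fun z hz => hLe' z (hsub hz)) (z1 := z1) (z2 := z2) h1 h2
  -- limits at the crossing point
  set m := cpt I.x I.t θ with hm
  have hmseg : m ∈ Γ ∪ seg := Or.inr ⟨I.t, ⟨h1'.le, h2.le⟩, rfl⟩
  have hLm : Tendsto (fun z => (L (cx z)).im) (𝓝[Γ ∪ seg] m) (𝓝 (L (cx m)).im) :=
    (Complex.continuous_im.continuousAt.tendsto).comp (hLc m hmseg)
  have hcont := (continuous_cpt_rad I.x θ).continuousAt (x := I.t)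
  -- inner limit
  have hin : Tendsto (fun s => (L (cx (cpt I.x s θ))).im - I.A (cpt I.x s θ)) (𝓝[Ico s1 I.t] I.t)
      (𝓝 ((L (cx m)).im - Real.pi)) := by
    refine Tendsto.sub ?_ ?_
    · refine hLm.comp (tendsto_nhdsWithin_iff.2 ⟨hcont.tendsto.mono_left nhdsWithin_le_nhds, ?_⟩)
      filter_upwards [self_mem_nhdsWithin] with s hs
      exact Or.inr ⟨s, ⟨hs.1, by linarith [hs.2]⟩, rfl⟩
    · refine (I.tendsto_A_in hθ).comp
        (tendsto_nhdsWithin_iff.2 ⟨hcont.tendsto.mono_left nhdsWithin_le_nhds, ?_⟩)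
      filter_upwards [self_mem_nhdsWithin] with s hs
      rw [mem_closedBall, dist_cpt, abs_of_pos (by linarith [hs.1])]
      exact hs.2.le
  have hout : Tendsto (fun s => (L (cx (cpt I.x s θ))).im - I.A (cpt I.x s θ)) (𝓝[Ioc I.t s2] I.t)
      (𝓝 ((L (cx m)).im - -Real.pi)) := by
    refine Tendsto.sub ?_ ?_
    · refine hLm.comp (tendsto_nhdsWithin_iff.2 ⟨hcont.tendsto.mono_left nhdsWithin_le_nhds, ?_⟩)
      filter_upwards [self_mem_nhdsWithin] with s hs
      exact Or.inr ⟨s, ⟨by linarith [hs.1], hs.2⟩, rfl⟩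
    · refine (I.tendsto_A_out hθ).comp
        (tendsto_nhdsWithin_iff.2 ⟨hcont.tendsto.mono_left nhdsWithin_le_nhds, ?_⟩)
      filter_upwards [self_mem_nhdsWithin] with s hs
      rw [mem_compl_iff, mem_closedBall, dist_cpt, abs_of_pos (by linarith [hs.1, I.ht]), not_le]
      exact hs.1
  haveI : (𝓝[Ico s1 I.t] I.t).NeBot := by
    rw [nhdsWithin_Ico_eq_nhdsLT h1']; infer_instance
  haveI : (𝓝[Ioc I.t s2] I.t).NeBot := by
    rw [nhdsWithin_Ioc_eq_nhdsGT h2]; infer_instance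
  set c := (L (cx (cpt I.x s1 θ))).im - I.A (cpt I.x s1 θ) with hc
  have e1 : (L (cx m)).im - Real.pi = c := by
    refine tendsto_nhds_unique hin ?_
    refine tendsto_const_nhds.congr' ?_
    filter_upwards [self_mem_nhdsWithin] with s hs
    exact hconst _ _ (Or.inl (Or.inl hm1)) (Or.inl (Or.inr ⟨s, hs, rfl⟩))
  have e2 : (L (cx m)).im - -Real.pi = c := by
    refine tendsto_nhds_unique hout ?_
    refine tendsto_const_nhds.congr' ?_
    filter_upwards [self_mem_nhdsWithin] with s hs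
    exact hconst _ _ (Or.inl (Or.inl hm1)) (Or.inr ⟨s, hs, rfl⟩)
  linarith [Real.pi_pos]

/-- **Separation across an arc, one connected set.** -/
theorem CArc.sep_of_preconnected (I : CArc) {K C : Set E2} (hK : IsClosed K)
    (hC : IsPreconnected C) (hCK : C ⊆ K) (hs : I.src ∈ C) (ht : I.tgt ∈ C) {θ s1 s2 : ℝ}
    (hθ : θ ∈ Ioo I.a I.b) (h1 : 0 < s1) (h1' : s1 < I.t) (h2 : I.t < s2)
    (hseg : ∀ s ∈ Icc s1 s2, cpt I.x s θ ∉ K) :
    cpt I.x s2 θ ∉ connectedComponentIn (K ∪ I.set)ᶜ (cpt I.x s1 θ) := by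
  intro hcon
  have hz1 : cpt I.x s1 θ ∈ (K ∪ I.set)ᶜ := by
    rw [← connectedComponentIn_nonempty_iff]
    exact ⟨_, hcon⟩
  have hop : IsOpen (connectedComponentIn (K ∪ I.set)ᶜ (cpt I.x s1 θ)) :=
    (hK.union I.isCompact_set.isClosed).isOpen_compl.connectedComponentIn
  have hconn : IsConnected (connectedComponentIn (K ∪ I.set)ᶜ (cpt I.x s1 θ)) :=
    isConnected_connectedComponentIn_iff.2 hz1
  obtain ⟨γ, hγ⟩ := (hop.isConnected_iff_isPathConnected.1 hconn).joinedIn _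
    (mem_connectedComponentIn hz1) _ hcon
  have hsub : range γ ⊆ (K ∪ I.set)ᶜ := by
    rintro _ ⟨u, rfl⟩
    exact connectedComponentIn_subset _ _ (hγ u)
  refine I.no_crossing hC hs ht (isCompact_range γ.continuous) (isPreconnected_range γ.continuous)
    ?_ ?_ hθ h1 h1' h2 (fun s hs hC' => hseg s hs (hCK hC')) ⟨0, by simp⟩ ⟨1, by simp⟩
  · rw [Set.disjoint_left]
    exact fun z hz hzC => hsub hz (Or.inl (hCK hzC))
  · rw [Set.disjoint_left]
    exact fun z hz hzC => hsub hz (Or.inr hzC)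

/-- **Separation across an arc, two unbounded connected sets.** -/
theorem CArc.sep_of_unbounded (I : CArc) {K Ca Cb : Set E2} (hK : IsClosed K)
    (hCa : IsPreconnected Ca) (hCaK : Ca ⊆ K) (hs : I.src ∈ Ca) (hCau : ¬ Bornology.IsBounded Ca)
    (hCb : IsPreconnected Cb) (hCbK : Cb ⊆ K) (ht : I.tgt ∈ Cb) (hCbu : ¬ Bornology.IsBounded Cb)
    {θ s1 s2 : ℝ} (hθ : θ ∈ Ioo I.a I.b) (h1 : 0 < s1) (h1' : s1 < I.t) (h2 : I.t < s2)
    (hseg : ∀ s ∈ Icc s1 s2, cpt I.x s θ ∉ K) :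
    cpt I.x s2 θ ∉ connectedComponentIn (K ∪ I.set)ᶜ (cpt I.x s1 θ) := by
  intro hcon
  have hz1 : cpt I.x s1 θ ∈ (K ∪ I.set)ᶜ := by
    rw [← connectedComponentIn_nonempty_iff]
    exact ⟨_, hcon⟩
  have hop : IsOpen (connectedComponentIn (K ∪ I.set)ᶜ (cpt I.x s1 θ)) :=
    (hK.union I.isCompact_set.isClosed).isOpen_compl.connectedComponentIn
  have hconn : IsConnected (connectedComponentIn (K ∪ I.set)ᶜ (cpt I.x s1 θ)) :=
    isConnected_connectedComponentIn_iff.2 hz1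
  obtain ⟨γ, hγ⟩ := (hop.isConnected_iff_isPathConnected.1 hconn).joinedIn _
    (mem_connectedComponentIn hz1) _ hcon
  have hsub : range γ ⊆ (K ∪ I.set)ᶜ := by
    rintro _ ⟨u, rfl⟩
    exact connectedComponentIn_subset _ _ (hγ u)
  obtain ⟨R0, hR0⟩ := (isCompact_range γ.continuous).isBounded.subset_ball I.x
  set R := max R0 (s2 + 1) with hR
  have hR1 : R0 ≤ R := le_max_left _ _
  have hR2 : s2 + 1 ≤ R := le_max_right _ _
  have hRpos : 0 < R := by linarith [I.ht]
  have hcb := isPreconnected_compl_ball I.x hRpos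
  have hmeet : ∀ D : Set E2, ¬ Bornology.IsBounded D → ∃ z ∈ D, z ∈ (ball I.x R)ᶜ := by
    intro D hD
    by_contra hno
    push Not at hno
    exact hD (Metric.isBounded_ball.subset fun z hz => not_not.1 (hno z hz))
  obtain ⟨za, hza, hza'⟩ := hmeet Ca hCau
  obtain ⟨zb, hzb, hzb'⟩ := hmeet Cb hCbu
  have hC : IsPreconnected ((Ca ∪ (ball I.x R)ᶜ) ∪ Cb) :=
    (hCa.union za hza hza' hcb).union zb (Or.inr hzb') hzb hCb
  refine I.no_crossing hC (Or.inl (Or.inl hs)) (Or.inr ht) (isCompact_range γ.continuous)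
    (isPreconnected_range γ.continuous) ?_ ?_ hθ h1 h1' h2 ?_ ⟨0, by simp⟩ ⟨1, by simp⟩
  · rw [Set.disjoint_left]
    rintro z hz ((hzC | hzC) | hzC)
    · exact hsub hz (Or.inl (hCaK hzC))
    · exact hzC (ball_subset_ball hR1 (hR0 hz))
    · exact hsub hz (Or.inl (hCbK hzC))
  · rw [Set.disjoint_left]
    exact fun z hz hzC => hsub hz (Or.inr hzC)
  · rintro s hs ((hzC | hzC) | hzC)
    · exact hseg s hs (hCaK hzC)
    · apply hzC
      rw [mem_ball, dist_cpt, abs_of_pos (by linarith [hs.1])]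
      linarith [hs.2]
    · exact hseg s hs (hCbK hzC)

/-- helper638's form. -/
theorem sep_arc {K : Set E2} (hK : IsClosed K) {x : E2} {t a b : ℝ} (ht : 0 < t) (hab : a < b)
    (hb : b < a + 2 * Real.pi) {Ca Cb : Set E2} (hCa : IsPreconnected Ca) (hCaK : Ca ⊆ K)
    (ha : cpt x t a ∈ Ca) (hCau : ¬ Bornology.IsBounded Ca) (hCb : IsPreconnected Cb)
    (hCbK : Cb ⊆ K) (hbC : cpt x t b ∈ Cb) (hCbu : ¬ Bornology.IsBounded Cb)
    {θ s1 s2 : ℝ} (hθ : θ ∈ Ioo a b) (h1 : 0 < s1) (h1' : s1 < t) (h2 : t < s2)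
    (hseg : ∀ s ∈ Icc s1 s2, cpt x s θ ∉ K) :
    cpt x s2 θ ∉ connectedComponentIn (K ∪ cpt x t '' Icc a b)ᶜ (cpt x s1 θ) :=
  (CArc.mk x t a b ht hab hb).sep_of_unbounded hK hCa hCaK ha hCau hCb hCbK hbC hCbu hθ h1 h1' h2
    hseg

end Crest.Agent.R135.Sep
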