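import Mathlib

/-!
R135, block SEP (helper990): continuous branches of `log ((z - q) / (z - p))` on the complement of
a connected closed set containing `p` and `q`.
-/

set_option autoImplicit false

open Set Filter Topology Metric

namespace Crest.Agent.R135.Sep

/-- a continuous function with values in `2 π i ℤ` on a preconnected set is constant -/
theorem eq_of_exp_eq {α : Type*} [TopologicalSpace α] {S : Set α} (hS : IsPreconnected S)
    {f g : α → ℂ} (hf : ContinuousOn f S)
    (hg : ContinuousOn g S) (h : ∀ z ∈ S, Complex.exp (f z) = Complex.exp (g z)) {a b : α}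
    (ha : a ∈ S) (hb : b ∈ S) : f a - g a = f b - g b := by
  have hfg : ContinuousOn (fun z => f z - g z) S := hf.sub hg
  refine hS.constant_of_mapsTo (T := {w : ℂ | ∃ n : ℤ, w = n * (2 * Real.pi * Complex.I)})
    ?_ hfg ?_ ha hb
  · rw [isDiscrete_iff_forall_mem_exists_isOpen]
    rintro w ⟨n, rfl⟩
    refine ⟨ball (n * (2 * Real.pi * Complex.I)) 1, isOpen_ball, ?_⟩
    ext w'
    simp only [mem_inter_iff, mem_ball, mem_ofPred_eq, mem_singleton_iff]
    constructor
    · rintro ⟨hd, m, rfl⟩
      have h1 : ((m : ℂ) * (2 * Real.pi * Complex.I)) - n * (2 * Real.pi * Complex.I)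
          = ((m - n : ℤ) : ℂ) * (2 * Real.pi * Complex.I) := by push_cast; ring
      rw [dist_eq_norm, h1, norm_mul] at hd
      have h2 : ‖(2 * Real.pi * Complex.I : ℂ)‖ = 2 * Real.pi := by
        simp [abs_of_pos Real.pi_pos]
      rw [h2, Complex.norm_intCast] at hd
      by_contra hne
      have h3 : m - n ≠ 0 := by
        intro h0
        apply hne
        have : m = n := by omega
        rw [this]
      have h4 : (1 : ℝ) ≤ |((m - n : ℤ) : ℝ)| := by
        exact_mod_cast Int.one_le_abs h3
      nlinarith [Real.pi_gt_three]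
    · rintro rfl
      exact ⟨by simp, n, rfl⟩
  · intro z hz
    obtain ⟨n, hn⟩ := Complex.exp_eq_exp_iff_exists_int.1 (h z hz)
    exact ⟨n, by simp only [hn]; ring⟩

theorem ratio_log_near {F : Set ℂ} (hF : IsClosed F) {x : ℂ} (hx : x ∉ F) :
    ∀ᶠ y in 𝓝 x, ∃ L : ℂ → ℂ, ContinuousOn L F ∧
      ∀ z ∈ F, Complex.exp (L z) = (z - y) / (z - x) := by
  obtain ⟨r, hr, hrF⟩ := Metric.mem_nhds_iff.1 (hF.isOpen_compl.mem_nhds hx)
  filter_upwards [ball_mem_nhds x hr] with y hy
  have key : ∀ z ∈ F, z - x ≠ 0 ∧ (z - y) / (z - x) ∈ Complex.slitPlane ∧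
      (z - y) / (z - x) ≠ 0 := by
    intro z hz
    have h1 : r ≤ dist z x := by
      by_contra hlt
      exact hrF (mem_ball.2 (not_le.1 hlt)) hz
    have h2 : 0 < ‖z - x‖ := by rw [← dist_eq_norm]; linarith
    have h3 : ‖(y - x) / (z - x)‖ < 1 := by
      rw [norm_div, div_lt_one h2, ← dist_eq_norm, ← dist_eq_norm]
      exact (mem_ball.1 hy).trans_le h1
    have h4 : (z - y) / (z - x) = 1 + -((y - x) / (z - x)) := by
      have : z - x ≠ 0 := norm_pos_iff.1 h2
      field_simp
      ring
    have h5 : (z - y) / (z - x) ∈ Complex.slitPlane := by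
      rw [h4]
      apply Complex.mem_slitPlane_of_norm_lt_one
      rwa [norm_neg]
    exact ⟨norm_pos_iff.1 h2, h5, Complex.slitPlane_ne_zero h5⟩
  refine ⟨fun z => Complex.log ((z - y) / (z - x)), ?_, ?_⟩
  · apply ContinuousOn.clog
    · exact (continuousOn_id.sub continuousOn_const).div (continuousOn_id.sub continuousOn_const)
        fun z hz => (key z hz).1
    · exact fun z hz => (key z hz).2.1
  · intro z hz
    exact Complex.exp_log (key z hz).2.2

/-- logarithm of the ratio on a closed set `F` disjoint from a connected set `C ∋ p, q`. -/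
theorem exists_log_closed {F C : Set ℂ} (hF : IsClosed F) (hC : IsPreconnected C)
    (hFC : Disjoint F C) {p q : ℂ} (hp : p ∈ C) (hq : q ∈ C) :
    ∃ L : ℂ → ℂ, ContinuousOn L F ∧ ∀ z ∈ F, Complex.exp (L z) = (z - q) / (z - p) := by
  have hne : ∀ x ∈ C, ∀ z ∈ F, z - x ≠ 0 := by
    intro x hx z hz h0
    rw [sub_eq_zero] at h0
    exact (Set.disjoint_left.1 hFC hz) (h0 ▸ hx)
  refine hC.induction₂ (fun p q => ∃ L : ℂ → ℂ, ContinuousOn L F ∧
    ∀ z ∈ F, Complex.exp (L z) = (z - q) / (z - p)) ?_ ?_ ?_ hp hq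
  · intro x hx
    exact (ratio_log_near hF (Set.disjoint_right.1 hFC hx)).filter_mono nhdsWithin_le_nhds
  · rintro x y w hx hy hw ⟨L, hL, hL'⟩ ⟨M, hM, hM'⟩
    refine ⟨fun z => L z + M z, hL.add hM, fun z hz => ?_⟩
    rw [Complex.exp_add, hL' z hz, hM' z hz]
    have h1 := hne x hx z hz
    have h2 := hne y hy z hz
    field_simp
  · rintro x y hx hy ⟨L, hL, hL'⟩
    refine ⟨fun z => - L z, hL.neg, fun z hz => ?_⟩
    rw [Complex.exp_neg, hL' z hz, inv_div]

/-- **Continuous logarithm off a connected closed set.** -/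
theorem exists_log_compl {C : Set ℂ} (hCc : IsClosed C) (hC : IsPreconnected C) {p q : ℂ}
    (hp : p ∈ C) (hq : q ∈ C) :
    ∃ L : ℂ → ℂ, ContinuousOn L Cᶜ ∧ ∀ z ∈ Cᶜ, Complex.exp (L z) = (z - q) / (z - p) := by
  classical
  have hCne : C.Nonempty := ⟨p, hp⟩
  -- exhaustion by closed sets
  set F : ℕ → Set ℂ := fun n => {z | 1 / ((n : ℝ) + 1) ≤ infDist z C} with hFdef
  have hFcl : ∀ n, IsClosed (F n) := fun n => isClosed_le continuous_const (continuous_infDist_pt C)
  have hFC : ∀ n, Disjoint (F n) C := by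
    intro n
    rw [Set.disjoint_left]
    intro z hz hzC
    have h1 : infDist z C = 0 := infDist_zero_of_mem hzC
    have h2 : (0 : ℝ) < 1 / ((n : ℝ) + 1) := by positivity
    have h3 : 1 / ((n : ℝ) + 1) ≤ infDist z C := hz
    linarith
  have hFmono : ∀ n m, n ≤ m → F n ⊆ F m := by
    intro n m hnm z hz
    have h3 : 1 / ((n : ℝ) + 1) ≤ infDist z C := hz
    have h4 : 1 / ((m : ℝ) + 1) ≤ 1 / ((n : ℝ) + 1) := by
      apply one_div_le_one_div_of_le (by positivity)
      have : (n : ℝ) ≤ m := by exact_mod_cast hnm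
      linarith
    exact h4.trans h3
  choose! L hLc hLe using fun n => exists_log_closed (hFcl n) hC (hFC n) hp hq
  -- a compact subset of `Cᶜ` lies in some `F n`
  have hcomp : ∀ S : Set ℂ, IsCompact S → S ⊆ Cᶜ → ∃ n, S ⊆ F n := by
    intro S hS hSC
    rcases S.eq_empty_or_nonempty with h0 | hne
    · exact ⟨0, by simp [h0]⟩
    · obtain ⟨z0, hz0, hmin⟩ := hS.exists_isMinOn hne (continuous_infDist_pt C).continuousOn
      have hpos : 0 < infDist z0 C :=
        (hCc.notMem_iff_infDist_pos hCne).1 (hSC hz0)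
      obtain ⟨n, hn⟩ := exists_nat_one_div_lt hpos
      exact ⟨n, fun z hz => hn.le.trans (hmin hz)⟩
  -- base points
  set base : ℂ → ℂ := fun z =>
    if h : (connectedComponentIn Cᶜ z).Nonempty then h.some else 0 with hbase
  have hbase_mem : ∀ z ∈ Cᶜ, base z ∈ connectedComponentIn Cᶜ z := by
    intro z hz
    have h : (connectedComponentIn Cᶜ z).Nonempty := ⟨z, mem_connectedComponentIn hz⟩
    simp only [hbase, h, dif_pos]
    exact h.some_mem
  have hbase_eq : ∀ z ∈ Cᶜ, ∀ w ∈ connectedComponentIn Cᶜ z, base w = base z := by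
    intro z hz w hw
    have : connectedComponentIn Cᶜ w = connectedComponentIn Cᶜ z :=
      (connectedComponentIn_eq hw).symm
    simp only [hbase, this]
  -- the joining property
  have hjoin : ∀ z ∈ Cᶜ, ∃ n, ∃ S : Set ℂ, IsPreconnected S ∧ S ⊆ F n ∧ z ∈ S ∧ base z ∈ S := by
    intro z hz
    have hop : IsOpen (connectedComponentIn Cᶜ z) := hCc.isOpen_compl.connectedComponentIn
    have hconn : IsConnected (connectedComponentIn Cᶜ z) :=
      isConnected_connectedComponentIn_iff.2 hz
    have hpath := hop.isConnected_iff_isPathConnected.1 hconn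
    have hj := hpath.joinedIn z (mem_connectedComponentIn hz) (base z) (hbase_mem z hz)
    obtain ⟨γ, hγ⟩ := hj
    have hcpt : IsCompact (range γ) := isCompact_range γ.continuous
    have hsub : range γ ⊆ Cᶜ := by
      rintro _ ⟨t, rfl⟩
      exact connectedComponentIn_subset _ _ (hγ t)
    obtain ⟨n, hn⟩ := hcomp _ hcpt hsub
    refine ⟨n, range γ, isPreconnected_range γ.continuous, hn, ⟨0, by simp⟩, ⟨1, by simp⟩⟩
  choose! N hN using hjoin
  -- the constant of each component
  have hw0 : ∀ z ∈ Cᶜ, ∃ w : ℂ, Complex.exp w = (z - q) / (z - p) := by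
    intro z hz
    obtain ⟨n, hn⟩ := hcomp {z} isCompact_singleton (by simpa using hz)
    exact ⟨L n z, hLe n z (hn rfl)⟩
  choose! w0 hw0' using hw0
  -- consistency
  have hcons : ∀ z ∈ Cᶜ, ∀ n m (S S' : Set ℂ), IsPreconnected S → IsPreconnected S' → S ⊆ F n →
      S' ⊆ F m → z ∈ S → base z ∈ S → z ∈ S' → base z ∈ S' →
      L n z - L n (base z) = L m z - L m (base z) := by
    intro z hz n m S S' hS hS' hSn hSm h1 h2 h3 h4
    wlog hnm : n ≤ m generalizing n m S S'
    · exact (this m n S' S hS' hS hSm hSn h3 h4 h1 h2 (le_of_not_ge hnm)).symm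
    · have := eq_of_exp_eq hS ((hLc n).mono hSn) ((hLc m).mono (hSn.trans (hFmono n m hnm)))
        (fun z hz => by rw [hLe n z (hSn hz), hLe m z (hFmono n m hnm (hSn hz))]) h1 h2
      linear_combination this
  refine ⟨fun z => L (N z) z - L (N z) (base z) + w0 (base z), ?_, ?_⟩
  · intro z hz
    apply ContinuousAt.continuousWithinAt
    obtain ⟨S, hS, hSn, hzS, hbS⟩ := hN z hz
    -- a ball around z inside some F m
    have hpos : 0 < infDist z C := (hCc.notMem_iff_infDist_pos hCne).1 hz
    set r := infDist z C / 2 with hr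
    have hr0 : 0 < r := by positivity
    have hball : closedBall z r ⊆ Cᶜ := by
      intro y hy hyC
      have : infDist z C ≤ dist z y := infDist_le_dist_of_mem hyC
      rw [dist_comm] at this
      have h2 : dist y z ≤ r := hy
      linarith
    obtain ⟨m, hm⟩ := hcomp (closedBall z r) (isCompact_closedBall z r) hball
    set M := max m (N z) with hM
    have hmM : closedBall z r ⊆ F M := hm.trans (hFmono _ _ (le_max_left _ _))
    have hSM : S ⊆ F M := hSn.trans (hFmono _ _ (le_max_right _ _))
    have hU : IsPreconnected (S ∪ closedBall z r) :=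
      hS.union z hzS (mem_closedBall_self hr0.le) isPreconnected_closedBall
    have hUM : S ∪ closedBall z r ⊆ F M := union_subset hSM hmM
    have heq : ∀ᶠ y in 𝓝 z, L (N y) y - L (N y) (base y) + w0 (base y) =
        L M y - L M (base z) + w0 (base z) := by
      filter_upwards [closedBall_mem_nhds z hr0] with y hy
      have hyC : y ∈ Cᶜ := hball hy
      have hyz : y ∈ connectedComponentIn Cᶜ z :=
        (isPreconnected_closedBall.subset_connectedComponentIn (mem_closedBall_self hr0.le) hball)
          hy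
      have hb : base y = base z := hbase_eq z hz y hyz
      obtain ⟨S', hS', hSn', hzS', hbS'⟩ := hN y hyC
      have h1 := hcons y hyC (N y) M S' (S ∪ closedBall z r) hS' hU hSn' hUM hzS' hbS'
        (Or.inr hy) (Or.inl (by rw [hb]; exact hbS))
      rw [h1, hb]
    have hcontM : ContinuousAt (L M) z := by
      refine (hLc M).continuousAt ?_
      exact mem_of_superset (closedBall_mem_nhds z hr0) hmM
    have : ContinuousAt (fun y => L M y - L M (base z) + w0 (base z)) z :=
      (hcontM.sub continuousAt_const).add continuousAt_const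
    exact this.congr (heq.mono fun y hy => hy.symm)
  · intro z hz
    obtain ⟨S, hS, hSn, hzS, hbS⟩ := hN z hz
    have hbC : base z ∈ Cᶜ := fun h => (Set.disjoint_left.1 (hFC _) (hSn hbS)) h
    rw [Complex.exp_add, Complex.exp_sub, hLe _ _ (hSn hzS), hLe _ _ (hSn hbS), hw0' _ hbC]
    have h1 : (base z - q) / (base z - p) ≠ 0 := by
      rw [← hw0' _ hbC]; exact Complex.exp_ne_zero _
    rw [div_mul_cancel₀ _ h1]

end Crest.Agent.R135.Sep
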