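import Crest.Agent.R135.PolarB
import Crest.Agent.R135.SepLog

/-!
R135, block SEP (helper990): the argument function of a circular arc: a function which is
continuous off the arc, and jumps by `2 π` across it.
-/

set_option autoImplicit false

open Set Filter Topology Metric

namespace Crest.Agent.R135.Sep

open Crest.Agent.R135

/-- the complex number attached to a point of the plane -/
def cx (z : E2) : ℂ := ⟨z 0, z 1⟩

@[simp] lemma cx_re (z : E2) : (cx z).re = z 0 := rfl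
@[simp] lemma cx_im (z : E2) : (cx z).im = z 1 := rfl

lemma cx_eq (z : E2) : cx z = (z 0 : ℂ) + (z 1 : ℂ) * Complex.I := by
  apply Complex.ext <;> simp

lemma continuous_cx : Continuous cx := by
  have : cx = fun z : E2 => (z 0 : ℂ) + (z 1 : ℂ) * Complex.I := by
    funext z; exact cx_eq z
  rw [this]
  fun_prop

lemma cx_injective : Function.Injective cx := by
  intro z w h
  apply ext_E2
  · have := congrArg Complex.re h; simpa using this
  · have := congrArg Complex.im h; simpa using this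

/-- the inverse of `cx` -/
def ofCx (w : ℂ) : E2 := !₂[w.re, w.im]

@[simp] lemma cx_ofCx (w : ℂ) : cx (ofCx w) = w := by
  apply Complex.ext <;> simp [ofCx]

@[simp] lemma ofCx_cx (z : E2) : ofCx (cx z) = z := by
  apply ext_E2 <;> simp [ofCx]

lemma continuous_ofCx : Continuous ofCx := by
  unfold ofCx
  fun_prop

/-- `cx` as a homeomorphism -/
def cxHomeo : E2 ≃ₜ ℂ where
  toFun := cx
  invFun := ofCx
  left_inv := ofCx_cx
  right_inv := cx_ofCx
  continuous_toFun := continuous_cx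
  continuous_invFun := continuous_ofCx

lemma isClosed_cx_image {C : Set E2} (hC : IsClosed C) : IsClosed (cx '' C) :=
  cxHomeo.isClosedMap C hC

lemma cx_add (z w : E2) : cx (z + w) = cx z + cx w := by
  apply Complex.ext <;> simp

lemma cx_sub (z w : E2) : cx (z - w) = cx z - cx w := by
  apply Complex.ext <;> simp

lemma cx_smul (t : ℝ) (z : E2) : cx (t • z) = t * cx z := by
  apply Complex.ext <;> simp

lemma norm_cx (z : E2) : ‖cx z‖ = ‖z‖ := by
  have h1 : ‖cx z‖ ^ 2 = ‖z‖ ^ 2 := by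
    rw [← Complex.normSq_eq_norm_sq, Complex.normSq_apply, norm_E2]; simp; ring
  nlinarith [norm_nonneg (cx z), norm_nonneg z, sq_nonneg (‖cx z‖ - ‖z‖),
    sq_nonneg (‖cx z‖ + ‖z‖), abs_eq_abs.1 (sq_eq_sq_iff_abs_eq_abs _ _ |>.1 h1) |>.elim
      (fun h => h.le) (fun h => by
        have := norm_nonneg (cx z); have := norm_nonneg z; linarith)]

lemma cx_dir (θ : ℝ) : cx (dir θ) = Complex.exp (θ * Complex.I) := by
  apply Complex.ext
  · simp [Complex.exp_ofReal_mul_I_re]
  · simp [Complex.exp_ofReal_mul_I_im]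

lemma cx_cpt (x : E2) (t θ : ℝ) : cx (cpt x t θ) = cx x + t * Complex.exp (θ * Complex.I) := by
  rw [cpt, cx_add, cx_smul, cx_dir]

lemma dist_eq_norm_cx (z x : E2) : dist z x = ‖cx z - cx x‖ := by
  rw [dist_eq_norm, ← cx_sub, norm_cx]

/-- data of a circular arc (counterclockwise, at most a full turn) -/
structure CArc where
  /-- centre -/
  x : E2
  /-- radius -/
  t : ℝ
  /-- initial angle -/
  a : ℝ
  /-- final angle -/
  b : ℝ
  ht : 0 < t
  hab : a < b
  hb : b < a + 2 * Real.pi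

namespace CArc

variable (I : CArc)

/-- initial point -/
noncomputable def src : E2 := cpt I.x I.t I.a

/-- final point -/
noncomputable def tgt : E2 := cpt I.x I.t I.b

/-- the closed arc -/
noncomputable def set : Set E2 := cpt I.x I.t '' Icc I.a I.b

/-- half opening -/
noncomputable def del : ℝ := (I.b - I.a) / 2

lemma del_pos : 0 < I.del := by unfold del; linarith [I.hab]

lemma del_lt : I.del < Real.pi := by unfold del; linarith [I.hb]

/-- the ratio `(z - tgt)/(z - src)` -/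
noncomputable def w (z : E2) : ℂ := (cx z - cx I.tgt) / (cx z - cx I.src)

/-- the argument function of the arc -/
noncomputable def A (z : E2) : ℝ := Complex.arg (Complex.exp (-(I.del : ℂ) * Complex.I) * I.w z)

lemma isCompact_set : IsCompact I.set := by
  refine isCompact_Icc.image ?_
  exact (continuous_cpt I.x).comp (by fun_prop : Continuous (fun θ : ℝ => (I.t, θ)))

lemma src_mem : I.src ∈ I.set := ⟨I.a, ⟨le_rfl, I.hab.le⟩, rfl⟩
lemma tgt_mem : I.tgt ∈ I.set := ⟨I.b, ⟨I.hab.le, le_rfl⟩, rfl⟩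

/-- normalised coordinate -/
noncomputable def eta (z : E2) : ℂ :=
  (cx z - cx I.x) * Complex.exp (-(((I.a + I.b) / 2 : ℝ) : ℂ) * Complex.I) / I.t

lemma norm_eta (z : E2) : ‖I.eta z‖ = dist z I.x / I.t := by
  unfold eta
  rw [norm_div, norm_mul]
  have h1 : ‖Complex.exp (-(((I.a + I.b) / 2 : ℝ) : ℂ) * Complex.I)‖ = 1 := by
    have : -(((I.a + I.b) / 2 : ℝ) : ℂ) * Complex.I = ((-((I.a + I.b) / 2) : ℝ) : ℂ) * Complex.I := by
      push_cast; ring
    rw [this, Complex.norm_exp_ofReal_mul_I]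
  rw [h1, mul_one, dist_eq_norm_cx, Complex.norm_real, Real.norm_of_nonneg I.ht.le]

lemma cx_sub_tgt (z : E2) : (cx z - cx I.tgt) =
    I.t * Complex.exp ((((I.a + I.b) / 2 : ℝ) : ℂ) * Complex.I) *
      (I.eta z - Complex.exp ((I.del : ℂ) * Complex.I)) := by
  have ht : (I.t : ℂ) ≠ 0 := by exact_mod_cast I.ht.ne'
  have h1 : Complex.exp ((((I.a + I.b) / 2 : ℝ) : ℂ) * Complex.I) *
      Complex.exp (-(((I.a + I.b) / 2 : ℝ) : ℂ) * Complex.I) = 1 := by
    rw [← Complex.exp_add]; simp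
  have h2 : Complex.exp ((((I.a + I.b) / 2 : ℝ) : ℂ) * Complex.I) *
      Complex.exp ((I.del : ℂ) * Complex.I) = Complex.exp ((I.b : ℂ) * Complex.I) := by
    rw [← Complex.exp_add]; congr 1; unfold del; push_cast; ring
  rw [tgt, cx_cpt, eta]
  generalize Complex.exp ((((I.a + I.b) / 2 : ℝ) : ℂ) * Complex.I) = e1 at *
  generalize Complex.exp (-(((I.a + I.b) / 2 : ℝ) : ℂ) * Complex.I) = e2 at *
  generalize Complex.exp ((I.del : ℂ) * Complex.I) = e3 at *
  generalize Complex.exp ((I.b : ℂ) * Complex.I) = e4 at *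
  field_simp
  linear_combination (-(cx z - cx I.x)) * h1 + (I.t : ℂ) * h2

lemma cx_sub_src (z : E2) : (cx z - cx I.src) =
    I.t * Complex.exp ((((I.a + I.b) / 2 : ℝ) : ℂ) * Complex.I) *
      (I.eta z - Complex.exp (-(I.del : ℂ) * Complex.I)) := by
  have ht : (I.t : ℂ) ≠ 0 := by exact_mod_cast I.ht.ne'
  have h1 : Complex.exp ((((I.a + I.b) / 2 : ℝ) : ℂ) * Complex.I) *
      Complex.exp (-(((I.a + I.b) / 2 : ℝ) : ℂ) * Complex.I) = 1 := by
    rw [← Complex.exp_add]; simp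
  have h2 : Complex.exp ((((I.a + I.b) / 2 : ℝ) : ℂ) * Complex.I) *
      Complex.exp (-(I.del : ℂ) * Complex.I) = Complex.exp ((I.a : ℂ) * Complex.I) := by
    rw [← Complex.exp_add]; congr 1; unfold del; push_cast; ring
  rw [src, cx_cpt, eta]
  generalize Complex.exp ((((I.a + I.b) / 2 : ℝ) : ℂ) * Complex.I) = e1 at *
  generalize Complex.exp (-(((I.a + I.b) / 2 : ℝ) : ℂ) * Complex.I) = e2 at *
  generalize Complex.exp (-(I.del : ℂ) * Complex.I) = e3 at *
  generalize Complex.exp ((I.a : ℂ) * Complex.I) = e4 at *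
  field_simp
  linear_combination (-(cx z - cx I.x)) * h1 + (I.t : ℂ) * h2

lemma w_eq (z : E2) : I.w z = (I.eta z - Complex.exp ((I.del : ℂ) * Complex.I)) /
    (I.eta z - Complex.exp (-(I.del : ℂ) * Complex.I)) := by
  rw [w, cx_sub_tgt, cx_sub_src]
  have ht : (I.t : ℂ) ≠ 0 := by exact_mod_cast I.ht.ne'
  have h1 := Complex.exp_ne_zero ((((I.a + I.b) / 2 : ℝ) : ℂ) * Complex.I)
  rw [mul_div_mul_left _ _ (mul_ne_zero ht h1)]

lemma re_add_mul_I (a b : ℝ) : ((a : ℂ) + (b : ℂ) * Complex.I).re = a := by simp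
lemma im_add_mul_I (a b : ℝ) : ((a : ℂ) + (b : ℂ) * Complex.I).im = b := by simp

/-- the rotated ratio -/
noncomputable def rw_ (z : E2) : ℂ := Complex.exp (-(I.del : ℂ) * Complex.I) * I.w z

lemma rw_mul (z : E2) (hz : I.eta z ≠ Complex.exp (-(I.del : ℂ) * Complex.I)) :
    I.rw_ z = (((Real.cos I.del * (‖I.eta z‖ ^ 2 + 1) - 2 * (I.eta z).re : ℝ) : ℂ) +
      ((Real.sin I.del * (1 - ‖I.eta z‖ ^ 2) : ℝ) : ℂ) * Complex.I) /
      ((‖I.eta z - Complex.exp (-(I.del : ℂ) * Complex.I)‖ ^ 2 : ℝ) : ℂ) := by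
  set η := I.eta z with hη
  set e := Complex.exp ((I.del : ℂ) * Complex.I) with he
  set e' := Complex.exp (-(I.del : ℂ) * Complex.I) with he'
  have hee : e * e' = 1 := by rw [he, he', ← Complex.exp_add]; simp
  have hconj : (starRingEnd ℂ) e' = e := by
    rw [he, he', ← Complex.exp_conj]; simp
  have hsub : η - e' ≠ 0 := sub_ne_zero.2 hz
  have hn : ((‖η - e'‖ ^ 2 : ℝ) : ℂ) = (η - e') * (starRingEnd ℂ) (η - e') := by
    rw [Complex.mul_conj, Complex.normSq_eq_norm_sq]
  have hn0 : (η - e') * (starRingEnd ℂ) (η - e') ≠ 0 :=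
    mul_ne_zero hsub ((map_ne_zero _).2 hsub)
  have hecos : e = (Real.cos I.del : ℂ) + (Real.sin I.del : ℂ) * Complex.I := by
    rw [he, Complex.exp_mul_I]; push_cast; ring
  have hecos' : e' = (Real.cos I.del : ℂ) - (Real.sin I.del : ℂ) * Complex.I := by
    rw [he', Complex.exp_mul_I]; simp [Complex.cos_neg, Complex.sin_neg]; ring
  have hηη : η * (starRingEnd ℂ) η = ((‖η‖ ^ 2 : ℝ) : ℂ) := by
    rw [Complex.mul_conj, Complex.normSq_eq_norm_sq]
  have hre : η + (starRingEnd ℂ) η = ((2 * η.re : ℝ) : ℂ) := by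
    rw [Complex.add_conj]
  unfold rw_
  rw [w_eq, ← he, ← he', ← hη, hn, eq_div_iff hn0]
  have : e' * ((η - e) / (η - e')) * ((η - e') * (starRingEnd ℂ) (η - e')) =
      e' * (η - e) * (starRingEnd ℂ) (η - e') := by
    field_simp
  rw [this, map_sub, hconj]
  have h1 : e' * (η - e) * ((starRingEnd ℂ) η - e) = e' * (η * (starRingEnd ℂ) η) -
      (e * e') * (η + (starRingEnd ℂ) η) + e * (e * e') := by ring
  rw [h1, hee, hηη, hre, hecos, hecos']
  push_cast
  ring

lemma rw_re (z : E2) (hz : I.eta z ≠ Complex.exp (-(I.del : ℂ) * Complex.I)) :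
    (I.rw_ z).re = (Real.cos I.del * (‖I.eta z‖ ^ 2 + 1) - 2 * (I.eta z).re) /
      ‖I.eta z - Complex.exp (-(I.del : ℂ) * Complex.I)‖ ^ 2 := by
  rw [I.rw_mul z hz, Complex.div_ofReal_re, re_add_mul_I]

lemma rw_im (z : E2) (hz : I.eta z ≠ Complex.exp (-(I.del : ℂ) * Complex.I)) :
    (I.rw_ z).im = (Real.sin I.del * (1 - ‖I.eta z‖ ^ 2)) /
      ‖I.eta z - Complex.exp (-(I.del : ℂ) * Complex.I)‖ ^ 2 := by
  rw [I.rw_mul z hz, Complex.div_ofReal_im, im_add_mul_I]

lemma continuous_eta : Continuous I.eta := by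
  unfold eta
  have := continuous_cx
  fun_prop

lemma cx_eq_eta (z : E2) : cx z = cx I.x +
    I.t * Complex.exp ((((I.a + I.b) / 2 : ℝ) : ℂ) * Complex.I) * I.eta z := by
  have ht : (I.t : ℂ) ≠ 0 := by exact_mod_cast I.ht.ne'
  have h1 : Complex.exp ((((I.a + I.b) / 2 : ℝ) : ℂ) * Complex.I) *
      Complex.exp (-(((I.a + I.b) / 2 : ℝ) : ℂ) * Complex.I) = 1 := by
    rw [← Complex.exp_add]; simp
  rw [eta]
  generalize Complex.exp ((((I.a + I.b) / 2 : ℝ) : ℂ) * Complex.I) = e1 at *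
  generalize Complex.exp (-(((I.a + I.b) / 2 : ℝ) : ℂ) * Complex.I) = e2 at *
  field_simp
  linear_combination (-(cx z - cx I.x)) * h1

lemma eta_cpt (θ : ℝ) : I.eta (cpt I.x I.t θ) =
    Complex.exp (((θ - (I.a + I.b) / 2 : ℝ) : ℂ) * Complex.I) := by
  have ht : (I.t : ℂ) ≠ 0 := by exact_mod_cast I.ht.ne'
  rw [eta, cx_cpt]
  have h2 : Complex.exp (((θ - (I.a + I.b) / 2 : ℝ) : ℂ) * Complex.I) =
      Complex.exp ((θ : ℂ) * Complex.I) *
      Complex.exp (-(((I.a + I.b) / 2 : ℝ) : ℂ) * Complex.I) := by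
    rw [← Complex.exp_add]; congr 1; push_cast; ring
  rw [h2]
  field_simp
  ring

lemma mem_set_of (z : E2) (h1 : ‖I.eta z‖ = 1) (h2 : Real.cos I.del ≤ (I.eta z).re) :
    z ∈ I.set := by
  set η := I.eta z with hη
  have hη' : η = Complex.exp ((Complex.arg η : ℂ) * Complex.I) := by
    have := Complex.norm_mul_exp_arg_mul_I η
    rw [h1, Complex.ofReal_one, one_mul] at this
    exact this.symm
  have hcos : Real.cos (Complex.arg η) = η.re := by
    conv_rhs => rw [hη']
    rw [Complex.exp_ofReal_mul_I_re]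
  have habs : |Complex.arg η| ≤ I.del := by
    by_contra hlt
    push Not at hlt
    have h3 := Real.cos_lt_cos_of_nonneg_of_le_pi I.del_pos.le (Complex.abs_arg_le_pi η) hlt
    rw [Real.cos_abs, hcos] at h3
    linarith
  rw [abs_le] at habs
  refine ⟨(I.a + I.b) / 2 + Complex.arg η, ⟨?_, ?_⟩, ?_⟩
  · have := habs.1; unfold del at this; linarith
  · have := habs.2; unfold del at this; linarith
  · apply cx_injective
    rw [cx_cpt, I.cx_eq_eta z, ← hη]
    conv_rhs => rw [hη']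
    have h2 : Complex.exp ((((I.a + I.b) / 2 + Complex.arg η : ℝ) : ℂ) * Complex.I) =
        Complex.exp ((((I.a + I.b) / 2 : ℝ) : ℂ) * Complex.I) *
        Complex.exp ((Complex.arg η : ℂ) * Complex.I) := by
      rw [← Complex.exp_add]; congr 1; push_cast; ring
    rw [h2]; ring

lemma eta_ne_of_notMem {z : E2} (hz : z ≠ I.src) :
    I.eta z ≠ Complex.exp (-(I.del : ℂ) * Complex.I) := by
  intro h
  apply hz
  apply cx_injective
  have := I.cx_sub_src z
  rw [h, sub_self, mul_zero, sub_eq_zero] at this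
  exact this

lemma rw_mem_slitPlane {z : E2} (hz : z ∉ I.set) : I.rw_ z ∈ Complex.slitPlane := by
  have hne : z ≠ I.src := fun h => hz (h ▸ I.src_mem)
  have hη := I.eta_ne_of_notMem hne
  have hpos : 0 < ‖I.eta z - Complex.exp (-(I.del : ℂ) * Complex.I)‖ ^ 2 := by
    have : 0 < ‖I.eta z - Complex.exp (-(I.del : ℂ) * Complex.I)‖ :=
      norm_pos_iff.2 (sub_ne_zero.2 hη)
    positivity
  rw [Complex.mem_slitPlane_iff]
  by_cases h1 : ‖I.eta z‖ = 1
  · left
    rw [I.rw_re z hη]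
    apply div_pos _ hpos
    have h2 : (I.eta z).re < Real.cos I.del := by
      by_contra h2
      exact hz (I.mem_set_of z h1 (not_lt.1 h2))
    rw [h1]
    linarith
  · right
    rw [I.rw_im z hη]
    have hs : 0 < Real.sin I.del := Real.sin_pos_of_pos_of_lt_pi I.del_pos I.del_lt
    apply div_ne_zero _ hpos.ne'
    apply mul_ne_zero hs.ne'
    intro h3
    apply h1
    have h4 : ‖I.eta z‖ ^ 2 = 1 := by linarith
    nlinarith [norm_nonneg (I.eta z)]

lemma continuousAt_rw {z : E2} (hz : z ≠ I.src) : ContinuousAt I.rw_ z := by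
  unfold rw_ w
  have h1 := continuous_cx
  have h2 : cx z - cx I.src ≠ 0 := sub_ne_zero.2 fun h => hz (cx_injective h)
  exact continuousAt_const.mul
    ((h1.continuousAt.sub continuousAt_const).div (h1.continuousAt.sub continuousAt_const) h2)

/-- the argument function is continuous off the closed arc -/
theorem continuousAt_A {z : E2} (hz : z ∉ I.set) : ContinuousAt I.A z := by
  have hne : z ≠ I.src := fun h => hz (h ▸ I.src_mem)
  exact (Complex.continuousAt_arg (I.rw_mem_slitPlane hz)).comp (I.continuousAt_rw hne)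

lemma rw_at {θ : ℝ} (hθ : θ ∈ Ioo I.a I.b) :
    (I.rw_ (cpt I.x I.t θ)).re < 0 ∧ (I.rw_ (cpt I.x I.t θ)).im = 0 ∧
      cpt I.x I.t θ ≠ I.src := by
  have habs : |θ - (I.a + I.b) / 2| < I.del := by
    rw [abs_lt]; unfold del; constructor <;> linarith [hθ.1, hθ.2]
  have hcos : Real.cos I.del < Real.cos (θ - (I.a + I.b) / 2) := by
    have := Real.cos_lt_cos_of_nonneg_of_le_pi (abs_nonneg (θ - (I.a + I.b) / 2)) I.del_lt.le habs
    rwa [Real.cos_abs] at this
  have hη := I.eta_cpt θ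
  have hre : (I.eta (cpt I.x I.t θ)).re = Real.cos (θ - (I.a + I.b) / 2) := by
    rw [hη, Complex.exp_ofReal_mul_I_re]
  have hnorm : ‖I.eta (cpt I.x I.t θ)‖ = 1 := by
    rw [hη, Complex.norm_exp_ofReal_mul_I]
  have hne : I.eta (cpt I.x I.t θ) ≠ Complex.exp (-(I.del : ℂ) * Complex.I) := by
    intro h
    have h2 : (Complex.exp (-(I.del : ℂ) * Complex.I)).re = Real.cos I.del := by
      have : -(I.del : ℂ) * Complex.I = ((-I.del : ℝ) : ℂ) * Complex.I := by push_cast; ring
      rw [this, Complex.exp_ofReal_mul_I_re, Real.cos_neg]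
    rw [h, h2] at hre
    linarith
  have hpos : 0 < ‖I.eta (cpt I.x I.t θ) - Complex.exp (-(I.del : ℂ) * Complex.I)‖ ^ 2 := by
    have := norm_pos_iff.2 (sub_ne_zero.2 hne)
    positivity
  refine ⟨?_, ?_, ?_⟩
  · rw [I.rw_re _ hne, hnorm, hre]
    apply div_neg_of_neg_of_pos _ hpos
    linarith
  · rw [I.rw_im _ hne, hnorm]
    simp
  · intro h
    apply hne
    have := I.cx_sub_src (cpt I.x I.t θ)
    rw [h, sub_self] at this
    have ht : (I.t : ℂ) ≠ 0 := by exact_mod_cast I.ht.ne'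
    have h3 := mul_ne_zero ht (Complex.exp_ne_zero ((((I.a + I.b) / 2 : ℝ) : ℂ) * Complex.I))
    have h4 := (mul_eq_zero.1 this.symm).resolve_left h3
    rw [h]
    exact sub_eq_zero.1 h4

lemma rw_im_nonneg {z : E2} (hz : dist z I.x ≤ I.t) (hne : z ≠ I.src) : 0 ≤ (I.rw_ z).im := by
  have hη := I.eta_ne_of_notMem hne
  rw [I.rw_im z hη]
  have hs : 0 < Real.sin I.del := Real.sin_pos_of_pos_of_lt_pi I.del_pos I.del_lt
  have h1 : ‖I.eta z‖ ≤ 1 := by
    rw [I.norm_eta, div_le_one I.ht]; exact hz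
  have h2 : ‖I.eta z‖ ^ 2 ≤ 1 := by nlinarith [norm_nonneg (I.eta z)]
  apply div_nonneg _ (by positivity)
  apply mul_nonneg hs.le; linarith

lemma rw_im_neg {z : E2} (hz : I.t < dist z I.x) : (I.rw_ z).im < 0 := by
  have hne : z ≠ I.src := by
    rintro rfl
    simp only [src, dist_cpt, abs_of_pos I.ht, lt_self_iff_false] at hz
  have hη := I.eta_ne_of_notMem hne
  rw [I.rw_im z hη]
  have hs : 0 < Real.sin I.del := Real.sin_pos_of_pos_of_lt_pi I.del_pos I.del_lt
  have h1 : 1 < ‖I.eta z‖ := by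
    rw [I.norm_eta, one_lt_div I.ht]; exact hz
  have hpos : 0 < ‖I.eta z - Complex.exp (-(I.del : ℂ) * Complex.I)‖ ^ 2 := by
    have := norm_pos_iff.2 (sub_ne_zero.2 hη)
    positivity
  apply div_neg_of_neg_of_pos _ hpos
  have h2 : 1 < ‖I.eta z‖ ^ 2 := by nlinarith
  exact mul_neg_of_pos_of_neg hs (by linarith)

/-- inner limit of the argument function at a point of the open arc -/
theorem tendsto_A_in {θ : ℝ} (hθ : θ ∈ Ioo I.a I.b) :
    Tendsto I.A (𝓝[closedBall I.x I.t] (cpt I.x I.t θ)) (𝓝 Real.pi) := by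
  obtain ⟨h1, h2, h3⟩ := I.rw_at hθ
  have h4 := Complex.tendsto_arg_nhdsWithin_im_nonneg_of_re_neg_of_im_zero h1 h2
  refine h4.comp ?_
  refine tendsto_nhdsWithin_iff.2 ⟨(I.continuousAt_rw h3).tendsto.mono_left nhdsWithin_le_nhds, ?_⟩
  have h5 : ∀ᶠ z in 𝓝[closedBall I.x I.t] (cpt I.x I.t θ), z ≠ I.src :=
    nhdsWithin_le_nhds (isOpen_ne.mem_nhds h3)
  filter_upwards [h5, self_mem_nhdsWithin] with z hz hz2
  exact I.rw_im_nonneg hz2 hz

/-- outer limit of the argument function at a point of the open arc -/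
theorem tendsto_A_out {θ : ℝ} (hθ : θ ∈ Ioo I.a I.b) :
    Tendsto I.A (𝓝[(closedBall I.x I.t)ᶜ] (cpt I.x I.t θ)) (𝓝 (-Real.pi)) := by
  obtain ⟨h1, h2, h3⟩ := I.rw_at hθ
  have h4 := Complex.tendsto_arg_nhdsWithin_im_neg_of_re_neg_of_im_zero h1 h2
  refine h4.comp ?_
  refine tendsto_nhdsWithin_iff.2 ⟨(I.continuousAt_rw h3).tendsto.mono_left nhdsWithin_le_nhds, ?_⟩
  filter_upwards [self_mem_nhdsWithin] with z hz2
  have : I.t < dist z I.x := by
    rw [mem_compl_iff, mem_closedBall, not_le] at hz2; exact hz2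
  exact I.rw_im_neg this

lemma w_ne_zero {z : E2} (h1 : z ≠ I.src) (h2 : z ≠ I.tgt) : I.w z ≠ 0 := by
  unfold w
  exact div_ne_zero (sub_ne_zero.2 fun h => h2 (cx_injective h))
    (sub_ne_zero.2 fun h => h1 (cx_injective h))

/-- exponential of the argument function -/
theorem exp_A {z : E2} (h1 : z ≠ I.src) (h2 : z ≠ I.tgt) :
    (‖I.w z‖ : ℂ) * Complex.exp ((I.A z + I.del : ℝ) * Complex.I) = I.w z := by
  have hw := I.w_ne_zero h1 h2
  have h3 : ‖I.rw_ z‖ = ‖I.w z‖ := by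
    unfold rw_
    rw [norm_mul]
    have : -(I.del : ℂ) * Complex.I = ((-I.del : ℝ) : ℂ) * Complex.I := by push_cast; ring
    rw [this, Complex.norm_exp_ofReal_mul_I, one_mul]
  have h4 := Complex.norm_mul_exp_arg_mul_I (I.rw_ z)
  rw [h3] at h4
  have h5 : Complex.exp ((I.A z + I.del : ℝ) * Complex.I) =
      Complex.exp ((Complex.arg (I.rw_ z) : ℂ) * Complex.I) *
      Complex.exp ((I.del : ℂ) * Complex.I) := by
    rw [← Complex.exp_add]; congr 1; unfold A rw_; push_cast; ring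
  have h6 : Complex.exp (-(I.del : ℂ) * Complex.I) * Complex.exp ((I.del : ℂ) * Complex.I) = 1 := by
    rw [← Complex.exp_add]; simp
  rw [h5, ← mul_assoc, h4]
  unfold rw_
  linear_combination (I.w z) * h6

end CArc

end Crest.Agent.R135.Sep
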