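import Mathlib
import Crest.Agent.R135.JanisB
import Crest.Agent.R135.TopConn

/-!
# R135: SEPCONN (helper804). Phases force connectedness of the crack in a disc.

If a function `χ`, locally constant off `K` in a neighbourhood of the closed disc `closedBall y s`,
jumps at every crack point of the circle and there are at most three of them, then all crack points
of the circle lie in one connected component of `K ∩ closedBall y s`.
-/

set_option autoImplicit false

open MeasureTheory Set Filter Topology Metric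
open scoped ENNReal NNReal ContDiff Gradient

namespace Crest.Agent.R135

/-- If the crack in the closed disc splits into two disjoint closed pieces, one of which meets the
circle in the single point `p`, then `χ` takes the same value on both sides of `p`. -/
theorem chi_const_near_of_split {K A B' : Set E2} {y p : E2} {s ρ : ℝ} (hs : 0 < s) (hsρ : s < ρ)
    (hA : IsClosed A) (hB' : IsClosed B') (hd : Disjoint A B')
    (hKc : closure K ∩ ball y ρ ⊆ K)
    (hK : K ∩ closedBall y s = A ∪ B') (hone : A ∩ sphere y s = {p})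
    {χ : E2 → ℝ} (hχ : LocConstOn (ball y ρ \ K) χ) :
    ∃ k : ℝ, ∀ᶠ a in 𝓝 p, a ∈ sphere y s → a ≠ p → χ a = k := by
  have hAK : A ⊆ K := (subset_union_left.trans hK.symm.subset).trans inter_subset_left
  have hBK : B' ⊆ K := (subset_union_right.trans hK.symm.subset).trans inter_subset_left
  have hpA : p ∈ A := (hone.symm.subset (mem_singleton p)).1
  have hps : p ∈ sphere y s := (hone.symm.subset (mem_singleton p)).2
  have hBU : closedBall y s ⊆ ball y ρ := closedBall_subset_ball hsρ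
  have hkeep := keeps_remove_inside (U := ball y ρ) hs hBU hA hB' hd hK
    (by rw [hone]; exact subsingleton_singleton)
  obtain ⟨c', hc', hcc⟩ := hkeep χ hχ
  -- inside the disc near `p` there is no crack left
  have hpB : p ∉ B' := disjoint_left.1 hd hpA
  obtain ⟨ε, hε, hεB⟩ := Metric.isOpen_iff.1 hB'.isOpen_compl p hpB
  -- the convex set `ball p ε ∩ ball y s`
  set S : Set E2 := ball p ε ∩ ball y s with hS
  have hSc : Convex ℝ S := (convex_ball p ε).inter (convex_ball y s)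
  -- crack free region
  have hfree : ∀ a ∈ ball p ε, a ∈ closedBall y s → a ≠ p →
      a ∈ ball y ρ \ (K \ (A ∩ ball y s)) := by
    intro a ha1 ha2 hap
    refine ⟨hBU ha2, fun h => ?_⟩
    have h1 : a ∈ A ∪ B' := hK.subset ⟨h.1, ha2⟩
    rcases h1 with h1 | h1
    · rcases (mem_closedBall.1 ha2).lt_or_eq with h2 | h2
      · exact h.2 ⟨h1, h2⟩
      · exact hap (hone.subset ⟨h1, h2⟩)
    · exact hεB ha1 h1
  have hSfree : S ⊆ ball y ρ \ (K \ (A ∩ ball y s)) := by
    intro a ha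
    refine hfree a ha.1 (ball_subset_closedBall ha.2) ?_
    rintro rfl
    have h1 := mem_ball.1 ha.2
    have h2 := mem_sphere.1 hps
    linarith
  -- the whole set `S ∪ (circle near p minus p)` is preconnected
  set T : Set E2 := (ball p ε ∩ closedBall y s) \ {p} with hT
  have hTfree : T ⊆ ball y ρ \ (K \ (A ∩ ball y s)) := fun a ha => hfree a ha.1.1 ha.1.2 ha.2
  have hST : S ⊆ T := by
    intro a ha
    refine ⟨⟨ha.1, ball_subset_closedBall ha.2⟩, ?_⟩
    rintro rfl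
    have h1 := mem_ball.1 ha.2
    have h2 := mem_sphere.1 hps
    linarith
  have hTS : T ⊆ closure S := by
    intro a ha
    have h1 : a ∈ closure (ball y s) := by
      rw [closure_ball y hs.ne']; exact ha.1.2
    have h2 : a ∈ closure (ball p ε ∩ ball y s) :=
      (isOpen_ball.inter_closure (s := ball p ε) (t := ball y s)) ⟨ha.1.1, h1⟩
    exact h2
  have hTp : IsPreconnected T := hSc.isPreconnected.subset_closure hST hTS
  -- value of `χ` on the circle near `p`
  have hval : ∀ a ∈ ball p ε, a ∈ sphere y s → a ≠ p → χ a = c' a := by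
    intro a ha1 ha2 hap
    have haK : a ∉ K := by
      intro h
      have h1 : a ∈ A ∪ B' := hK.subset ⟨h, sphere_subset_closedBall ha2⟩
      rcases h1 with h1 | h1
      · exact hap (hone.subset ⟨h1, ha2⟩)
      · exact hεB ha1 h1
    have hc1 : ∀ᶠ z in 𝓝 a, χ z = χ a := hχ a ⟨hBU (sphere_subset_closedBall ha2), haK⟩
    have hc2 : ∀ᶠ z in 𝓝 a, c' z = c' a :=
      hc' a (hfree a ha1 (sphere_subset_closedBall ha2) hap)
    -- a point outside near `a`
    have hfr : ∃ᶠ z in 𝓝 a, z ∉ closedBall y s := by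
      have h1 : a ∈ frontier (closedBall y s) := by
        rw [frontier_closedBall y hs.ne']; exact ha2
      rw [frontier_eq_closure_inter_closure] at h1
      exact mem_closure_iff_frequently.1 h1.2
    have hUnhds : ∀ᶠ z in 𝓝 a, z ∈ ball y ρ :=
      isOpen_ball.mem_nhds (hBU (sphere_subset_closedBall ha2))
    -- off `K`: near `a`, outside
    have haU : a ∈ ball y ρ := hBU (sphere_subset_closedBall ha2)
    have hKn : ∀ᶠ z in 𝓝 a, z ∈ (closure K)ᶜ :=
      isClosed_closure.isOpen_compl.mem_nhds fun h => haK (hKc ⟨h, haU⟩)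
    obtain ⟨z, hz1, hz2, hz3, hz4, hz5⟩ :=
      (hfr.and_eventually (hc1.and (hc2.and (hUnhds.and hKn)))).exists
    have h5 := hcc z ⟨hz4, fun h => h.elim (fun h => hz5 (subset_closure h)) hz1⟩
    rw [← hz2, ← h5, hz3]
  by_cases hne : ∃ a0, a0 ∈ ball p ε ∧ a0 ∈ sphere y s ∧ a0 ≠ p
  · obtain ⟨a0, h1, h2, h3⟩ := hne
    refine ⟨c' a0, ?_⟩
    filter_upwards [ball_mem_nhds p hε] with a ha has hap
    rw [hval a ha has hap]
    exact hc'.eq_of_preconnected hTp hTfree ⟨⟨ha, sphere_subset_closedBall has⟩, hap⟩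
      ⟨⟨h1, sphere_subset_closedBall h2⟩, h3⟩
  · push Not at hne
    refine ⟨0, ?_⟩
    filter_upwards [ball_mem_nhds p hε] with a ha has hap
    exact absurd (hne a ha has) hap

/-- **SEPCONN.** At most three crack points on the circle, `χ` jumps at each of them: all of them
lie in one component of the crack in the closed disc. -/
theorem mem_component_of_jump {K : Set E2} {y : E2} {s ρ : ℝ} (hs : 0 < s) (hsρ : s < ρ)
    (hKc : closure K ∩ ball y ρ ⊆ K) {χ : E2 → ℝ} (hχ : LocConstOn (ball y ρ \ K) χ)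
    (hcard : (K ∩ sphere y s).encard ≤ 3)
    (hjump : ∀ p ∈ K ∩ sphere y s, ¬ ∃ k : ℝ, ∀ᶠ a in 𝓝 p, a ∈ sphere y s → a ≠ p → χ a = k)
    {p q : E2} (hp : p ∈ K ∩ sphere y s) (hq : q ∈ K ∩ sphere y s) :
    q ∈ connectedComponentIn (K ∩ closedBall y s) p := by
  by_contra hcon
  have hBU : closedBall y s ⊆ ball y ρ := closedBall_subset_ball hsρ
  have hMc : IsClosed (K ∩ closedBall y s) := by
    refine isClosed_of_closure_subset fun z hz => ?_
    have h1 : z ∈ closure K := closure_mono inter_subset_left hz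
    have h2 : z ∈ closedBall y s := by
      have := closure_mono (inter_subset_right (s := K) (t := closedBall y s)) hz
      rwa [isClosed_closedBall.closure_eq] at this
    exact ⟨hKc ⟨h1, hBU h2⟩, h2⟩
  have hMcomp : IsCompact (K ∩ closedBall y s) :=
    (isCompact_closedBall y s).of_isClosed_subset hMc inter_subset_right
  have hpM : p ∈ K ∩ closedBall y s := ⟨hp.1, sphere_subset_closedBall hp.2⟩
  have hqM : q ∈ K ∩ closedBall y s := ⟨hq.1, sphere_subset_closedBall hq.2⟩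
  obtain ⟨A, hA, hB, hpA, -, hAM, hAV⟩ := suraBura hMcomp hpM
    (V := {q}ᶜ) isClosed_singleton.isOpen_compl (fun z hz h => hcon (h ▸ hz))
  set B' : Set E2 := (K ∩ closedBall y s) \ A with hB'
  have hqB : q ∈ B' := ⟨hqM, fun h => hAV h rfl⟩
  have hd : Disjoint A B' := disjoint_sdiff_right
  have hun : K ∩ closedBall y s = A ∪ B' := (union_sdiff_cancel hAM).symm
  have hF : K ∩ sphere y s = (A ∩ sphere y s) ∪ (B' ∩ sphere y s) := by
    rw [← union_inter_distrib_right, ← hun, inter_assoc,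
      inter_eq_self_of_subset_right (sphere_subset_closedBall (x := y) (ε := s))]
  have hdF : Disjoint (A ∩ sphere y s) (B' ∩ sphere y s) :=
    hd.mono inter_subset_left inter_subset_left
  rw [hF, encard_union_eq hdF] at hcard
  have h1 : (1 : ℕ∞) ≤ (A ∩ sphere y s).encard :=
    one_le_encard_iff_nonempty.2 ⟨p, hpA, hp.2⟩
  have h2 : (1 : ℕ∞) ≤ (B' ∩ sphere y s).encard :=
    one_le_encard_iff_nonempty.2 ⟨q, hqB, hq.2⟩
  have h12 : (A ∩ sphere y s).encard = 1 ∨ (B' ∩ sphere y s).encard = 1 := by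
    have hfA : (A ∩ sphere y s).encard ≠ ⊤ := by
      intro h; rw [h] at hcard; simp at hcard
    have hfB : (B' ∩ sphere y s).encard ≠ ⊤ := by
      intro h; rw [h] at hcard; simp at hcard
    obtain ⟨m, hm⟩ := ENat.ne_top_iff_exists.1 hfA
    obtain ⟨n, hn⟩ := ENat.ne_top_iff_exists.1 hfB
    rw [← hm] at h1 hcard ⊢
    rw [← hn] at h2 hcard ⊢
    norm_cast at h1 h2 hcard ⊢
    omega
  rcases h12 with h3 | h3
  · obtain ⟨z, hz⟩ := encard_eq_one.1 h3
    have hzA : z ∈ A ∩ sphere y s := hz.symm.subset (mem_singleton z)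
    exact hjump z ⟨(hAM hzA.1).1, hzA.2⟩
      (chi_const_near_of_split hs hsρ hA.isClosed hB.isClosed hd hKc hun hz hχ)
  · obtain ⟨z, hz⟩ := encard_eq_one.1 h3
    have hzB : z ∈ B' ∩ sphere y s := hz.symm.subset (mem_singleton z)
    exact hjump z ⟨hzB.1.1.1, hzB.2⟩
      (chi_const_near_of_split hs hsρ hB.isClosed hA.isClosed hd.symm hKc
        (by rw [hun, union_comm]) hz hχ)

/-- the crack-free arcs on both sides of a crack point carry different values of `χ` -/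
theorem not_const_of_arcs {K : Set E2} {y : E2} {s ρ : ℝ} (hs : 0 < s) (hsρ : s < ρ)
    {χ : E2 → ℝ} (hχ : LocConstOn (ball y ρ \ K) χ) {θ₁ θ₀ θ₂ : ℝ} (h1 : θ₁ < θ₀) (h2 : θ₀ < θ₂)
    (hf1 : ∀ θ ∈ Ico θ₁ θ₀, cpt y s θ ∉ K) (hf2 : ∀ θ ∈ Ioc θ₀ θ₂, cpt y s θ ∉ K)
    (hne : χ (cpt y s θ₁) ≠ χ (cpt y s θ₂)) :
    ¬ ∃ k : ℝ, ∀ᶠ a in 𝓝 (cpt y s θ₀), a ∈ sphere y s → a ≠ cpt y s θ₀ → χ a = k := by
  rintro ⟨k, hk⟩
  have hcc : Continuous (cpt y s) := (continuous_cpt y).comp (Continuous.prodMk_right s)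
  have hb : ∀ θ, cpt y s θ ∈ ball y ρ := fun θ => (cpt_mem_ball hs).2 hsρ
  have hsph : ∀ θ, cpt y s θ ∈ sphere y s := fun θ => cpt_mem_sphere hs.le
  have hpi := Real.pi_pos
  -- injectivity near `θ₀`
  have hinj : ∀ θ, |θ - θ₀| < 2 * Real.pi → θ ≠ θ₀ → cpt y s θ ≠ cpt y s θ₀ := by
    intro θ hθ hne' heq
    rw [abs_lt] at hθ
    rcases lt_or_gt_of_ne hne' with h | h
    · exact hne' (cpt_injOn (x := y) hs.ne' θ ⟨le_rfl, by linarith⟩ ⟨h.le, by linarith⟩ heq)
    · exact hne' (cpt_injOn (x := y) hs.ne' θ₀ ⟨h.le, by linarith⟩ ⟨le_rfl, by linarith⟩ heq)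
  have hev : ∀ᶠ θ in 𝓝 θ₀, (cpt y s θ ∈ sphere y s → cpt y s θ ≠ cpt y s θ₀ → χ (cpt y s θ) = k) ∧
      |θ - θ₀| < 2 * Real.pi := by
    refine (hcc.continuousAt.eventually hk).and ?_
    have : ∀ᶠ θ in 𝓝 θ₀, dist θ θ₀ < 2 * Real.pi := ball_mem_nhds θ₀ (by positivity)
    simpa [Real.dist_eq] using this
  have hL : χ (cpt y s θ₁) = k := by
    have h3 : ∃ θ, θ ∈ Ico θ₁ θ₀ ∧ χ (cpt y s θ) = k := by
      have h4 : ∀ᶠ θ in 𝓝[<] θ₀, θ ∈ Ico θ₁ θ₀ := by
        filter_upwards [Ico_mem_nhdsLT h1] with θ hθ using hθ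
      obtain ⟨θ, h5, h6, h7⟩ := (h4.and (hev.filter_mono nhdsWithin_le_nhds)).exists
      exact ⟨θ, h5, h6 (hsph θ) (hinj θ h7 h5.2.ne)⟩
    obtain ⟨θ, h5, h6⟩ := h3
    rw [← h6]
    refine hχ.eq_of_preconnected (S := cpt y s '' Ico θ₁ θ₀)
      (isPreconnected_Ico.image _ hcc.continuousOn) ?_ ⟨θ₁, ⟨le_rfl, h1⟩, rfl⟩ ⟨θ, h5, rfl⟩
    rintro _ ⟨t, ht, rfl⟩
    exact ⟨hb t, hf1 t ht⟩
  have hR : χ (cpt y s θ₂) = k := by
    have h3 : ∃ θ, θ ∈ Ioc θ₀ θ₂ ∧ χ (cpt y s θ) = k := by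
      have h4 : ∀ᶠ θ in 𝓝[>] θ₀, θ ∈ Ioc θ₀ θ₂ := by
        filter_upwards [Ioc_mem_nhdsGT h2] with θ hθ using hθ
      obtain ⟨θ, h5, h6, h7⟩ := (h4.and (hev.filter_mono nhdsWithin_le_nhds)).exists
      exact ⟨θ, h5, h6 (hsph θ) (hinj θ h7 h5.1.ne')⟩
    obtain ⟨θ, h5, h6⟩ := h3
    rw [← h6]
    refine hχ.eq_of_preconnected (S := cpt y s '' Ioc θ₀ θ₂)
      (isPreconnected_Ioc.image _ hcc.continuousOn) ?_ ⟨θ₂, ⟨h2, le_rfl⟩, rfl⟩ ⟨θ, h5, rfl⟩
    rintro _ ⟨t, ht, rfl⟩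
    exact ⟨hb t, hf2 t ht⟩
  exact hne (hL.trans hR.symm)

lemma encard_pair_le' (a b : E2) : ({a, b} : Set E2).encard ≤ 2 := by
  refine (encard_insert_le _ _).trans ?_
  rw [encard_singleton]; norm_num

/-- two crack points -/
theorem component_two {K : Set E2} {y : E2} {s ρ : ℝ} (hs : 0 < s) (hsρ : s < ρ)
    (hKc : closure K ∩ ball y ρ ⊆ K) {χ : E2 → ℝ} (hχ : LocConstOn (ball y ρ \ K) χ)
    {a b θ₁ θ₂ : ℝ} (h1 : a < θ₁) (h2 : θ₁ < b) (h3 : b < θ₂) (h4 : θ₂ < a + 2 * Real.pi)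
    (hK : K ∩ sphere y s = {cpt y s a, cpt y s b})
    (hne : χ (cpt y s θ₁) ≠ χ (cpt y s θ₂)) :
    cpt y s b ∈ connectedComponentIn (K ∩ closedBall y s) (cpt y s a) := by
  have hpi := Real.pi_pos
  have hsph : ∀ θ, cpt y s θ ∈ sphere y s := fun θ => cpt_mem_sphere hs.le
  have hinj := cpt_injOn (x := y) hs.ne' a
  have hfree : ∀ θ, a < θ → θ < a + 2 * Real.pi → θ ≠ b → cpt y s θ ∉ K := by
    intro θ h5 h6 h7 h8
    have h9 : cpt y s θ ∈ ({cpt y s a, cpt y s b} : Set E2) := hK.subset ⟨h8, hsph θ⟩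
    rcases h9 with h9 | h9
    · exact h5.ne' (hinj ⟨h5.le, h6⟩ ⟨le_rfl, by linarith⟩ h9)
    · exact h7 (hinj ⟨h5.le, h6⟩ ⟨by linarith, by linarith⟩ h9)
  have hper : ∀ θ, cpt y s (θ - 2 * Real.pi) = cpt y s θ := fun θ =>
    (cpt_periodic y s).sub_eq θ
  refine mem_component_of_jump hs hsρ hKc hχ ?_ ?_ ?_ ?_
  · rw [hK]
    exact (encard_pair_le' _ _).trans (by norm_num)
  · intro p hp
    rw [hK] at hp
    rcases hp with rfl | rfl
    · refine not_const_of_arcs hs hsρ hχ (θ₁ := θ₂ - 2 * Real.pi) (θ₂ := θ₁) (by linarith) h1 ?_ ?_ ?_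
      · intro θ hθ
        rw [← (cpt_periodic y s) θ]
        exact hfree _ (by linarith [hθ.1]) (by linarith [hθ.2]) (by
          have := hθ.1
          intro h; linarith)
      · intro θ hθ
        exact hfree _ hθ.1 (by linarith [hθ.2]) (by intro h; linarith [hθ.2])
      · rw [hper]; exact hne.symm
    · refine not_const_of_arcs hs hsρ hχ (θ₁ := θ₁) (θ₂ := θ₂) h2 h3 ?_ ?_ hne
      · intro θ hθ
        exact hfree _ (by linarith [hθ.1]) (by linarith [hθ.2]) hθ.2.ne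
      · intro θ hθ
        exact hfree _ (by linarith [hθ.1]) (by linarith [hθ.2]) hθ.1.ne'
  · rw [hK]; simp
  · rw [hK]; simp

/-- three crack points -/
theorem component_three {K : Set E2} {y : E2} {s ρ : ℝ} (hs : 0 < s) (hsρ : s < ρ)
    (hKc : closure K ∩ ball y ρ ⊆ K) {χ : E2 → ℝ} (hχ : LocConstOn (ball y ρ \ K) χ)
    {a b c θ₁ θ₂ θ₃ : ℝ} (h1 : a < θ₁) (h2 : θ₁ < b) (h3 : b < θ₂) (h4 : θ₂ < c) (h5 : c < θ₃)
    (h6 : θ₃ < a + 2 * Real.pi)
    (hK : K ∩ sphere y s = {cpt y s a, cpt y s b, cpt y s c})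
    (h12 : χ (cpt y s θ₁) ≠ χ (cpt y s θ₂)) (h23 : χ (cpt y s θ₂) ≠ χ (cpt y s θ₃))
    (h31 : χ (cpt y s θ₃) ≠ χ (cpt y s θ₁)) :
    cpt y s b ∈ connectedComponentIn (K ∩ closedBall y s) (cpt y s a) ∧
      cpt y s c ∈ connectedComponentIn (K ∩ closedBall y s) (cpt y s a) := by
  have hpi := Real.pi_pos
  have hsph : ∀ θ, cpt y s θ ∈ sphere y s := fun θ => cpt_mem_sphere hs.le
  have hinj := cpt_injOn (x := y) hs.ne' a
  have hfree : ∀ θ, a < θ → θ < a + 2 * Real.pi → θ ≠ b → θ ≠ c → cpt y s θ ∉ K := by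
    intro θ h7 h8 h9 h10 h11
    have h12' : cpt y s θ ∈ ({cpt y s a, cpt y s b, cpt y s c} : Set E2) := hK.subset ⟨h11, hsph θ⟩
    rcases h12' with h | h | h
    · exact h7.ne' (hinj ⟨h7.le, h8⟩ ⟨le_rfl, by linarith⟩ h)
    · exact h9 (hinj ⟨h7.le, h8⟩ ⟨by linarith, by linarith⟩ h)
    · exact h10 (hinj ⟨h7.le, h8⟩ ⟨by linarith, by linarith⟩ h)
  have hper : ∀ θ, cpt y s (θ - 2 * Real.pi) = cpt y s θ := fun θ =>
    (cpt_periodic y s).sub_eq θ
  have hcard : (K ∩ sphere y s).encard ≤ 3 := by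
    rw [hK]
    refine (encard_insert_le _ _).trans ?_
    calc ({cpt y s b, cpt y s c} : Set E2).encard + 1 ≤ 2 + 1 := by
          gcongr
          exact encard_pair_le' _ _
      _ = 3 := by norm_num
  have hjump : ∀ p ∈ K ∩ sphere y s,
      ¬ ∃ k : ℝ, ∀ᶠ a in 𝓝 p, a ∈ sphere y s → a ≠ p → χ a = k := by
    intro p hp
    rw [hK] at hp
    rcases hp with rfl | rfl | rfl
    · refine not_const_of_arcs hs hsρ hχ (θ₁ := θ₃ - 2 * Real.pi) (θ₂ := θ₁) (by linarith) h1 ?_ ?_ ?_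
      · intro θ hθ
        rw [← (cpt_periodic y s) θ]
        exact hfree _ (by linarith [hθ.1]) (by linarith [hθ.2])
          (by have := hθ.1; intro h; linarith) (by have := hθ.1; intro h; linarith)
      · intro θ hθ
        exact hfree _ hθ.1 (by linarith [hθ.2]) (by intro h; linarith [hθ.2])
          (by intro h; linarith [hθ.2])
      · rw [hper]; exact h31
    · refine not_const_of_arcs hs hsρ hχ (θ₁ := θ₁) (θ₂ := θ₂) h2 h3 ?_ ?_ h12
      · intro θ hθ
        exact hfree _ (by linarith [hθ.1]) (by linarith [hθ.2]) hθ.2.ne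
          (by intro h; linarith [hθ.2])
      · intro θ hθ
        exact hfree _ (by linarith [hθ.1]) (by linarith [hθ.2]) hθ.1.ne'
          (by intro h; linarith [hθ.2])
    · refine not_const_of_arcs hs hsρ hχ (θ₁ := θ₂) (θ₂ := θ₃) h4 h5 ?_ ?_ h23
      · intro θ hθ
        exact hfree _ (by linarith [hθ.1]) (by linarith [hθ.2])
          (by intro h; linarith [hθ.1]) hθ.2.ne
      · intro θ hθ
        exact hfree _ (by linarith [hθ.1]) (by linarith [hθ.2])
          (by intro h; linarith [hθ.1]) hθ.1.ne'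
  constructor
  · exact mem_component_of_jump hs hsρ hKc hχ hcard hjump (by rw [hK]; simp) (by rw [hK]; simp)
  · exact mem_component_of_jump hs hsρ hKc hχ hcard hjump (by rw [hK]; simp) (by rw [hK]; simp)

end Crest.Agent.R135
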