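import Crest.Agent.R135.Conc2
import Crest.Agent.R135.Strong

/-!
# R135: star competitor (helper560), part 1: arcs of the circle, sector constants
-/

set_option autoImplicit false

open MeasureTheory Set Filter Topology Metric
open scoped ENNReal NNReal ContDiff Gradient

namespace Crest.Agent.R135

namespace StarC

variable {U K : Set E2} {lam : ℝ} {u : E2 → ℝ} {y : E2} {s : ℝ}

theorem continuous_cpt_angle (y : E2) (s : ℝ) : Continuous (cpt y s) :=
  (continuous_cpt y).comp (by fun_prop : Continuous fun θ : ℝ => (s, θ))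

/-- the arc around a point of the circle off `K` -/
theorem exists_arc_around (hs : 0 < s) (hKc : IsClosed (K ∩ sphere y s))
    (hne : (K ∩ sphere y s).Nonempty) {θ : ℝ} (hθ : cpt y s θ ∉ K) :
    ∃ α β, α < θ ∧ θ < β ∧ β ≤ α + 2 * Real.pi ∧ cpt y s α ∈ K ∧ cpt y s β ∈ K ∧
      ∀ φ ∈ Ioo α β, cpt y s φ ∉ K := by
  set T : Set ℝ := {φ | cpt y s φ ∈ K} with hT
  have hTeq : T = cpt y s ⁻¹' (K ∩ sphere y s) := by
    ext φ
    exact ⟨fun h => ⟨h, cpt_mem_sphere hs.le⟩, fun h => h.1⟩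
  have hTc : IsClosed T := by
    rw [hTeq]; exact hKc.preimage (continuous_cpt_angle y s)
  have hpi := Real.two_pi_pos
  obtain ⟨p, hp⟩ := hne
  obtain ⟨a, ha, hap⟩ := exists_cpt_eq hs hp.2 (θ - 2 * Real.pi)
  obtain ⟨b, hb, hbp⟩ := exists_cpt_eq hs hp.2 θ
  have haT : a ∈ T := by rw [hT, mem_ofPred_eq, hap]; exact hp.1
  have hbT : b ∈ T := by rw [hT, mem_ofPred_eq, hbp]; exact hp.1
  have hA : IsCompact (T ∩ Icc (θ - 2 * Real.pi) θ) := isCompact_Icc.inter_left hTc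
  have hB : IsCompact (T ∩ Icc θ (θ + 2 * Real.pi)) := isCompact_Icc.inter_left hTc
  obtain ⟨α, hα, hαmax⟩ := hA.exists_isGreatest ⟨a, haT, ha.1, by linarith [ha.2]⟩
  obtain ⟨β, hβ, hβmin⟩ := hB.exists_isLeast ⟨b, hbT, hb.1, hb.2.le⟩
  have hαθ : α < θ := by
    refine lt_of_le_of_ne hα.2.2 ?_
    rintro rfl
    exact hθ hα.1
  have hβθ : θ < β := by
    refine lt_of_le_of_ne hβ.2.1 ?_
    rintro rfl
    exact hθ hβ.1
  refine ⟨α, β, hαθ, hβθ, ?_, hα.1, hβ.1, ?_⟩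
  · apply hβmin
    refine ⟨?_, by linarith [hα.2.1], by linarith⟩
    rw [hT, mem_ofPred_eq, cpt_periodic]
    exact hα.1
  · intro φ hφ hφK
    rcases le_total φ θ with h | h
    · have := hαmax ⟨hφK, by linarith [hφ.1, hα.2.1], h⟩
      linarith [hφ.1]
    · have := hβmin ⟨hφK, h, by linarith [hφ.2, hβ.2.2]⟩
      linarith [hφ.2]

/-- the component of a point of the circle minus `K` is contained in the open arc -/
theorem component_subset_arc (hs : 0 < s) {α β : ℝ} (hαβ : α < β) (hβ : β ≤ α + 2 * Real.pi)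
    (hαK : cpt y s α ∈ K) (hβK : cpt y s β ∈ K) (hfree : ∀ φ ∈ Ioo α β, cpt y s φ ∉ K)
    {θ : ℝ} (hθ : θ ∈ Ioo α β) :
    connectedComponentIn (sphere y s \ K) (cpt y s θ) ⊆ cpt y s '' Ioo α β := by
  set S := connectedComponentIn (sphere y s \ K) (cpt y s θ) with hS
  have hSsub : S ⊆ sphere y s \ K := connectedComponentIn_subset _ _
  have hpre : IsPreconnected S := isPreconnected_connectedComponentIn
  have hc := continuous_cpt_angle y s
  have h1 : IsClosed (cpt y s '' Icc α β) := (isCompact_Icc.image hc).isClosed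
  have h2 : IsClosed (cpt y s '' Icc β (α + 2 * Real.pi)) := (isCompact_Icc.image hc).isClosed
  have hcov : S ⊆ cpt y s '' Icc α β ∪ cpt y s '' Icc β (α + 2 * Real.pi) := by
    intro x hx
    obtain ⟨φ, hφ, rfl⟩ := exists_cpt_eq hs (hSsub hx).1 α
    rcases le_total φ β with h | h
    · exact Or.inl ⟨φ, ⟨hφ.1, h⟩, rfl⟩
    · exact Or.inr ⟨φ, ⟨h, hφ.2.le⟩, rfl⟩
  have hθS : cpt y s θ ∈ S :=
    mem_connectedComponentIn ⟨cpt_mem_sphere hs.le, hfree θ hθ⟩
  have hno : ¬ (S ∩ cpt y s '' Icc β (α + 2 * Real.pi)).Nonempty := by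
    intro hne
    obtain ⟨x, hxS, ⟨φ, hφ, rfl⟩, ⟨ψ, hψ, hψφ⟩⟩ := isPreconnected_closed_iff.1 hpre _ _ h1 h2 hcov
      ⟨_, hθS, ⟨θ, ⟨hθ.1.le, hθ.2.le⟩, rfl⟩⟩ hne
    have hxK : cpt y s φ ∉ K := (hSsub hxS).2
    have hdir : dir ψ = dir φ := by
      have h3 : s • dir ψ = s • dir φ := by simpa [cpt] using hψφ
      exact smul_right_injective E2 hs.ne' h3
    obtain ⟨n, hn⟩ := dir_eq_dir_iff.1 hdir
    have hpi := Real.two_pi_pos
    have hφβ : φ ≤ β := hφ.2
    have h0 : 0 ≤ ψ - φ := by linarith [hψ.1]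
    have h4 : ψ - φ ≤ 2 * Real.pi := by linarith [hψ.2, hφ.1]
    rw [hn] at h0 h4
    have hn0 : (0:ℝ) ≤ n := by
      by_contra hcon
      push Not at hcon
      nlinarith
    have hn1 : (n:ℝ) ≤ 1 := by
      by_contra hcon
      push Not at hcon
      nlinarith
    have hn0' : 0 ≤ n := by exact_mod_cast hn0
    have hn1' : n ≤ 1 := by exact_mod_cast hn1
    have hcase : n = 0 ∨ n = 1 := by omega
    rcases hcase with rfl | rfl
    · have : φ = β := by
        simp at hn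
        linarith [hψ.1]
      rw [this] at hxK
      exact hxK hβK
    · have : φ = α := by
        simp at hn
        linarith [hψ.2, hφ.1]
      rw [this] at hxK
      exact hxK hαK
  intro x hx
  rcases hcov hx with h | h
  · obtain ⟨φ, hφ, rfl⟩ := h
    refine ⟨φ, ⟨lt_of_le_of_ne hφ.1 ?_, lt_of_le_of_ne hφ.2 ?_⟩, rfl⟩
    · rintro rfl; exact (hSsub hx).2 hαK
    · rintro rfl; exact (hSsub hx).2 hβK
  · exact absurd ⟨x, hx, h⟩ hno

open Classical in
/-- the base point of the component of `x` in the circle minus `K` -/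
noncomputable def base (K : Set E2) (y : E2) (s : ℝ) (x : E2) : E2 :=
  if h : (connectedComponentIn (sphere y s \ K) x).Nonempty then h.some else x

/-- sector constants -/
noncomputable def cs (u : E2 → ℝ) (K : Set E2) (y : E2) (s : ℝ) (x : E2) : ℝ := u (base K y s x)

theorem base_mem {x : E2} (hx : x ∈ sphere y s \ K) :
    base K y s x ∈ connectedComponentIn (sphere y s \ K) x := by
  have h : (connectedComponentIn (sphere y s \ K) x).Nonempty := ⟨x, mem_connectedComponentIn hx⟩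
  rw [base, dif_pos h]
  exact h.some_mem

theorem base_eq {x x' : E2} (hx : x ∈ sphere y s \ K)
    (hx' : x' ∈ connectedComponentIn (sphere y s \ K) x) : base K y s x' = base K y s x := by
  have h := connectedComponentIn_eq hx'
  have hne : (connectedComponentIn (sphere y s \ K) x).Nonempty := ⟨x, mem_connectedComponentIn hx⟩
  have hne' : (connectedComponentIn (sphere y s \ K) x').Nonempty := by rw [← h]; exact hne
  rw [base, base, dif_pos hne, dif_pos hne']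
  simp only [h]

theorem sq_lintegral_le_real (a b : ℝ) (hab : a ≤ b) (F : ℝ → ℝ≥0∞)
    (hF : AEMeasurable F (volume.restrict (Ioo a b))) :
    (∫⁻ θ in Ioo a b, F θ) ^ 2 ≤ ENNReal.ofReal (b - a) * ∫⁻ θ in Ioo a b, F θ ^ 2 := by
  have h := ENNReal.lintegral_mul_le_Lp_mul_Lq (volume.restrict (Ioo a b))
    Real.HolderConjugate.two_two hF (aemeasurable_const (b := (1:ℝ≥0∞)))
  simp only [Pi.mul_apply, mul_one, ENNReal.one_rpow, lintegral_const, Measure.restrict_apply_univ,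
    Real.volume_Ioo, one_mul] at h
  calc (∫⁻ θ in Ioo a b, F θ) ^ 2 ≤ ((∫⁻ θ in Ioo a b, F θ ^ (2:ℝ)) ^ (1 / (2:ℝ)) *
        ENNReal.ofReal (b - a) ^ (1 / (2:ℝ))) ^ 2 := by gcongr
    _ = ENNReal.ofReal (b - a) * ∫⁻ θ in Ioo a b, F θ ^ 2 := by
        rw [mul_pow, ← ENNReal.rpow_natCast, ← ENNReal.rpow_natCast, ← ENNReal.rpow_mul,
          ← ENNReal.rpow_mul]
        norm_num
        rw [mul_comm]

/-- oscillation bound on an arc -/
theorem osc_arc (hq : IsQM U lam u K) (hs : 0 < s) (hball : closedBall y s ⊆ U) {α β : ℝ}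
    (hαβ : β ≤ α + 2 * Real.pi) (hfree : ∀ φ ∈ Ioo α β, cpt y s φ ∉ K) {a b : ℝ}
    (ha : a ∈ Ioo α β) (hb : b ∈ Ioo α β) :
    ‖u (cpt y s a) - u (cpt y s b)‖ₑ ^ 2 ≤ ENNReal.ofReal (2 * Real.pi * s ^ 2) *
      ∫⁻ θ in Ioo (-Real.pi) Real.pi, ‖∇ u (cpt y s θ)‖ₑ ^ 2 := by
  wlog hab : b ≤ a generalizing a b
  · have := this hb ha (not_le.1 hab).le
    rwa [← neg_sub, enorm_neg] at this
  have hcont := continuous_cpt_angle y s
  have hU : ∀ θ ∈ Ioo α β, cpt y s θ ∈ U \ K := fun θ hθ =>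
    ⟨hball (sphere_subset_closedBall (cpt_mem_sphere hs.le)), hfree θ hθ⟩
  have hsub : Icc b a ⊆ Ioo α β := fun θ hθ =>
    ⟨lt_of_lt_of_le hb.1 hθ.1, lt_of_le_of_lt hθ.2 ha.2⟩
  have hder : ∀ θ ∈ Ioo α β, HasDerivAt (fun θ => u (cpt y s θ))
      (s * inner ℝ (∇ u (cpt y s θ)) (tau θ)) θ := fun θ hθ =>
    hasDerivAt_circle ((hq.contDiffAt (hU θ hθ)).differentiableAt (by norm_num)).hasGradientAt
  have hgc : ContinuousOn (fun θ => s * inner ℝ (∇ u (cpt y s θ)) (tau θ)) (Icc b a) := by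
    apply ContinuousOn.mul continuousOn_const
    apply ContinuousOn.inner
    · intro θ hθ
      have h1 : ContinuousAt (∇ u) (cpt y s θ) := by
        have h2 := (hq.contDiffAt (hU θ (hsub hθ))).continuousAt_fderiv (by norm_num)
        unfold gradient
        exact (InnerProductSpace.toDual ℝ E2).symm.continuous.continuousAt.comp h2
      exact (h1.comp hcont.continuousAt).continuousWithinAt
    · exact continuous_tau.continuousOn
  have hftc : ∫ θ in b..a, s * inner ℝ (∇ u (cpt y s θ)) (tau θ) = u (cpt y s a) - u (cpt y s b) := by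
    apply intervalIntegral.integral_eq_sub_of_hasDerivAt
    · intro θ hθ
      rw [uIcc_of_le hab] at hθ
      exact hder θ (hsub hθ)
    · apply ContinuousOn.intervalIntegrable
      rwa [uIcc_of_le hab]
  have hmeas : Measurable (fun θ => ‖∇ u (cpt y s θ)‖ₑ) :=
    ((measurable_gradient u).comp hcont.measurable).enorm
  have hL1 : ‖u (cpt y s a) - u (cpt y s b)‖ₑ ≤ ENNReal.ofReal s * ∫⁻ θ in Ioo α β,
      ‖∇ u (cpt y s θ)‖ₑ := by
    rw [← hftc, intervalIntegral.integral_of_le hab]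
    refine (enorm_integral_le_lintegral_enorm _).trans ?_
    calc ∫⁻ θ in Ioc b a, ‖s * inner ℝ (∇ u (cpt y s θ)) (tau θ)‖ₑ
        ≤ ∫⁻ θ in Ioc b a, ENNReal.ofReal s * ‖∇ u (cpt y s θ)‖ₑ := by
          apply lintegral_mono
          intro θ
          dsimp only
          rw [enorm_mul, Real.enorm_of_nonneg hs.le]
          gcongr
          rw [enorm_le_iff_norm_le, Real.norm_eq_abs]
          exact abs_inner_tau_le _ _
      _ ≤ ∫⁻ θ in Ioo α β, ENNReal.ofReal s * ‖∇ u (cpt y s θ)‖ₑ := by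
          apply lintegral_mono_set
          intro θ hθ
          exact hsub ⟨hθ.1.le, hθ.2⟩
      _ = ENNReal.ofReal s * ∫⁻ θ in Ioo α β, ‖∇ u (cpt y s θ)‖ₑ := by
          rw [lintegral_const_mul' _ _ ENNReal.ofReal_ne_top]
  have hαβ' : α ≤ β := by linarith [ha.1, ha.2]
  calc ‖u (cpt y s a) - u (cpt y s b)‖ₑ ^ 2
      ≤ (ENNReal.ofReal s * ∫⁻ θ in Ioo α β, ‖∇ u (cpt y s θ)‖ₑ) ^ 2 := by gcongr
    _ = ENNReal.ofReal (s ^ 2) * (∫⁻ θ in Ioo α β, ‖∇ u (cpt y s θ)‖ₑ) ^ 2 := by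
        rw [mul_pow, ENNReal.ofReal_pow hs.le]
    _ ≤ ENNReal.ofReal (s ^ 2) * (ENNReal.ofReal (β - α) *
          ∫⁻ θ in Ioo α β, ‖∇ u (cpt y s θ)‖ₑ ^ 2) := by
        gcongr
        exact sq_lintegral_le_real α β hαβ' _ hmeas.aemeasurable
    _ ≤ ENNReal.ofReal (s ^ 2) * (ENNReal.ofReal (2 * Real.pi) *
          ∫⁻ θ in Ioo α (α + 2 * Real.pi), ‖∇ u (cpt y s θ)‖ₑ ^ 2) := by
        gcongr
        linarith
    _ = ENNReal.ofReal (2 * Real.pi * s ^ 2) *
          ∫⁻ θ in Ioo (-Real.pi) Real.pi, ‖∇ u (cpt y s θ)‖ₑ ^ 2 := by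
        rw [lintegral_cpt_shift (fun z => ‖∇ u z‖ₑ ^ 2) y s α, ← mul_assoc,
          ← ENNReal.ofReal_mul (by positivity), mul_comm (s ^ 2)]

/-- the sector constant is close to `u` -/
theorem sub_cs_le (hq : IsQM U lam u K) (hs : 0 < s) (hball : closedBall y s ⊆ U)
    (hKc : IsClosed (K ∩ sphere y s)) (hne : (K ∩ sphere y s).Nonempty) {θ : ℝ}
    (hθ : cpt y s θ ∉ K) :
    ‖u (cpt y s θ) - cs u K y s (cpt y s θ)‖ₑ ^ 2 ≤ ENNReal.ofReal (2 * Real.pi * s ^ 2) *
      ∫⁻ θ in Ioo (-Real.pi) Real.pi, ‖∇ u (cpt y s θ)‖ₑ ^ 2 := by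
  obtain ⟨α, β, h1, h2, h3, h4, h5, h6⟩ := exists_arc_around hs hKc hne hθ
  have hm := base_mem (K := K) (y := y) (s := s) (x := cpt y s θ) ⟨cpt_mem_sphere hs.le, hθ⟩
  obtain ⟨φ, hφ, hφe⟩ := component_subset_arc hs (h1.trans h2) h3 h4 h5 h6 ⟨h1, h2⟩ hm
  rw [cs, ← hφe]
  exact osc_arc hq hs hball h3 h6 ⟨h1, h2⟩ hφ

/-- the sector constant, composed with the radial projection, is locally constant -/
theorem eventually_cs_eq (hs : 0 < s) (hKo : ∀ x ∈ sphere y s \ K, ∀ᶠ z in 𝓝 x, z ∉ K) {x : E2}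
    (hx : x ≠ y) (hxK : radProj y s x ∉ K) :
    ∀ᶠ z in 𝓝 x, z ≠ y ∧ radProj y s z ∉ K ∧
      cs u K y s (radProj y s z) = cs u K y s (radProj y s x) := by
  have hc : ContinuousAt (radProj y s) x := (contDiffAt_radProj hx).continuousAt
  have hxm : radProj y s x ∈ sphere y s \ K := ⟨radProj_mem_sphere hs.le hx, hxK⟩
  have h1 : ∀ᶠ z in 𝓝 x, radProj y s z ∉ K := hc.eventually (hKo _ hxm)
  have h2 : ∀ᶠ z in 𝓝 x, z ≠ y := isOpen_ne.mem_nhds hx
  obtain ⟨r, hr, hrb⟩ := Metric.eventually_nhds_iff_ball.1 (h1.and h2)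
  filter_upwards [ball_mem_nhds x hr] with z hz
  refine ⟨(hrb z hz).2, (hrb z hz).1, ?_⟩
  have hpre : IsPreconnected (radProj y s '' ball x r) := by
    refine (convex_ball x r).isPreconnected.image _ ?_
    intro w hw
    exact (contDiffAt_radProj (hrb w hw).2).continuousAt.continuousWithinAt
  have hsub : radProj y s '' ball x r ⊆ sphere y s \ K := by
    rintro _ ⟨w, hw, rfl⟩
    exact ⟨radProj_mem_sphere hs.le (hrb w hw).2, (hrb w hw).1⟩
  have hmem : radProj y s z ∈ connectedComponentIn (sphere y s \ K) (radProj y s x) :=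
    hpre.subset_connectedComponentIn ⟨x, mem_ball_self hr, rfl⟩ hsub ⟨z, hz, rfl⟩
  rw [cs, cs, base_eq hxm hmem]

end StarC

end Crest.Agent.R135
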