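import Crest.Agent.R135.StarComp1

/-!
# R135: star competitor (helper560), part 2: the centred star function and its energy
-/

set_option autoImplicit false

open MeasureTheory Set Filter Topology Metric
open scoped ENNReal NNReal ContDiff Gradient

namespace Crest.Agent.R135

namespace StarC

variable {U K : Set E2} {lam : ℝ} {u : E2 → ℝ} {y : E2} {s : ℝ}

/-- the centred star function -/
noncomputable def w0 (u : E2 → ℝ) (K : Set E2) (y : E2) (s : ℝ) (x : E2) : ℝ :=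
  radIn u y s (1 / 2) (cs u K y s (radProj y s x)) x

theorem w0_of_dist_eq (hs : 0 < s) {x : E2} (hx : dist x y = s) : w0 u K y s x = u x :=
  radIn_of_dist_eq hs (by norm_num) hx

theorem w0_eventually (hs : 0 < s) (hKo : ∀ x ∈ sphere y s \ K, ∀ᶠ z in 𝓝 x, z ∉ K) {x : E2}
    (hx : x ≠ y) (hxK : radProj y s x ∉ K) :
    w0 u K y s =ᶠ[𝓝 x] radIn u y s (1 / 2) (cs u K y s (radProj y s x)) := by
  filter_upwards [eventually_cs_eq (u := u) hs hKo hx hxK] with z hz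
  rw [w0, hz.2.2]

/-- `w0` is Lipschitz near the points of the closed disc off the radii over `K` -/
theorem lipAt_w0 (hs : 0 < s) (hKo : ∀ x ∈ sphere y s \ K, ∀ᶠ z in 𝓝 x, z ∉ K)
    (hu : ∀ x ∈ sphere y s \ K, ContDiffAt ℝ 1 u x) {x : E2} (hx : x ≠ y)
    (hxK : radProj y s x ∉ K) : ∃ Kc : ℝ≥0, ∃ t ∈ 𝓝 x, LipschitzOnWith Kc (w0 u K y s) t := by
  have hev := w0_eventually (u := u) hs hKo hx hxK
  have key : ∃ Kc : ℝ≥0, ∃ t ∈ 𝓝 x,
      LipschitzOnWith Kc (radIn u y s (1 / 2) (cs u K y s (radProj y s x))) t := by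
    rcases lt_or_ge (dist x y) ((1 - 1 / 2) * s) with hlt | hge
    · refine ⟨0, ball y ((1 - 1 / 2) * s), isOpen_ball.mem_nhds hlt, ?_⟩
      intro p hp q hq
      rw [radIn_of_dist_le hs (by norm_num) (le_of_lt hp), radIn_of_dist_le hs (by norm_num)
        (le_of_lt hq)]
      simp
    · exact exists_lipschitz_radIn hs (by norm_num) (by norm_num) hge
        (hu _ ⟨radProj_mem_sphere hs.le hx, hxK⟩)
  obtain ⟨Kc, t, ht, hL⟩ := key
  refine ⟨Kc, t ∩ {z | w0 u K y s z = radIn u y s (1 / 2) (cs u K y s (radProj y s x)) z},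
    Filter.inter_mem ht hev, ?_⟩
  intro p hp q hq
  rw [show w0 u K y s p = _ from hp.2, show w0 u K y s q = _ from hq.2]
  exact hL hp.1 hq.1

theorem w0_eventually_radW (hs : 0 < s) (hKo : ∀ x ∈ sphere y s \ K, ∀ᶠ z in 𝓝 x, z ∉ K) {x : E2}
    (hx : x ≠ y) (hxK : radProj y s x ∉ K) (hxs : dist x y < s) :
    w0 u K y s =ᶠ[𝓝 x] radW u y s (1 / 2) (cs u K y s (radProj y s x)) := by
  have h1 : ∀ᶠ z in 𝓝 x, dist z y < s :=
    (continuous_id.dist continuous_const).continuousAt.eventually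
      (eventually_lt_nhds (by simpa using hxs))
  filter_upwards [w0_eventually (u := u) hs hKo hx hxK, h1] with z hz hz2
  rw [hz, radW, if_pos hz2]

/-- gradient bound in the outer half -/
theorem gradient_w0_le (hs : 0 < s) (hKo : ∀ x ∈ sphere y s \ K, ∀ᶠ z in 𝓝 x, z ∉ K)
    (hu : ∀ x ∈ sphere y s \ K, ContDiffAt ℝ 1 u x) {t θ : ℝ} (ht1 : s / 2 < t) (ht2 : t < s)
    (hθ : cpt y s θ ∉ K) :
    ‖∇ (w0 u K y s) (cpt y t θ)‖ₑ ^ 2 ≤
      ENNReal.ofReal (4 / s ^ 2) * ‖u (cpt y s θ) - cs u K y s (cpt y s θ)‖ₑ ^ 2 +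
        4 * ‖∇ u (cpt y s θ)‖ₑ ^ 2 := by
  have ht0 : 0 < t := by linarith
  have hproj : radProj y s (cpt y t θ) = cpt y s θ := radProj_cpt y s ht0 θ
  have hdx : dist (cpt y t θ) y = t := by rw [dist_cpt, abs_of_pos ht0]
  have hxy : cpt y t θ ≠ y := by
    intro he
    rw [he, dist_self] at hdx
    linarith
  have hev := w0_eventually_radW (u := u) hs hKo hxy (by rw [hproj]; exact hθ) (by rw [hdx]; exact ht2)
  rw [gradient_congr_of_eventuallyEq hev, hproj]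
  have hcd : ContDiffAt ℝ 1 u (cpt y s θ) := hu _ ⟨cpt_mem_sphere hs.le, hθ⟩
  have h := norm_sq_gradient_radW_le (c := cs u K y s (cpt y s θ)) hs (h := 1 / 2) (by norm_num)
    (by norm_num) (t := t) (θ := θ) (by linarith) ht2 hcd
  have e1 : ‖∇ (radW u y s (1 / 2) (cs u K y s (cpt y s θ))) (cpt y t θ)‖ₑ ^ 2 =
      ENNReal.ofReal (‖∇ (radW u y s (1 / 2) (cs u K y s (cpt y s θ))) (cpt y t θ)‖ ^ 2) := by
    rw [← ofReal_norm, ENNReal.ofReal_pow (norm_nonneg _)]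
  have e2 : ‖∇ u (cpt y s θ)‖ₑ ^ 2 = ENNReal.ofReal (‖∇ u (cpt y s θ)‖ ^ 2) := by
    rw [← ofReal_norm, ENNReal.ofReal_pow (norm_nonneg _)]
  have e3 : ‖u (cpt y s θ) - cs u K y s (cpt y s θ)‖ₑ ^ 2 =
      ENNReal.ofReal ((u (cpt y s θ) - cs u K y s (cpt y s θ)) ^ 2) := by
    rw [← ofReal_norm, ← ENNReal.ofReal_pow (norm_nonneg _), Real.norm_eq_abs, sq_abs]
  have e4 : (4 : ℝ≥0∞) = ENNReal.ofReal 4 := by simp
  rw [e1, e2, e3, e4, ← ENNReal.ofReal_mul (by positivity), ← ENNReal.ofReal_mul (by norm_num),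
    ← ENNReal.ofReal_add (by positivity) (by positivity)]
  apply ENNReal.ofReal_le_ofReal
  refine h.trans ?_
  have h2 : (s / t) ^ 2 ≤ 4 := by
    have h3 : s / t ≤ 2 := by rw [div_le_iff₀ ht0]; linarith
    have h4 : 0 ≤ s / t := by positivity
    nlinarith
  have h5 : (u (cpt y s θ) - cs u K y s (cpt y s θ)) ^ 2 / (1 / 2 * s) ^ 2 =
      4 / s ^ 2 * (u (cpt y s θ) - cs u K y s (cpt y s θ)) ^ 2 := by
    field_simp; norm_num
  rw [h5]
  have h6 : (s / t) ^ 2 * ‖∇ u (cpt y s θ)‖ ^ 2 ≤ 4 * ‖∇ u (cpt y s θ)‖ ^ 2 := by gcongr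
  linarith

/-- gradient zero in the inner half -/
theorem gradient_w0_inner (hs : 0 < s) (hKo : ∀ x ∈ sphere y s \ K, ∀ᶠ z in 𝓝 x, z ∉ K)
    {t θ : ℝ} (ht0 : 0 < t) (ht2 : t < s / 2) (hθ : cpt y s θ ∉ K) :
    ∇ (w0 u K y s) (cpt y t θ) = 0 := by
  have hproj : radProj y s (cpt y t θ) = cpt y s θ := radProj_cpt y s ht0 θ
  have hdx : dist (cpt y t θ) y = t := by rw [dist_cpt, abs_of_pos ht0]
  have hxy : cpt y t θ ≠ y := by
    intro he
    rw [he, dist_self] at hdx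
    linarith
  have hev := w0_eventually_radW (u := u) hs hKo hxy (by rw [hproj]; exact hθ)
    (by rw [hdx]; linarith)
  rw [gradient_congr_of_eventuallyEq hev]
  exact gradient_radW_inner_eq_zero hs (by norm_num) (by rw [hdx]; linarith)

/-- energy of the centred star function -/
theorem lintegral_w0_le (hq : IsQM U lam u K) (hs : 0 < s) (hball : closedBall y s ⊆ U)
    (hfin : (K ∩ sphere y s).Finite) (hne : (K ∩ sphere y s).Nonempty) :
    ∫⁻ x in ball y s, ‖∇ (w0 u K y s) x‖ₑ ^ 2 ≤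
      ENNReal.ofReal (82 * s ^ 2) * ∫⁻ θ in Ioo (-Real.pi) Real.pi, ‖∇ u (cpt y s θ)‖ₑ ^ 2 := by
  have hKc : IsClosed (K ∩ sphere y s) := hfin.isClosed
  have hsph : ∀ x ∈ sphere y s \ K, x ∈ U \ K := fun x hx =>
    ⟨hball (sphere_subset_closedBall hx.1), hx.2⟩
  have hKo : ∀ x ∈ sphere y s \ K, ∀ᶠ z in 𝓝 x, z ∉ K := by
    intro x hx
    filter_upwards [hq.isOpen_diff.mem_nhds (hsph x hx)] with z hz using hz.2
  have hu : ∀ x ∈ sphere y s \ K, ContDiffAt ℝ 1 u x := fun x hx => hq.contDiffAt (hsph x hx)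
  set I := ∫⁻ θ in Ioo (-Real.pi) Real.pi, ‖∇ u (cpt y s θ)‖ₑ ^ 2 with hI
  have hmeas : Measurable (fun x => ‖∇ (w0 u K y s) x‖ₑ ^ 2) :=
    (measurable_gradient _).enorm.pow_const 2
  rw [lintegral_ball_polar y s hmeas.aemeasurable]
  -- almost every angle is good
  have haeθ : ∀ᵐ θ ∂(volume.restrict (Ioo (-Real.pi) Real.pi)), cpt y s θ ∉ K := by
    have h1 : {θ ∈ Icc (-Real.pi) (-Real.pi + 2 * Real.pi) | cpt y s θ ∈ K}.Finite :=
      finite_angles_Icc hs (-Real.pi) hfin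
    have h2 : ∀ᵐ θ : ℝ, θ ∉ {θ ∈ Icc (-Real.pi) (-Real.pi + 2 * Real.pi) | cpt y s θ ∈ K} :=
      measure_eq_zero_iff_ae_notMem.1 (h1.measure_zero volume)
    filter_upwards [ae_restrict_of_ae h2, ae_restrict_mem measurableSet_Ioo] with θ hθ1 hθ2 hθK
    exact hθ1 ⟨⟨hθ2.1.le, by linarith [hθ2.2]⟩, hθK⟩
  have hin : ∀ t ∈ Ioo (0 : ℝ) s, t ≠ s / 2 →
      ENNReal.ofReal t * ∫⁻ θ in Ioo (-Real.pi) Real.pi, ‖∇ (w0 u K y s) (cpt y t θ)‖ₑ ^ 2 ≤
        (Ioo (s / 2) s).indicator (fun _ => ENNReal.ofReal (164 * s) * I) t := by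
    intro t ht hne2
    rcases lt_or_gt_of_ne hne2 with hlt | hgt
    · have h0 : ∫⁻ θ in Ioo (-Real.pi) Real.pi, ‖∇ (w0 u K y s) (cpt y t θ)‖ₑ ^ 2 = 0 := by
        have h3 : ∫⁻ θ in Ioo (-Real.pi) Real.pi, ‖∇ (w0 u K y s) (cpt y t θ)‖ₑ ^ 2 =
            ∫⁻ θ in Ioo (-Real.pi) Real.pi, (0:ℝ≥0∞) := by
          apply lintegral_congr_ae
          filter_upwards [haeθ] with θ hθ
          rw [gradient_w0_inner hs hKo ht.1 hlt hθ]
          simp
        rw [h3, lintegral_zero]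
      rw [h0, mul_zero]
      exact zero_le
    · rw [indicator_of_mem (show t ∈ Ioo (s / 2) s from ⟨hgt, ht.2⟩)]
      have h1 : ∫⁻ θ in Ioo (-Real.pi) Real.pi, ‖∇ (w0 u K y s) (cpt y t θ)‖ₑ ^ 2 ≤
          ∫⁻ θ in Ioo (-Real.pi) Real.pi, (ENNReal.ofReal (4 / s ^ 2) *
            (ENNReal.ofReal (2 * Real.pi * s ^ 2) * I) + 4 * ‖∇ u (cpt y s θ)‖ₑ ^ 2) := by
        apply lintegral_mono_ae
        filter_upwards [haeθ] with θ hθ
        refine (gradient_w0_le hs hKo hu hgt ht.2 hθ).trans ?_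
        gcongr
        exact sub_cs_le hq hs hball hKc hne hθ
      have h2 : ∫⁻ θ in Ioo (-Real.pi) Real.pi, (ENNReal.ofReal (4 / s ^ 2) *
            (ENNReal.ofReal (2 * Real.pi * s ^ 2) * I) + 4 * ‖∇ u (cpt y s θ)‖ₑ ^ 2) =
          ENNReal.ofReal (16 * Real.pi ^ 2) * I + 4 * I := by
        rw [lintegral_add_left measurable_const, lintegral_const, Measure.restrict_apply_univ,
          Real.volume_Ioo, lintegral_const_mul' _ _ (by norm_num), ← mul_assoc,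
          ← ENNReal.ofReal_mul (by positivity), mul_right_comm,
          ← ENNReal.ofReal_mul (by positivity)]
        congr 3
        field_simp
        ring
      have hpi : Real.pi ^ 2 < 10 := by
        have h3 := Real.pi_lt_d2
        have h4 := Real.pi_pos
        nlinarith
      have h3 : ENNReal.ofReal (16 * Real.pi ^ 2) * I + 4 * I ≤ ENNReal.ofReal 164 * I := by
        have e4 : (4 : ℝ≥0∞) = ENNReal.ofReal 4 := by simp
        rw [e4, ← add_mul, ← ENNReal.ofReal_add (by positivity) (by norm_num)]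
        gcongr
        linarith
      calc ENNReal.ofReal t * ∫⁻ θ in Ioo (-Real.pi) Real.pi, ‖∇ (w0 u K y s) (cpt y t θ)‖ₑ ^ 2
          ≤ ENNReal.ofReal s * (ENNReal.ofReal 164 * I) := by
            gcongr
            · exact ht.2.le
            · exact h1.trans (h2.le.trans h3)
        _ = ENNReal.ofReal (164 * s) * I := by
            rw [← mul_assoc, ← ENNReal.ofReal_mul hs.le]
            congr 2; ring
  have hmain : ∫⁻ t in Ioo (0 : ℝ) s, ENNReal.ofReal t *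
      ∫⁻ θ in Ioo (-Real.pi) Real.pi, ‖∇ (w0 u K y s) (cpt y t θ)‖ₑ ^ 2 ≤
      ∫⁻ t in Ioo (0 : ℝ) s, (Ioo (s / 2) s).indicator
        (fun _ => ENNReal.ofReal (164 * s) * I) t := by
    apply lintegral_mono_ae
    have hne3 : ∀ᵐ t ∂(volume.restrict (Ioo (0 : ℝ) s)), t ≠ s / 2 := by
      apply ae_restrict_of_ae
      rw [ae_iff]
      simp
    filter_upwards [hne3, ae_restrict_mem measurableSet_Ioo] with t ht1 ht2
    exact hin t ht2 ht1
  refine hmain.trans ?_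
  rw [lintegral_indicator measurableSet_Ioo, Measure.restrict_restrict measurableSet_Ioo]
  have hsub : Ioo (s / 2) s ∩ Ioo 0 s = Ioo (s / 2) s := by
    apply inter_eq_left.2
    intro t ht
    exact ⟨by linarith [ht.1], ht.2⟩
  rw [hsub, lintegral_const, Measure.restrict_apply_univ, Real.volume_Ioo, mul_right_comm,
    ← ENNReal.ofReal_mul (by positivity)]
  have e5 : 164 * s * (s - s / 2) = 82 * s ^ 2 := by ring
  rw [e5]

end StarC

end Crest.Agent.R135
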