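import Crest.Agent.R135.StarComp2
import Crest.Agent.R135.Inner2

/-!
# R135: star competitor (helper560), part 3: moving the centre, the competitor
-/

set_option autoImplicit false

open MeasureTheory Set Filter Topology Metric
open scoped ENNReal NNReal ContDiff Gradient

namespace Crest.Agent.R135

namespace StarC

variable {U K : Set E2} {lam : ℝ} {u : E2 → ℝ} {y a : E2} {s : ℝ}

/-- the deformation of the disc moving the centre `y` to `y + a` -/
noncomputable def phi (y a : E2) (s : ℝ) (x : E2) : E2 := x + max 0 (1 - ‖x - y‖ / s) • a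

theorem abs_cut_sub_le (hs : 0 < s) (y x z : E2) :
    |max 0 (1 - ‖x - y‖ / s) - max 0 (1 - ‖z - y‖ / s)| ≤ ‖x - z‖ / s := by
  calc |max 0 (1 - ‖x - y‖ / s) - max 0 (1 - ‖z - y‖ / s)|
      ≤ |(1 - ‖x - y‖ / s) - (1 - ‖z - y‖ / s)| := by
        rw [max_comm, max_comm (0 : ℝ)]
        exact abs_max_sub_max_le_abs _ _ _
    _ = |‖z - y‖ - ‖x - y‖| / s := by
        have e : (1 - ‖x - y‖ / s) - (1 - ‖z - y‖ / s) = (‖z - y‖ - ‖x - y‖) / s := by ring
        rw [e, abs_div, abs_of_pos hs]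
    _ ≤ ‖x - z‖ / s := by
        have h2 := abs_norm_sub_norm_le (z - y) (x - y)
        rw [sub_sub_sub_cancel_right, norm_sub_rev z x] at h2
        gcongr

theorem norm_cut_smul_le (hs : 0 < s) (ha : ‖a‖ ≤ s / 2) (y x z : E2) :
    ‖max 0 (1 - ‖x - y‖ / s) • a - max 0 (1 - ‖z - y‖ / s) • a‖ ≤ 1 / 2 * ‖x - z‖ := by
  rw [← sub_smul, norm_smul, Real.norm_eq_abs]
  calc |max 0 (1 - ‖x - y‖ / s) - max 0 (1 - ‖z - y‖ / s)| * ‖a‖ ≤ (‖x - z‖ / s) * (s / 2) := by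
        gcongr
        exact abs_cut_sub_le hs y x z
    _ = 1 / 2 * ‖x - z‖ := by field_simp

theorem approx_phi (hs : 0 < s) (ha : ‖a‖ ≤ s / 2) (y : E2) :
    ApproximatesLinearOn (phi y a s)
      ((ContinuousLinearEquiv.refl ℝ E2 : E2 ≃L[ℝ] E2) : E2 →L[ℝ] E2) univ ‖(1 / 2 : ℝ)‖₊ := by
  intro x _ z _
  have e : phi y a s x - phi y a s z -
      ((ContinuousLinearEquiv.refl ℝ E2 : E2 ≃L[ℝ] E2) : E2 →L[ℝ] E2) (x - z) =
      max 0 (1 - ‖x - y‖ / s) • a - max 0 (1 - ‖z - y‖ / s) • a := by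
    simp only [phi, ContinuousLinearEquiv.coe_refl, ContinuousLinearMap.coe_id', id_eq]
    abel
  rw [e]
  have := norm_cut_smul_le hs ha y x z
  simpa using this

/-- the deformation as a homeomorphism -/
noncomputable def phiH (hs : 0 < s) (ha : ‖a‖ ≤ s / 2) (y : E2) : E2 ≃ₜ E2 :=
  (approx_phi hs ha y).toHomeomorph _ (Inner.refl_cond (t := 1 / 2) (by norm_num))

theorem phiH_apply (hs : 0 < s) (ha : ‖a‖ ≤ s / 2) (y x : E2) :
    phiH hs ha y x = x + max 0 (1 - ‖x - y‖ / s) • a := rfl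

theorem phiH_symm_lip (hs : 0 < s) (ha : ‖a‖ ≤ s / 2) (y : E2) :
    LipschitzWith 2 (phiH hs ha y).symm := by
  apply LipschitzWith.of_dist_le_mul
  intro x' z'
  obtain ⟨x, rfl⟩ := (phiH hs ha y).surjective x'
  obtain ⟨z, rfl⟩ := (phiH hs ha y).surjective z'
  rw [Homeomorph.symm_apply_apply, Homeomorph.symm_apply_apply, dist_eq_norm, dist_eq_norm,
    phiH_apply, phiH_apply]
  have e : x + max 0 (1 - ‖x - y‖ / s) • a - (z + max 0 (1 - ‖z - y‖ / s) • a) =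
    (x - z) + (max 0 (1 - ‖x - y‖ / s) • a - max 0 (1 - ‖z - y‖ / s) • a) := by abel
  rw [e]
  have h2 := norm_cut_smul_le hs ha y x z
  have h3 := norm_sub_le_norm_add (x - z)
    (max 0 (1 - ‖x - y‖ / s) • a - max 0 (1 - ‖z - y‖ / s) • a)
  push_cast
  linarith

theorem phiH_of_le (hs : 0 < s) (ha : ‖a‖ ≤ s / 2) {x : E2} (hx : s ≤ dist x y) :
    phiH hs ha y x = x := by
  rw [phiH_apply, max_eq_left, zero_smul, add_zero]
  rw [dist_eq_norm] at hx
  have : 1 ≤ ‖x - y‖ / s := by rw [le_div_iff₀ hs]; linarith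
  linarith

theorem phiH_of_dist_le (hs : 0 < s) (ha : ‖a‖ ≤ s / 2) {x : E2} (hx : dist x y ≤ s) :
    phiH hs ha y x = x + (1 - ‖x - y‖ / s) • a := by
  rw [phiH_apply, max_eq_right]
  rw [dist_eq_norm] at hx
  have : ‖x - y‖ / s ≤ 1 := by rw [div_le_one hs]; exact hx
  linarith

theorem phiH_mem_ball (hs : 0 < s) (ha : ‖a‖ ≤ s / 2) {x : E2} (hx : dist x y < s) :
    dist (phiH hs ha y x) y < s := by
  rw [phiH_of_dist_le hs ha hx.le, dist_eq_norm]
  rw [dist_eq_norm] at hx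
  have e : x + (1 - ‖x - y‖ / s) • a - y = (x - y) + (1 - ‖x - y‖ / s) • a := by abel
  rw [e]
  have h1 : 0 ≤ 1 - ‖x - y‖ / s := by
    have : ‖x - y‖ / s ≤ 1 := by rw [div_le_one hs]; exact hx.le
    linarith
  calc ‖(x - y) + (1 - ‖x - y‖ / s) • a‖ ≤ ‖x - y‖ + (1 - ‖x - y‖ / s) * (s / 2) := by
        refine (norm_add_le _ _).trans ?_
        rw [norm_smul, Real.norm_eq_abs, abs_of_nonneg h1]
        gcongr
    _ = ‖x - y‖ + (s - ‖x - y‖) / 2 := by field_simp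
    _ < s := by linarith

theorem phiH_mem_ball_iff (hs : 0 < s) (ha : ‖a‖ ≤ s / 2) (x : E2) :
    phiH hs ha y x ∈ ball y s ↔ x ∈ ball y s := by
  constructor
  · intro h
    by_contra hc
    rw [mem_ball, not_lt] at hc
    rw [phiH_of_le hs ha hc, mem_ball] at h
    linarith
  · intro h
    exact phiH_mem_ball hs ha h

theorem phiH_symm_of_le (hs : 0 < s) (ha : ‖a‖ ≤ s / 2) {x : E2} (hx : s ≤ dist x y) :
    (phiH hs ha y).symm x = x := by
  rw [Homeomorph.symm_apply_eq]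
  exact (phiH_of_le hs ha hx).symm

theorem phiH_symm_mem_ball (hs : 0 < s) (ha : ‖a‖ ≤ s / 2) {x : E2} (hx : dist x y < s) :
    dist ((phiH hs ha y).symm x) y < s := by
  rw [← mem_ball, ← phiH_mem_ball_iff hs ha, Homeomorph.apply_symm_apply]
  exact hx

/-- derivative of the deformation -/
noncomputable def phiD (y a : E2) (s : ℝ) (x : E2) : E2 →L[ℝ] E2 :=
  ContinuousLinearMap.id ℝ E2 + ((-s⁻¹) • innerSL ℝ (Inner.nu y x)).smulRight a

theorem phiD_apply (y a : E2) (s : ℝ) (x v : E2) :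
    phiD y a s x v = v + ((-s⁻¹) * inner ℝ (Inner.nu y x) v) • a := by
  simp [phiD]

theorem hasFDerivAt_phiH (hs : 0 < s) (ha : ‖a‖ ≤ s / 2) {x : E2} (hx : x ≠ y)
    (hxs : dist x y < s) : HasFDerivAt (phiH hs ha y) (phiD y a s x) x := by
  have hev : (phiH hs ha y : E2 → E2) =ᶠ[𝓝 x] fun z => z + (1 - ‖z - y‖ / s) • a := by
    have h1 : ∀ᶠ z in 𝓝 x, dist z y < s :=
      (continuous_id.dist continuous_const).continuousAt.eventually
        (eventually_lt_nhds (by simpa using hxs))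
    filter_upwards [h1] with z hz
    exact phiH_of_dist_le hs ha hz.le
  have h1 := Inner.hasFDerivAt_norm_sub hx
  have h2 : HasFDerivAt (fun z => 1 - ‖z - y‖ / s) ((-s⁻¹) • innerSL ℝ (Inner.nu y x)) x := by
    have := (h1.mul_const s⁻¹).const_sub 1
    simp only [← div_eq_mul_inv] at this
    refine this.congr_fderiv ?_
    ext v
    simp
  have h3 := (hasFDerivAt_id x).add (h2.smul_const a)
  exact h3.congr_of_eventuallyEq hev

theorem det_phiD (y a : E2) (s : ℝ) (x : E2) :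
    (phiD y a s x).det = 1 + (-s⁻¹) * inner ℝ (Inner.nu y x) a := by
  have e : ((phiD y a s x : E2 →L[ℝ] E2) : E2 →ₗ[ℝ] E2) =
      LinearMap.transvection (((-s⁻¹) • innerSL ℝ (Inner.nu y x) : E2 →L[ℝ] ℝ) : E2 →ₗ[ℝ] ℝ) a := by
    ext v
    simp [LinearMap.transvection.apply, phiD]
  unfold ContinuousLinearMap.det
  rw [e, LinearMap.transvection.det]
  simp

theorem abs_inner_nu_le (y x v : E2) : |inner ℝ (Inner.nu y x) v| ≤ ‖v‖ := by
  have h1 := abs_real_inner_le_norm (Inner.nu y x) v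
  have h2 := Inner.norm_nu_le y x
  nlinarith [norm_nonneg v]

theorem abs_det_phiD_le (hs : 0 < s) (ha : ‖a‖ ≤ s / 2) (y x : E2) :
    |(phiD y a s x).det| ≤ 3 / 2 := by
  rw [det_phiD]
  have h1 := abs_inner_nu_le y x a
  have h2 : |(-s⁻¹) * inner ℝ (Inner.nu y x) a| ≤ 1 / 2 := by
    rw [abs_mul, abs_neg, abs_of_pos (inv_pos.2 hs)]
    calc s⁻¹ * |inner ℝ (Inner.nu y x) a| ≤ s⁻¹ * (s / 2) := by
          gcongr
          linarith
      _ = 1 / 2 := by field_simp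
  have h3 := abs_add_le 1 ((-s⁻¹) * inner ℝ (Inner.nu y x) a)
  rw [abs_one] at h3
  linarith

theorem norm_le_phiD (hs : 0 < s) (ha : ‖a‖ ≤ s / 2) (y x v : E2) :
    ‖v‖ ≤ 2 * ‖phiD y a s x v‖ := by
  rw [phiD_apply]
  have h1 := abs_inner_nu_le y x v
  have h2 : ‖((-s⁻¹) * inner ℝ (Inner.nu y x) v) • a‖ ≤ 1 / 2 * ‖v‖ := by
    rw [norm_smul, Real.norm_eq_abs, abs_mul, abs_neg, abs_of_pos (inv_pos.2 hs)]
    calc s⁻¹ * |inner ℝ (Inner.nu y x) v| * ‖a‖ ≤ s⁻¹ * ‖v‖ * (s / 2) := by gcongr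
      _ = 1 / 2 * ‖v‖ := by field_simp
  have h3 := norm_sub_le_norm_add v (((-s⁻¹) * inner ℝ (Inner.nu y x) v) • a)
  linarith

/-- gradient of a composition with a bi-Lipschitz change of variables -/
theorem norm_gradient_le_of_comp {w g : E2 → ℝ} {Φ : E2 → E2} {A : E2 →L[ℝ] E2} {x : E2}
    (hΦ : HasFDerivAt Φ A x) (hA : ∀ v, ‖v‖ ≤ 2 * ‖A v‖) (heq : (w ∘ Φ) =ᶠ[𝓝 x] g) :
    ‖∇ w (Φ x)‖ ≤ 2 * ‖∇ g x‖ := by
  by_cases hw : DifferentiableAt ℝ w (Φ x)
  · have h1 : HasFDerivAt (w ∘ Φ) ((fderiv ℝ w (Φ x)).comp A) x := hw.hasFDerivAt.comp x hΦ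
    have h2 : fderiv ℝ g x = (fderiv ℝ w (Φ x)).comp A := by
      rw [← heq.fderiv_eq]; exact h1.fderiv
    have hinj : Function.Injective (A : E2 →ₗ[ℝ] E2) := by
      rw [← LinearMap.ker_eq_bot, LinearMap.ker_eq_bot']
      intro v hv
      have h3 := hA v
      have h4 : A v = 0 := hv
      rw [h4, norm_zero, mul_zero] at h3
      exact norm_le_zero_iff.1 h3
    have hsurj : Function.Surjective (A : E2 →ₗ[ℝ] E2) := LinearMap.injective_iff_surjective.1 hinj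
    have e1 : ‖∇ w (Φ x)‖ = ‖fderiv ℝ w (Φ x)‖ := by
      unfold gradient; exact LinearIsometryEquiv.norm_map _ _
    have e2 : ‖∇ g x‖ = ‖fderiv ℝ g x‖ := by
      unfold gradient; exact LinearIsometryEquiv.norm_map _ _
    rw [e1, e2]
    refine ContinuousLinearMap.opNorm_le_bound _ (by positivity) ?_
    intro v
    obtain ⟨v', hv'⟩ := hsurj v
    have h3 : A v' = v := hv'
    have h4 : fderiv ℝ g x v' = fderiv ℝ w (Φ x) v := by
      rw [h2, ContinuousLinearMap.comp_apply, h3]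
    rw [← h4]
    refine ((fderiv ℝ g x).le_opNorm v').trans ?_
    have h5 := hA v'
    rw [h3] at h5
    calc ‖fderiv ℝ g x‖ * ‖v'‖ ≤ ‖fderiv ℝ g x‖ * (2 * ‖v‖) := by gcongr
      _ = 2 * ‖fderiv ℝ g x‖ * ‖v‖ := by ring
  · have h1 : ∇ w (Φ x) = 0 := by
      unfold gradient; rw [fderiv_zero_of_not_differentiableAt hw]; simp
    rw [h1, norm_zero]
    positivity

end StarC

end Crest.Agent.R135
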