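import Crest.Agent.R135.StarComp3

/-!
# R135: star competitor (helper560), part 4: final statement
-/

set_option autoImplicit false

open MeasureTheory Set Filter Topology Metric
open scoped ENNReal NNReal ContDiff Gradient

namespace Crest.Agent.R135

namespace StarC

variable {U K : Set E2} {lam : ℝ} {u : E2 → ℝ} {y a : E2} {s : ℝ}

/-- the star over the crack points of the circle, centre `z` -/
def star (K : Set E2) (y : E2) (s : ℝ) (z : E2) : Set E2 := ⋃ p ∈ K ∩ sphere y s, segment ℝ z p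

/-- crack of the competitor -/
def starL (K : Set E2) (y : E2) (s : ℝ) (z : E2) : Set E2 := (K \ ball y s) ∪ star K y s z

open Classical in
/-- function of the competitor -/
noncomputable def starW (u : E2 → ℝ) (K : Set E2) (hs : 0 < s) (ha : ‖a‖ ≤ s / 2) (y : E2)
    (x : E2) : ℝ :=
  if dist x y < s then w0 u K y s ((phiH hs ha y).symm x) else u x

theorem isClosed_segment (p q : E2) : IsClosed (segment ℝ p q) := by
  rw [segment_eq_image_lineMap]
  exact (isCompact_Icc.image (by fun_prop)).isClosed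

theorem isClosed_star (hfin : (K ∩ sphere y s).Finite) (z : E2) : IsClosed (star K y s z) :=
  hfin.isClosed_biUnion fun _ _ => isClosed_segment _ _

theorem star_subset_closedBall {z : E2} (hz : z ∈ closedBall y s) :
    star K y s z ⊆ closedBall y s := by
  intro x hx
  simp only [star, mem_iUnion] at hx
  obtain ⟨p, hp, hx⟩ := hx
  exact (convex_closedBall y s).segment_subset hz (sphere_subset_closedBall hp.2) hx

/-- the radii over `K` are mapped into the star -/
theorem phiH_mem_star (hs : 0 < s) (ha : ‖a‖ ≤ s / 2) (hne : (K ∩ sphere y s).Nonempty) {x : E2}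
    (hx : dist x y ≤ s) (h : x = y ∨ radProj y s x ∈ K) : phiH hs ha y x ∈ star K y s (y + a) := by
  by_cases hxy : x = y
  · subst hxy
    obtain ⟨p, hp⟩ := hne
    simp only [star, mem_iUnion]
    refine ⟨p, hp, ?_⟩
    have : phiH hs ha x x = x + a := by
      rw [phiH_apply, sub_self, norm_zero, zero_div, sub_zero, max_eq_right zero_le_one, one_smul]
    rw [this]
    exact left_mem_segment _ _ _
  · have hK : radProj y s x ∈ K := by
      rcases h with h | h
      · exact absurd h hxy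
      · exact h
    simp only [star, mem_iUnion]
    refine ⟨radProj y s x, ⟨hK, radProj_mem_sphere hs.le hxy⟩, ?_⟩
    have hd : 0 < ‖x - y‖ := norm_pos_iff.2 (sub_ne_zero.2 hxy)
    rw [dist_eq_norm] at hx
    rw [phiH_of_dist_le hs ha (by rw [dist_eq_norm]; exact hx)]
    refine ⟨1 - ‖x - y‖ / s, ‖x - y‖ / s, ?_, by positivity, by ring, ?_⟩
    · have : ‖x - y‖ / s ≤ 1 := by rw [div_le_one hs]; exact hx
      linarith
    · rw [radProj]
      have e : (‖x - y‖ / s) • (s / ‖x - y‖) • (x - y) = x - y := by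
        rw [smul_smul]
        have : ‖x - y‖ / s * (s / ‖x - y‖) = 1 := by field_simp
        rw [this, one_smul]
      rw [smul_add (‖x - y‖ / s), e]
      module

theorem mem_starL_of_symm (hs : 0 < s) (ha : ‖a‖ ≤ s / 2) (hne : (K ∩ sphere y s).Nonempty)
    {x : E2} (hx : dist x y ≤ s) (hxL : x ∉ starL K y s (y + a)) :
    dist ((phiH hs ha y).symm x) y ≤ s ∧ (phiH hs ha y).symm x ≠ y ∧
      radProj y s ((phiH hs ha y).symm x) ∉ K := by
  have h1 : dist ((phiH hs ha y).symm x) y ≤ s := by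
    rcases hx.lt_or_eq with h | h
    · exact (phiH_symm_mem_ball hs ha h).le
    · rw [phiH_symm_of_le hs ha h.ge]; exact hx
  refine ⟨h1, fun h => hxL (Or.inr ?_), fun h => hxL (Or.inr ?_)⟩
  · have := phiH_mem_star hs ha hne h1 (Or.inl h)
    rwa [Homeomorph.apply_symm_apply] at this
  · have := phiH_mem_star hs ha hne h1 (Or.inr h)
    rwa [Homeomorph.apply_symm_apply] at this

theorem starW_of_le {hs : 0 < s} {ha : ‖a‖ ≤ s / 2} {x : E2} (hx : s ≤ dist x y) :
    starW u K hs ha y x = u x := by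
  rw [starW, if_neg (not_lt.2 hx)]

theorem starW_of_dist_le {hs : 0 < s} {ha : ‖a‖ ≤ s / 2} {x : E2} (hx : dist x y ≤ s) :
    starW u K hs ha y x = w0 u K y s ((phiH hs ha y).symm x) := by
  rcases hx.lt_or_eq with hlt | heq
  · rw [starW, if_pos hlt]
  · rw [starW_of_le heq.ge, phiH_symm_of_le hs ha heq.ge, w0_of_dist_eq hs heq]

theorem norm_add_sub_le (ha : ‖a‖ ≤ s / 2) (hs : 0 < s) : y + a ∈ closedBall y s := by
  rw [mem_closedBall, dist_eq_norm, add_sub_cancel_left]; linarith

theorem closure_starL (hq : IsQM U lam u K)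
    (hfin : (K ∩ sphere y s).Finite) (z : E2) :
    closure (starL K y s z) ∩ U ⊆ starL K y s z := by
  rintro x ⟨hx, hxU⟩
  rw [starL, closure_union] at hx
  rcases hx with hx | hx
  · left
    have h1 : closure (K \ ball y s) ⊆ closure K := closure_mono sdiff_subset
    have h2 : closure (K \ ball y s) ⊆ (ball y s)ᶜ :=
      closure_minimal (fun z hz => hz.2) isOpen_ball.isClosed_compl
    exact ⟨hq.closed ⟨h1 hx, hxU⟩, h2 hx⟩
  · right
    rwa [(isClosed_star hfin z).closure_eq] at hx

theorem len_starL_le (hfin : (K ∩ sphere y s).Finite) {z : E2} :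
    len (starL K y s z ∩ closedBall y s) ≤ ∑ p ∈ hfin.toFinset, ENNReal.ofReal (dist z p) := by
  have hsub : starL K y s z ∩ closedBall y s ⊆ (K ∩ sphere y s) ∪ star K y s z := by
    rintro x ⟨hx | hx, hxb⟩
    · left
      refine ⟨hx.1, le_antisymm hxb ?_⟩
      have := hx.2
      rwa [mem_ball, not_lt] at this
    · right; exact hx
  have hns : NullSingletonClass (Measure.hausdorffMeasure 1 : Measure E2) :=
    Measure.nullSingletonClass_hausdorff E2 one_pos
  have h0 : len (K ∩ sphere y s) = 0 := hfin.measure_zero _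
  have h1 : len (star K y s z) ≤ ∑ p ∈ hfin.toFinset, ENNReal.ofReal (dist z p) := by
    have hcov : star K y s z ⊆ ⋃ p ∈ hfin.toFinset, segment ℝ z p := by
      intro x hx
      simp only [star, mem_iUnion] at hx
      obtain ⟨p, hp, hx⟩ := hx
      simp only [mem_iUnion]
      exact ⟨p, hfin.mem_toFinset.2 hp, hx⟩
    calc len (star K y s z) ≤ len (⋃ p ∈ hfin.toFinset, segment ℝ z p) := measure_mono hcov
      _ ≤ ∑ p ∈ hfin.toFinset, len (segment ℝ z p) := measure_biUnion_finset_le _ _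
      _ = ∑ p ∈ hfin.toFinset, ENNReal.ofReal (dist z p) := by
          apply Finset.sum_congr rfl
          intro p _
          unfold len
          rw [hausdorffMeasure_segment, edist_dist]
  calc len (starL K y s z ∩ closedBall y s) ≤ len ((K ∩ sphere y s) ∪ star K y s z) :=
        measure_mono hsub
    _ ≤ len (K ∩ sphere y s) + len (star K y s z) := measure_union_le _ _
    _ ≤ _ := by rw [h0, zero_add]; exact h1

/-- the star competitor is admissible -/
theorem isComp0_star (hq : IsQM U lam u K) (hs : 0 < s) (hball : closedBall y s ⊆ U)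
    (hfin : (K ∩ sphere y s).Finite) (hne : (K ∩ sphere y s).Nonempty) (ha : ‖a‖ ≤ s / 2) :
    IsComp0 U u K y s (starW u K hs ha y) (starL K y s (y + a)) := by
  have hcl := closure_starL hq hfin (y + a)
  have hop : IsOpen (U \ starL K y s (y + a)) := by
    have : U \ starL K y s (y + a) = U \ closure (starL K y s (y + a)) := by
      ext x
      constructor
      · rintro ⟨hx, hxL⟩
        exact ⟨hx, fun hc => hxL (hcl ⟨hc, hx⟩)⟩
      · rintro ⟨hx, hxL⟩
        exact ⟨hx, fun hc => hxL (subset_closure hc)⟩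
    rw [this]
    exact hq.isOpen.sdiff isClosed_closure
  have hsph : ∀ x ∈ sphere y s \ K, x ∈ U \ K := fun x hx =>
    ⟨hball (sphere_subset_closedBall hx.1), hx.2⟩
  have hKo : ∀ x ∈ sphere y s \ K, ∀ᶠ z in 𝓝 x, z ∉ K := by
    intro x hx
    filter_upwards [hq.isOpen_diff.mem_nhds (hsph x hx)] with z hz using hz.2
  have hu : ∀ x ∈ sphere y s \ K, ContDiffAt ℝ 1 u x := fun x hx => hq.contDiffAt (hsph x hx)
  refine ⟨?_, hcl, ?_, ?_, ?_, ?_⟩
  · rintro x (hx | hx)
    · exact hq.sub hx.1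
    · exact hball (star_subset_closedBall (norm_add_sub_le ha hs) hx)
  · refine (len_starL_le hfin).trans_lt ?_
    exact ENNReal.sum_lt_top.2 fun _ _ => ENNReal.ofReal_lt_top
  · ext x
    constructor
    · rintro ⟨hx | hx, hxb⟩
      · exact ⟨hx.1, hxb⟩
      · exact absurd (star_subset_closedBall (norm_add_sub_le ha hs) hx) hxb
    · rintro ⟨hx, hxb⟩
      exact ⟨Or.inl ⟨hx, fun h => hxb (ball_subset_closedBall h)⟩, hxb⟩
  · have hA1 : IsClosed {x : E2 | s ≤ dist x y} :=
      isClosed_le continuous_const (continuous_id.dist continuous_const)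
    have hA2 : IsClosed {x : E2 | dist x y ≤ s} :=
      isClosed_le (continuous_id.dist continuous_const) continuous_const
    apply locallyLipschitzOn_of_closed_cover (u := u)
      (w := fun x => w0 u K y s ((phiH hs ha y).symm x)) hop hA1 hA2
    · intro x _
      rcases le_total s (dist x y) with hle | hle
      · exact Or.inl hle
      · exact Or.inr hle
    · intro x hx
      exact starW_of_le hx.2
    · intro x hx
      exact starW_of_dist_le hx.2
    · intro x hx
      have hxK : x ∉ K := by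
        intro hxK
        apply hx.1.2
        left
        refine ⟨hxK, ?_⟩
        rw [mem_ball, not_lt]
        exact hx.2
      obtain ⟨Kc, t, ht, hKt⟩ := (hq.contDiffAt ⟨hx.1.1, hxK⟩).exists_lipschitzOnWith
      exact ⟨Kc, t, ht, hKt.mono inter_subset_left⟩
    · intro x hx
      obtain ⟨h1, h2, h3⟩ := mem_starL_of_symm hs ha hne hx.2 hx.1.2
      obtain ⟨Kc, t, ht, hKt⟩ := lipAt_w0 hs hKo hu h2 h3
      refine ⟨Kc * 2, (phiH hs ha y).symm ⁻¹' t,
        (phiH hs ha y).symm.continuous.continuousAt ht, ?_⟩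
      exact (hKt.comp (phiH_symm_lip hs ha y).lipschitzOnWith (mapsTo_preimage _ _)).mono
        inter_subset_left
  · rintro x ⟨-, hx⟩
    have : s ≤ dist x y := by
      by_contra hc
      push Not at hc
      exact hx (Or.inr (ball_subset_closedBall hc))
    exact starW_of_le this

/-- Dirichlet energy of the star competitor -/
theorem dirE_star_le (hq : IsQM U lam u K) (hs : 0 < s) (hball : closedBall y s ⊆ U)
    (hfin : (K ∩ sphere y s).Finite) (hne : (K ∩ sphere y s).Nonempty) (ha : ‖a‖ ≤ s / 2) :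
    dirE (starW u K hs ha y) (starL K y s (y + a)) (closedBall y s) ≤
      ENNReal.ofReal (500 * s ^ 2) *
        ∫⁻ θ in Ioo (-Real.pi) Real.pi, ‖∇ u (cpt y s θ)‖ₑ ^ 2 := by
  set Φ := phiH hs ha y with hΦ
  set w := starW u K hs ha y with hw
  set I := ∫⁻ θ in Ioo (-Real.pi) Real.pi, ‖∇ u (cpt y s θ)‖ₑ ^ 2 with hI
  have hKo : ∀ x ∈ sphere y s \ K, ∀ᶠ z in 𝓝 x, z ∉ K := by
    intro x hx
    filter_upwards [hq.isOpen_diff.mem_nhds
      (⟨hball (sphere_subset_closedBall hx.1), hx.2⟩ : x ∈ U \ K)] with z hz using hz.2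
  -- the radii over `K`
  set R : Set E2 := star K y s y with hR
  have hRc : IsClosed R := isClosed_star hfin y
  have hRm : ∀ x, dist x y ≤ s → (x = y ∨ radProj y s x ∈ K) → x ∈ R := by
    intro x hx h
    have h0 : ‖(0 : E2)‖ ≤ s / 2 := by rw [norm_zero]; linarith
    have := phiH_mem_star hs h0 hne hx h
    rwa [phiH_apply, smul_zero, add_zero, add_zero] at this
  have hRΦ : ∀ x ∈ R, Φ x ∈ star K y s (y + a) := by
    intro x hx
    simp only [hR, star, mem_iUnion] at hx
    obtain ⟨p, hp, hx⟩ := hx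
    obtain ⟨c, d, hc, hd, hcd, rfl⟩ := hx
    simp only [star, mem_iUnion]
    refine ⟨p, hp, ?_⟩
    have hps : ‖p - y‖ = s := by rw [← dist_eq_norm]; exact hp.2
    have e1 : c • y + d • p - y = d • (p - y) := by
      have : c = 1 - d := by linarith
      rw [this]; module
    have e2 : ‖c • y + d • p - y‖ = d * s := by
      rw [e1, norm_smul, Real.norm_eq_abs, abs_of_nonneg hd, hps]
    have hdle : d ≤ 1 := by linarith
    have e3 : Φ (c • y + d • p) = c • y + d • p + (1 - d) • a := by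
      rw [hΦ, phiH_of_dist_le hs ha (by rw [dist_eq_norm, e2]; nlinarith), e2,
        mul_div_assoc, div_self hs.ne', mul_one]
    rw [e3]
    refine ⟨c, d, hc, hd, hcd, ?_⟩
    have : 1 - d = c := by linarith
    rw [this, smul_add]
    abel
  -- the domain
  have hdom : closedBall y s \ starL K y s (y + a) ⊆ Φ '' (ball y s \ R) ∪ sphere y s := by
    rintro x ⟨hx, hxL⟩
    rcases (mem_closedBall.1 hx).lt_or_eq with hlt | heq
    · left
      refine ⟨Φ.symm x, ⟨phiH_symm_mem_ball hs ha hlt, fun hc => hxL (Or.inr ?_)⟩,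
        Φ.apply_symm_apply x⟩
      have := hRΦ _ hc
      rwa [Homeomorph.apply_symm_apply] at this
    · right; exact heq
  have hsph0 : volume (sphere y s) = 0 := Measure.addHaar_sphere _ _ _
  have hmS : MeasurableSet (ball y s \ R) := measurableSet_ball.diff hRc.measurableSet
  have hpt : ∀ x ∈ ball y s \ R, x ≠ y ∧ dist x y < s ∧ radProj y s x ∉ K := by
    rintro x ⟨hx, hxR⟩
    have hx' : dist x y < s := hx
    refine ⟨fun h => hxR (hRm x hx'.le (Or.inl h)), hx', fun h => hxR (hRm x hx'.le (Or.inr h))⟩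
  have hgrad : ∀ x ∈ ball y s \ R, ‖∇ w (Φ x)‖ₑ ^ 2 ≤ 4 * ‖∇ (w0 u K y s) x‖ₑ ^ 2 := by
    intro x hx
    obtain ⟨h1, h2, h3⟩ := hpt x hx
    have heq : (w ∘ Φ) =ᶠ[𝓝 x] w0 u K y s := by
      have h4 : ∀ᶠ z in 𝓝 x, dist z y < s :=
        (continuous_id.dist continuous_const).continuousAt.eventually
          (eventually_lt_nhds (by simpa using h2))
      filter_upwards [h4] with z hz
      have hz2 : dist (Φ z) y < s := phiH_mem_ball hs ha hz
      simp only [Function.comp_apply, hw, starW]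
      rw [if_pos hz2, ← hΦ, Homeomorph.symm_apply_apply]
    have h5 := norm_gradient_le_of_comp (hasFDerivAt_phiH hs ha h1 h2) (norm_le_phiD hs ha y x) heq
    have h6 : ‖∇ w (Φ x)‖ₑ ≤ 2 * ‖∇ (w0 u K y s) x‖ₑ := by
      have e2 : ENNReal.ofReal (2 * ‖∇ (w0 u K y s) x‖) = 2 * ‖∇ (w0 u K y s) x‖ₑ := by
        rw [ENNReal.ofReal_mul (by norm_num), ofReal_norm]
        simp
      rw [← e2, ← ofReal_norm]
      exact ENNReal.ofReal_le_ofReal h5
    calc ‖∇ w (Φ x)‖ₑ ^ 2 ≤ (2 * ‖∇ (w0 u K y s) x‖ₑ) ^ 2 := by gcongr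
      _ = 4 * ‖∇ (w0 u K y s) x‖ₑ ^ 2 := by rw [mul_pow]; norm_num
  unfold dirE
  calc ∫⁻ x in closedBall y s \ starL K y s (y + a), ‖∇ w x‖ₑ ^ 2
      ≤ ∫⁻ x in Φ '' (ball y s \ R) ∪ sphere y s, ‖∇ w x‖ₑ ^ 2 := lintegral_mono_set hdom
    _ ≤ (∫⁻ x in Φ '' (ball y s \ R), ‖∇ w x‖ₑ ^ 2) + ∫⁻ x in sphere y s, ‖∇ w x‖ₑ ^ 2 :=
        lintegral_union_le _ _ _
    _ = ∫⁻ x in Φ '' (ball y s \ R), ‖∇ w x‖ₑ ^ 2 := by
        rw [setLIntegral_measure_zero _ _ hsph0, add_zero]
    _ = ∫⁻ x in ball y s \ R, ENNReal.ofReal |(phiD y a s x).det| * ‖∇ w (Φ x)‖ₑ ^ 2 := by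
        apply lintegral_image_eq_lintegral_abs_det_fderiv_mul volume hmS
          (f := Φ) (f' := phiD y a s) _ Φ.injective.injOn
        intro x hx
        obtain ⟨h1, h2, -⟩ := hpt x hx
        exact (hasFDerivAt_phiH hs ha h1 h2).hasFDerivWithinAt
    _ ≤ ∫⁻ x in ball y s \ R, 6 * ‖∇ (w0 u K y s) x‖ₑ ^ 2 := by
        apply setLIntegral_mono_ae' hmS
        filter_upwards with x hx
        calc ENNReal.ofReal |(phiD y a s x).det| * ‖∇ w (Φ x)‖ₑ ^ 2
            ≤ ENNReal.ofReal (3 / 2) * (4 * ‖∇ (w0 u K y s) x‖ₑ ^ 2) := by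
              gcongr
              · exact abs_det_phiD_le hs ha y x
              · exact hgrad x hx
          _ = 6 * ‖∇ (w0 u K y s) x‖ₑ ^ 2 := by
              rw [← mul_assoc]
              congr 1
              have e4 : (4 : ℝ≥0∞) = ENNReal.ofReal 4 := by simp
              have e6 : (6 : ℝ≥0∞) = ENNReal.ofReal 6 := by simp
              rw [e4, e6, ← ENNReal.ofReal_mul (by norm_num)]
              norm_num
    _ ≤ ∫⁻ x in ball y s, 6 * ‖∇ (w0 u K y s) x‖ₑ ^ 2 := lintegral_mono_set sdiff_subset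
    _ = 6 * ∫⁻ x in ball y s, ‖∇ (w0 u K y s) x‖ₑ ^ 2 := by
        rw [lintegral_const_mul' _ _ (by norm_num)]
    _ ≤ 6 * (ENNReal.ofReal (82 * s ^ 2) * I) := by
        gcongr
        exact lintegral_w0_le hq hs hball hfin hne
    _ ≤ ENNReal.ofReal (500 * s ^ 2) * I := by
        have e6 : (6 : ℝ≥0∞) = ENNReal.ofReal 6 := by simp
        rw [← mul_assoc, e6, ← ENNReal.ofReal_mul (by norm_num)]
        have e7 : (6:ℝ) * (82 * s ^ 2) ≤ 500 * s ^ 2 := by nlinarith [sq_nonneg s]
        exact mul_le_mul_left (ENNReal.ofReal_le_ofReal e7) _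

end StarC

/-- **Star competitor (S).** -/
theorem IsSQM.star_comp {U K : Set E2} {lam : ℝ} {u : E2 → ℝ} {y z : E2} {s : ℝ}
    (h : IsSQM U lam u K) (hs : 0 < s) (hball : closedBall y s ⊆ U)
    (hfin : (K ∩ sphere y s).Finite) (hne : (K ∩ sphere y s).Nonempty) (hz : dist z y ≤ s / 2) :
    enE u K (closedBall y s) ≤ (∑ p ∈ hfin.toFinset, ENNReal.ofReal (dist z p)) +
      ENNReal.ofReal (500 * s ^ 2) *
        (∫⁻ θ in Ioo (-Real.pi) Real.pi, ‖∇ u (cpt y s θ)‖ₑ ^ 2) +
      ENNReal.ofReal (lam * s ^ 2) := by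
  have ha : ‖z - y‖ ≤ s / 2 := by rw [← dist_eq_norm]; exact hz
  have hzy : y + (z - y) = z := by abel
  have hcomp := StarC.isComp0_star h.toIsQM hs hball hfin hne ha
  refine (h.min0 y s hs hball _ _ hcomp).trans ?_
  gcongr
  unfold enE
  rw [add_comm]
  gcongr
  · have := StarC.len_starL_le (z := y + (z - y)) hfin
    rwa [hzy] at this ⊢
  · exact StarC.dirE_star_le h.toIsQM hs hball hfin hne ha

end Crest.Agent.R135
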