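import Crest.Agent.R135.StarComp4
import Crest.Agent.R135.IFDefs

/-!
# R135: star competitor (helper560), part 5: the inequality with real numbers
-/

set_option autoImplicit false

open MeasureTheory Set Filter Topology Metric
open scoped ENNReal NNReal ContDiff Gradient

namespace Crest.Agent.R135

theorem ofReal_circI_norm_sq {u : E2 → ℝ} {y : E2} {s : ℝ}
    (hint : IntegrableOn (fun θ => ‖gradient u (cpt y s θ)‖ ^ 2) (Ioo (-Real.pi) Real.pi)) :
    ∫⁻ θ in Ioo (-Real.pi) Real.pi, ‖gradient u (cpt y s θ)‖ₑ ^ 2 =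
      ENNReal.ofReal (circI (fun z => ‖gradient u z‖ ^ 2) y s) := by
  have h1 : circI (fun z => ‖gradient u z‖ ^ 2) y s =
      ∫ θ in Ioo (-Real.pi) Real.pi, ‖gradient u (cpt y s θ)‖ ^ 2 := by
    rw [circI, intervalIntegral.integral_of_le (by linarith [Real.pi_pos]),
      ← integral_Ioc_eq_integral_Ioo]
  rw [h1, ofReal_integral_eq_lintegral_ofReal hint
    (ae_of_all _ fun θ => by positivity)]
  apply lintegral_congr
  intro θ
  rw [← ofReal_norm, ENNReal.ofReal_pow (norm_nonneg _)]

/-- **Star competitor (S)**, real-valued version. -/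
theorem IsSQM.star_comp_real {U K : Set E2} {lam : ℝ} {u : E2 → ℝ} {y z : E2} {s : ℝ}
    (h : IsSQM U lam u K) (hs : 0 < s) (hball : closedBall y s ⊆ U)
    (hfin : (K ∩ sphere y s).Finite) (hne : (K ∩ sphere y s).Nonempty) (hz : dist z y ≤ s / 2)
    (hint : IntegrableOn (fun θ => ‖gradient u (cpt y s θ)‖ ^ 2) (Ioo (-Real.pi) Real.pi)) :
    Dr u K y s + Lr K y s ≤ (∑ p ∈ hfin.toFinset, dist z p) + 500 * s * cirE u y s +
      lam * s ^ 2 := by
  have h1 := h.star_comp hs hball hfin hne hz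
  rw [ofReal_circI_norm_sq hint] at h1
  have hc0 : 0 ≤ circI (fun z => ‖gradient u z‖ ^ 2) y s := by
    rw [circI]
    exact intervalIntegral.integral_nonneg (by linarith [Real.pi_pos]) fun _ _ => by positivity
  have hlam := h.toIsQM.lam_nonneg
  have hsum0 : 0 ≤ ∑ p ∈ hfin.toFinset, dist z p := Finset.sum_nonneg fun _ _ => dist_nonneg
  rw [← ENNReal.ofReal_sum_of_nonneg fun _ _ => dist_nonneg,
    ← ENNReal.ofReal_mul (by positivity), ← ENNReal.ofReal_add hsum0 (by positivity),
    ← ENNReal.ofReal_add (by positivity) (by positivity)] at h1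
  have hD : dirE u K (ball y s) ≤ dirE u K (closedBall y s) := by
    unfold dirE
    exact lintegral_mono_set (sdiff_subset_sdiff_left ball_subset_closedBall)
  have hDfin : dirE u K (closedBall y s) ≠ ⊤ := (h.toIsQM.dir_fin y s hball).ne
  have hLfin : len (K ∩ closedBall y s) ≠ ⊤ := (h.toIsQM.len_fin y s hball).ne
  have h2 : ENNReal.ofReal (Dr u K y s + Lr K y s) ≤ enE u K (closedBall y s) := by
    rw [Dr, Lr, ENNReal.ofReal_add ENNReal.toReal_nonneg ENNReal.toReal_nonneg,
      ENNReal.ofReal_toReal (ne_top_of_le_ne_top hDfin hD), ENNReal.ofReal_toReal hLfin]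
    unfold enE
    gcongr
  have h3 := (ENNReal.ofReal_le_ofReal_iff (by positivity)).1 (h2.trans h1)
  refine h3.trans (le_of_eq ?_)
  rw [cirE]; ring

end Crest.Agent.R135
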