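import Crest.Agent.R135.IFDefs2

/-!
# R135, star_prop, part 1: three directions with almost vanishing sum (helper560)
-/

set_option autoImplicit false

open MeasureTheory Set Filter Topology Metric
open scoped ENNReal NNReal

namespace Crest.Agent.R135.StarP

open Arc

theorem sqrt3_bounds : (17 / 10 : ℝ) ≤ Real.sqrt 3 ∧ Real.sqrt 3 ≤ 18 / 10 ∧
    Real.sqrt 3 * Real.sqrt 3 = 3 := by
  refine ⟨?_, ?_, Real.mul_self_sqrt (by norm_num)⟩
  · apply Real.le_sqrt_of_sq_le; norm_num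
  · rw [Real.sqrt_le_left (by norm_num)]; norm_num

theorem norm_rt3 (k : Fin 3) (v : E2) : ‖rt (a3 k) (b3 k) v‖ = ‖v‖ :=
  norm_rt (rotGroup3.unit k) v

/-- sum of the distances to the centre of mass -/
theorem sum_dist_le {x : E2} {t : ℝ} (ht : 0 ≤ t) {d : Fin 3 → E2} (hd : ∀ j, ‖d j‖ = 1) :
    ∑ j, dist (x + t • d j) (x + (t / 3) • ∑ j, d j) ≤ 3 * t - t * ‖∑ j, d j‖ ^ 2 / 6 := by
  set S := ∑ j, d j with hS
  have h1 : ∀ j, dist (x + t • d j) (x + (t / 3) • S) ≤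
      t * (1 - inner ℝ (d j) S / 3 + ‖S‖ ^ 2 / 18) := by
    intro j
    have e1 : x + t • d j - (x + (t / 3) • S) = t • (d j - (1 / 3 : ℝ) • S) := by
      rw [smul_sub, smul_smul]
      have : t * (1 / 3 : ℝ) = t / 3 := by ring
      rw [this]; abel
    rw [dist_eq_norm, e1, norm_smul, Real.norm_eq_abs, abs_of_nonneg ht]
    apply mul_le_mul_of_nonneg_left _ ht
    have h2 : ‖d j - (1 / 3 : ℝ) • S‖ ^ 2 = 1 - 2 / 3 * inner ℝ (d j) S + ‖S‖ ^ 2 / 9 := by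
      rw [@norm_sub_sq ℝ, hd j, inner_smul_right, norm_smul, Real.norm_eq_abs,
        abs_of_pos (by norm_num : (0:ℝ) < 1 / 3)]
      simp
      ring
    nlinarith [sq_nonneg (‖d j - (1 / 3 : ℝ) • S‖ - 1)]
  have h2 : ∑ j, inner ℝ (d j) S = ‖S‖ ^ 2 := by
    rw [← sum_inner, ← hS, real_inner_self_eq_norm_sq]
  calc ∑ j, dist (x + t • d j) (x + (t / 3) • S)
      ≤ ∑ j, t * (1 - inner ℝ (d j) S / 3 + ‖S‖ ^ 2 / 18) := Finset.sum_le_sum fun j _ => h1 j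
    _ = 3 * t - t * ‖S‖ ^ 2 / 6 := by
        rw [← Finset.mul_sum]
        simp only [Finset.sum_add_distrib, Finset.sum_sub_distrib, ← Finset.sum_div]
        rw [h2]
        simp
        ring

/-- coordinate version of the 120 degree lemma -/
theorem coord_120 {c₁ s₁ c₂ s₂ s : ℝ} (h1 : c₁ ^ 2 + s₁ ^ 2 = 1) (h2 : c₂ ^ 2 + s₂ ^ 2 = 1)
    (hs1 : s ≤ 3 / 100) (hS1 : |1 + c₁ + c₂| ≤ s) (hS2 : |s₁ + s₂| ≤ s)
    (hc1 : |c₁ + 1 / 2| ≤ 1 / 50) (hs1' : |s₁ - Real.sqrt 3 / 2| ≤ 1 / 50)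
    (_hc2 : |c₂ + 1 / 2| ≤ 1 / 50) (hs2' : |s₂ + Real.sqrt 3 / 2| ≤ 1 / 50) :
    (c₁ + 1 / 2) ^ 2 + (s₁ - Real.sqrt 3 / 2) ^ 2 ≤ (2 * s) ^ 2 := by
  obtain ⟨h3a, h3b, h3c⟩ := sqrt3_bounds
  have hs0 : 0 ≤ s := (abs_nonneg _).trans hS1
  rw [abs_le] at hS1 hS2 hc1 hs1' hs2'
  -- `D (1 - S1) = T * S2`
  have hD : (c₁ - c₂) * (1 - (1 + c₁ + c₂)) = (s₁ - s₂) * (s₁ + s₂) := by
    linear_combination h2 - h1
  have hT : |s₁ - s₂| ≤ 19 / 10 := by rw [abs_le]; constructor <;> linarith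
  have hD2 : |c₁ - c₂| * (97 / 100) ≤ 19 / 10 * s := by
    calc |c₁ - c₂| * (97 / 100) ≤ |c₁ - c₂| * |1 - (1 + c₁ + c₂)| := by
          apply mul_le_mul_of_nonneg_left _ (abs_nonneg _)
          rw [le_abs]; left; linarith
      _ = |s₁ - s₂| * |s₁ + s₂| := by rw [← abs_mul, hD, abs_mul]
      _ ≤ 19 / 10 * s := by
          apply mul_le_mul hT (by rw [abs_le]; constructor <;> linarith) (abs_nonneg _) (by norm_num)
  have hD3 : |c₁ - c₂| ≤ 2 * s := by linarith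
  rw [abs_le] at hD3
  have hc : |c₁ + 1 / 2| ≤ 3 / 2 * s := by rw [abs_le]; constructor <;> linarith
  have hq : |(s₁ - Real.sqrt 3 / 2) * (s₁ + Real.sqrt 3 / 2)| ≤ 8 / 5 * s := by
    have e1 : (s₁ - Real.sqrt 3 / 2) * (s₁ + Real.sqrt 3 / 2) = (1 / 2 - c₁) * (c₁ + 1 / 2) := by
      linear_combination h1 - h3c / 4
    rw [e1, abs_mul]
    have h5 : |1 / 2 - c₁| ≤ 16 / 15 := by rw [abs_le]; constructor <;> linarith
    calc |1 / 2 - c₁| * |c₁ + 1 / 2| ≤ 16 / 15 * (3 / 2 * s) :=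
          mul_le_mul h5 hc (abs_nonneg _) (by norm_num)
      _ = 8 / 5 * s := by ring
  have hs' : |s₁ - Real.sqrt 3 / 2| ≤ s := by
    rw [abs_mul] at hq
    have h5 : (8 / 5 : ℝ) ≤ |s₁ + Real.sqrt 3 / 2| := by rw [le_abs]; left; linarith
    have h6 : |s₁ - Real.sqrt 3 / 2| * (8 / 5) ≤ 8 / 5 * s :=
      (mul_le_mul_of_nonneg_left h5 (abs_nonneg _)).trans hq
    linarith
  rw [← sq_abs (c₁ + 1 / 2), ← sq_abs (s₁ - Real.sqrt 3 / 2)]
  have h7 : |c₁ + 1 / 2| ^ 2 ≤ (3 / 2 * s) ^ 2 := by gcongr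
  have h8 : |s₁ - Real.sqrt 3 / 2| ^ 2 ≤ s ^ 2 := by gcongr
  nlinarith [sq_nonneg s]

theorem norm_sub_rt_sq {e d : E2} (he : ‖e‖ = 1) (c s : ℝ) :
    ‖d - rt c s e‖ ^ 2 = (inner ℝ d e - c) ^ 2 + (inner ℝ d (J e) - s) ^ 2 := by
  have h1 := frame_eq he d
  have h2 : d - rt c s e = (inner ℝ d e - c) • e + (inner ℝ d (J e) - s) • J e := by
    conv_lhs => rw [h1]
    simp only [rt, sub_smul]; abel
  rw [h2, Arc.norm_sq_frame he]

/-- **Three unit vectors with small sum**: they are close to three directions at 120 degrees. -/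
theorem three_dirs {e0 : E2} {d : Fin 3 → E2} (hd : ∀ j, ‖d j‖ = 1)
    (hrough : ∀ j, ‖d j - rt (a3 j) (b3 j) e0‖ ≤ 1 / 100) {s : ℝ} (hs : ‖∑ j, d j‖ ≤ s)
    (hs1 : s ≤ 3 / 100) (j : Fin 3) : ‖d j - rt (a3 j) (b3 j) (d 0)‖ ≤ 2 * s := by
  have hs0 : 0 ≤ s := (norm_nonneg _).trans hs
  have h0 := hd 0
  have hrough' : ∀ j, ‖d j - rt (a3 j) (b3 j) (d 0)‖ ≤ 1 / 50 := by
    intro j
    have e1 : d j - rt (a3 j) (b3 j) (d 0) =
        (d j - rt (a3 j) (b3 j) e0) + (rt (a3 j) (b3 j) e0 - rt (a3 j) (b3 j) (d 0)) := by abel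
    rw [e1, rt_sub]
    refine (norm_add_le _ _).trans ?_
    rw [norm_rt3, norm_sub_rev e0]
    have h2 := hrough 0
    have h3 : rt (a3 0) (b3 0) e0 = e0 := by simp [a3, b3, rt_one]
    rw [h3] at h2
    linarith [hrough j]
  have hin : ∀ j, |inner ℝ (d j) (d 0) - a3 j| ≤ 1 / 50 ∧ |inner ℝ (d j) (J (d 0)) - b3 j| ≤ 1 / 50 := by
    intro j
    have h1 := norm_sub_rt_sq (d := d j) h0 (a3 j) (b3 j)
    have h2 : ‖d j - rt (a3 j) (b3 j) (d 0)‖ ^ 2 ≤ (1 / 50) ^ 2 := by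
      have := hrough' j
      gcongr
    constructor
    · exact abs_le_of_sq_le_sq (by nlinarith [sq_nonneg (inner ℝ (d j) (J (d 0)) - b3 j : ℝ)])
        (by norm_num)
    · exact abs_le_of_sq_le_sq (by nlinarith [sq_nonneg (inner ℝ (d j) (d 0) - a3 j : ℝ)])
        (by norm_num)
  have hunit : ∀ j, (inner ℝ (d j) (d 0) : ℝ) ^ 2 + (inner ℝ (d j) (J (d 0)) : ℝ) ^ 2 = 1 := by
    intro j
    have h1 := Arc.norm_sq_frame h0 (inner ℝ (d j) (d 0)) (inner ℝ (d j) (J (d 0)))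
    rw [← frame_eq h0 (d j), hd j] at h1
    linarith
  have hS1 : |1 + inner ℝ (d 1) (d 0) + inner ℝ (d 2) (d 0)| ≤ s := by
    have h1 : (1 : ℝ) + inner ℝ (d 1) (d 0) + inner ℝ (d 2) (d 0) = inner ℝ (∑ j, d j) (d 0) := by
      rw [sum_inner, Fin.sum_univ_three, real_inner_self_eq_norm_sq, h0]; norm_num
    rw [h1]
    have h2 := abs_real_inner_le_norm (∑ j, d j) (d 0)
    rw [h0, mul_one] at h2
    exact h2.trans hs
  have hS2 : |inner ℝ (d 1) (J (d 0)) + inner ℝ (d 2) (J (d 0))| ≤ s := by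
    have h1 : (inner ℝ (d 1) (J (d 0)) : ℝ) + inner ℝ (d 2) (J (d 0)) =
        inner ℝ (∑ j, d j) (J (d 0)) := by
      rw [sum_inner, Fin.sum_univ_three, inner_J_self]; ring
    rw [h1]
    have h2 := abs_real_inner_le_norm (∑ j, d j) (J (d 0))
    rw [norm_J, h0, mul_one] at h2
    exact h2.trans hs
  obtain ⟨h1a, h1b⟩ := hin 1
  obtain ⟨h2a, h2b⟩ := hin 2
  have ea1 : a3 1 = -(1 / 2) := by simp [a3]
  have ea2 : a3 2 = -(1 / 2) := by simp [a3]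
  have eb1 : b3 1 = Real.sqrt 3 / 2 := by simp [b3]
  have eb2 : b3 2 = -(Real.sqrt 3 / 2) := by simp [b3]
  rw [ea1, sub_neg_eq_add] at h1a
  rw [ea2, sub_neg_eq_add] at h2a
  rw [eb1] at h1b
  rw [eb2, sub_neg_eq_add] at h2b
  refine abs_le_of_sq_le_sq' ?_ (by positivity) |>.2
  rw [norm_sub_rt_sq h0]
  fin_cases j
  · simp only [Fin.zero_eta, a3, b3, Matrix.cons_val_zero, real_inner_self_eq_norm_sq, h0, inner_J_self]
    nlinarith [sq_nonneg s]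
  · simp only [Fin.mk_one]
    rw [ea1, eb1, sub_neg_eq_add]
    exact coord_120 (hunit 1) (hunit 2) hs1 hS1 hS2 h1a h1b h2a h2b
  · simp only [Fin.reduceFinMk]
    rw [ea2, eb2, sub_neg_eq_add, sub_neg_eq_add]
    have h := coord_120 (c₁ := inner ℝ (d 2) (d 0)) (s₁ := -inner ℝ (d 2) (J (d 0)))
      (c₂ := inner ℝ (d 1) (d 0)) (s₂ := -inner ℝ (d 1) (J (d 0))) (s := s)
      (by rw [neg_sq]; exact hunit 2) (by rw [neg_sq]; exact hunit 1) hs1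
      (by rw [add_right_comm]; exact hS1)
      (by rw [← neg_add, abs_neg, add_comm]; exact hS2) h2a
      (by rw [← abs_neg]; convert h2b using 2; ring) h1a
      (by rw [← abs_neg]; convert h1b using 2; ring)
    refine le_of_eq_of_le ?_ h
    ring

end Crest.Agent.R135.StarP
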