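import Crest.Agent.R135.StarProp1
import Crest.Agent.R135.EpsExc1

/-!
# R135, star_prop, part 2: annular two-sided closeness at a good scale (helper560)
-/

set_option autoImplicit false

open MeasureTheory Set Filter Topology Metric
open scoped ENNReal NNReal

namespace Crest.Agent.R135.StarP

open Arc

/-- closeness to the star in the annulus `σ/3 ≤ |z - x| ≤ σ` -/
def AnnStar {ι : Type*} (a b : ι → ℝ) (K : Set E2) (x e : E2) (σ E : ℝ) : Prop :=
  ‖e‖ = 1 ∧
  (∀ z ∈ K, σ / 3 ≤ dist z x → dist z x ≤ σ →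
    ∃ k, dist z (x + dist z x • rt (a k) (b k) e) ≤ E) ∧
  (∀ k, ∀ t : ℝ, σ / 3 ≤ t → t ≤ σ → ∃ z ∈ K, dist z (x + t • rt (a k) (b k) e) ≤ E)

/-- the data at a good scale `t` -/
structure GoodScale (K : Set E2) (x : E2) (t E : ℝ) (e0 : E2) (p : Fin 3 → E2) : Prop where
  ht : 0 < t
  hE : 0 < E
  hEt : E ≤ t / 10000
  mem : x ∈ K
  he0 : ‖e0‖ = 1
  sph : K ∩ sphere x t = Set.range p
  rough : ∀ k, dist (p k) (x + t • rt (a3 k) (b3 k) e0) ≤ t / 100
  conn : IsPreconnected (K ∩ closedBall x t)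
  low : ∀ ρ, 0 < ρ → ρ ≤ t → ENNReal.ofReal (3 * ρ) ≤ len (K ∩ ball x ρ)
  up : ∀ p₀ ∈ closedBall x (t / 2),
    len (K ∩ closedBall x t) ≤ ENNReal.ofReal (∑ j, dist (p j) p₀ + E)

/-- a point with small excess of the sum of the distances is close to the ray -/
theorem near_ray {x d w : E2} {t h : ℝ} (hd : ‖d‖ = 1)
    (hw : dist w x + dist w (x + t • d) ≤ t + h) :
    dist w (x + dist w x • d) ^ 2 ≤ 2 * dist w x * h := by
  set A := dist w x with hA
  have hA' : ‖w - x‖ = A := by rw [hA, dist_eq_norm]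
  have h1 : dist w (x + A • d) ^ 2 = 2 * A * (A - inner ℝ (w - x) d) := by
    have e1 : w - (x + A • d) = (w - x) - A • d := by abel
    rw [dist_eq_norm, e1, norm_sub_sq_real, norm_smul, hd, hA', inner_smul_right, Real.norm_eq_abs,
      mul_one, sq_abs]
    ring
  have h2 : t - inner ℝ (w - x) d ≤ dist w (x + t • d) := by
    have e1 : w - (x + t • d) = (w - x) - t • d := by abel
    have h3 := abs_real_inner_le_norm ((w - x) - t • d) d
    rw [hd, mul_one, inner_sub_left, inner_smul_left, real_inner_self_eq_norm_sq, hd] at h3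
    rw [dist_eq_norm, e1]
    have h4 := neg_abs_le (inner ℝ (w - x) d - (starRingEnd ℝ) t * 1 ^ 2)
    simp only [conj_trivial] at h3 h4
    linarith
  have h5 : A - inner ℝ (w - x) d ≤ h := by linarith
  rw [h1]
  exact mul_le_mul_of_nonneg_left h5 (by positivity)

namespace GoodScale

variable {K : Set E2} {x : E2} {t E : ℝ} {e0 : E2} {p : Fin 3 → E2}

theorem mem_p (G : GoodScale K x t E e0 p) (j : Fin 3) : p j ∈ K ∧ dist (p j) x = t := by
  have : p j ∈ K ∩ sphere x t := by rw [G.sph]; exact mem_range_self j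
  exact ⟨this.1, this.2⟩

theorem mem_p' (G : GoodScale K x t E e0 p) (j : Fin 3) : p j ∈ K ∩ closedBall x t :=
  ⟨(G.mem_p j).1, (G.mem_p j).2.le⟩

theorem mem_x (G : GoodScale K x t E e0 p) : x ∈ K ∩ closedBall x t :=
  ⟨G.mem, mem_closedBall_self G.ht.le⟩

/-- the points on the sphere are far from each other -/
theorem sep (G : GoodScale K x t E e0 p) {i j : Fin 3} (hij : i ≠ j) :
    168 / 100 * t ≤ dist (p i) (p j) := by
  have ht := G.ht
  obtain ⟨h3a, -, h3c⟩ := sqrt3_bounds
  have h1 : dist (x + t • rt (a3 i) (b3 i) e0) (x + t • rt (a3 j) (b3 j) e0) ^ 2 = 3 * t ^ 2 := by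
    rw [dist_eq_norm, add_sub_add_left_eq_sub, ← smul_sub, norm_smul, Real.norm_eq_abs,
      abs_of_pos ht, mul_pow, norm_sub_sq_real, norm_rt3, norm_rt3, G.he0, inner_rt G.he0,
      sep3 i j hij]
    ring
  have h2 : 17 / 10 * t ≤ dist (x + t • rt (a3 i) (b3 i) e0) (x + t • rt (a3 j) (b3 j) e0) := by
    refine (abs_le_of_sq_le_sq' ?_ dist_nonneg).2
    rw [h1]; nlinarith [sq_nonneg t]
  have h3 := G.rough i
  have h4 := G.rough j
  have h5 := dist_triangle4 (x + t • rt (a3 i) (b3 i) e0) (p i) (p j)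
    (x + t • rt (a3 j) (b3 j) e0)
  rw [dist_comm (x + t • rt (a3 i) (b3 i) e0) (p i)] at h5
  linarith

/-- **far**: a point of `K` outside the core has small excess with respect to one of the rays -/
theorem far (G : GoodScale K x t E e0 p) {w : E2} (hw : w ∈ K) (hw1 : t / 6 ≤ dist w x)
    (hw2 : dist w x ≤ t) : ∃ j, dist w x + dist w (p j) ≤ t + 4 * E := by
  classical
  have ht := G.ht
  have hE := G.hE
  have hEt := G.hEt
  by_contra hcon
  push Not at hcon
  set Q := K ∩ closedBall x t with hQ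
  set r0 := dist w x - 2 * E with hr0
  have hr0p : 0 < r0 := by rw [hr0]; linarith
  have hr0t : r0 < t := by rw [hr0]; linarith
  have hwQ : w ∈ Q := ⟨hw, hw2⟩
  let B : Option (Option (Fin 3)) → Set E2 := fun o => match o with
    | none => ball w (2 * E)
    | some none => ball x r0
    | some (some j) => ball (p j) (t - r0)
  have hdwx : Disjoint (ball w (2 * E)) (ball x r0) :=
    ball_disjoint_ball (by rw [hr0]; linarith)
  have hdwp : ∀ j, Disjoint (ball w (2 * E)) (ball (p j) (t - r0)) := fun j =>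
    ball_disjoint_ball (by have := hcon j; rw [hr0]; linarith)
  have hdxp : ∀ j, Disjoint (ball x r0) (ball (p j) (t - r0)) := fun j =>
    ball_disjoint_ball (by rw [dist_comm, (G.mem_p j).2]; linarith)
  have hdpp : ∀ i j, i ≠ j → Disjoint (ball (p i) (t - r0)) (ball (p j) (t - r0)) :=
    fun i j hij => ball_disjoint_ball (by have := G.sep hij; rw [hr0]; linarith)
  have hsum := sum_measure_inter_le (Measure.hausdorffMeasure 1) Q
    (Finset.univ : Finset (Option (Option (Fin 3)))) B
    (by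
      rintro (_ | _ | j) _ <;> exact measurableSet_ball)
    (by
      rintro (_ | _ | i) _ (_ | _ | j) _ hij
      · exact absurd rfl hij
      · exact hdwx
      · exact hdwp j
      · exact hdwx.symm
      · exact absurd rfl hij
      · exact hdxp j
      · exact (hdwp i).symm
      · exact (hdxp i).symm
      · exact hdpp i j (fun h => hij (by rw [h])))
  rw [Fintype.sum_option, Fintype.sum_option, Fin.sum_univ_three] at hsum
  have hB1 : ENNReal.ofReal (2 * E) ≤ Measure.hausdorffMeasure 1 (Q ∩ B none) :=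
    le_hausdorff_inter_ball_of_isPreconnected Q G.conn hwQ G.mem_x (by linarith)
  have hB2 : ENNReal.ofReal (3 * r0) ≤ Measure.hausdorffMeasure 1 (Q ∩ B (some none)) := by
    have h1 := G.low r0 hr0p hr0t.le
    refine h1.trans (measure_mono ?_)
    rintro z ⟨hz1, hz2⟩
    exact ⟨⟨hz1, (mem_ball.1 hz2).le.trans hr0t.le⟩, hz2⟩
  have hB3 : ∀ j, ENNReal.ofReal (t - r0) ≤ Measure.hausdorffMeasure 1 (Q ∩ B (some (some j))) :=
    fun j => le_hausdorff_inter_ball_of_isPreconnected Q G.conn (G.mem_p' j) G.mem_x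
      (by rw [(G.mem_p j).2]; linarith)
  have hup := G.up x (mem_closedBall_self (by positivity))
  have hup2 : ∑ j, dist (p j) x = 3 * t := by
    rw [Fin.sum_univ_three, (G.mem_p 0).2, (G.mem_p 1).2, (G.mem_p 2).2]; ring
  rw [hup2] at hup
  have h := (add_le_add hB1 (add_le_add hB2 (add_le_add (add_le_add (hB3 0) (hB3 1)) (hB3 2)))).trans
    (hsum.trans hup)
  have ht0 : 0 ≤ t - r0 := by linarith
  rw [← ENNReal.ofReal_add ht0 ht0, ← ENNReal.ofReal_add (by positivity) ht0,
    ← ENNReal.ofReal_add (by positivity) (by positivity),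
    ← ENNReal.ofReal_add (by positivity) (by positivity),
    ENNReal.ofReal_le_ofReal_iff (by positivity)] at h
  linarith

/-- the directions of the points on the sphere -/
noncomputable def dr (_G : GoodScale K x t E e0 p) (j : Fin 3) : E2 := t⁻¹ • (p j - x)

theorem p_eq (G : GoodScale K x t E e0 p) (j : Fin 3) : p j = x + t • G.dr j := by
  rw [dr, smul_smul, mul_inv_cancel₀ G.ht.ne', one_smul]; abel

theorem norm_dr (G : GoodScale K x t E e0 p) (j : Fin 3) : ‖G.dr j‖ = 1 := by
  rw [dr, norm_smul, ← dist_eq_norm, (G.mem_p j).2, norm_inv, Real.norm_eq_abs, abs_of_pos G.ht,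
    inv_mul_cancel₀ G.ht.ne']

theorem rough_dr (G : GoodScale K x t E e0 p) (j : Fin 3) :
    ‖G.dr j - rt (a3 j) (b3 j) e0‖ ≤ 1 / 100 := by
  have h := G.rough j
  rw [G.p_eq j, dist_eq_norm, add_sub_add_left_eq_sub, ← smul_sub, norm_smul, Real.norm_eq_abs,
    abs_of_pos G.ht] at h
  have ht := G.ht
  rw [← mul_le_mul_iff_right₀ ht]
  linarith

theorem sum_rt3 (v : E2) : ∑ j, rt (a3 j) (b3 j) v = 0 := by
  rw [Fin.sum_univ_three]
  ext i; fin_cases i <;> simp [rt, a3, b3] <;> ring

theorem norm_sum_dr_rough (G : GoodScale K x t E e0 p) : ‖∑ j, G.dr j‖ ≤ 3 / 100 := by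
  have h1 : ∑ j, G.dr j = ∑ j, (G.dr j - rt (a3 j) (b3 j) e0) := by
    rw [Finset.sum_sub_distrib, sum_rt3, sub_zero]
  rw [h1]
  refine (norm_sum_le _ _).trans ?_
  rw [Fin.sum_univ_three]
  linarith [G.rough_dr 0, G.rough_dr 1, G.rough_dr 2]

/-- the sum of the directions is small -/
theorem norm_sum_dr (G : GoodScale K x t E e0 p) : t * ‖∑ j, G.dr j‖ ^ 2 ≤ 6 * E := by
  have ht := G.ht
  have hE := G.hE
  have h1 := sum_dist_le (x := x) ht.le G.norm_dr
  have h2 : x + (t / 3) • ∑ j, G.dr j ∈ closedBall x (t / 2) := by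
    rw [mem_closedBall, dist_eq_norm, add_sub_cancel_left, norm_smul, Real.norm_eq_abs,
      abs_of_pos (by positivity)]
    have := G.norm_sum_dr_rough
    nlinarith
  have h3 := G.up _ h2
  have h4 : ENNReal.ofReal (3 * t) ≤ len (K ∩ closedBall x t) :=
    (G.low t ht le_rfl).trans (measure_mono (inter_subset_inter_right _ ball_subset_closedBall))
  have h5 := h4.trans h3
  rw [ENNReal.ofReal_le_ofReal_iff (by positivity)] at h5
  have h6 : ∑ j, dist (p j) (x + (t / 3) • ∑ j, G.dr j) =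
      ∑ j, dist (x + t • G.dr j) (x + (t / 3) • ∑ j, G.dr j) :=
    Finset.sum_congr rfl fun j _ => by rw [← G.p_eq j]
  rw [h6] at h5
  linarith

theorem inner_dr (G : GoodScale K x t E e0 p) {i j : Fin 3} (hij : i ≠ j) :
    (inner ℝ (G.dr i) (G.dr j) : ℝ) ≤ 0 := by
  have h1 := G.sep hij
  have ht := G.ht
  rw [G.p_eq i, G.p_eq j, dist_eq_norm, add_sub_add_left_eq_sub, ← smul_sub, norm_smul,
    Real.norm_eq_abs, abs_of_pos ht] at h1
  have h2 : 168 / 100 ≤ ‖G.dr i - G.dr j‖ := by
    rw [← mul_le_mul_iff_right₀ ht]; linarith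
  have h3 := norm_sub_sq_real (G.dr i) (G.dr j)
  rw [G.norm_dr, G.norm_dr] at h3
  nlinarith

/-- **The annular star at a good scale.** -/
theorem annStar (G : GoodScale K x t E e0 p) {σ : ℝ} (h1 : σ ≤ t) (h2 : t ≤ 2 * σ) :
    AnnStar a3 b3 K x (G.dr 0) σ (9 * Real.sqrt (E * t)) := by
  have ht := G.ht
  have hE := G.hE
  have hEt := G.hEt
  set M := Real.sqrt (E * t) with hM
  have hM0 : 0 < M := Real.sqrt_pos.2 (by positivity)
  have hM2 : M ^ 2 = E * t := Real.sq_sqrt (by positivity)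
  have hMt : M ≤ t / 100 := by
    refine (abs_le_of_sq_le_sq' ?_ (by positivity)).2
    rw [hM2]; nlinarith
  have hEM : E ≤ M / 100 := by
    refine (abs_le_of_sq_le_sq' ?_ (by positivity)).2
    rw [div_pow, hM2]; nlinarith
  -- the angles
  have hang : ∀ j, t * ‖G.dr j - rt (a3 j) (b3 j) (G.dr 0)‖ ≤ 5 * M := by
    intro j
    have h3 := three_dirs G.norm_dr G.rough_dr le_rfl G.norm_sum_dr_rough j
    have h4 : t * ‖∑ j, G.dr j‖ ≤ 5 / 2 * M := by
      refine (abs_le_of_sq_le_sq' ?_ (by positivity)).2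
      have := G.norm_sum_dr
      rw [mul_pow, mul_pow, hM2]
      nlinarith
    nlinarith
  -- far in the form needed
  have hfar : ∀ w ∈ K, t / 6 ≤ dist w x → dist w x ≤ t →
      ∃ j, dist w x + dist w (p j) ≤ t + 4 * E ∧ dist w (x + dist w x • G.dr j) ≤ 3 * M := by
    intro w hw hw1 hw2
    obtain ⟨j, hj⟩ := G.far hw hw1 hw2
    refine ⟨j, hj, ?_⟩
    rw [G.p_eq j] at hj
    have h3 := near_ray (G.norm_dr j) hj
    refine (abs_le_of_sq_le_sq' ?_ (by positivity)).2
    rw [mul_pow, hM2]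
    have h4 : 2 * dist w x * (4 * E) ≤ 2 * t * (4 * E) := by gcongr
    nlinarith
  have hconv : ∀ (j : Fin 3) (s : ℝ), 0 ≤ s → s ≤ t →
      dist (x + s • G.dr j) (x + s • rt (a3 j) (b3 j) (G.dr 0)) ≤ 5 * M := by
    intro j s hs hst
    rw [dist_eq_norm, add_sub_add_left_eq_sub, ← smul_sub, norm_smul, Real.norm_eq_abs,
      abs_of_nonneg hs]
    exact (mul_le_mul_of_nonneg_right hst (norm_nonneg _)).trans (hang j)
  refine ⟨G.norm_dr 0, ?_, ?_⟩
  · intro z hz hz1 hz2
    obtain ⟨j, -, hj⟩ := hfar z hz (by linarith) (by linarith)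
    refine ⟨j, ?_⟩
    have h3 := hconv j (dist z x) dist_nonneg (by linarith)
    have h4 := dist_triangle z (x + dist z x • G.dr j) (x + dist z x • rt (a3 j) (b3 j) (G.dr 0))
    linarith
  · intro j ρ hρ1 hρ2
    -- a point at distance `t - ρ` from `p j`
    have hcont : ContinuousOn (fun v : E2 => dist v (p j)) (K ∩ closedBall x t) := by fun_prop
    have hiv := G.conn.intermediate_value (G.mem_p' j) G.mem_x hcont
    have hmem : t - ρ ∈ Icc (dist (p j) (p j)) (dist x (p j)) := by
      rw [dist_self, dist_comm x, (G.mem_p j).2]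
      constructor <;> linarith
    obtain ⟨z, hz, hzd⟩ := hiv hmem
    simp only at hzd
    have hz1 : ρ ≤ dist z x := by
      have h3 := dist_triangle_left (p j) x z
      rw [(G.mem_p j).2] at h3
      linarith
    obtain ⟨i, hi1, hi2⟩ := hfar z hz.1 (by linarith) hz.2
    have hij : i = j := by
      by_contra hij
      have h3 : t ≤ dist (x + dist z x • G.dr i) (p j) := by
        refine (abs_le_of_sq_le_sq' ?_ dist_nonneg).2
        rw [G.p_eq j, dist_eq_norm, add_sub_add_left_eq_sub, norm_sub_sq_real, norm_smul, norm_smul,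
          G.norm_dr, G.norm_dr, inner_smul_left, inner_smul_right, Real.norm_eq_abs,
          Real.norm_eq_abs, mul_one, mul_one, sq_abs, sq_abs]
        simp only [conj_trivial]
        have h4 := G.inner_dr hij
        have h5 : dist z x * (t * inner ℝ (G.dr i) (G.dr j)) ≤ 0 := by
          apply mul_nonpos_of_nonneg_of_nonpos dist_nonneg
          exact mul_nonpos_of_nonneg_of_nonpos ht.le h4
        nlinarith [sq_nonneg (dist z x)]
      have h4 := dist_triangle_left (x + dist z x • G.dr i) (p j) z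
      linarith
    subst hij
    refine ⟨z, hz.1, ?_⟩
    have h3 : dist (x + dist z x • G.dr i) (x + ρ • G.dr i) ≤ 4 * E := by
      rw [dist_eq_norm, add_sub_add_left_eq_sub, ← sub_smul, norm_smul, G.norm_dr, mul_one,
        Real.norm_eq_abs, abs_of_nonneg (by linarith)]
      linarith
    have h4 := hconv i ρ (by linarith) (by linarith)
    have h5 := dist_triangle4 z (x + dist z x • G.dr i) (x + ρ • G.dr i)
      (x + ρ • rt (a3 i) (b3 i) (G.dr 0))
    linarith

end GoodScale

end Crest.Agent.R135.StarP
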