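import Crest.Agent.R135.StarProp2

/-!
# R135, star_prop, part 3: dyadic chain of annular stars (helper560)
-/

set_option autoImplicit false

open MeasureTheory Set Filter Topology Metric
open scoped ENNReal NNReal

namespace Crest.Agent.R135.StarP

open Arc

variable {ι : Type*} {a b : ι → ℝ} {K : Set E2} {x : E2}

theorem AnnStar.rot (hG : RotGroup a b) {e : E2} {ρ E : ℝ} (h : AnnStar a b K x e ρ E) (k : ι) :
    AnnStar a b K x (rt (a k) (b k) e) ρ E := by
  obtain ⟨h0, h1, h2⟩ := h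
  refine ⟨by rw [norm_rt (hG.unit k), h0], ?_, ?_⟩
  · intro z hz hd1 hd2
    obtain ⟨j, hd'⟩ := h1 z hz hd1 hd2
    obtain ⟨k', hk1, hk2⟩ := hG.inv k
    obtain ⟨l, hl1, hl2⟩ := hG.mul j k'
    refine ⟨l, ?_⟩
    have : rt (a l) (b l) (rt (a k) (b k) e) = rt (a j) (b j) e := by
      rw [rt_rt, hl1, hl2, hk1, hk2]
      have hu := hG.unit k
      congr 1
      · linear_combination (a j) * hu
      · linear_combination (b j) * hu
    rw [this]; exact hd'
  · intro j t ht htρ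
    obtain ⟨l, hl1, hl2⟩ := hG.mul j k
    obtain ⟨z, hz, hd⟩ := h2 l t ht htρ
    refine ⟨z, hz, ?_⟩
    rw [rt_rt, ← hl1, ← hl2]; exact hd

theorem AnnStar.mono {e : E2} {ρ E E' : ℝ} (h : AnnStar a b K x e ρ E) (hE : E ≤ E') :
    AnnStar a b K x e ρ E' := by
  obtain ⟨h0, h1, h2⟩ := h
  refine ⟨h0, fun z hz hd1 hd2 => ?_, fun k t ht1 ht2 => ?_⟩
  · obtain ⟨k, hk⟩ := h1 z hz hd1 hd2
    exact ⟨k, hk.trans hE⟩
  · obtain ⟨z, hz, hd⟩ := h2 k t ht1 ht2
    exact ⟨z, hz, hd.trans hE⟩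

theorem AnnStar.step (hG : RotGroup a b) {e e' : E2} {σ E E' : ℝ} (h : AnnStar a b K x e σ E)
    (h' : AnnStar a b K x e' (σ / 2) E') (hσ : 0 < σ) (hE' : E' ≤ σ / 12) :
    ∃ e'', AnnStar a b K x e'' (σ / 2) E' ∧ dist e'' e ≤ 12 / 5 * (E + 2 * E') / σ := by
  obtain ⟨i, hi1, hi2⟩ := hG.one
  set ρ := 5 / 12 * σ with hρ
  have hρ0 : 0 < ρ := by positivity
  obtain ⟨z, hz, hd⟩ := h'.2.2 i ρ (by rw [hρ]; linarith) (by rw [hρ]; linarith)
  rw [hi1, hi2, rt_one] at hd
  have h0 : dist (x + ρ • e') x = ρ := by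
    rw [dist_eq_norm, add_sub_cancel_left, norm_smul, h'.1, mul_one, Real.norm_eq_abs,
      abs_of_pos hρ0]
  have hz1 : dist z x ≤ ρ + E' := by linarith [dist_triangle z (x + ρ • e') x]
  have hz2 : ρ - E' ≤ dist z x := by linarith [dist_triangle_left (x + ρ • e') x z]
  obtain ⟨k, hd2⟩ := h.2.1 z hz (by rw [hρ] at hz2; linarith) (by rw [hρ] at hz1; linarith)
  set s := dist z x with hs
  have hη : ‖ρ • e' - s • rt (a k) (b k) e‖ ≤ E + E' := by
    have h3 := dist_triangle_left (x + ρ • e') (x + s • rt (a k) (b k) e) z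
    rw [dist_eq_norm, add_sub_add_left_eq_sub] at h3
    linarith
  have hnr : ‖rt (a k) (b k) e‖ = 1 := by rw [norm_rt (hG.unit k), h.1]
  have hst : |ρ - s| ≤ E' := by rw [abs_le]; constructor <;> linarith
  have h5 : ‖ρ • (e' - rt (a k) (b k) e)‖ ≤ E + 2 * E' := by
    have : ρ • (e' - rt (a k) (b k) e) =
        (ρ • e' - s • rt (a k) (b k) e) - (ρ - s) • rt (a k) (b k) e := by
      rw [smul_sub, sub_smul]; abel
    rw [this]
    refine (norm_sub_le _ _).trans ?_
    rw [norm_smul, hnr, mul_one, Real.norm_eq_abs]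
    linarith
  rw [norm_smul, Real.norm_eq_abs, abs_of_pos hρ0] at h5
  obtain ⟨k', hk1, hk2⟩ := hG.inv k
  refine ⟨rt (a k') (b k') e', h'.rot hG k', ?_⟩
  have h6 : rt (a k') (b k') (rt (a k) (b k) e) = e := by
    rw [rt_rt, hk1, hk2]
    have hu := hG.unit k
    have e1 : a k * a k - -b k * b k = 1 := by linear_combination hu
    have e2 : a k * b k + -b k * a k = 0 := by ring
    rw [e1, e2, rt_one]
  have h7 : dist (rt (a k') (b k') e') e = ‖e' - rt (a k) (b k) e‖ := by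
    conv_lhs => rw [← h6]
    rw [dist_eq_norm, rt_sub, norm_rt (hG.unit k')]
  rw [h7, le_div_iff₀ hσ]
  rw [hρ] at h5
  linarith

/-- **Dyadic chain.** -/
theorem starAt_of_annStar (hG : RotGroup a b) {A γ r R0 : ℝ} (hx : x ∈ K) (hγ : 0 < γ)
    (hA : 0 < A) (hr : 0 < r) (hsmall : A * (R0 / r) ^ γ ≤ 1 / 12)
    (h : ∀ σ, 0 < σ → σ ≤ R0 → ∃ e, AnnStar a b K x e σ (A * σ * (σ / r) ^ γ))
    {σ : ℝ} (hσ : 0 < σ) (hσR : σ ≤ R0) :
    ∃ e, StarAt a b K x e σ ((A + 8 * A / (1 - (2 : ℝ) ^ (-γ))) * σ * (σ / r) ^ γ) := by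
  set q : ℝ := (2:ℝ) ^ (-γ) with hq
  have hq0 : 0 < q := by positivity
  have hq1 : q < 1 := by
    rw [hq]; exact Real.rpow_lt_one_of_one_lt_of_neg (by norm_num) (by linarith)
  have h1q : 0 < 1 - q := by linarith
  set R : ℕ → ℝ := fun n => σ * (1/2 : ℝ) ^ n with hR
  have hR0 : ∀ n, 0 < R n := fun n => by positivity
  have hRs : ∀ n, R (n+1) = R n / 2 := fun n => by simp only [hR, pow_succ]; ring
  have hRle : ∀ n, R n ≤ σ := fun n => by
    have : (1/2:ℝ) ^ n ≤ 1 := pow_le_one₀ (by norm_num) (by norm_num)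
    simp only [hR]; nlinarith
  set B : ℝ := (σ / r) ^ γ with hB
  have hB0 : 0 < B := by positivity
  have hRγ : ∀ n, (R n / r) ^ γ = B * q ^ n := by
    intro n
    have e1 : R n / r = (σ / r) * (1 / 2 : ℝ) ^ n := by simp only [hR]; ring
    rw [e1, Real.mul_rpow (by positivity) (by positivity)]
    congr 1
    rw [hq, ← Real.rpow_natCast, ← Real.rpow_natCast, ← Real.rpow_mul (by norm_num),
      ← Real.rpow_mul (by norm_num), one_div, Real.inv_rpow (by norm_num),
      ← Real.rpow_neg (by norm_num)]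
    congr 1; ring
  have hABle : A * B ≤ 1 / 12 := by
    refine le_trans ?_ hsmall
    have : B ≤ (R0 / r) ^ γ := by
      rw [hB]
      exact Real.rpow_le_rpow (by positivity) (by gcongr) hγ.le
    gcongr
  have hqn : ∀ n : ℕ, q ^ n ≤ 1 := fun n => pow_le_one₀ hq0.le hq1.le
  obtain ⟨e0, he0⟩ := h σ hσ hσR
  have hR00 : R 0 = σ := by simp [hR]
  obtain ⟨s, hs1, hs2⟩ := exists_seq_dep
    (P := fun n e => AnnStar a b K x e (R n) (A * R n * (B * q ^ n)))
    (Q := fun n e e' => dist e' e ≤ (8 * A * B) * q ^ n)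
    (x := e0) (by rw [hR00, pow_zero, mul_one]; exact he0) (by
      intro n e he
      obtain ⟨e', he'⟩ := h (R (n+1)) (hR0 _) ((hRle _).trans hσR)
      rw [hRγ, hRs] at he'
      have hq' := hqn (n + 1)
      have hqp : 0 < q ^ n := by positivity
      have hqs : q ^ (n + 1) ≤ q ^ n := by rw [pow_succ]; nlinarith
      have hRn := hR0 n
      obtain ⟨e'', h1, h2⟩ := he.step hG he' hRn (by
        have : A * (R n / 2) * (B * q ^ (n + 1)) = (A * B) * q ^ (n + 1) * (R n / 2) := by ring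
        rw [this]
        have h3 : (A * B) * q ^ (n + 1) ≤ 1 / 12 * 1 := by gcongr
        nlinarith)
      rw [hRs]
      refine ⟨e'', h1, h2.trans ?_⟩
      rw [div_le_iff₀ hRn]
      have h4 : A * (R n / 2) * (B * q ^ (n + 1)) ≤ A * (R n / 2) * (B * q ^ n) := by gcongr
      have h5 : 0 < A * R n * (B * q ^ n) := by positivity
      linarith)
  have hgeo : ∀ n, dist (s n) (s (n+1)) ≤ (8 * A * B) * q ^ n := fun n => by
    rw [dist_comm]; exact hs2 n
  have hbd : ∀ n, dist (s n) (s 0) ≤ 8 * A * B / (1 - q) := by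
    intro n
    rw [dist_comm]
    have h1 : dist (s 0) (s n) ≤ ∑ i ∈ Finset.range n, (8 * A * B) * q ^ i :=
      dist_le_range_sum_of_dist_le n (fun {k} _ => hgeo k)
    refine h1.trans ?_
    rw [← Finset.mul_sum, div_eq_mul_inv]
    apply mul_le_mul_of_nonneg_left _ (by positivity)
    rw [← tsum_geometric_of_lt_one hq0.le hq1]
    exact (summable_geometric_of_lt_one hq0.le hq1).sum_le_tsum _ (fun i _ => by positivity)
  set D : ℝ := 8 * A / (1 - q) with hD
  have hD0 : 0 < D := by positivity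
  have hbd2 : ∀ n, dist (s n) (s 0) ≤ D * B := fun n => (hbd n).trans (le_of_eq (by rw [hD]; ring))
  have hAn : ∀ n, A * R n * (B * q ^ n) ≤ A * σ * B := by
    intro n
    have h1 := hRle n
    have h2 := hqn n
    calc A * R n * (B * q ^ n) ≤ A * σ * (B * 1) := by gcongr
      _ = A * σ * B := by ring
  -- every `t ∈ (0,σ]` is in some annulus
  have hann : ∀ t, 0 < t → t ≤ σ → ∃ n, R n / 3 ≤ t ∧ t ≤ R n := by
    intro t ht htσ
    obtain ⟨n, hn1, hn2⟩ := exists_nat_pow_near_of_lt_one (y := (1/2:ℝ)) (x := t / σ)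
      (by positivity) (by rw [div_le_one hσ]; exact htσ) (by norm_num) (by norm_num)
    refine ⟨n, ?_, ?_⟩
    · rw [lt_div_iff₀ hσ, pow_succ] at hn1
      simp only [hR]; linarith
    · rw [div_le_iff₀ hσ] at hn2
      simp only [hR]; linarith
  have hmove : ∀ (k : ι) (n : ℕ) (t : ℝ), 0 ≤ t → t ≤ σ →
      dist (x + t • rt (a k) (b k) (s n)) (x + t • rt (a k) (b k) (s 0)) ≤ σ * (D * B) := by
    intro k n t ht htσ
    rw [dist_eq_norm, add_sub_add_left_eq_sub, ← smul_sub, rt_sub, norm_smul,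
      norm_rt (hG.unit k), Real.norm_eq_abs, abs_of_nonneg ht, ← dist_eq_norm]
    have := hbd2 n
    gcongr
  refine ⟨s 0, (hs1 0).1, ?_, ?_⟩
  · intro z hz hd
    rcases (dist_nonneg : 0 ≤ dist z x).eq_or_lt with h0 | h0
    · obtain ⟨i, hi⟩ := hG.one
      refine ⟨i, 0, le_rfl, ?_⟩
      rw [zero_smul, add_zero, ← h0]
      positivity
    · obtain ⟨n, hn1, hn2⟩ := hann _ h0 hd
      obtain ⟨k, hk⟩ := (hs1 n).2.1 z hz hn1 hn2
      refine ⟨k, dist z x, h0.le, ?_⟩
      have h1 := hmove k n (dist z x) h0.le hd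
      have h2 := dist_triangle z (x + dist z x • rt (a k) (b k) (s n))
        (x + dist z x • rt (a k) (b k) (s 0))
      have h3 := hAn n
      calc _ ≤ A * σ * B + σ * (D * B) := by linarith
        _ = _ := by ring
  · intro k t ht htσ
    rcases ht.eq_or_lt with h0 | h0
    · refine ⟨x, hx, ?_⟩
      rw [← h0, zero_smul, add_zero, dist_self]
      positivity
    · obtain ⟨n, hn1, hn2⟩ := hann _ h0 htσ
      obtain ⟨z, hz, hk⟩ := (hs1 n).2.2 k t hn1 hn2
      refine ⟨z, hz, ?_⟩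
      have h1 := hmove k n t ht htσ
      have h2 := dist_triangle z (x + t • rt (a k) (b k) (s n))
        (x + t • rt (a k) (b k) (s 0))
      have h3 := hAn n
      calc _ ≤ A * σ * B + σ * (D * B) := by linarith
        _ = _ := by ring

end Crest.Agent.R135.StarP
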