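import Crest.Agent.R135.CrackCirc
import Crest.Agent.R135.PolarB

/-!
# R135 (TIP): auxiliary one-dimensional lemmas (helper633)
-/

set_option autoImplicit false

open MeasureTheory Set Filter Topology
open scoped Real Interval

noncomputable section

namespace Crest.Agent.R135

theorem IsPrim.shift {a b c : ℝ} {F F1 : ℝ → ℝ} (h : IsPrim (c + a) (c + b) F F1) :
    IsPrim a b (fun x => F (c + x)) (fun x => F1 (c + x)) := by
  refine ⟨?_, fun x hx => ?_⟩
  · have := h.1.comp_add_left c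
    simpa using this
  · have h1 := h.2 (c + x) ⟨by linarith [hx.1], by linarith [hx.2]⟩
    simp only
    rw [intervalIntegral.integral_comp_add_left (fun t => F1 t) c]
    exact h1

theorem IsL2.shift {a b c : ℝ} {f : ℝ → ℝ} (h : IsL2 (c + a) (c + b) f) :
    IsL2 a b (fun x => f (c + x)) := by
  unfold IsL2 at h ⊢
  have hp : MeasurePreserving (fun x : ℝ => c + x) (volume.restrict (Ioc a b))
      (volume.restrict (Ioc (c + a) (c + b))) := by
    have h1 := (measurePreserving_add_left (volume : Measure ℝ) c).restrict_preimage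
      (measurableSet_Ioc (a := c + a) (b := c + b))
    have h2 : (fun x : ℝ => c + x) ⁻¹' (Ioc (c + a) (c + b)) = Ioc a b := by
      ext x; simp
    rw [h2] at h1
    exact h1
  exact h.comp_measurePreserving hp

theorem IsPrim.congr_ae {a b : ℝ} (hab : a ≤ b) {F F1 F2 : ℝ → ℝ} (h : IsPrim a b F F1)
    (he : ∀ᵐ s, s ∈ Ioo a b → F1 s = F2 s) : IsPrim a b F F2 := by
  have hres : ∀ x, x ≤ b → F1 =ᵐ[volume.restrict (Ioc a x)] F2 := by
    intro x hx
    have e : (volume.restrict (Ioc a x) : Measure ℝ) = volume.restrict (Ioo a x) :=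
      (Measure.restrict_congr_set Ioo_ae_eq_Ioc).symm
    rw [Filter.EventuallyEq, e, ae_restrict_iff' measurableSet_Ioo]
    filter_upwards [he] with s hs hs'
    exact hs ⟨hs'.1, hs'.2.trans_le hx⟩
  refine ⟨?_, fun x hx => ?_⟩
  · have h1 := h.1
    rw [intervalIntegrable_iff_integrableOn_Ioc_of_le hab] at h1 ⊢
    exact h1.congr (hres b le_rfl)
  · rw [h.2 x hx, intervalIntegral.integral_of_le hx.1, intervalIntegral.integral_of_le hx.1]
    congr 1
    exact integral_congr_ae (hres x hx.2)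

theorem IsPrim.congr_left {a b : ℝ} {F F' F1 : ℝ → ℝ} (h : IsPrim a b F F1) (hab : a ≤ b)
    (he : ∀ s ∈ Icc a b, F s = F' s) : IsPrim a b F' F1 := by
  refine ⟨h.1, fun x hx => ?_⟩
  rw [← he x hx, ← he a ⟨le_rfl, hab⟩]
  exact h.2 x hx

theorem integral_shift_period {g : ℝ → ℝ} (hg : Function.Periodic g (2 * π)) (a : ℝ) :
    ∫ φ in (0:ℝ)..(2*π), g (a + φ) = ∫ θ in (-π)..π, g θ := by
  rw [intervalIntegral.integral_comp_add_left (fun t => g t) a, add_zero]
  have h := hg.intervalIntegral_add_eq a (-π)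
  rw [h]
  congr 1
  ring

/-- primitive of `e(t)/t` from zero, if `∫_0^ρ e = O(ρ^{3/2})` -/
theorem exists_P {r0 C : ℝ} (hr0 : 0 < r0) (hC : 0 ≤ C) {e : ℝ → ℝ} (he : ∀ s, 0 ≤ e s)
    (hint : ∀ a b, 0 < a → a ≤ b → b ≤ r0 → IntervalIntegrable e volume a b)
    (hbd : ∀ a b, 0 < a → a ≤ b → b ≤ r0 → ∫ s in a..b, e s ≤ C * b ^ (3/2 : ℝ)) :
    ∃ P : ℝ → ℝ, LocPrim r0 P (fun s => e s / s) ∧ (∀ s, 0 < s → s ≤ r0 → 0 ≤ P s) ∧
      ∀ s, 0 < s → s ≤ r0 → P s ≤ (3 * C) * s ^ (1/2 : ℝ) := by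
  set f : ℝ → ℝ := fun s => e s / s with hf
  have hinv : ∀ a b : ℝ, 0 < a → a ≤ b → ContinuousOn (fun s : ℝ => s⁻¹) (uIcc a b) := by
    intro a b ha hab
    apply continuousOn_inv₀.mono
    intro s hs
    rw [uIcc_of_le hab] at hs
    exact (ha.trans_le hs.1).ne'
  have hfint : ∀ a b, 0 < a → a ≤ b → b ≤ r0 → IntervalIntegrable f volume a b := by
    intro a b ha hab hb
    have := (hint a b ha hab hb).mul_continuousOn (hinv a b ha hab)
    exact this
  -- bound on `[a,b]`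
  have hfbd : ∀ a b, 0 < a → a ≤ b → b ≤ r0 → ∫ s in a..b, f s ≤ 3 * C * b ^ (1/2 : ℝ) := by
    intro a b ha hab hb
    have hb0 : 0 < b := ha.trans_le hab
    -- `E(s) = ∫_a^s e`
    set E : ℝ → ℝ := fun s => ∫ t in a..s, e t with hE
    have hEp : IsPrim a b E e := by
      refine ⟨hint a b ha hab hb, fun x hx => ?_⟩
      simp only [hE, intervalIntegral.integral_same, zero_add]
    have hq : IsPrim a b (fun s => s ^ (-1:ℝ)) (fun s => (-1) * s ^ ((-1:ℝ) - 1)) :=
      isPrim_rpow ha hab (-1)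
    have hibp := hEp.mul hab hq
    have h1 := hibp.sub_eq hab
    have hEa : E a = 0 := by simp [hE]
    have i1 : IntervalIntegrable (fun s => s ^ (-1:ℝ) * e s) volume a b := by
      have := hfint a b ha hab hb
      refine this.congr ?_
      intro s hs
      rw [uIoc_of_le hab] at hs
      simp only [hf]
      rw [Real.rpow_neg_one]; ring
    have i2 : IntervalIntegrable (fun s => (-1) * s ^ ((-1:ℝ) - 1) * E s) volume a b := by
      have h3 := hq.1
      exact h3.mul_continuousOn (by rw [uIcc_of_le hab]; exact hEp.continuousOn hab)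
    rw [intervalIntegral.integral_add i2 i1, hEa, mul_zero, sub_zero] at h1
    have h2 : ∫ s in a..b, f s = ∫ s in a..b, s ^ (-1:ℝ) * e s := by
      apply intervalIntegral.integral_congr
      intro s hs
      simp only [hf]
      rw [Real.rpow_neg_one]; ring
    have h4 : ∫ s in a..b, (-1) * s ^ ((-1:ℝ) - 1) * E s ≥ ∫ s in a..b, -(C * s ^ ((1/2:ℝ) - 1)) := by
      have i3 : IntervalIntegrable (fun s : ℝ => -(C * s ^ ((1/2:ℝ) - 1))) volume a b := by
        have := ((isPrim_rpow_div ha hab (k := 1/2) (by norm_num)).const_mul C).neg.1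
        exact this
      apply intervalIntegral.integral_mono_on hab i3 i2
      intro s hs
      have hs0 : 0 < s := ha.trans_le hs.1
      have g1 : E s ≤ C * s ^ (3/2:ℝ) := hbd a s ha hs.1 (hs.2.trans hb)
      have g2 : s ^ ((-1:ℝ) - 1) * s ^ (3/2:ℝ) = s ^ ((1/2:ℝ) - 1) := by
        rw [← Real.rpow_add hs0]; norm_num
      have g3 : 0 < s ^ ((-1:ℝ) - 1) := Real.rpow_pos_of_pos hs0 _
      have g4 := mul_le_mul_of_nonneg_left g1 g3.le
      have g5 : s ^ ((-1:ℝ) - 1) * (C * s ^ (3/2:ℝ)) = C * s ^ ((1/2:ℝ) - 1) := by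
        rw [← g2]; ring
      rw [g5] at g4
      linarith
    have h5 : ∫ s in a..b, -(C * s ^ ((1/2:ℝ) - 1)) ≥ -(2 * C * b ^ (1/2:ℝ)) := by
      have p := ((isPrim_rpow_div ha hab (k := 1/2) (by norm_num)).const_mul C).neg
      have := p.sub_eq hab
      rw [← this]
      have ha' : 0 ≤ a ^ (1/2:ℝ) := Real.rpow_nonneg ha.le _
      have : 0 ≤ C * (a ^ (1/2:ℝ) / (1/2)) := by positivity
      have e1 : C * (b ^ (1/2:ℝ) / (1/2)) = 2 * C * b ^ (1/2:ℝ) := by ring
      linarith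
    have h6 : b ^ (-1:ℝ) * E b ≤ C * b ^ (1/2:ℝ) := by
      have g1 : E b ≤ C * b ^ (3/2:ℝ) := hbd a b ha hab hb
      have g2 : b ^ (-1:ℝ) * b ^ (3/2:ℝ) = b ^ (1/2:ℝ) := by
        rw [← Real.rpow_add hb0]; norm_num
      have g3 : 0 < b ^ (-1:ℝ) := Real.rpow_pos_of_pos hb0 _
      calc b ^ (-1:ℝ) * E b ≤ b ^ (-1:ℝ) * (C * b ^ (3/2:ℝ)) := mul_le_mul_of_nonneg_left g1 g3.le
        _ = C * b ^ (1/2:ℝ) := by rw [← g2]; ring
    have h7 : ∫ s in a..b, s ^ (-1:ℝ) * e s
        = b ^ (-1:ℝ) * E b - ∫ s in a..b, (-1) * s ^ ((-1:ℝ) - 1) * E s := by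
      rw [h1]; ring
    rw [h2, h7]
    have h8 := h5.le.trans h4.le
    calc b ^ (-1:ℝ) * E b - ∫ s in a..b, (-1) * s ^ ((-1:ℝ) - 1) * E s
        ≤ C * b ^ (1/2:ℝ) - (-(2 * C * b ^ (1/2:ℝ))) := sub_le_sub h6 h8
      _ = 3 * C * b ^ (1/2:ℝ) := by ring
  -- integrability up to zero
  have hfnn : ∀ s, 0 ≤ s → 0 ≤ f s := fun s hs => div_nonneg (he s) hs
  have hint0 : IntegrableOn f (Ioc 0 r0) := by
    have hlim : Tendsto (fun n : ℕ => r0 / ((n:ℝ) + 1)) atTop (𝓝 0) := by
      have := (tendsto_one_div_add_atTop_nhds_zero_nat (𝕜 := ℝ)).const_mul r0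
      simpa [div_eq_mul_inv] using this
    have hpos : ∀ n : ℕ, 0 < r0 / ((n:ℝ) + 1) := fun n => by positivity
    have hle : ∀ n : ℕ, r0 / ((n:ℝ) + 1) ≤ r0 := fun n => by
      rw [div_le_iff₀ (by positivity)]
      have : (0:ℝ) ≤ n := Nat.cast_nonneg n
      nlinarith
    refine integrableOn_Ioc_of_intervalIntegral_norm_bounded_left (I := 3 * C * r0 ^ (1/2:ℝ))
      (l := atTop) (a := fun n : ℕ => r0 / ((n:ℝ) + 1)) (fun n => ?_) hlim ?_
    · exact (intervalIntegrable_iff_integrableOn_Ioc_of_le (hle n)).1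
        (hfint _ r0 (hpos n) (hle n) le_rfl)
    · refine Eventually.of_forall fun n => ?_
      have h1 := hfbd _ r0 (hpos n) (hle n) le_rfl
      rw [intervalIntegral.integral_of_le (hle n)] at h1
      refine (le_of_eq ?_).trans h1
      apply setIntegral_congr_fun measurableSet_Ioc
      intro s hs
      simp only
      rw [Real.norm_of_nonneg (hfnn s ((hpos n).le.trans hs.1.le))]
  have hI0 : ∀ b, 0 ≤ b → b ≤ r0 → IntervalIntegrable f volume 0 b := by
    intro b hb hbr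
    rw [intervalIntegrable_iff_integrableOn_Ioc_of_le hb]
    exact hint0.mono_set (Ioc_subset_Ioc_right hbr)
  refine ⟨fun s => ∫ t in (0:ℝ)..s, f t, ?_, ?_, ?_⟩
  · intro a b ha hab hb
    refine ⟨hfint a b ha hab hb, fun x hx => ?_⟩
    simp only
    rw [intervalIntegral.integral_add_adjacent_intervals (hI0 a ha.le (hab.trans hb))
      (hfint a x ha hx.1 (hx.2.trans hb))]
  · intro s hs _
    exact intervalIntegral.integral_nonneg hs.le (fun t ht => hfnn t ht.1)
  · intro s hs hsr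
    have hc : Tendsto (fun a => ∫ t in a..s, f t) (𝓝[>] 0) (𝓝 (∫ t in (0:ℝ)..s, f t)) := by
      have hp : IsPrim 0 s (fun x => ∫ t in (0:ℝ)..x, f t) f :=
        ⟨hI0 s hs.le hsr, fun x hx => by simp⟩
      have h1 := (hp.continuousOn hs.le) 0 ⟨le_rfl, hs.le⟩
      have h2 : Tendsto (fun x => ∫ t in (0:ℝ)..x, f t) (𝓝[>] 0) (𝓝 0) := by
        have h3 : Tendsto (fun x => ∫ t in (0:ℝ)..x, f t) (𝓝[Icc 0 s] 0) (𝓝 0) := by
          have := h1.tendsto
          simpa using this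
        refine h3.mono_left ?_
        rw [← nhdsWithin_Ioo_eq_nhdsGT hs]
        exact nhdsWithin_mono _ Ioo_subset_Icc_self
      have h4 : Tendsto (fun a => (∫ t in (0:ℝ)..s, f t) - ∫ t in (0:ℝ)..a, f t) (𝓝[>] 0)
          (𝓝 ((∫ t in (0:ℝ)..s, f t) - 0)) := tendsto_const_nhds.sub h2
      rw [sub_zero] at h4
      refine h4.congr' ?_
      filter_upwards [Ioc_mem_nhdsGT hs] with a ha
      rw [intervalIntegral.integral_interval_sub_left (hI0 s hs.le hsr)
        (hI0 a ha.1.le (ha.2.trans hsr))]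
    refine le_of_tendsto hc ?_
    filter_upwards [Ioc_mem_nhdsGT hs] with a ha
    exact hfbd a s ha.1 ha.2 hsr

end Crest.Agent.R135
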