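import Crest.Agent.R135.TipCurve
import Crest.Agent.R135.PolarD

/-!
# R135 (TIP): the crack near a tip is a `C¹` curve (helper633)
-/

set_option autoImplicit false

open Set Filter Topology Metric MeasureTheory
open scoped RealInnerProductSpace

namespace Crest.Agent.R135.Tip

open Crest.Agent.R135.Arc

variable {K : Set E2} {x0 : E2} {r0 C c α c2 η r1 : ℝ}

/-- a selection of the crack points on the circles -/
structure IsCurve (K : Set E2) (x0 : E2) (r2 : ℝ) (γ : ℝ → E2) : Prop where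
  mem : ∀ s ∈ Ioo 0 r2, γ s ∈ K
  dist_eq : ∀ s ∈ Ioo 0 r2, dist (γ s) x0 = s
  uniq : ∀ z ∈ K, 0 < dist z x0 → dist z x0 < r2 → z = γ (dist z x0)

theorem TipConst.exists_curve (T : TipConst K x0 r0 C c α c2 η r1) (H : TipHyp K x0 r0 C c α) :
    ∃ γ, IsCurve K x0 (r1/2) γ := by
  have h : ∀ s, ∃ y : E2, s ∈ Ioo 0 (r1/2) → y ∈ K ∧ dist y x0 = s := by
    intro s
    by_cases hs : s ∈ Ioo 0 (r1/2)
    · obtain ⟨y, hy, hd⟩ := T.exists_point H hs.1 hs.2
      exact ⟨y, fun _ => ⟨hy, hd⟩⟩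
    · exact ⟨x0, fun h => absurd h hs⟩
  choose γ hγ using h
  refine ⟨γ, ⟨fun s hs => (hγ s hs).1, fun s hs => (hγ s hs).2, ?_⟩⟩
  intro z hz h0 h1
  have := hγ (dist z x0) ⟨h0, h1⟩
  exact T.unique_point H h0 h1 this.1 hz this.2 rfl

theorem radial_unit {x0 y : E2} {s : ℝ} (hs : 0 < s) (hy : dist y x0 = s) :
    ‖s⁻¹ • (y - x0)‖ = 1 ∧ y - x0 = s • (s⁻¹ • (y - x0)) := by
  constructor
  · have hyx : y ≠ x0 := by rw [← dist_pos, hy]; exact hs
    have := norm_unit hyx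
    rwa [hy] at this
  · rw [smul_smul, mul_inv_cancel₀ hs.ne', one_smul]

/-- local Lipschitz estimate for the curve -/
theorem TipConst.curve_lip (T : TipConst K x0 r0 C c α c2 η r1) (H : TipHyp K x0 r0 C c α)
    {γ : ℝ → E2} (hγ : IsCurve K x0 (r1/2) γ) {s s' : ℝ} (hs : s ∈ Ioo 0 (r1/2))
    (hs' : s' ∈ Ioo 0 (r1/2)) (h : |s' - s| ≤ c2 * s / 4) :
    dist (γ s') (γ s) ≤ 11/10 * |s' - s| ∧ dist (γ s') (γ s) ≤ c2 * s := by
  have hc20 := T.c2pos
  have hc2s := T.c2small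
  have hη := T.η_eq
  have hs0 := hs.1
  have hc2s0 : 0 < c2 * s := by positivity
  have hc2s' : c2 * s ≤ s/10 := by
    have := mul_le_mul_of_nonneg_right hc2s hs0.le
    linarith
  obtain ⟨hl, hu⟩ := abs_le.1 h
  obtain ⟨e, he, hr, _⟩ := T.rays (2*s) (by linarith) (by linarith [hs.2])
  have h1 := (hr (γ s) (hγ.mem s hs) (by rw [hγ.dist_eq s hs]; linarith)).2
  have h2 := (hr (γ s') (hγ.mem s' hs') (by rw [hγ.dist_eq s' hs']; linarith)).2
  rw [hγ.dist_eq s hs] at h1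
  rw [hγ.dist_eq s' hs'] at h2
  have h3 : dist (x0 + s' • e) (x0 + s • e) = |s' - s| := by
    rw [dist_eq_norm, show x0 + s' • e - (x0 + s • e) = (s' - s) • e by rw [sub_smul]; abel,
      norm_smul, he, mul_one, Real.norm_eq_abs]
  have h4 : dist (γ s') (γ s) ≤ |s' - s| + 8 * η * s := by
    have g1 := dist_triangle (γ s') (x0 + s' • e) (γ s)
    have g2 := dist_triangle_right (x0 + s' • e) (γ s) (x0 + s • e)
    linarith
  have h5 : dist (γ s') (γ s) ≤ c2 * s := by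
    have : 8 * η * s = 8 * (c2 * s) / 1000 := by rw [hη]; ring
    linarith
  refine ⟨?_, h5⟩
  obtain ⟨hn1, hyn⟩ := radial_unit hs0 (hγ.dist_eq s hs)
  have hcone := T.cone H (hγ.mem s hs) hs0 (by linarith [hs.2]) hn1 hyn (hγ.mem s' hs') h5
  have := cone_dist hs0 hn1 hyn (by linarith) hcone
  rwa [hγ.dist_eq s' hs'] at this

/-- the curve is affine at scale `ρ` up to `C ρ (ρ/x)^α` -/
theorem TipConst.curve_affine (T : TipConst K x0 r0 C c α c2 η r1) (H : TipHyp K x0 r0 C c α)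
    (hα1 : α ≤ 1) {γ : ℝ → E2} (hγ : IsCurve K x0 (r1/2) γ) {x ρ : ℝ} (hx : x ∈ Ioo 0 (r1/2))
    (hρ : 0 < ρ) (hρc : ρ ≤ c2 * x / 4) :
    ∃ m : E2, ∀ h : ℝ, |h| ≤ ρ → x + h ∈ Ioo 0 (r1/2) →
      ‖γ (x + h) - γ x - h • m‖ ≤ (2 + 9 * C) * ρ * (ρ / x) ^ α := by
  have hc20 := T.c2pos
  have hc2s := T.c2small
  have hC := H.Cpos
  have hα := H.αpos
  have hx0 := hx.1
  have hc2x0 : 0 < c2 * x := by positivity
  have hc2x' : c2 * x ≤ x/10 := by
    have := mul_le_mul_of_nonneg_right hc2s hx0.le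
    linarith
  obtain ⟨hn1, hyn⟩ := radial_unit hx0 (hγ.dist_eq x hx)
  have hyx : γ x ≠ x0 := by rw [← dist_pos, hγ.dist_eq x hx]; exact hx0
  obtain ⟨v, hv⟩ := H.flat (γ x) (hγ.mem x hx) hyx (by
    rw [hγ.dist_eq x hx]; linarith [hx.2, T.r1r0, T.r1pos]) (2*ρ) (by linarith) (by
    rw [hγ.dist_eq x hx]
    have := mul_le_mul_of_nonneg_right T.c2c hx0.le
    linarith)
  have hdir := T.dirs (γ x) (hγ.mem x hx) hyx (by
    rw [hγ.dist_eq x hx]; linarith [hx.2, T.r1pos]) (2*ρ) v (by linarith) (by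
    rw [hγ.dist_eq x hx]; linarith) hv
  rw [hγ.dist_eq x hx] at hdir hv
  set n : E2 := x⁻¹ • (γ x - x0) with hn
  clear_value n
  have hvn : 99/100 ≤ |⟪v, n⟫| := by
    have h1 := norm_sq_split hn1 v
    rw [hv.1] at h1
    have h2 : ⟪v, J n⟫ ^ 2 ≤ (1/20)^2 := by
      rw [← sq_abs]; exact pow_le_pow_left₀ (abs_nonneg _) hdir 2
    apply abs_le_of_sq_le_sq' _ (abs_nonneg _) |>.2
    rw [sq_abs]; linarith
  have hvn0 : ⟪v, n⟫ ≠ 0 := by
    intro h0; rw [h0, abs_zero] at hvn; linarith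
  refine ⟨(⟪v, n⟫)⁻¹ • v, ?_⟩
  intro h hh hxh
  set X : ℝ := (ρ/x)^α with hX
  have hρx0 : 0 < ρ/x := by positivity
  have hρx1 : ρ/x ≤ 1 := by rw [div_le_one hx0]; linarith
  have hX0 : 0 < X := by positivity
  have hXρ : ρ/x ≤ X := by
    calc ρ/x = (ρ/x)^(1:ℝ) := (Real.rpow_one _).symm
      _ ≤ X := Real.rpow_le_rpow_of_exponent_ge hρx0 hρx1 hα1
  set E : ℝ := C * (2*ρ) * (2*ρ/x)^α with hE
  have hE1 : E ≤ 4 * C * ρ * X := by
    have h2 : (2*ρ/x)^α ≤ 2 * X := by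
      rw [show 2*ρ/x = 2 * (ρ/x) by ring, Real.mul_rpow (by norm_num) hρx0.le]
      have : (2:ℝ)^α ≤ 2^(1:ℝ) := Real.rpow_le_rpow_of_exponent_le (by norm_num) hα1
      rw [Real.rpow_one] at this
      exact mul_le_mul_of_nonneg_right this hX0.le
    calc E ≤ C * (2*ρ) * (2*X) := by rw [hE]; gcongr
      _ = 4 * C * ρ * X := by ring
  obtain ⟨hd1, hd2⟩ := T.curve_lip H hγ hx hxh (by
    rw [show x + h - x = h by ring]; linarith)
  rw [show x + h - x = h by ring] at hd1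
  have hd3 : dist (γ (x+h)) (γ x) ≤ 11/10 * ρ := by linarith
  have hb := hv.2.1 (γ (x+h)) (hγ.mem _ hxh) (by linarith)
  change |⟪γ (x+h) - γ x, J v⟫| ≤ E at hb
  set w : E2 := γ (x+h) - γ x with hw
  have hrc := rad_compare (z := γ (x+h)) hx0 hn1 hyn
  rw [hγ.dist_eq _ hxh, show x + h - x = h by ring] at hrc
  change |⟪w, n⟫ - h| ≤ _ at hrc
  have hq : (dist (γ (x+h)) (γ x))^2/(2*x) ≤ ρ * X := by
    have h1 : (dist (γ (x+h)) (γ x))^2 ≤ (11/10*ρ)^2 := pow_le_pow_left₀ dist_nonneg hd3 2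
    calc (dist (γ (x+h)) (γ x))^2/(2*x) ≤ (11/10*ρ)^2/(2*x) := by gcongr
      _ = (121/200) * (ρ * (ρ/x)) := by field_simp; ring
      _ ≤ 1 * (ρ * (ρ/x)) := by
        apply mul_le_mul_of_nonneg_right (by norm_num) (by positivity)
      _ ≤ ρ * X := by rw [one_mul]; exact mul_le_mul_of_nonneg_left hXρ hρ.le
  have hexp := inner_expand hv.1 w n
  have hframe : w = ⟪w, v⟫ • v + ⟪w, J v⟫ • J v := frame_eq hv.1 w
  have hdec : w - h • (⟪v, n⟫)⁻¹ • v =
      ((⟪w, n⟫ - h + ⟪w, J v⟫ * ⟪v, J n⟫) / ⟪v, n⟫) • v + ⟪w, J v⟫ • J v := by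
    have e1 : (⟪w, n⟫ - h + ⟪w, J v⟫ * ⟪v, J n⟫) / ⟪v, n⟫ = ⟪w, v⟫ - h * (⟪v, n⟫)⁻¹ := by
      rw [hexp]; field_simp; ring
    rw [e1, sub_smul, smul_smul]
    nth_rewrite 1 [hframe]
    abel
  have hnorm : ‖w - h • (⟪v, n⟫)⁻¹ • v‖ ≤
      |(⟪w, n⟫ - h + ⟪w, J v⟫ * ⟪v, J n⟫) / ⟪v, n⟫| + |⟪w, J v⟫| := by
    rw [hdec]
    refine (norm_add_le _ _).trans ?_
    rw [norm_smul, norm_smul, norm_J, hv.1, mul_one, mul_one, Real.norm_eq_abs, Real.norm_eq_abs]
  have hnum : |⟪w, n⟫ - h + ⟪w, J v⟫ * ⟪v, J n⟫| ≤ ρ * X + E * (1/20) := by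
    refine (abs_add_le _ _).trans ?_
    rw [abs_mul]
    have h1 : |⟪w, J v⟫| * |⟪v, J n⟫| ≤ E * (1/20) := by
      apply mul_le_mul hb hdir (abs_nonneg _)
      exact (abs_nonneg _).trans hb
    linarith
  have hE0 : 0 ≤ E := (abs_nonneg _).trans hb
  have hquot : |(⟪w, n⟫ - h + ⟪w, J v⟫ * ⟪v, J n⟫) / ⟪v, n⟫| ≤ 2 * (ρ * X + E * (1/20)) := by
    rw [abs_div, div_le_iff₀ (by linarith)]
    have h0 : 0 ≤ ρ * X + E * (1/20) := by positivity
    have h1 : (ρ * X + E * (1/20)) * 1 ≤ (ρ * X + E * (1/20)) * (2 * |⟪v, n⟫|) :=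
      mul_le_mul_of_nonneg_left (by linarith) h0
    linarith
  calc ‖w - h • (⟪v, n⟫)⁻¹ • v‖ ≤ 2 * (ρ * X + E * (1/20)) + E := by linarith
    _ = 2 * (ρ * X) + 11/10 * E := by ring
    _ ≤ 2 * (ρ * X) + 11/10 * (4 * C * ρ * X) := by linarith
    _ ≤ (2 + 9 * C) * ρ * X := by
      have : 0 < C * ρ * X := by positivity
      nlinarith

theorem norm_le_of_abs_coord (w : E2) (i : Fin 2) : |w i| ≤ ‖w‖ := by
  have := PiLp.norm_apply_le w i
  rwa [Real.norm_eq_abs] at this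

/-- the curve is continuously differentiable -/
theorem TipConst.curve_c1 (T : TipConst K x0 r0 C c α c2 η r1) (H : TipHyp K x0 r0 C c α)
    (hα1 : α ≤ 1) {γ : ℝ → E2} (hγ : IsCurve K x0 (r1/2) γ) :
    (∀ s ∈ Ioo 0 (r1/2), HasDerivAt γ (deriv γ s) s) ∧ ContinuousOn (deriv γ) (Ioo 0 (r1/2)) := by
  have hc20 := T.c2pos
  have hc2s := T.c2small
  have hC := H.Cpos
  have hα := H.αpos
  have loc : ∀ s ∈ Ioo 0 (r1/2), ∃ a b : ℝ, a < s ∧ s < b ∧ Icc a b ⊆ Ioo 0 (r1/2) ∧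
      ∃ D : ℝ → E2, (∀ x ∈ Ioo a b, HasDerivAt γ (D x) x) ∧ ContinuousOn D (Ioo a b) := by
    intro s hs
    have hs0 := hs.1
    obtain ⟨δ, hδ0, hδ1, hδ2⟩ : ∃ δ : ℝ, 0 < δ ∧ δ ≤ c2 * s / 16 ∧ δ < r1/2 - s := by
      refine ⟨min (c2 * s / 16) ((r1/2 - s)/2), lt_min (by positivity) (by linarith [hs.2]),
        min_le_left _ _, lt_of_le_of_lt (min_le_right _ _) (by linarith [hs.2])⟩
    have hc2s' : c2 * s ≤ s/10 := by
      have := mul_le_mul_of_nonneg_right hc2s hs0.le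
      linarith
    set a := s - δ with ha
    set b := s + δ with hb
    have hsub : Icc a b ⊆ Ioo 0 (r1/2) := by
      intro x hx
      exact ⟨by linarith [hx.1], by linarith [hx.2]⟩
    have hab : a < b := by linarith
    have ha0 : 0 < a := by linarith
    set C1 : ℝ := (2 + 9 * C) * a ^ (-α) with hC1
    have hC10 : 0 ≤ C1 := by positivity
    have camp : ∀ i : Fin 2, Camp (fun x => γ x i) a b C1 α := by
      intro i x hx ρ hρ hρb
      have hxI := hsub hx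
      have hρc : ρ ≤ c2 * x / 4 := by
        have h1 : c2 * (s/2) ≤ c2 * x := mul_le_mul_of_nonneg_left (by linarith [hx.1]) hc20.le
        linarith
      obtain ⟨m, hm⟩ := T.curve_affine H hα1 hγ hxI hρ hρc
      refine ⟨m i, fun h hh hxh => ?_⟩
      have h1 := hm h hh (hsub hxh)
      have h2 := norm_le_of_abs_coord (γ (x + h) - γ x - h • m) i
      have h3 : (γ (x + h) - γ x - h • m) i = γ (x+h) i - γ x i - m i * h := by
        simp [mul_comm]
      rw [h3] at h2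
      refine h2.trans (h1.trans ?_)
      have h4 : (ρ/x)^α ≤ ρ^α * a^(-α) := by
        rw [Real.div_rpow hρ.le hxI.1.le, Real.rpow_neg ha0.le, div_eq_mul_inv]
        apply mul_le_mul_of_nonneg_left _ (by positivity)
        apply inv_anti₀ (by positivity)
        exact Real.rpow_le_rpow ha0.le hx.1 hα.le
      have h5 : ρ ^ (1 + α) = ρ * ρ ^ α := by rw [Real.rpow_add hρ, Real.rpow_one]
      rw [h5]
      calc (2 + 9 * C) * ρ * (ρ/x)^α ≤ (2 + 9 * C) * ρ * (ρ^α * a^(-α)) := by gcongr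
        _ = C1 * (ρ * ρ^α) := by rw [hC1]; ring
    obtain ⟨f0, D0, -, -, h0, h0'⟩ := camp_c1 hab hC10 hα (camp 0)
    obtain ⟨f1, D1, -, -, h1, h1'⟩ := camp_c1 hab hC10 hα (camp 1)
    have cont : ∀ (f : ℝ → ℝ) (D : ℝ), (∀ x ∈ Icc a b, ∀ y ∈ Icc a b, |f x - f y| ≤ D * |x - y| ^ α) →
        ContinuousOn f (Icc a b) := by
      intro f D hf x hx
      rw [ContinuousWithinAt, tendsto_iff_dist_tendsto_zero]
      have hlim : Tendsto (fun y => D * |y - x| ^ α) (𝓝[Icc a b] x) (𝓝 0) := by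
        have h1 : Tendsto (fun y => |y - x|) (𝓝 x) (𝓝 0) := by
          have : ContinuousAt (fun y => |y - x|) x := by fun_prop
          simpa [ContinuousAt] using this
        have h2 : Tendsto (fun y => |y - x| ^ α) (𝓝 x) (𝓝 0) := by
          have := (Real.continuousAt_rpow_const 0 α (Or.inr hα.le)).tendsto.comp h1
          rwa [Real.zero_rpow hα.ne'] at this
        simpa using (h2.const_mul D).mono_left nhdsWithin_le_nhds
      refine squeeze_zero' (Eventually.of_forall fun _ => dist_nonneg) ?_ hlim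
      filter_upwards [self_mem_nhdsWithin] with y hy
      rw [Real.dist_eq]
      exact hf y hy x hx
    refine ⟨a, b, by linarith, by linarith, hsub,
      fun x => WithLp.toLp 2 ![f0 x, f1 x], ?_, ?_⟩
    · intro x hx
      have hxI : x ∈ Icc a b := Ioo_subset_Icc_self hx
      have hnb : Icc a b ∈ 𝓝 x := Icc_mem_nhds hx.1 hx.2
      have g0 := (h0 x hxI).hasDerivAt hnb
      have g1 := (h1 x hxI).hasDerivAt hnb
      have : HasDerivAt (fun y => (![γ y 0, γ y 1] : Fin 2 → ℝ)) (![f0 x, f1 x]) x := by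
        rw [hasDerivAt_pi]
        intro i
        fin_cases i
        · exact g0
        · exact g1
      have h2 : HasDerivAt (fun y => (WithLp.toLp 2 ![γ y 0, γ y 1] : E2))
          (WithLp.toLp 2 ![f0 x, f1 x]) x := by
        have h3 := ((PiLp.continuousLinearEquiv 2 ℝ (fun _ : Fin 2 => ℝ)).symm :
          (Fin 2 → ℝ) →L[ℝ] PiLp 2 (fun _ : Fin 2 => ℝ)).hasFDerivAt.comp_hasDerivAt x this
        exact h3
      have e : (fun y => (WithLp.toLp 2 ![γ y 0, γ y 1] : E2)) = γ := by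
        funext y
        ext i
        fin_cases i <;> simp
      rwa [e] at h2
    · have c0 := (cont f0 D0 h0').mono (Ioo_subset_Icc_self)
      have c1 := (cont f1 D1 h1').mono (Ioo_subset_Icc_self)
      have : ContinuousOn (fun x => (![f0 x, f1 x] : Fin 2 → ℝ)) (Ioo a b) := by
        rw [continuousOn_pi]
        intro i
        fin_cases i
        · exact c0
        · exact c1
      exact (PiLp.continuous_toLp 2 _).comp_continuousOn this
  constructor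
  · intro s hs
    obtain ⟨a, b, h1, h2, -, D, hD, -⟩ := loc s hs
    exact (hD s ⟨h1, h2⟩).differentiableAt.hasDerivAt
  · intro s hs
    obtain ⟨a, b, h1, h2, -, D, hD, hDc⟩ := loc s hs
    have hc : ContinuousAt D s := hDc.continuousAt (Ioo_mem_nhds h1 h2)
    have he : deriv γ =ᶠ[𝓝 s] D := by
      filter_upwards [Ioo_mem_nhds h1 h2] with x hx
      exact (hD x hx).deriv
    exact (hc.congr he.symm).continuousWithinAt

end Crest.Agent.R135.Tip
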