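import Crest.Agent.R135.TipGraph

/-!
# R135 (TIP): exactly one crack point on every small circle, `C¹` curve (helper633)
-/

set_option autoImplicit false

open Set Filter Topology Metric
open scoped RealInnerProductSpace

namespace Crest.Agent.R135.Tip

open Crest.Agent.R135.Arc

theorem inner_J_expand {v : E2} (hv : ‖v‖ = 1) (w n : E2) :
    ⟪w, J n⟫ = ⟪w, v⟫ * ⟪v, J n⟫ + ⟪w, J v⟫ * ⟪v, n⟫ := by
  have h : v 0 ^ 2 + v 1 ^ 2 = 1 := by rw [← Arc.norm_sq_eq, hv]; norm_num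
  simp only [Arc.inner_eq, J_zero', J_one']
  linear_combination (-(w 0 * -(n 1) + w 1 * n 0)) * h

theorem inner_expand {v : E2} (hv : ‖v‖ = 1) (w n : E2) :
    ⟪w, n⟫ = ⟪w, v⟫ * ⟪v, n⟫ - ⟪w, J v⟫ * ⟪v, J n⟫ := by
  have h : v 0 ^ 2 + v 1 ^ 2 = 1 := by rw [← Arc.norm_sq_eq, hv]; norm_num
  simp only [Arc.inner_eq, J_zero', J_one']
  linear_combination (-(w 0 * (n 0) + w 1 * n 1)) * h

theorem norm_sq_split {n : E2} (hn : ‖n‖ = 1) (w : E2) : ‖w‖ ^ 2 = ⟪w, n⟫ ^ 2 + ⟪w, J n⟫ ^ 2 := by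
  have h : n 0 ^ 2 + n 1 ^ 2 = 1 := by rw [← Arc.norm_sq_eq, hn]; norm_num
  rw [Arc.norm_sq_eq]
  simp only [Arc.inner_eq, J_zero', J_one']
  linear_combination (-(w 0 ^ 2 + w 1 ^ 2)) * h

/-- radial comparison: `p = ⟪z-y, n⟫` is `|z-x0| - |y-x0|` up to a quadratic error -/
theorem rad_compare {x0 y z n : E2} {s : ℝ} (hs : 0 < s) (hn : ‖n‖ = 1) (hy : y - x0 = s • n) :
    |⟪z - y, n⟫ - (dist z x0 - s)| ≤ (dist z y) ^ 2 / (2 * s) := by
  have hys : dist y x0 = s := by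
    rw [dist_eq_norm, hy, norm_smul, hn, mul_one, Real.norm_eq_abs, abs_of_pos hs]
  have h1 : (dist z x0) ^ 2 = s ^ 2 + 2 * s * ⟪z - y, n⟫ + (dist z y) ^ 2 := by
    have e : z - x0 = s • n + (z - y) := by rw [← hy]; abel
    rw [dist_eq_norm, e, norm_add_sq_real, norm_smul, hn, mul_one, Real.norm_eq_abs, sq_abs,
      real_inner_smul_left, real_inner_comm, dist_eq_norm]
    ring
  have h2 : |dist z x0 - s| ≤ dist z y := by
    rw [← hys]; exact abs_dist_sub_le z y x0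
  have h3 : ⟪z - y, n⟫ - (dist z x0 - s) = ((dist z x0 - s)^2 - (dist z y)^2) / (2*s) := by
    field_simp
    linarith
  rw [h3, abs_div, abs_of_pos (by positivity : 0 < 2*s)]
  apply div_le_div_of_nonneg_right _ (by positivity)
  have h4 : (dist z x0 - s)^2 ≤ (dist z y)^2 := by
    rw [← sq_abs]; exact pow_le_pow_left₀ (abs_nonneg _) h2 2
  rw [abs_le]
  constructor
  · linarith [sq_nonneg (dist z x0 - s)]
  · linarith [sq_nonneg (dist z y)]

/-- in a cone around the radial direction the distance is controlled by the radii -/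
theorem cone_dist {x0 y z n : E2} {s : ℝ} (hs : 0 < s) (hn : ‖n‖ = 1) (hy : y - x0 = s • n)
    (hd : dist z y ≤ s / 10) (hq : |⟪z - y, J n⟫| ≤ dist z y / 10) :
    dist z y ≤ 11/10 * |dist z x0 - s| := by
  have h1 := rad_compare (z := z) hs hn hy
  set d := dist z y with hdd
  have hd0 : 0 ≤ d := dist_nonneg
  have h2 : d^2/(2*s) ≤ d/20 := by
    rw [div_le_iff₀ (by positivity)]
    nlinarith
  have h3 : d^2 = ⟪z - y, n⟫ ^ 2 + ⟪z - y, J n⟫ ^ 2 := by
    rw [hdd, dist_eq_norm]; exact norm_sq_split hn _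
  have h4 : ⟪z - y, J n⟫ ^ 2 ≤ (d/10)^2 := by
    rw [← sq_abs]; exact pow_le_pow_left₀ (abs_nonneg _) hq 2
  have h5 : 99/100 * d ≤ |⟪z - y, n⟫| := by
    apply abs_le_of_sq_le_sq' _ (abs_nonneg _) |>.2
    rw [sq_abs]; nlinarith
  have h6 : |⟪z - y, n⟫| ≤ |dist z x0 - s| + d^2/(2*s) := by
    have : ⟪z - y, n⟫ = (dist z x0 - s) + (⟪z - y, n⟫ - (dist z x0 - s)) := by ring
    rw [this]
    exact (abs_add_le _ _).trans (by linarith)
  linarith

variable {K : Set E2} {x0 : E2} {r0 C c α c2 η r1 : ℝ}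

theorem TipConst.flat_small (T : TipConst K x0 r0 C c α c2 η r1) (H : TipHyp K x0 r0 C c α)
    {s ρ : ℝ} (hs : 0 < s) (hρ : 0 < ρ) (hρc : ρ ≤ c2 * s) : C * ρ * (ρ/s)^α ≤ ρ/600 := by
  have hC := H.Cpos
  have hρs : ρ/s ≤ c2 := by rw [div_le_iff₀ hs]; exact hρc
  have hρs0 : 0 < ρ/s := by positivity
  have hpow : (ρ/s)^α ≤ c2^α := Real.rpow_le_rpow hρs0.le hρs H.αpos.le
  have := T.Cc2
  calc C * ρ * (ρ / s) ^ α = ρ * (C * (ρ/s)^α) := by ring
    _ ≤ ρ * (C * c2^α) := by gcongr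
    _ ≤ ρ * (1/600) := by gcongr
    _ = ρ/600 := by ring

theorem TipConst.cone (T : TipConst K x0 r0 C c α c2 η r1) (H : TipHyp K x0 r0 C c α)
    {y z n : E2} {s : ℝ} (hy : y ∈ K) (hs : 0 < s) (hsr : s < r1) (hn : ‖n‖ = 1)
    (hyn : y - x0 = s • n) (hz : z ∈ K) (hd : dist z y ≤ c2 * s) :
    |⟪z - y, J n⟫| ≤ dist z y / 10 := by
  have hys : dist y x0 = s := by
    rw [dist_eq_norm, hyn, norm_smul, hn, mul_one, Real.norm_eq_abs, abs_of_pos hs]
  have hyx : y ≠ x0 := by rw [← dist_pos, hys]; exact hs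
  rcases eq_or_ne z y with rfl | hzy
  · simp
  set ρ := dist z y with hρdef
  have hρ : 0 < ρ := dist_pos.2 hzy
  obtain ⟨v, hv⟩ := H.flat y hy hyx (by rw [hys]; exact hsr.trans T.r1r0) ρ hρ (by
    rw [hys]; exact hd.trans (mul_le_mul_of_nonneg_right T.c2c hs.le))
  have h1 := T.dirs y hy hyx (by rw [hys]; exact hsr) ρ v hρ (by rw [hys]; exact hd) hv
  have hn' : (dist y x0)⁻¹ • (y - x0) = n := by
    rw [hys, hyn, smul_smul, inv_mul_cancel₀ hs.ne', one_smul]
  rw [hn'] at h1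
  have h2 := hv.2.1 z hz le_rfl
  rw [hys] at h2
  have h3 := T.flat_small H hs hρ hd
  rw [inner_J_expand hv.1 (z - y) n]
  have h4 : |⟪z - y, v⟫| ≤ ρ := by
    refine (abs_real_inner_le_norm _ _).trans ?_
    rw [hv.1, mul_one, ← dist_eq_norm]
  have h5 := abs_inner_le_one hv.1 hn
  calc |⟪z - y, v⟫ * ⟪v, J n⟫ + ⟪z - y, J v⟫ * ⟪v, n⟫|
      ≤ |⟪z - y, v⟫| * |⟪v, J n⟫| + |⟪z - y, J v⟫| * |⟪v, n⟫| := by
        rw [← abs_mul, ← abs_mul]; exact abs_add_le _ _
    _ ≤ ρ * (1/20) + (ρ/600) * 1 := by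
        gcongr
        exact h2.trans h3
    _ ≤ ρ/10 := by linarith

theorem exists_sign {ρ g a : ℝ} (hρ : 0 < ρ) (hg : g ^ 2 = 1) (ha : 99/100 ≤ |a|) (ha1 : |a| ≤ 1) :
    ∃ τ : ℝ, |τ| = ρ ∧ 99/100 * ρ ≤ (τ * a) * g ∧ (τ * a) * g ≤ ρ := by
  have hgabs : |g| = 1 := by
    have : |g|^2 = 1 := by rw [sq_abs]; exact hg
    nlinarith [abs_nonneg g]
  have hag : |a * g| = |a| := by rw [abs_mul, hgabs, mul_one]
  rcases le_total 0 (a * g) with h | h
  · have e : a * g = |a| := by rw [← hag, abs_of_nonneg h]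
    refine ⟨ρ, abs_of_pos hρ, ?_, ?_⟩
    · rw [mul_assoc, e]; nlinarith
    · rw [mul_assoc, e]; nlinarith
  · have e : a * g = -|a| := by rw [← hag, abs_of_nonpos h]; ring
    refine ⟨-ρ, by rw [abs_neg, abs_of_pos hρ], ?_, ?_⟩
    · rw [mul_assoc, e]; nlinarith
    · rw [mul_assoc, e]; nlinarith

/-- one can always move towards a prescribed radius -/
theorem TipConst.closer_point (T : TipConst K x0 r0 C c α c2 η r1) (H : TipHyp K x0 r0 C c α)
    {y : E2} (hy : y ∈ K) {s s1 : ℝ} (hys : dist y x0 = s) (hs : 0 < s) (hsr : s < r1)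
    (hne : s ≠ s1) (hcl : |s - s1| ≤ c2 * s / 100) :
    ∃ z ∈ K, dist z y ≤ |s - s1| ∧ |dist z x0 - s1| < |s - s1| := by
  have hc20 := T.c2pos
  have hc2s := T.c2small
  set δ := |s - s1| with hδ
  have hδ0 : 0 < δ := abs_pos.2 (sub_ne_zero.2 hne)
  have hyx : y ≠ x0 := by rw [← dist_pos, hys]; exact hs
  set n' : E2 := s⁻¹ • (y - x0) with hn'
  have hn'1 : ‖n'‖ = 1 := by
    have := norm_unit hyx
    rw [hys] at this
    exact this
  have hzn' : y - x0 = s • n' := by rw [hn', smul_smul, mul_inv_cancel₀ hs.ne', one_smul]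
  set ρ := δ/2 with hρdef
  have hρ0 : 0 < ρ := by positivity
  have hc2s0 : 0 < c2 * s := by positivity
  have hρs' : ρ ≤ c2 * s / 200 := by linarith
  have hρc2 : ρ ≤ c2 * s := by linarith
  have hρs : ρ ≤ s / 200 := by
    have : c2 * s ≤ 1/10 * s := mul_le_mul_of_nonneg_right hc2s hs.le
    linarith
  obtain ⟨v, hv⟩ := H.flat y hy hyx (by rw [hys]; exact lt_trans hsr T.r1r0) ρ hρ0
    (by rw [hys]; exact hρc2.trans (mul_le_mul_of_nonneg_right T.c2c hs.le))
  have hdir := T.dirs y hy hyx (by rw [hys]; exact hsr) ρ v hρ0 (by rw [hys]; exact hρc2) hv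
  rw [hys] at hdir hv
  change |⟪v, J n'⟫| ≤ 1/20 at hdir
  have hE := T.flat_small H hs hρ0 hρc2
  clear_value n'
  have hvn : 99/100 ≤ |⟪v, n'⟫| := by
    have h1 := norm_sq_split hn'1 v
    rw [hv.1] at h1
    have h2 : ⟪v, J n'⟫ ^ 2 ≤ (1/20)^2 := by
      rw [← sq_abs]; exact pow_le_pow_left₀ (abs_nonneg _) hdir 2
    apply abs_le_of_sq_le_sq' _ (abs_nonneg _) |>.2
    rw [sq_abs]; linarith
  have hvn1 : |⟪v, n'⟫| ≤ 1 := abs_inner_le_one hv.1 hn'1
  have hsg : ((s1 - s)/δ)^2 = 1 := by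
    rw [div_pow, hδ, sq_abs]
    have : (s - s1)^2 ≠ 0 := pow_ne_zero 2 (sub_ne_zero.2 hne)
    rw [div_eq_one_iff_eq this]; ring
  obtain ⟨τ, hτ1, hτ2, hτ3⟩ := exists_sign hρ0 hsg hvn hvn1
  obtain ⟨z'', hz'', hd''⟩ := hv.2.2 τ (by rw [hτ1])
  have hd''2 : dist z'' (y + τ • v) ≤ ρ/600 := hd''.trans hE
  have hd3 : dist z'' y ≤ 101/100 * ρ := by
    have h1 : dist (y + τ • v) y = ρ := by
      rw [dist_eq_norm, add_sub_cancel_left, norm_smul, hv.1, mul_one, Real.norm_eq_abs, hτ1]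
    have := dist_triangle z'' (y + τ • v) y
    linarith
  have hcmp := rad_compare (z := z'') hs hn'1 hzn'
  have hsm : (dist z'' y)^2/(2*s) ≤ ρ/100 := by
    rw [div_le_iff₀ (by positivity)]
    have h1 : (dist z'' y)^2 ≤ (101/100*ρ)^2 := pow_le_pow_left₀ dist_nonneg hd3 2
    have h2 : ρ * ρ ≤ ρ * (s/200) := mul_le_mul_of_nonneg_left hρs hρ0.le
    have h3 : 0 < ρ * s := mul_pos hρ0 hs
    linarith
  have hin : |⟪z'' - y, n'⟫ - τ * ⟪v, n'⟫| ≤ ρ/600 := by
    have : ⟪z'' - y, n'⟫ - τ * ⟪v, n'⟫ = ⟪z'' - (y + τ • v), n'⟫ := by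
      rw [← real_inner_smul_left, ← inner_sub_left]
      congr 1
      abel
    rw [this]
    refine (abs_real_inner_le_norm _ _).trans ?_
    rw [hn'1, mul_one, ← dist_eq_norm]
    exact hd''2
  have hmain : |(dist z'' x0 - s) - τ * ⟪v, n'⟫| ≤ ρ/50 := by
    have e1 : (dist z'' x0 - s) - τ * ⟪v, n'⟫ =
      (⟪z'' - y, n'⟫ - τ * ⟪v, n'⟫) - (⟪z'' - y, n'⟫ - (dist z'' x0 - s)) := by ring
    rw [e1]
    refine (abs_sub _ _).trans ?_
    linarith
  refine ⟨z'', hz'', by linarith, ?_⟩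
  rcases lt_or_gt_of_ne hne with hlt | hgt
  · have hδe : δ = s1 - s := by rw [hδ, abs_of_neg (by linarith)]; ring
    have h1 : (s1 - s)/δ = 1 := by rw [hδe]; exact div_self (by linarith)
    rw [h1, mul_one] at hτ2 hτ3
    have h2 := abs_le.1 hmain
    rw [abs_lt]
    constructor <;> linarith [h2.1, h2.2]
  · have hδe : δ = s - s1 := by rw [hδ, abs_of_pos (by linarith)]
    have h1 : (s1 - s)/δ = -1 := by
      rw [hδe, show s1 - s = -(s - s1) by ring, neg_div, div_self (by linarith)]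
    rw [h1] at hτ2 hτ3
    have h2 := abs_le.1 hmain
    rw [abs_lt]
    constructor <;> linarith [h2.1, h2.2]

/-- existence of a crack point on every small circle -/
theorem TipConst.exists_point (T : TipConst K x0 r0 C c α c2 η r1) (H : TipHyp K x0 r0 C c α)
    {s1 : ℝ} (hs1 : 0 < s1) (hs1r : s1 < r1 / 2) : ∃ y ∈ K, dist y x0 = s1 := by
  have hc20 := T.c2pos
  have hc2s := T.c2small
  have hη := T.η_eq
  have hη0 := T.ηpos
  have hr1 := T.r1pos
  obtain ⟨e, he, _, hr2⟩ := T.rays (2*s1) (by linarith) (by linarith)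
  obtain ⟨y0, hy0, hd0⟩ := hr2 s1 hs1.le (by linarith)
  set s := dist y0 x0 with hsdef
  have hc2s1 : 0 < c2 * s1 := by positivity
  have hc2s1' : c2 * s1 ≤ s1/10 := by
    have := mul_le_mul_of_nonneg_right hc2s hs1.le
    linarith
  have hss1 : |s - s1| ≤ c2 * s1 / 500 := by
    have e1 : dist (x0 + s1 • e) x0 = s1 := by
      rw [dist_eq_norm, add_sub_cancel_left, norm_smul, he, mul_one, Real.norm_eq_abs,
        abs_of_pos hs1]
    have := abs_dist_sub_le y0 (x0 + s1 • e) x0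
    rw [e1] at this
    have h2 : η * (2 * s1) = c2 * s1 / 500 := by rw [hη]; ring
    linarith
  obtain ⟨hl, hu⟩ := abs_le.1 hss1
  have hs : 0 < s := by linarith
  have hss : s1 ≤ 2 * s := by linarith
  have hsr1 : s < r1 := by linarith
  have hcs : c2 * s1 ≤ 2 * (c2 * s) := by
    have := mul_le_mul_of_nonneg_left hss hc20.le
    linarith
  have hc2ss : c2 * s ≤ s/10 := by
    have := mul_le_mul_of_nonneg_right hc2s hs.le
    linarith
  have hc2s0 : 0 < c2 * s := by positivity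
  -- compactness
  set S := K ∩ closedBall y0 (c2 * s / 2) with hS
  have hsub : closedBall y0 (c2 * s / 2) ⊆ ball x0 r0 := by
    intro z hz
    rw [mem_closedBall] at hz
    rw [mem_ball]
    have := dist_triangle z y0 x0
    have h3 := T.r1r0
    linarith
  have hScl : IsClosed S := by
    rw [← closure_subset_iff_isClosed]
    intro z hz
    have h1 : z ∈ closedBall y0 (c2 * s / 2) :=
      closure_minimal inter_subset_right isClosed_closedBall hz
    exact ⟨H.closed ⟨closure_mono inter_subset_left hz, hsub h1⟩, h1⟩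
  have hSc : IsCompact S :=
    (isCompact_closedBall y0 (c2 * s / 2)).of_isClosed_subset hScl inter_subset_right
  have hSn : S.Nonempty := ⟨y0, hy0, mem_closedBall_self (by positivity)⟩
  obtain ⟨z', hz'S, hmin⟩ := hSc.exists_isMinOn hSn
    (f := fun z => |dist z x0 - s1|) (by fun_prop)
  by_contra hcon
  push Not at hcon
  set s' := dist z' x0 with hs'def
  have hs'ne : s' ≠ s1 := hcon z' hz'S.1
  have hδs : |s' - s1| ≤ c2 * s1 / 500 := by
    have := hmin (show y0 ∈ S from ⟨hy0, mem_closedBall_self (by positivity)⟩)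
    exact le_trans this hss1
  obtain ⟨hl', hu'⟩ := abs_le.1 hδs
  have hs' : 0 < s' := by linarith
  have hs'r1 : s' < r1 := by linarith
  have hss' : s1 ≤ 2 * s' := by linarith
  have hcs' : c2 * s1 ≤ 2 * (c2 * s') := by
    have := mul_le_mul_of_nonneg_left hss' hc20.le
    linarith
  -- the minimiser is close to y0
  have hyx0 : y0 ≠ x0 := dist_pos.1 hs
  set n0 : E2 := s⁻¹ • (y0 - x0) with hn0
  have hn01 : ‖n0‖ = 1 := norm_unit hyx0
  have hyn0 : y0 - x0 = s • n0 := by rw [hn0, smul_smul, mul_inv_cancel₀ hs.ne', one_smul]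
  clear_value n0
  have hz'y : dist z' y0 ≤ c2 * s / 2 := hz'S.2
  have hz'y2 : dist z' y0 ≤ 11/10 * |s' - s| := by
    apply cone_dist hs hn01 hyn0 (by linarith)
    exact T.cone H hy0 hs hsr1 hn01 hyn0 hz'S.1 (by linarith)
  have hs's : |s' - s| ≤ c2 * s1 / 250 := by
    have : s' - s = (s' - s1) - (s - s1) := by ring
    rw [this]
    exact (abs_sub _ _).trans (by linarith)
  obtain ⟨z'', hz'', hd'', hlt⟩ := T.closer_point H hz'S.1 rfl hs' hs'r1 hs'ne (by linarith)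
  have hS'' : z'' ∈ S := by
    refine ⟨hz'', ?_⟩
    rw [mem_closedBall]
    have := dist_triangle z'' z' y0
    linarith
  have := hmin hS''
  change |s' - s1| ≤ |dist z'' x0 - s1| at this
  linarith

/-- uniqueness of the crack point on every small circle -/
theorem TipConst.unique_point (T : TipConst K x0 r0 C c α c2 η r1) (H : TipHyp K x0 r0 C c α)
    {s : ℝ} (hs : 0 < s) (hsr : s < r1 / 2) {y z : E2} (hy : y ∈ K) (hz : z ∈ K)
    (hys : dist y x0 = s) (hzs : dist z x0 = s) : z = y := by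
  have hc20 := T.c2pos
  have hc2s := T.c2small
  have hη := T.η_eq
  have hr1 := T.r1pos
  obtain ⟨e, he, hr, _⟩ := T.rays s hs (by linarith)
  have h1 := (hr y hy hys.le).2
  have h2 := (hr z hz hzs.le).2
  rw [hys] at h1
  rw [hzs] at h2
  have hd : dist z y ≤ 4 * η * s := by
    have := dist_triangle_right z y (x0 + s • e)
    linarith
  set n : E2 := s⁻¹ • (y - x0) with hn
  have hyx : y ≠ x0 := by rw [← dist_pos, hys]; exact hs
  have hn1 : ‖n‖ = 1 := by
    have := norm_unit hyx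
    rw [hys] at this
    exact this
  have hyn : y - x0 = s • n := by rw [hn, smul_smul, mul_inv_cancel₀ hs.ne', one_smul]
  clear_value n
  have hcone := T.cone H hy hs (by linarith) hn1 hyn hz (by rw [hη] at hd; nlinarith)
  have h3 := cone_dist hs hn1 hyn (by rw [hη] at hd; nlinarith) hcone
  rw [hzs, sub_self, abs_zero, mul_zero] at h3
  exact dist_le_zero.1 h3

end Crest.Agent.R135.Tip
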