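import Crest.Agent.R135.TipAux
import Crest.Agent.R135.TipTheta
import Crest.Agent.R135.QMCirc5

/-!
# R135 (TIP): the hypotheses of `crack_decay` on almost every circle around a tip (helper633)
-/

set_option autoImplicit false

open MeasureTheory Set Filter Topology Metric
open scoped Real Interval RealInnerProductSpace ENNReal NNReal Gradient

noncomputable section

namespace Crest.Agent.R135.Tip

open CrackAlg

variable {U : Set E2} {lam : ℝ} {u : E2 → ℝ} {K : Set E2} {x : E2} {r0 : ℝ} {θ θ1 : ℝ → ℝ}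

/-- tangential derivative in the shifted angle, scaled -/
def tF1 (u : E2 → ℝ) (x : E2) (θ : ℝ → ℝ) (s φ : ℝ) : ℝ :=
  Real.sqrt s * ⟪gradient u (cpt x s (θ s + φ)), tau (θ s + φ)⟫
/-- normal derivative in the shifted angle, scaled -/
def tH (u : E2 → ℝ) (x : E2) (θ : ℝ → ℝ) (s φ : ℝ) : ℝ :=
  Real.sqrt s * ⟪gradient u (cpt x s (θ s + φ)), dir (θ s + φ)⟫

theorem periodic_dir (u : E2 → ℝ) (x : E2) (s : ℝ) :
    Function.Periodic (fun θ => ⟪gradient u (cpt x s θ), dir θ⟫) (2 * π) := by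
  intro θ
  simp only
  rw [cpt_periodic x s θ, dir_periodic θ]

theorem periodic_u_dir (u : E2 → ℝ) (x : E2) (s : ℝ) :
    Function.Periodic (fun θ => u (cpt x s θ) * ⟪gradient u (cpt x s θ), dir θ⟫) (2 * π) := by
  intro θ
  simp only
  rw [cpt_periodic x s θ, dir_periodic θ]

theorem periodic_norm (u : E2 → ℝ) (x : E2) (s : ℝ) :
    Function.Periodic (fun θ => ‖gradient u (cpt x s θ)‖ ^ 2) (2 * π) := by
  intro θ
  simp only
  rw [cpt_periodic x s θ]

/-- off the crack point the circle does not meet `K` -/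
theorem TipCurve.off (T : TipCurve K x r0 θ θ1) {s φ : ℝ} (hs : s ∈ Ioo 0 r0)
    (hφ : φ ∈ Ioo (θ s) (θ s + 2 * π)) : cpt x s φ ∉ K := by
  intro hK
  have hd : dist (cpt x s φ) x = s := by rw [dist_cpt, abs_of_pos hs.1]
  have h1 := T.uniq _ hK (by rw [hd]; exact hs.1) (by rw [hd]; exact hs.2)
  rw [hd] at h1
  have h2 : φ = θ s := by
    apply cpt_injOn (x := x) hs.1.ne' (θ s) ⟨hφ.1.le, hφ.2⟩ ⟨le_rfl, by linarith [Real.two_pi_pos]⟩ h1
  exact absurd h2 hφ.1.ne'

/-- the two energies agree on good circles -/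
theorem cE_eq (hg : GoodCirc K (fun y => gradient u y) x r0) (θ : ℝ → ℝ) :
    cE (tF1 u x θ r0) (tH u x θ r0) = cirE u x r0 := by
  have hle : (0:ℝ) ≤ 2 * π := by positivity
  set a := θ r0 with ha
  have h0 : a + 0 ≤ a + 2 * π := by linarith
  have h1 := (hg.isL2_tau (a + 0) (a + 2 * π)).shift (a := 0) (b := 2 * π)
  have h2 := (hg.isL2_dir (a + 0) (a + 2 * π)).shift (a := 0) (b := 2 * π)
  have s1 := h1.sq hle
  have s2 := h2.sq hle
  have hr := hg.pos
  unfold cE tF1 tH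
  have e1 : ∀ φ, (Real.sqrt r0 * ⟪gradient u (cpt x r0 (θ r0 + φ)), tau (θ r0 + φ)⟫) ^ 2
      = r0 * ⟪gradient u (cpt x r0 (a + φ)), tau (a + φ)⟫ ^ 2 := fun φ => by
    rw [mul_pow, Real.sq_sqrt hr.le]
  have e2 : ∀ φ, (Real.sqrt r0 * ⟪gradient u (cpt x r0 (θ r0 + φ)), dir (θ r0 + φ)⟫) ^ 2
      = r0 * ⟪gradient u (cpt x r0 (a + φ)), dir (a + φ)⟫ ^ 2 := fun φ => by
    rw [mul_pow, Real.sq_sqrt hr.le]
  simp only [e1, e2]
  rw [intervalIntegral.integral_const_mul, intervalIntegral.integral_const_mul, ← mul_add,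
    ← intervalIntegral.integral_add s1 s2]
  rw [cirE, circI]
  congr 1
  rw [← integral_shift_period (periodic_norm u x r0) a]
  apply intervalIntegral.integral_congr
  intro φ _
  simp only
  rw [norm_sq_frame _ (a + φ)]
  ring

/-- **TipCircle data on almost every circle** (all but the force balance). -/
theorem ae_tipCircle (h : IsQM U lam u K) {M : ℝ} (hM : ∀ y ∈ U \ K, |u y| ≤ M)
    (hr0 : 0 < r0) (hU : closedBall x r0 ⊆ U) (T : TipCurve K x r0 θ θ1)
    {e : ℝ → ℝ} {N : ℝ} (hN1 : lam * π ≤ N) (hN2 : 2 * π * M ≤ N) (hN3 : lam * M * π ≤ N)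
    (hN4 : 1 ≤ N) (hND : ∀ s ∈ Ioo 0 r0, Dr u K x s ≤ N * s)
    (hforce : ∀ᵐ s, s ∈ Ioo 0 r0 →
      |cR (tF1 u x θ s) (tH u x θ s) - 1 / Real.sqrt (1 + (s * θ1 s)^2)| ≤ e s ∧
      |cT (tF1 u x θ s) (tH u x θ s) - (s * θ1 s) / Real.sqrt (1 + (s * θ1 s)^2)| ≤ e s) :
    ∃ F : ℝ → ℝ → ℝ, ∀ᵐ s, s ∈ Ioo 0 r0 →
      TipCircle N s (s ^ (-1:ℝ) * Dr u K x s) (s * θ1 s) (e s) (F s) (tF1 u x θ s) (tH u x θ s) := by
  obtain ⟨f, hf⟩ := QMC.exists_EL h
  have hc : LocConstOn (U \ K) (fun _ : E2 => (0:ℝ)) := fun y _ => Eventually.of_forall fun _ => rfl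
  have main : ∀ᵐ s, s ∈ Ioo 0 r0 → ∃ F : ℝ → ℝ,
      TipCircle N s (s ^ (-1:ℝ) * Dr u K x s) (s * θ1 s) (e s) F (tF1 u x θ s) (tH u x θ s) := by
    filter_upwards [hforce, QMC.ae_goodCirc_qm h hU, QMC.total_flux h hf hr0.le hU,
      QMC.energy_identity_bdd h hf hr0.le hU hc] with s hforce hgood hflux hen hs
    have hs0 := hs.1
    have hg := hgood hs
    set a := θ s with ha
    have hsq : 0 < Real.sqrt s := Real.sqrt_pos.2 hs0
    have hsq2 : Real.sqrt s * Real.sqrt s = s := Real.mul_self_sqrt hs0.le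
    have hle : (0:ℝ) ≤ 2 * π := by positivity
    have hpi := Real.pi_pos
    have hsub : closedBall x s ⊆ U := (closedBall_subset_closedBall hs.2.le).trans hU
    -- the primitive
    obtain ⟨P, hP, hPe⟩ := hg.exists_isPrim (u := u) (a := a + 0) (b := a + 2 * π)
      (by linarith) (fun φ hφ => by
        have hφ' : φ ∈ Ioo (θ s) (θ s + 2 * π) := by
          rw [← ha]; exact ⟨by linarith [hφ.1], hφ.2⟩
        exact QMC.hasGradientAt h ⟨hsub (by
          rw [mem_closedBall, dist_cpt, abs_of_pos hs0]), T.off hs hφ'⟩)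
    set F : ℝ → ℝ := fun φ => (Real.sqrt s)⁻¹ * P (a + φ) with hF
    have hFp : IsPrim 0 (2 * π) F (tF1 u x θ s) := by
      have h1 := (hP.shift).const_mul (Real.sqrt s)⁻¹
      have h2 : (fun φ => (Real.sqrt s)⁻¹ * (s * ⟪gradient u (cpt x s (a + φ)), tau (a + φ)⟫))
          = tF1 u x θ s := by
        funext φ
        unfold tF1
        rw [← ha, ← mul_assoc]
        congr 1
        rw [inv_mul_eq_div, div_eq_iff hsq.ne', hsq2]
      rw [← h2]
      exact h1
    have hFv : ∀ φ ∈ Ioo (0:ℝ) (2 * π), F φ = (Real.sqrt s)⁻¹ * u (cpt x s (a + φ)) := by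
      intro φ hφ
      simp only [hF]
      rw [hPe ⟨by linarith [hφ.1], by linarith [hφ.2]⟩]
    have hub : ∀ φ ∈ Ioo (0:ℝ) (2 * π), |u (cpt x s (a + φ))| ≤ M := by
      intro φ hφ
      apply hM
      refine ⟨hsub (by rw [mem_closedBall, dist_cpt, abs_of_pos hs0]), T.off hs ?_⟩
      rw [← ha]
      exact ⟨by linarith [hφ.1], by linarith [hφ.2]⟩
    have hF1L : IsL2 0 (2*π) (tF1 u x θ s) :=
      ((hg.isL2_tau (a + 0) (a + 2 * π)).shift (a := 0) (b := 2 * π)).const_mul _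
    have hHL : IsL2 0 (2*π) (tH u x θ s) :=
      ((hg.isL2_dir (a + 0) (a + 2 * π)).shift (a := 0) (b := 2 * π)).const_mul _
    -- flux
    have hfl : |∫ φ in (0:ℝ)..(2*π), tH u x θ s φ| ≤ N * s * Real.sqrt s := by
      unfold tH
      rw [intervalIntegral.integral_const_mul,
        integral_shift_period (periodic_dir u x s) (θ s), abs_mul, abs_of_pos hsq]
      have h1 := hflux hs
      have h2 := QMC.abs_rhs_le h hf hU hs0.le hs.2.le (v := fun _ => 1) (M := 1)
        (fun y _ => by simp)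
      simp only [mul_one] at h2
      rw [← h1, abs_mul, abs_of_pos hs0] at h2
      have h3 : |∫ θ in (-π)..π, ⟪gradient u (cpt x s θ), dir θ⟫| ≤ lam * π * s := by
        have : s * |∫ θ in (-π)..π, ⟪gradient u (cpt x s θ), dir θ⟫| ≤ s * (lam * π * s) := by
          linarith
        exact le_of_mul_le_mul_left this hs0
      calc Real.sqrt s * |∫ θ in (-π)..π, ⟪gradient u (cpt x s θ), dir θ⟫|
          ≤ Real.sqrt s * (lam * π * s) := mul_le_mul_of_nonneg_left h3 hsq.le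
        _ ≤ Real.sqrt s * (N * s) := by gcongr
        _ = N * s * Real.sqrt s := by ring
    -- mean
    have hmean : |∫ φ in (0:ℝ)..(2*π), F φ| * Real.sqrt s ≤ N := by
      have h1 : ‖∫ φ in (0:ℝ)..(2*π), F φ‖ ≤ ((Real.sqrt s)⁻¹ * M) * |2 * π - 0| := by
        apply intervalIntegral.norm_integral_le_of_norm_le_const_ae
        have hne : ∀ᵐ φ : ℝ, φ ≠ 2 * π := by
          rw [ae_iff]; simp
        filter_upwards [hne] with φ h1 h2
        rw [uIoc_of_le hle] at h2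
        have h3 : φ ∈ Ioo (0:ℝ) (2*π) := ⟨h2.1, lt_of_le_of_ne h2.2 h1⟩
        rw [hFv φ h3, Real.norm_eq_abs, abs_mul, abs_of_pos (inv_pos.2 hsq)]
        exact mul_le_mul_of_nonneg_left (hub φ h3) (inv_pos.2 hsq).le
      rw [Real.norm_eq_abs, sub_zero, abs_of_nonneg hle] at h1
      calc |∫ φ in (0:ℝ)..(2*π), F φ| * Real.sqrt s
          ≤ ((Real.sqrt s)⁻¹ * M * (2 * π)) * Real.sqrt s := by gcongr
        _ = 2 * π * M := by field_simp
        _ ≤ N := hN2
    -- energy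
    have hX : cX F (tH u x θ s) = ∫ θ in (-π)..π, u (cpt x s θ) * ⟪gradient u (cpt x s θ), dir θ⟫ := by
      rw [← integral_shift_period (periodic_u_dir u x s) a]
      unfold cX
      apply intervalIntegral.integral_congr_ae
      have hne : ∀ᵐ φ : ℝ, φ ≠ 2 * π := by
        rw [ae_iff]; simp
      filter_upwards [hne] with φ h1 h2
      rw [uIoc_of_le hle] at h2
      have h3 : φ ∈ Ioo (0:ℝ) (2*π) := ⟨h2.1, lt_of_le_of_ne h2.2 h1⟩
      rw [hFv φ h3]
      unfold tH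
      rw [← ha]
      field_simp
    have hXe : |cX F (tH u x θ s) - s ^ (-1:ℝ) * Dr u K x s| ≤ N * s := by
      have hMb : ∀ y ∈ ball x s \ K, |u y - (fun _ : E2 => (0:ℝ)) y| ≤ M := by
        intro y hy
        simp only [sub_zero]
        exact hM y ⟨hsub (ball_subset_closedBall hy.1), hy.2⟩
      have h1 := hen hs M hMb
      simp only [sub_zero] at h1 hMb
      have h2 := QMC.abs_rhs_le h hf hU hs0.le hs.2.le hMb
      rw [hX]
      have h3 : (∫ θ in (-π)..π, u (cpt x s θ) * ⟪gradient u (cpt x s θ), dir θ⟫)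
          - s ^ (-1:ℝ) * Dr u K x s = s⁻¹ * ∫ y in ball x s, f y * u y := by
        rw [Real.rpow_neg_one, h1]
        field_simp
        ring
      rw [h3, abs_mul, abs_of_pos (inv_pos.2 hs0)]
      calc s⁻¹ * |∫ y in ball x s, f y * u y| ≤ s⁻¹ * (lam * M * π * s ^ 2) := by gcongr
        _ = (lam * M * π) * s := by field_simp
        _ ≤ N * s := by gcongr
    obtain ⟨hR, hT⟩ := hforce hs
    have hNs : 0 ≤ N * s := by
      have : 0 ≤ N := by linarith
      positivity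
    refine ⟨F, ⟨hFp, hF1L, hHL, hfl, hmean, hXe, by linarith, by linarith, ?_, ?_⟩⟩
    · rw [Real.rpow_neg_one]
      have := hND s hs
      rw [inv_mul_le_iff₀ hs0]
      linarith
    · exact (T.slope s hs).trans hN4
  have main' : ∀ s, ∃ F : ℝ → ℝ, (∃ F : ℝ → ℝ,
      TipCircle N s (s ^ (-1:ℝ) * Dr u K x s) (s * θ1 s) (e s) F (tF1 u x θ s) (tH u x θ s)) →
      TipCircle N s (s ^ (-1:ℝ) * Dr u K x s) (s * θ1 s) (e s) F (tF1 u x θ s) (tH u x θ s) := by
    intro s
    by_cases hF : ∃ F : ℝ → ℝ,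
      TipCircle N s (s ^ (-1:ℝ) * Dr u K x s) (s * θ1 s) (e s) F (tF1 u x θ s) (tH u x θ s)
    · obtain ⟨F, hF⟩ := hF
      exact ⟨F, fun _ => hF⟩
    · exact ⟨0, fun h => absurd h hF⟩
  choose F hF using main'
  refine ⟨F, ?_⟩
  filter_upwards [main] with s hs hs'
  exact hF s (hs hs')

end Crest.Agent.R135.Tip
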