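import Crest.Agent.R135.TipData

/-!
# R135 (TIP): decay of the polar angle of the crack at a tip (helper633)
-/

set_option autoImplicit false

open MeasureTheory Set Filter Topology Metric
open scoped Real Interval RealInnerProductSpace ENNReal NNReal Gradient

noncomputable section

namespace Crest.Agent.R135.Tip

open CrackAlg

variable {U : Set E2} {lam : ℝ} {u : E2 → ℝ} {K : Set E2} {x : E2} {r0 : ℝ} {θ θ1 : ℝ → ℝ}

/-- the force balance in averaged form (input from INNER) -/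
structure ForceBal (u : E2 → ℝ) (x : E2) (r0 C : ℝ) (θ θ1 e : ℝ → ℝ) : Prop where
  nonneg : ∀ s, 0 ≤ e s
  int : ∀ a b, 0 < a → a ≤ b → b ≤ r0 → IntervalIntegrable e volume a b
  bd : ∀ a b, 0 < a → a ≤ b → b ≤ r0 → ∫ s in a..b, e s ≤ C * b ^ (3/2 : ℝ)
  eq : ∀ᵐ s, s ∈ Ioo 0 r0 →
      |cR (tF1 u x θ s) (tH u x θ s) - 1 / Real.sqrt (1 + (s * θ1 s)^2)| ≤ e s ∧
      |cT (tF1 u x θ s) (tH u x θ s) - (s * θ1 s) / Real.sqrt (1 + (s * θ1 s)^2)| ≤ e s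

theorem TipCurve.mono (T : TipCurve K x r0 θ θ1) {r1 : ℝ} (h1 : 0 < r1) (h : r1 ≤ r0) :
    TipCurve K x r1 θ θ1 :=
  ⟨h1, fun s hs => T.der s ⟨hs.1, hs.2.trans_le h⟩, T.cont.mono (Ioo_subset_Ioo_right h),
    fun s hs => T.slope s ⟨hs.1, hs.2.trans_le h⟩, fun s hs => T.mem s ⟨hs.1, hs.2.trans_le h⟩,
    fun z hz h0 h2 => T.uniq z hz h0 (h2.trans_le h)⟩

theorem angle_decay_tip (h : IsQM U lam u K) {M : ℝ} (hM : ∀ y ∈ U \ K, |u y| ≤ M) (hM0 : 0 ≤ M)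
    (hr0 : 0 < r0) (hr01 : r0 ≤ 1) (hU : closedBall x r0 ⊆ U) (T : TipCurve K x r0 θ θ1)
    {e : ℝ → ℝ} {C : ℝ} (hC : 0 ≤ C) (hF : ForceBal u x r0 C θ θ1 e)
    {D0 : ℝ} (hD0 : ∀ s ∈ Ioo 0 r0, Dr u K x s ≤ D0 * s)
    (hlim : Tendsto (fun s => s ^ (-1:ℝ) * Dr u K x s) (𝓝[>] 0) (𝓝 1)) :
    ∃ γ θ0 C' : ℝ, 0 < γ ∧ 0 ≤ C' ∧ ∀ s, 0 < s → s < r0/2 → |θ s - θ0| ≤ C' * s ^ γ := by
  set r1 := r0/2 with hr1
  have hr10 : 0 < r1 := by positivity
  have hr1r0 : r1 < r0 := by rw [hr1]; linarith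
  have hr11 : r1 ≤ 1 := by linarith
  have hlam := h.lam_nonneg
  have hpi := Real.pi_pos
  set N : ℝ := lam * π + 2 * π * M + lam * M * π + 1 + |D0| + 3 * C with hN
  have hp1 : 0 ≤ lam * π := by positivity
  have hp2 : 0 ≤ 2 * π * M := by positivity
  have hp3 : 0 ≤ lam * M * π := by positivity
  have hp4 : 0 ≤ |D0| := abs_nonneg _
  have hD0' : D0 ≤ |D0| := le_abs_self _
  have hU1 : closedBall x r1 ⊆ U := (closedBall_subset_closedBall hr1r0.le).trans hU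
  have T1 := T.mono hr10 hr1r0.le
  have hforce1 : ∀ᵐ s, s ∈ Ioo 0 r1 →
      |cR (tF1 u x θ s) (tH u x θ s) - 1 / Real.sqrt (1 + (s * θ1 s)^2)| ≤ e s ∧
      |cT (tF1 u x θ s) (tH u x θ s) - (s * θ1 s) / Real.sqrt (1 + (s * θ1 s)^2)| ≤ e s := by
    filter_upwards [hF.eq] with s hs hs'
    exact hs ⟨hs'.1, hs'.2.trans hr1r0⟩
  obtain ⟨F, hFc⟩ := ae_tipCircle h hM hr10 hU1 T1 (e := e) (N := N) (by rw [hN]; linarith)
    (by rw [hN]; linarith) (by rw [hN]; linarith) (by rw [hN]; linarith) (fun s hs => by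
      refine (hD0 s ⟨hs.1, hs.2.trans hr1r0⟩).trans ?_
      apply mul_le_mul_of_nonneg_right _ hs.1.le
      rw [hN]; linarith) hforce1
  obtain ⟨P, hP, hP0, hP1⟩ := exists_P hr10 hC hF.nonneg
    (fun a b ha hab hb => hF.int a b ha hab (hb.trans hr1r0.le))
    (fun a b ha hab hb => hF.bd a b ha hab (hb.trans hr1r0.le))
  have hA : LocPrim r1 (fun s => Dr u K x s) (fun s => cE (tF1 u x θ s) (tH u x θ s)) := by
    intro a b ha hab hb
    refine (QMC.isPrim_Dr h hU ha.le hab (hb.trans hr1r0.le)).congr_ae hab ?_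
    filter_upwards [QMC.ae_goodCirc_qm h hU] with s hs hs'
    have hg := hs ⟨ha.trans hs'.1, (hs'.2.trans_le hb).trans hr1r0⟩
    exact (cE_eq hg θ).symm
  have hθ : LocPrim r1 θ θ1 := by
    intro a b ha hab hb
    apply isPrim_of_hasDerivAt hab
    · intro s hs
      exact T.der s ⟨ha.trans_le hs.1, (hs.2.trans hb).trans_lt hr1r0⟩
    · apply T.cont.mono
      intro s hs
      exact ⟨ha.trans_le hs.1, (hs.2.trans hb).trans_lt hr1r0⟩
  have hN0 : 0 ≤ N := by rw [hN]; linarith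
  have hP1' : ∀ s, 0 < s → s ≤ r1 → P s ≤ N * s ^ (1/2 : ℝ) := by
    intro s hs hsr
    refine (hP1 s hs hsr).trans ?_
    apply mul_le_mul_of_nonneg_right _ (Real.rpow_nonneg hs.le _)
    rw [hN]; linarith
  obtain ⟨γ, θ0, C', hγ, hC', hdec, -⟩ := crack_decay hr10 hr11 hN0 hA hlim hθ hP hF.nonneg hP0
    hP1' hFc
  exact ⟨γ, θ0, C', hγ, hC', fun s hs hsr => hdec s hs hsr.le⟩

end Crest.Agent.R135.Tip
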