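import Crest.Agent.R135.ArcMove
import Crest.Agent.R135.PolarC

/-!
# R135 (TIP): the crack near a tip is a `C¹` curve `s ↦ cpt x0 s (θ s)` (helper633)

Input: `K` is close to a half-line at all small scales around `x0` (no rate) and flat with a
scale-invariant power rate around every other point.
-/

set_option autoImplicit false

open Set Filter Topology Metric
open scoped RealInnerProductSpace

namespace Crest.Agent.R135.Tip

open Crest.Agent.R135.Arc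

/-- geometric hypotheses at a tip -/
structure TipHyp (K : Set E2) (x0 : E2) (r0 C c α : ℝ) : Prop where
  r0pos : 0 < r0
  Cpos : 0 < C
  cpos : 0 < c
  αpos : 0 < α
  mem : x0 ∈ K
  closed : closure K ∩ ball x0 r0 ⊆ K
  ray : ∀ η, 0 < η → ∃ r, 0 < r ∧ ∀ ρ, 0 < ρ → ρ < r → ∃ e, StarAt a1 b1 K x0 e ρ (η * ρ)
  flat : ∀ y ∈ K, y ≠ x0 → dist y x0 < r0 → ∀ ρ, 0 < ρ → ρ ≤ c * dist y x0 →
      ∃ v, Flat K y v ρ (C * ρ * (ρ / dist y x0) ^ α)

theorem abs_inner_J_le {a b : E2} (ha : ‖a‖ = 1) (hb : ‖b‖ = 1) : |⟪b, J a⟫| ≤ 1 := by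
  have := abs_real_inner_le_norm b (J a)
  rwa [norm_J, ha, hb, mul_one] at this

theorem abs_inner_le_one {a b : E2} (ha : ‖a‖ = 1) (hb : ‖b‖ = 1) : |⟪a, b⟫| ≤ 1 := by
  have := abs_real_inner_le_norm a b
  rwa [ha, hb, mul_one] at this

theorem inner_J_trans {a b n : E2} (ha : ‖a‖ = 1) (hb : ‖b‖ = 1) (hn : ‖n‖ = 1) :
    |⟪b, J n⟫| ≤ |⟪a, J n⟫| + |⟪b, J a⟫| := by
  have h : a 0 ^ 2 + a 1 ^ 2 = 1 := by rw [← Arc.norm_sq_eq, ha]; norm_num
  have e : ⟪b, J n⟫ = ⟪b, a⟫ * ⟪a, J n⟫ + ⟪b, J a⟫ * ⟪a, n⟫ := by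
    simp only [Arc.inner_eq, J_zero', J_one']
    linear_combination (-(b 0 * -(n 1) + b 1 * n 0)) * h
  have h1 := abs_inner_le_one hb ha
  have h2 := abs_inner_le_one ha hn
  rw [e]
  calc |⟪b, a⟫ * ⟪a, J n⟫ + ⟪b, J a⟫ * ⟪a, n⟫| ≤ |⟪b, a⟫ * ⟪a, J n⟫| + |⟪b, J a⟫ * ⟪a, n⟫| :=
        abs_add_le _ _
    _ = |⟪b, a⟫| * |⟪a, J n⟫| + |⟪b, J a⟫| * |⟪a, n⟫| := by rw [abs_mul, abs_mul]
    _ ≤ 1 * |⟪a, J n⟫| + |⟪b, J a⟫| * 1 := by gcongr
    _ = _ := by ring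

/-- comparison of directions of flatness at two scales -/
theorem flat_cross {K : Set E2} {y v₁ v₂ : E2} {ρ₁ ρ₂ E₁ E₂ : ℝ} (h₁ : Flat K y v₁ ρ₁ E₁)
    (h₂ : Flat K y v₂ ρ₂ E₂) (hρ : ρ₂ ≤ ρ₁) (hρ0 : 0 < ρ₂) (hE : E₂ ≤ ρ₂ / 2) :
    |⟪v₂, J v₁⟫| ≤ 2 * (E₁ + E₂) / ρ₂ := by
  obtain ⟨z, hz, hd⟩ := h₂.2.2 (ρ₂/2) (by rw [abs_of_pos (by linarith)]; linarith)
  have hzy : dist z y ≤ ρ₁ := by
    have : dist (y + (ρ₂/2) • v₂) y = ρ₂/2 := by
      rw [dist_eq_norm, add_sub_cancel_left, norm_smul, h₂.1, mul_one, Real.norm_eq_abs,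
        abs_of_pos (by linarith)]
    have := dist_triangle z (y + (ρ₂/2) • v₂) y
    linarith
  have h3 := h₁.2.1 z hz hzy
  have h4 : |⟪z - (y + (ρ₂/2) • v₂), J v₁⟫| ≤ E₂ := by
    refine (abs_real_inner_le_norm _ _).trans ?_
    rw [norm_J, h₁.1, mul_one, ← dist_eq_norm]
    exact hd
  have e : (ρ₂/2) * ⟪v₂, J v₁⟫ = ⟪z - y, J v₁⟫ - ⟪z - (y + (ρ₂/2) • v₂), J v₁⟫ := by
    rw [← inner_sub_left, ← real_inner_smul_left]
    congr 1
    abel
  have h5 : (ρ₂/2) * |⟪v₂, J v₁⟫| ≤ E₁ + E₂ := by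
    have : (ρ₂/2) * |⟪v₂, J v₁⟫| = |(ρ₂/2) * ⟪v₂, J v₁⟫| := by
      rw [abs_mul, abs_of_pos (by linarith : 0 < ρ₂/2)]
    rw [this, e]
    exact (abs_sub _ _).trans (add_le_add h3 h4)
  rw [le_div_iff₀ hρ0]
  linarith

/-- the simplified form of closeness to a ray -/
theorem star1_iff {K : Set E2} {x0 e : E2} {ρ E : ℝ} (h : StarAt a1 b1 K x0 e ρ E) :
    ‖e‖ = 1 ∧ (∀ z ∈ K, dist z x0 ≤ ρ → ∃ t : ℝ, 0 ≤ t ∧ dist z (x0 + t • e) ≤ E) ∧
    (∀ t : ℝ, 0 ≤ t → t ≤ ρ → ∃ z ∈ K, dist z (x0 + t • e) ≤ E) := by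
  obtain ⟨h0, h1, h2⟩ := h
  refine ⟨h0, ?_, ?_⟩
  · intro z hz hd
    obtain ⟨k, t, ht, h3⟩ := h1 z hz hd
    exact ⟨t, ht, by simpa [a1, b1, rt] using h3⟩
  · intro t ht htρ
    obtain ⟨z, hz, h3⟩ := h2 0 t ht htρ
    exact ⟨z, hz, by simpa [a1, b1, rt] using h3⟩

/-- a point close to the ray is close to the point of the ray at the same distance -/
theorem near_ray {x0 e z : E2} {t E : ℝ} (he : ‖e‖ = 1) (ht : 0 ≤ t)
    (h : dist z (x0 + t • e) ≤ E) :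
    |⟪z - x0, J e⟫| ≤ E ∧ |t - dist z x0| ≤ E ∧ dist z (x0 + (dist z x0) • e) ≤ 2 * E := by
  have h1 : ⟪z - x0, J e⟫ = ⟪z - (x0 + t • e), J e⟫ := by
    have : ⟪t • e, J e⟫ = 0 := by rw [real_inner_smul_left, inner_J_self, mul_zero]
    rw [show z - (x0 + t • e) = (z - x0) - t • e by abel, inner_sub_left (z - x0) (t • e), this,
      sub_zero]
  have h2 : |t - dist z x0| ≤ E := by
    have e1 : dist (x0 + t • e) x0 = t := by
      rw [dist_eq_norm, add_sub_cancel_left, norm_smul, he, mul_one, Real.norm_eq_abs,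
        abs_of_nonneg ht]
    have := abs_dist_sub_le (x0 + t • e) z x0
    rw [e1] at this
    exact this.trans (by rwa [dist_comm])
  refine ⟨?_, h2, ?_⟩
  · rw [h1]
    refine (abs_real_inner_le_norm _ _).trans ?_
    rw [norm_J, he, mul_one, ← dist_eq_norm]
    exact h
  · have : dist (x0 + t • e) (x0 + (dist z x0) • e) = |t - dist z x0| := by
      rw [dist_eq_norm, show x0 + t • e - (x0 + (dist z x0) • e) = (t - dist z x0) • e by
        rw [sub_smul]; abel, norm_smul, he, mul_one, Real.norm_eq_abs]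
    have := dist_triangle z (x0 + t • e) (x0 + (dist z x0) • e)
    linarith

/-- constants and the closeness to rays, packaged -/
structure TipConst (K : Set E2) (x0 : E2) (r0 C c α c2 η r1 : ℝ) : Prop where
  c2pos : 0 < c2
  c2c : c2 ≤ c
  c2small : c2 ≤ 1/10
  Cc2 : C * c2 ^ α ≤ 1/600
  ηpos : 0 < η
  η_eq : η = c2 / 1000
  r1pos : 0 < r1
  r1r0 : r1 < r0
  rays : ∀ s, 0 < s → s ≤ 4 * r1 → ∃ e : E2, ‖e‖ = 1 ∧
    (∀ z ∈ K, dist z x0 ≤ s → |⟪z - x0, J e⟫| ≤ η * s ∧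
      dist z (x0 + (dist z x0) • e) ≤ 2 * (η * s)) ∧
    (∀ t : ℝ, 0 ≤ t → t ≤ s → ∃ z ∈ K, dist z (x0 + t • e) ≤ η * s)
  dirs : ∀ y ∈ K, y ≠ x0 → dist y x0 < r1 → ∀ ρ v, 0 < ρ → ρ ≤ c2 * dist y x0 →
    Flat K y v ρ (C * ρ * (ρ / dist y x0) ^ α) →
    |⟪v, J ((dist y x0)⁻¹ • (y - x0))⟫| ≤ 1/20

theorem norm_unit {y x0 : E2} (h : y ≠ x0) : ‖(dist y x0)⁻¹ • (y - x0)‖ = 1 := by
  rw [norm_smul, ← dist_eq_norm, norm_inv, Real.norm_eq_abs, abs_of_nonneg dist_nonneg]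
  exact inv_mul_cancel₀ (dist_pos.2 h).ne'

theorem inner_J_comm (a b : E2) : ⟪a, J b⟫ = -⟪b, J a⟫ := by
  simp only [Arc.inner_eq, J_zero', J_one']; ring

theorem TipHyp.const {K : Set E2} {x0 : E2} {r0 C c α : ℝ} (H : TipHyp K x0 r0 C c α) :
    ∃ c2 η r1, TipConst K x0 r0 C c α c2 η r1 := by
  obtain ⟨hr0, hC, hc, hα, hmem, hcl, hray, hflat⟩ := H
  set q : ℝ := (2:ℝ) ^ (-α) with hq
  have hq0 : 0 < q := by positivity
  have hq1 : q < 1 := by
    rw [hq]; exact Real.rpow_lt_one_of_one_lt_of_neg (by norm_num) (by linarith)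
  set Λ : ℝ := 6 * C / (1 - q) with hΛ
  have h1q : 0 < 1 - q := by linarith
  have hΛ0 : 0 < Λ := by positivity
  have hΛC : 6 * C ≤ Λ := by
    rw [hΛ, le_div_iff₀ h1q]; nlinarith
  set c2 : ℝ := min c (min (1/10) ((1/(100*Λ)) ^ (1/α))) with hc2
  have hc20 : 0 < c2 := by
    rw [hc2]; refine lt_min hc (lt_min (by norm_num) (by positivity))
  have hc2c : c2 ≤ c := min_le_left _ _
  have hc2s : c2 ≤ 1/10 := (min_le_right _ _).trans (min_le_left _ _)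
  have hc2α : c2 ^ α ≤ 1/(100*Λ) := by
    have h1 : c2 ≤ (1/(100*Λ)) ^ (1/α) := (min_le_right _ _).trans (min_le_right _ _)
    calc c2 ^ α ≤ ((1/(100*Λ)) ^ (1/α)) ^ α := Real.rpow_le_rpow hc20.le h1 hα.le
      _ = 1/(100*Λ) := by
        rw [← Real.rpow_mul (by positivity), one_div_mul_cancel hα.ne', Real.rpow_one]
  have hΛc2 : Λ * c2 ^ α ≤ 1/100 := by
    calc Λ * c2 ^ α ≤ Λ * (1/(100*Λ)) := mul_le_mul_of_nonneg_left hc2α hΛ0.le
      _ = 1/100 := by field_simp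
  have hc2α0 : 0 < c2 ^ α := by positivity
  have hCc2 : C * c2 ^ α ≤ 1/600 := by
    have : 6 * C * c2 ^ α ≤ Λ * c2 ^ α := mul_le_mul_of_nonneg_right hΛC hc2α0.le
    linarith
  set η : ℝ := c2/1000 with hη
  have hη0 : 0 < η := by positivity
  obtain ⟨rη, hrη, hrayη⟩ := hray η hη0
  set r1 : ℝ := min (r0/2) (rη/8) with hr1
  have hr10 : 0 < r1 := lt_min (by linarith) (by linarith)
  have hr1r0 : r1 < r0 := lt_of_le_of_lt (min_le_left _ _) (by linarith)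
  have hr1η : r1 ≤ rη/8 := min_le_right _ _
  have rays : ∀ s, 0 < s → s ≤ 4 * r1 → ∃ e : E2, ‖e‖ = 1 ∧
    (∀ z ∈ K, dist z x0 ≤ s → |⟪z - x0, J e⟫| ≤ η * s ∧
      dist z (x0 + (dist z x0) • e) ≤ 2 * (η * s)) ∧
    (∀ t : ℝ, 0 ≤ t → t ≤ s → ∃ z ∈ K, dist z (x0 + t • e) ≤ η * s) := by
    intro s hs hs4
    obtain ⟨e, he⟩ := hrayη s hs (by linarith)
    obtain ⟨h0, h1, h2⟩ := star1_iff he
    refine ⟨e, h0, ?_, h2⟩
    intro z hz hd
    obtain ⟨t, ht, h3⟩ := h1 z hz hd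
    obtain ⟨g1, _, g3⟩ := near_ray h0 ht h3
    exact ⟨g1, g3⟩
  refine ⟨c2, η, r1, ⟨hc20, hc2c, hc2s, hCc2, hη0, hη, hr10, hr1r0, rays, ?_⟩⟩
  intro y hy hyx hyr
  set s : ℝ := dist y x0 with hs
  have hs0 : 0 < s := dist_pos.2 hyx
  set n : E2 := s⁻¹ • (y - x0) with hn
  have hn1 : ‖n‖ = 1 := norm_unit hyx
  have hyn : y - x0 = s • n := by rw [hn, smul_smul, mul_inv_cancel₀ hs0.ne', one_smul]
  clear_value n
  have ind : ∀ k : ℕ, ∀ ρ v, 0 < ρ → ρ ≤ c2 * s → c2 * s ≤ 2 ^ (k+1) * ρ →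
      Flat K y v ρ (C * ρ * (ρ / s) ^ α) →
      |⟪v, J n⟫| ≤ 1/40 + Λ * (c2 ^ α - (ρ/s) ^ α) := by
    intro k
    induction k with
    | zero =>
      intro ρ v hρ hρc hρk hF
      have hρs : ρ/s ≤ c2 := by rw [div_le_iff₀ hs0]; exact hρc
      have hρs0 : 0 < ρ/s := by positivity
      have hpow : (ρ/s)^α ≤ c2^α := Real.rpow_le_rpow hρs0.le hρs hα.le
      obtain ⟨e, he, hr, _⟩ := rays (2*s) (by linarith) (by linarith)
      obtain ⟨z, hz, hd⟩ := hF.2.2 ρ (by rw [abs_of_pos hρ])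
      set E : ℝ := C * ρ * (ρ / s) ^ α with hE
      have hEρ : E ≤ ρ/600 := by
        calc E = ρ * (C * (ρ/s)^α) := by rw [hE]; ring
          _ ≤ ρ * (C * c2^α) := by gcongr
          _ ≤ ρ * (1/600) := by gcongr
          _ = ρ/600 := by ring
      have hzy : dist z y ≤ ρ + E := by
        have h1 : dist (y + ρ • v) y = ρ := by
          rw [dist_eq_norm, add_sub_cancel_left, norm_smul, hF.1, mul_one, Real.norm_eq_abs,
            abs_of_pos hρ]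
        have := dist_triangle z (y + ρ • v) y
        linarith
      have hρs' : ρ ≤ s/10 := by
        calc ρ ≤ c2 * s := hρc
          _ ≤ 1/10 * s := by gcongr
          _ = s/10 := by ring
      have hzx : dist z x0 ≤ 2*s := by
        have := dist_triangle z y x0
        linarith
      have g1 := (hr z hz hzx).1
      have g2 := (hr y hy (by linarith)).1
      have g3 : |⟪z - (y + ρ • v), J e⟫| ≤ E := by
        refine (abs_real_inner_le_norm _ _).trans ?_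
        rw [norm_J, he, mul_one, ← dist_eq_norm]
        exact hd
      have g4 : ρ * ⟪v, J e⟫ = ⟪z - x0, J e⟫ - ⟪y - x0, J e⟫ - ⟪z - (y + ρ • v), J e⟫ := by
        rw [← inner_sub_left, ← inner_sub_left, ← real_inner_smul_left]
        congr 1
        abel
      have g5 : ρ * |⟪v, J e⟫| ≤ 4 * η * s + E := by
        have : ρ * |⟪v, J e⟫| = |ρ * ⟪v, J e⟫| := by rw [abs_mul, abs_of_pos hρ]
        rw [this, g4]
        have t1 := abs_sub (⟪z - x0, J e⟫ - ⟪y - x0, J e⟫) (⟪z - (y + ρ • v), J e⟫)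
        have t2 := abs_sub (⟪z - x0, J e⟫) (⟪y - x0, J e⟫)
        linarith
      have g6 : 4 * η * s ≤ 8/1000 * ρ := by
        have : c2 * s ≤ 2 * ρ := by simpa using hρk
        rw [hη]; linarith
      have g7 : |⟪v, J e⟫| ≤ 8/1000 + 1/600 := by
        have : ρ * |⟪v, J e⟫| ≤ ρ * (8/1000 + 1/600) := by linarith
        exact le_of_mul_le_mul_left this hρ
      have g8 : |⟪e, J n⟫| ≤ 2 * η := by
        rw [inner_J_comm, abs_neg]
        have : s * |⟪n, J e⟫| ≤ η * (2 * s) := by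
          have : s * |⟪n, J e⟫| = |⟪y - x0, J e⟫| := by
            rw [hyn, real_inner_smul_left, abs_mul, abs_of_pos hs0]
          rw [this]; exact g2
        have : s * |⟪n, J e⟫| ≤ s * (2 * η) := by linarith
        exact le_of_mul_le_mul_left this hs0
      have g9 := inner_J_trans he hF.1 hn1
      have g10 : 0 ≤ Λ * (c2 ^ α - (ρ/s) ^ α) := mul_nonneg hΛ0.le (by linarith)
      have g11 : η ≤ 1/10000 := by rw [hη]; linarith
      linarith
    | succ k ih =>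
      intro ρ v hρ hρc hρk hF
      by_cases hk : c2 * s ≤ 2 ^ (k+1) * ρ
      · exact ih ρ v hρ hρc hk hF
      · push Not at hk
        have h2k : (2:ℝ) ≤ 2 ^ (k+1) := by
          calc (2:ℝ) = 2^1 := by norm_num
            _ ≤ 2^(k+1) := pow_le_pow_right₀ (by norm_num) (by omega)
        have h2ρ : 2 * ρ ≤ c2 * s := by
          have : 2 * ρ ≤ 2 ^ (k+1) * ρ := mul_le_mul_of_nonneg_right h2k hρ.le
          linarith
        obtain ⟨v', hv'⟩ := hflat y hy hyx (by linarith) (2*ρ) (by linarith)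
          (h2ρ.trans (mul_le_mul_of_nonneg_right hc2c hs0.le))
        have hih := ih (2*ρ) v' (by linarith) h2ρ (by
          calc c2 * s ≤ 2 ^ (k+1+1) * ρ := hρk
            _ = 2 ^ (k+1) * (2*ρ) := by ring) hv'
        have hρs0 : 0 < ρ/s := by positivity
        have hρs : ρ/s ≤ c2 := by rw [div_le_iff₀ hs0]; exact hρc
        have hpow : (ρ/s)^α ≤ c2^α := Real.rpow_le_rpow hρs0.le hρs hα.le
        have hE2 : C * ρ * (ρ / s) ^ α ≤ ρ/2 := by
          calc C * ρ * (ρ / s) ^ α = ρ * (C * (ρ/s)^α) := by ring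
            _ ≤ ρ * (C * c2^α) := by gcongr
            _ ≤ ρ * (1/600) := by gcongr
            _ ≤ ρ/2 := by linarith
        have hcr := flat_cross hv' hF (by linarith) hρ hE2
        have hX : (2*ρ/s)^α = (ρ/s)^α / q := by
          rw [show 2*ρ/s = 2 * (ρ/s) by ring, Real.mul_rpow (by norm_num) hρs0.le, hq,
            Real.rpow_neg (by norm_num)]
          field_simp
        set X : ℝ := (ρ/s)^α with hXdef
        have hX0 : 0 < X := by positivity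
        have hXq : X ≤ X / q := by rw [le_div_iff₀ hq0]; nlinarith
        have e1 : 2 * (C * (2*ρ) * (2*ρ/s)^α + C * ρ * X) / ρ ≤ 6 * C * (X/q) := by
          rw [hX, div_le_iff₀ hρ]
          have : C * ρ * X ≤ C * ρ * (X/q) := mul_le_mul_of_nonneg_left hXq (by positivity)
          nlinarith
        have e2 : Λ * (X/q - X) = 6 * C * (X/q) := by
          rw [hΛ]; field_simp
        have htr := inner_J_trans hv'.1 hF.1 hn1
        rw [hX] at hih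
        have : Λ * (c2^α - X) = Λ * (c2^α - X/q) + Λ * (X/q - X) := by ring
        rw [this, e2]
        linarith
  intro ρ v hρ hρc hF
  obtain ⟨k, hk⟩ := pow_unbounded_of_one_lt (c2 * s / ρ) (by norm_num : (1:ℝ) < 2)
  have hk' : c2 * s ≤ 2 ^ (k+1) * ρ := by
    rw [div_lt_iff₀ hρ] at hk
    have : (2:ℝ)^k * ρ ≤ 2^(k+1) * ρ := by
      apply mul_le_mul_of_nonneg_right _ hρ.le
      exact pow_le_pow_right₀ (by norm_num) (by omega)
    linarith
  have h := ind k ρ v hρ hρc hk' hF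
  have hX0 : 0 ≤ Λ * (ρ/s)^α := by positivity
  have : Λ * (c2 ^ α - (ρ/s)^α) = Λ * c2^α - Λ * (ρ/s)^α := by ring
  linarith

end Crest.Agent.R135.Tip
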