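import Crest.Agent.R135.FlatLine

/-!
# R135: the crack near a tip is a polar graph, part 1 (helper555)

`TipHyp`: near `x0` the set `K` is `η ρ`-close to half-lines issued from `x0` for every `η`, and
power-flat off `x0` in the scale-invariant sense `FlatOff`.
`TipHyp.good`: directions of flatness at `y` are almost radial, quantitatively.
-/

set_option autoImplicit false

open Set Filter Topology Metric
open scoped NNReal

namespace Crest.Agent.R135.TipG

open Crest.Agent.R135.Arc (J Flat FlatOff inner_eq norm_sq_eq inner_J_self norm_J J_neg frame_eq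
  J_add J_smul J_J)
open Crest.Agent.R135 (dir tau cpt ray HClose)

/-! ### plane vectors -/

theorem norm_sq_unit {e : E2} (he : ‖e‖ = 1) (z : E2) :
    ‖z‖ ^ 2 = inner ℝ z e ^ 2 + inner ℝ z (J e) ^ 2 := by
  have h := frame_eq he z
  conv_lhs => rw [h]
  rw [Crest.Agent.R135.Arc.norm_sq_frame he]

theorem norm_sq_mul (v w : E2) :
    (‖v‖ * ‖w‖) ^ 2 = inner ℝ v w ^ 2 + inner ℝ v (J w) ^ 2 := by
  rw [mul_pow, norm_sq_eq, norm_sq_eq, inner_eq, inner_eq]
  simp only [Crest.Agent.R135.Arc.J_zero', Crest.Agent.R135.Arc.J_one']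
  ring

theorem inner_J_comm (v w : E2) : inner ℝ v (J w) = - inner ℝ w (J v) := by
  rw [inner_eq, inner_eq]
  simp only [Crest.Agent.R135.Arc.J_zero', Crest.Agent.R135.Arc.J_one']
  ring

theorem inner_J_J (v w : E2) : inner ℝ (J v) (J w) = inner ℝ v w := by
  rw [inner_eq, inner_eq]
  simp only [Crest.Agent.R135.Arc.J_zero', Crest.Agent.R135.Arc.J_one']
  ring

theorem abs_inner_le (v w : E2) : |inner ℝ v w| ≤ ‖v‖ * ‖w‖ := abs_real_inner_le_norm v w

theorem abs_inner_J_le (v w : E2) : |inner ℝ v (J w)| ≤ ‖v‖ * ‖w‖ := by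
  have := abs_real_inner_le_norm v (J w)
  rwa [norm_J] at this

theorem J_sub (v w : E2) : J (v - w) = J v - J w := by
  rw [sub_eq_add_neg, J_add, J_neg, ← sub_eq_add_neg]

theorem cross_tri {v v' : E2} (hv : ‖v‖ = 1) (hv' : ‖v'‖ = 1) (w : E2) :
    |inner ℝ v' (J w)| ≤ |inner ℝ v (J w)| + |inner ℝ v' (J v)| * ‖w‖ := by
  have h : inner ℝ v' (J w) = inner ℝ v' v * inner ℝ v (J w)
      + inner ℝ v' (J v) * inner ℝ (J v) (J w) := by
    conv_lhs => rw [frame_eq hv v']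
    rw [inner_add_left, real_inner_smul_left, real_inner_smul_left]
  rw [h, inner_J_J]
  refine (abs_add_le _ _).trans ?_
  rw [abs_mul, abs_mul]
  have h1 : |inner ℝ v' v| ≤ 1 := by
    have := abs_inner_le v' v; rwa [hv, hv', mul_one] at this
  have h2 : |inner ℝ v w| ≤ ‖w‖ := by
    have := abs_inner_le v w; rwa [hv, one_mul] at this
  have h3 := abs_nonneg (inner ℝ v (J w))
  have h4 := abs_nonneg (inner ℝ v' (J v))
  nlinarith

/-- comparison of the flatness directions at the same point and two scales -/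
theorem flat_step {K : Set E2} {y v v' : E2} {ρ ρ' E E' : ℝ} (h : Flat K y v ρ E)
    (h' : Flat K y v' ρ' E') (hρ : ρ' ≤ ρ) (hρ0 : 0 < ρ') (hE' : E' ≤ ρ' / 2) :
    |inner ℝ v' (J v)| ≤ 2 * (E + E') / ρ' := by
  obtain ⟨z, hz, hd⟩ := h'.2.2 (ρ' / 2) (by rw [abs_of_pos (by linarith)]; linarith)
  have hzy : dist z y ≤ ρ := by
    have h1 : dist (y + (ρ' / 2) • v') y = ρ' / 2 := by
      rw [dist_eq_norm, add_sub_cancel_left, norm_smul, h'.1, mul_one, Real.norm_eq_abs,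
        abs_of_pos (by linarith)]
    have h2 := dist_triangle z (y + (ρ' / 2) • v') y
    linarith
  have h3 := h.2.1 z hz hzy
  have e1 : (ρ' / 2) * inner ℝ v' (J v) = inner ℝ (z - y) (J v)
      - inner ℝ (z - (y + (ρ' / 2) • v')) (J v) := by
    rw [← inner_sub_left, ← real_inner_smul_left]
    congr 1; abel
  have h4 : |inner ℝ (z - (y + (ρ' / 2) • v')) (J v)| ≤ E' := by
    have := abs_inner_J_le (z - (y + (ρ' / 2) • v')) v
    rw [h.1, mul_one, ← dist_eq_norm] at this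
    exact this.trans hd
  rw [le_div_iff₀ hρ0]
  have h5 : |(ρ' / 2) * inner ℝ v' (J v)| ≤ E + E' := by
    rw [e1]; exact (abs_sub _ _).trans (add_le_add h3 h4)
  rw [abs_mul, abs_of_pos (by linarith : 0 < ρ' / 2)] at h5
  linarith

theorem Flat.neg {K : Set E2} {y v : E2} {ρ E : ℝ} (h : Flat K y v ρ E) : Flat K y (-v) ρ E := by
  obtain ⟨h0, h1, h2⟩ := h
  refine ⟨by rwa [norm_neg], fun z hz hd => ?_, fun t ht => ?_⟩
  · rw [J_neg, inner_neg_right, abs_neg]; exact h1 z hz hd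
  · obtain ⟨z, hz, hd⟩ := h2 (-t) (by rwa [abs_neg])
    exact ⟨z, hz, by rwa [smul_neg, ← neg_smul]⟩

/-! ### closeness to a ray -/

theorem ray_cross {x0 e w : E2} (hw : w ∈ ray x0 e) : inner ℝ (w - x0) (J e) = 0 := by
  obtain ⟨s, _, rfl⟩ := hw
  rw [add_sub_cancel_left, real_inner_smul_left, inner_J_self, mul_zero]

theorem near_cross {K : Set E2} {x0 e : E2} {ε s : ℝ} (he : ‖e‖ = 1)
    (h : HClose ε x0 s K (ray x0 e)) {z : E2} (hz : z ∈ K) (hzs : dist z x0 < s) :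
    |inner ℝ (z - x0) (J e)| ≤ ε := by
  obtain ⟨w, hw, hd⟩ := h.1 z ⟨hz, hzs⟩
  have e1 : inner ℝ (z - x0) (J e) = inner ℝ (z - w) (J e) := by
    have : z - x0 = (z - w) + (w - x0) := by abel
    rw [this, inner_add_left, ray_cross hw, add_zero]
  rw [e1]
  have := abs_inner_J_le (z - w) e
  rw [he, mul_one, ← dist_eq_norm] at this
  exact this.trans hd.le

theorem near_dist {K : Set E2} {x0 e : E2} {ε s : ℝ} (he : ‖e‖ = 1)
    (h : HClose ε x0 s K (ray x0 e)) {y z : E2} (hy : y ∈ K) (hys : dist y x0 < s)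
    (hz : z ∈ K) (hzs : dist z x0 < s) :
    dist z y ≤ |dist z x0 - dist y x0| + 4 * ε := by
  have key : ∀ p ∈ K, dist p x0 < s → dist p (x0 + dist p x0 • e) ≤ 2 * ε := by
    intro p hp hps
    obtain ⟨w, ⟨t, ht, rfl⟩, hd⟩ := h.1 p ⟨hp, hps⟩
    have h1 : dist (x0 + t • e) x0 = t := by
      rw [dist_eq_norm, add_sub_cancel_left, norm_smul, he, mul_one, Real.norm_eq_abs,
        abs_of_nonneg ht]
    have h2 : |dist p x0 - t| ≤ dist p (x0 + t • e) := by
      have := abs_dist_sub_le p (x0 + t • e) x0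
      rwa [h1] at this
    have h3 : dist (x0 + t • e) (x0 + dist p x0 • e) ≤ |dist p x0 - t| := by
      rw [dist_add_left, dist_eq_norm, ← sub_smul, norm_smul, he, mul_one, Real.norm_eq_abs,
        abs_sub_comm]
    have h4 := dist_triangle p (x0 + t • e) (x0 + dist p x0 • e)
    linarith
  have h1 := key y hy hys
  have h2 := key z hz hzs
  have h3 : dist (x0 + dist z x0 • e) (x0 + dist y x0 • e) = |dist z x0 - dist y x0| := by
    rw [dist_add_left, dist_eq_norm, ← sub_smul, norm_smul, he, mul_one, Real.norm_eq_abs]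
  have h4 := dist_triangle4 z (x0 + dist z x0 • e) (x0 + dist y x0 • e) y
  rw [dist_comm (x0 + dist y x0 • e) y] at h4
  linarith

/-- hypotheses at a tip -/
structure TipHyp (K : Set E2) (x0 : E2) (r1 C γ c : ℝ) : Prop where
  r1pos : 0 < r1
  Cpos : 0 < C
  γpos : 0 < γ
  cpos : 0 < c
  mem : x0 ∈ K
  closed : closure K ∩ ball x0 r1 ⊆ K
  near : ∀ η : ℝ, 0 < η → ∃ s0 : ℝ, 0 < s0 ∧ ∀ s, 0 < s → s < s0 →
    ∃ e : E2, ‖e‖ = 1 ∧ HClose (η * s) x0 s K (ray x0 e)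
  flat : FlatOff K x0 r1 C γ c

/-- quantitative output of the hypotheses -/
structure Good (K : Set E2) (x0 : E2) (R C γ c1 ε : ℝ) : Prop where
  Rpos : 0 < R
  Cpos : 0 < C
  γpos : 0 < γ
  γle : γ ≤ 1
  c1pos : 0 < c1
  c1le : c1 ≤ ε
  εpos : 0 < ε
  εle : ε ≤ 1 / 100
  Cc : C * c1 ^ γ ≤ ε
  mem : x0 ∈ K
  closed : closure K ∩ ball x0 (2 * R) ⊆ K
  pts : ∀ r, 0 < r → r < R → ∃ y ∈ K, r / 4 ≤ dist y x0 ∧ dist y x0 ≤ 3 * r / 4
  near : ∀ y ∈ K, ∀ z ∈ K, y ≠ x0 → dist y x0 < R →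
    |dist z x0 - dist y x0| ≤ c1 / 2 * dist y x0 → dist z y ≤ c1 * dist y x0
  flat : ∀ y ∈ K, y ≠ x0 → dist y x0 < R → ∀ ρ, 0 < ρ → ρ ≤ c1 * dist y x0 →
    ∃ v, Flat K y v ρ (C * ρ * (ρ / dist y x0) ^ γ) ∧
      |inner ℝ v (J (y - x0))| ≤ ε * dist y x0 ∧ 0 ≤ inner ℝ v (y - x0)

theorem exists_rpow_small {B γ δ : ℝ} (hB : 0 < B) (hγ : 0 < γ) (hδ : 0 < δ) :
    ∃ c1 : ℝ, 0 < c1 ∧ ∀ c, 0 < c → c ≤ c1 → B * c ^ γ ≤ δ := by
  refine ⟨(δ / B) ^ (γ⁻¹), by positivity, fun c hc hcc => ?_⟩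
  have h1 : c ^ γ ≤ ((δ / B) ^ (γ⁻¹)) ^ γ := Real.rpow_le_rpow hc.le hcc hγ.le
  rw [← Real.rpow_mul (by positivity), inv_mul_cancel₀ hγ.ne', Real.rpow_one] at h1
  calc B * c ^ γ ≤ B * (δ / B) := by gcongr
    _ = δ := by field_simp

/-- the directions of flatness are almost radial -/
theorem dir_chain {K : Set E2} {x0 : E2} {C γ c1 η ε0 A : ℝ}
    (hC : 0 < C) (hγ : 0 < γ) (hc1 : 0 < c1) (hc11 : c1 ≤ 1)
    (hη : 0 < η) (hCc : C * c1 ^ γ ≤ 1 / 2) (hA : A * ((2:ℝ) ^ γ - 1) = 6 * C * 2 ^ γ)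
    (hε0 : 3 * η + (24 * η / c1 + 2 * C * c1 ^ γ) ≤ ε0)
    {y e : E2} (hy : y ∈ K) (hy0 : y ≠ x0) (he : ‖e‖ = 1)
    (hnear : HClose (η * (3 * dist y x0)) x0 (3 * dist y x0) K (ray x0 e))
    (hflat : ∀ ρ, 0 < ρ → ρ ≤ c1 * dist y x0 → ∃ v, Flat K y v ρ (C * ρ * (ρ / dist y x0) ^ γ)) :
    ∀ n : ℕ, ∀ ρ, c1 * dist y x0 / 2 ^ (n + 1) < ρ → ρ ≤ c1 * dist y x0 →
      ∀ v, Flat K y v ρ (C * ρ * (ρ / dist y x0) ^ γ) →
      |inner ℝ v (J (y - x0))| ≤
        (ε0 + A * c1 ^ γ - A * (ρ / dist y x0) ^ γ) * dist y x0 := by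
  set d := dist y x0 with hd
  have hd0 : 0 < d := dist_pos.2 hy0
  have h2γ : 1 < (2:ℝ) ^ γ := Real.one_lt_rpow (by norm_num) hγ
  have hA0 : 0 < A := by
    have h6 : 0 < A * ((2:ℝ) ^ γ - 1) := by rw [hA]; positivity
    exact (pos_iff_pos_of_mul_pos h6).2 (by linarith)
  have hcd : 0 < c1 * d := by positivity
  have hle : ∀ ρ, 0 < ρ → ρ ≤ c1 * d → (ρ / d) ^ γ ≤ c1 ^ γ := by
    intro ρ hρ hρc
    apply Real.rpow_le_rpow (by positivity) _ hγ.le
    rw [div_le_iff₀ hd0]; exact hρc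
  have hEle : ∀ ρ, 0 < ρ → ρ ≤ c1 * d → C * ρ * (ρ / d) ^ γ ≤ C * c1 ^ γ * ρ := by
    intro ρ hρ hρc
    have := hle ρ hρ hρc
    calc C * ρ * (ρ / d) ^ γ ≤ C * ρ * c1 ^ γ := by gcongr
      _ = _ := by ring
  have hcd1 : c1 * d ≤ d := by nlinarith
  intro n
  induction n with
  | zero =>
    intro ρ hρ1 hρ2 v hv
    have hρ1' : c1 * d / 2 < ρ := by simpa using hρ1
    have hρ0 : 0 < ρ := by linarith
    set E := C * ρ * (ρ / d) ^ γ with hE
    have hE1 : E ≤ C * c1 ^ γ * ρ := hEle ρ hρ0 hρ2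
    have hE2 : E ≤ ρ / 2 := hE1.trans (by nlinarith)
    have hE0 : 0 ≤ E := by positivity
    obtain ⟨z, hz, hzd⟩ := hv.2.2 (ρ / 2) (by rw [abs_of_pos (by linarith)]; linarith)
    have hzx : dist z x0 < 3 * d := by
      have h1 : dist (y + (ρ / 2) • v) y = ρ / 2 := by
        rw [dist_eq_norm, add_sub_cancel_left, norm_smul, hv.1, mul_one, Real.norm_eq_abs,
          abs_of_pos (by linarith)]
      have h2 := dist_triangle4 z (y + (ρ / 2) • v) y x0
      linarith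
    have hyc := near_cross he hnear hy (by linarith : dist y x0 < 3 * d)
    have hzc := near_cross he hnear hz hzx
    have e1 : (ρ / 2) * inner ℝ v (J e) = (inner ℝ (z - x0) (J e) - inner ℝ (y - x0) (J e))
        - inner ℝ (z - (y + (ρ / 2) • v)) (J e) := by
      rw [← inner_sub_left, ← inner_sub_left, ← real_inner_smul_left]
      congr 1; abel
    have h4 : |inner ℝ (z - (y + (ρ / 2) • v)) (J e)| ≤ E := by
      have := abs_inner_J_le (z - (y + (ρ / 2) • v)) e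
      rw [he, mul_one, ← dist_eq_norm] at this
      exact this.trans hzd
    have h5 : |(ρ / 2) * inner ℝ v (J e)| ≤ 2 * (η * (3 * d)) + E := by
      rw [e1]
      refine (abs_sub _ _).trans (add_le_add ((abs_sub _ _).trans ?_) h4)
      linarith
    rw [abs_mul, abs_of_pos (by linarith : 0 < ρ / 2)] at h5
    have h6 : |inner ℝ v (J e)| ≤ 24 * η / c1 + 2 * C * c1 ^ γ := by
      have h7 : ρ * |inner ℝ v (J e)| ≤ ρ * (24 * η / c1 + 2 * C * c1 ^ γ) := by
        have h8 : 12 * η * d ≤ ρ * (24 * η / c1) := by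
          have : ρ * (24 * η / c1) = 24 * η * (ρ / c1) := by ring
          rw [this]
          have h9 : d / 2 ≤ ρ / c1 := by
            rw [le_div_iff₀ hc1]; linarith
          nlinarith
        nlinarith
      exact le_of_mul_le_mul_left h7 hρ0
    have h7 := cross_tri he hv.1 (y - x0)
    have h8 : |inner ℝ e (J (y - x0))| ≤ 3 * η * d := by
      rw [inner_J_comm, abs_neg]
      linarith
    have h9 : ‖y - x0‖ = d := by rw [hd, dist_eq_norm]
    rw [h9] at h7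
    have h10 : A * (ρ / d) ^ γ ≤ A * c1 ^ γ := by
      have := hle ρ hρ0 hρ2
      gcongr
    calc |inner ℝ v (J (y - x0))| ≤ 3 * η * d + (24 * η / c1 + 2 * C * c1 ^ γ) * d := by
          refine h7.trans (add_le_add h8 ?_)
          exact mul_le_mul_of_nonneg_right h6 hd0.le
      _ = (3 * η + (24 * η / c1 + 2 * C * c1 ^ γ)) * d := by ring
      _ ≤ _ := by
          apply mul_le_mul_of_nonneg_right _ hd0.le
          linarith
  | succ n ih =>
    intro ρ hρ1 hρ2 v hv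
    rcases lt_or_ge (c1 * d / 2 ^ (n + 1)) ρ with hcase | hcase
    · exact ih ρ hcase hρ2 v hv
    have hρ0 : 0 < ρ := lt_of_le_of_lt (by positivity) hρ1
    have h2ρ1 : c1 * d / 2 ^ (n + 1) < 2 * ρ := by
      have : c1 * d / 2 ^ (n + 1) = 2 * (c1 * d / 2 ^ (n + 1 + 1)) := by
        rw [pow_succ (2:ℝ) (n + 1)]; field_simp
      rw [this]; linarith
    have h2ρ2 : 2 * ρ ≤ c1 * d := by
      have : c1 * d / 2 ^ (n + 1) ≤ c1 * d / 2 := by
        apply div_le_div_of_nonneg_left hcd.le (by norm_num)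
        calc (2:ℝ) = 2 ^ 1 := by norm_num
          _ ≤ 2 ^ (n + 1) := pow_le_pow_right₀ (by norm_num) (by omega)
      linarith
    obtain ⟨v', hv'⟩ := hflat (2 * ρ) (by linarith) h2ρ2
    have h1 := ih (2 * ρ) h2ρ1 h2ρ2 v' hv'
    have hE1 := hEle ρ hρ0 hρ2
    have hstep := flat_step hv' hv (by linarith) hρ0 (hE1.trans (by nlinarith))
    have h2 := cross_tri hv'.1 hv.1 (y - x0)
    have h9 : ‖y - x0‖ = d := by rw [hd, dist_eq_norm]
    rw [h9] at h2
    have e2 : (2 * ρ / d) ^ γ = 2 ^ γ * (ρ / d) ^ γ := by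
      rw [mul_div_assoc, Real.mul_rpow (by norm_num) (by positivity)]
    rw [e2] at h1 hstep
    set X := (ρ / d) ^ γ with hX
    have hX0 : 0 < X := by positivity
    have h3 : |inner ℝ v (J v')| ≤ 6 * C * 2 ^ γ * X := by
      refine hstep.trans ?_
      rw [div_le_iff₀ hρ0]
      have : C * ρ * X ≤ C * ρ * ((2:ℝ) ^ γ * X) := by
        apply mul_le_mul_of_nonneg_left _ (by positivity)
        nlinarith
      nlinarith
    calc |inner ℝ v (J (y - x0))| ≤ (ε0 + A * c1 ^ γ - A * (2 ^ γ * X)) * d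
          + (6 * C * 2 ^ γ * X) * d := by
          refine h2.trans (add_le_add h1 ?_)
          exact mul_le_mul_of_nonneg_right h3 hd0.le
      _ = _ := by rw [← hA]; ring

theorem TipHyp.good {K : Set E2} {x0 : E2} {r1 C γ c : ℝ} (H : TipHyp K x0 r1 C γ c)
    (hγ1 : γ ≤ 1) {ε : ℝ} (hε : 0 < ε) (hε1 : ε ≤ 1 / 100) :
    ∃ R c1 : ℝ, R ≤ r1 ∧ Good K x0 R C γ c1 ε := by
  obtain ⟨hr1, hC, hγ, hc, hmem, hcl, hnear, hflat⟩ := H
  have h2γ : 1 < (2:ℝ) ^ γ := Real.one_lt_rpow (by norm_num) hγ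
  set A : ℝ := 6 * C * 2 ^ γ / ((2:ℝ) ^ γ - 1) with hAdef
  have hA : A * ((2:ℝ) ^ γ - 1) = 6 * C * 2 ^ γ := by
    rw [hAdef, div_mul_cancel₀]; linarith
  have hA0 : 0 < A := by
    have : 0 < (2:ℝ) ^ γ - 1 := by linarith
    positivity
  obtain ⟨c2, hc2, hc2'⟩ := exists_rpow_small (B := 2 * C + A) (by positivity) hγ
    (by positivity : 0 < ε / 2)
  set c1 := min (min c2 c) ε with hc1def
  have hc1 : 0 < c1 := lt_min (lt_min hc2 hc) hε
  have hc1c : c1 ≤ c := (min_le_left _ _).trans (min_le_right _ _)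
  have hc1ε : c1 ≤ ε := min_le_right _ _
  have hc11 : c1 ≤ 1 := by linarith
  have hsm := hc2' c1 hc1 ((min_le_left _ _).trans (min_le_left _ _))
  have hcγ : 0 < c1 ^ γ := by positivity
  have hCc : C * c1 ^ γ ≤ ε / 4 := by nlinarith
  set η := ε * c1 / 100 with hηdef
  have hη : 0 < η := by positivity
  obtain ⟨s0, hs0, hs0'⟩ := hnear η hη
  refine ⟨min (r1 / 2) (s0 / 4), c1, (min_le_left _ _).trans (by linarith), ?_⟩
  have hRpos : 0 < min (r1 / 2) (s0 / 4) := lt_min (by linarith) (by linarith)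
  have hRs : ∀ d, d < min (r1 / 2) (s0 / 4) → 4 * d < s0 := fun d hd => by
    have := hd.trans_le (min_le_right _ _); linarith
  have hRr : ∀ d, d < min (r1 / 2) (s0 / 4) → 2 * d < r1 := fun d hd => by
    have := hd.trans_le (min_le_left _ _); linarith
  refine ⟨hRpos, hC, hγ, hγ1, hc1, hc1ε, hε, hε1, by linarith, hmem, ?_, ?_, ?_, ?_⟩
  · intro z hz
    refine hcl ⟨hz.1, ?_⟩
    have h1 : dist z x0 < 2 * min (r1 / 2) (s0 / 4) := hz.2
    have h2 := min_le_left (r1 / 2) (s0 / 4)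
    show dist z x0 < r1
    linarith
  · intro r hr hrR
    obtain ⟨e, he, h⟩ := hs0' r hr (by have := hRs r hrR; linarith)
    obtain ⟨z, hz, hd⟩ := h.2 (x0 + (r / 2) • e) ⟨⟨r / 2, by linarith, rfl⟩, by
      rw [mem_ball, dist_eq_norm, add_sub_cancel_left, norm_smul, he, mul_one, Real.norm_eq_abs,
        abs_of_pos (by linarith)]
      linarith⟩
    have h1 : dist (x0 + (r / 2) • e) x0 = r / 2 := by
      rw [dist_eq_norm, add_sub_cancel_left, norm_smul, he, mul_one, Real.norm_eq_abs,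
        abs_of_pos (by linarith)]
    have h2 : η * r ≤ r / 4 := by
      have : η ≤ 1 / 4 := by rw [hηdef]; nlinarith
      nlinarith
    have h3 := dist_triangle z (x0 + (r / 2) • e) x0
    have h4 := dist_triangle (x0 + (r / 2) • e) z x0
    rw [dist_comm z (x0 + (r / 2) • e)] at h3
    exact ⟨z, hz, by linarith, by linarith⟩
  · intro y hy z hz hy0 hyR hyz
    have hd0 : 0 < dist y x0 := dist_pos.2 hy0
    obtain ⟨e, he, h⟩ := hs0' (3 * dist y x0) (by linarith) (by have := hRs _ hyR; linarith)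
    have hzx : dist z x0 < 3 * dist y x0 := by
      have := (abs_le.1 hyz).2
      nlinarith
    have h1 := near_dist he h hy (by linarith) hz hzx
    have h2 : 4 * (η * (3 * dist y x0)) ≤ c1 / 2 * dist y x0 := by
      have : 12 * η ≤ c1 / 2 := by rw [hηdef]; nlinarith
      nlinarith
    linarith
  · intro y hy hy0 hyR ρ hρ hρc
    have hd0 : 0 < dist y x0 := dist_pos.2 hy0
    obtain ⟨e, he, h⟩ := hs0' (3 * dist y x0) (by linarith) (by have := hRs _ hyR; linarith)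
    have hfl : ∀ ρ, 0 < ρ → ρ ≤ c1 * dist y x0 →
        ∃ v, Flat K y v ρ (C * ρ * (ρ / dist y x0) ^ γ) := fun ρ' hρ' hρc' =>
      hflat y hy hy0 (by have := hRr _ hyR; linarith) ρ' hρ' (hρc'.trans (by gcongr))
    obtain ⟨n, hn⟩ : ∃ n : ℕ, c1 * dist y x0 / ρ < 2 ^ (n + 1) := by
      obtain ⟨n, hn⟩ := pow_unbounded_of_one_lt (c1 * dist y x0 / ρ) (by norm_num : (1:ℝ) < 2)
      exact ⟨n, hn.trans (pow_lt_pow_right₀ (by norm_num) (by omega))⟩
    have hn' : c1 * dist y x0 / 2 ^ (n + 1) < ρ := by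
      rw [div_lt_iff₀ hρ] at hn
      rw [div_lt_iff₀ (by positivity)]; linarith
    have key : ∀ v, Flat K y v ρ (C * ρ * (ρ / dist y x0) ^ γ) →
        |inner ℝ v (J (y - x0))| ≤ ε * dist y x0 := by
      intro v hv
      have h1 := dir_chain (ε0 := ε / 2 + 2 * C * c1 ^ γ) hC hγ hc1 hc11 hη (by linarith) hA (by
        have h2 : 3 * η + 24 * η / c1 ≤ ε / 2 := by
          have e1 : 24 * η / c1 = 24 * ε / 100 := by rw [hηdef]; field_simp
          rw [e1, hηdef]; nlinarith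
        linarith) hy hy0 he h hfl n ρ hn' hρc v hv
      refine h1.trans ?_
      apply mul_le_mul_of_nonneg_right _ hd0.le
      have h3 : 0 ≤ A * (ρ / dist y x0) ^ γ := by positivity
      nlinarith
    obtain ⟨v, hv⟩ := hfl ρ hρ hρc
    rcases le_total 0 (inner ℝ v (y - x0)) with hs | hs
    · exact ⟨v, hv, key v hv, hs⟩
    · exact ⟨-v, Flat.neg hv, key _ (Flat.neg hv), by rw [inner_neg_left]; linarith⟩

end Crest.Agent.R135.TipG
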