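import Crest.Agent.R135.TipGraph1
import Crest.Agent.R135.PolarD
import Crest.Agent.R135.PolarC

/-!
# R135: the crack near a tip is a polar graph, part 2 (helper555)
-/

set_option autoImplicit false

open Set Filter Topology Metric
open scoped NNReal

namespace Crest.Agent.R135.TipG

open Crest.Agent.R135.Arc (J Flat FlatOff inner_eq norm_sq_eq inner_J_self norm_J J_neg frame_eq
  J_add J_smul J_J)
open Crest.Agent.R135 (dir tau cpt ray HClose)

variable {K : Set E2} {x0 : E2} {R C γ c1 ε : ℝ}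

theorem Good.rpow_le (G : Good K x0 R C γ c1 ε) {d ρ : ℝ} (hd : 0 < d) (hρ : 0 < ρ)
    (hρc : ρ ≤ c1 * d) : C * ρ * (ρ / d) ^ γ ≤ ε * ρ := by
  have h1 : (ρ / d) ^ γ ≤ c1 ^ γ := by
    apply Real.rpow_le_rpow (by positivity) _ G.γpos.le
    rw [div_le_iff₀ hd]; exact hρc
  have hC := G.Cpos
  calc C * ρ * (ρ / d) ^ γ ≤ C * ρ * c1 ^ γ := by gcongr
    _ = (C * c1 ^ γ) * ρ := by ring
    _ ≤ ε * ρ := by have := G.Cc; gcongr

/-- the radial component of the flatness direction -/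
theorem radial_lower {ε : ℝ} (hε : 0 < ε) (hε1 : ε ≤ 1 / 100) {v w : E2} (hv : ‖v‖ = 1)
    (h1 : |inner ℝ v (J w)| ≤ ε * ‖w‖) (h2 : 0 ≤ inner ℝ v w) :
    (1 - ε) * ‖w‖ ≤ inner ℝ v w := by
  have h3 := norm_sq_mul v w
  rw [hv, one_mul] at h3
  have h4 : inner ℝ v (J w) ^ 2 ≤ (ε * ‖w‖) ^ 2 := sq_le_sq' (by linarith [(abs_le.1 h1).1])
    (abs_le.1 h1).2
  have h5 : 0 ≤ ‖w‖ := norm_nonneg w
  by_contra hcon
  push Not at hcon
  have h6 : inner ℝ v w ^ 2 < ((1 - ε) * ‖w‖) ^ 2 ∨ (1 - ε) * ‖w‖ = 0 := by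
    left
    have : 0 < (1 - ε) * ‖w‖ := lt_of_le_of_lt h2 hcon
    nlinarith
  rcases h6 with h6 | h6
  · nlinarith [sq_nonneg ‖w‖, mul_nonneg hε.le (sq_nonneg ‖w‖)]
  · linarith

/-- distances to `x0` of nearby points -/
theorem radial_dist (y z x0 : E2) :
    |inner ℝ (z - y) (y - x0) - (dist z x0 - dist y x0) * dist y x0| ≤ dist z y ^ 2 := by
  have h1 : dist z x0 ^ 2 = dist y x0 ^ 2 + 2 * inner ℝ (z - y) (y - x0) + dist z y ^ 2 := by
    rw [dist_eq_norm, dist_eq_norm, dist_eq_norm]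
    have : z - x0 = (z - y) + (y - x0) := by abel
    rw [this, norm_add_sq_real]; ring
  have h2 : |dist z x0 - dist y x0| ≤ dist z y := abs_dist_sub_le z y x0
  have h3 : (dist z x0 - dist y x0) ^ 2 ≤ dist z y ^ 2 :=
    sq_le_sq' (by linarith [(abs_le.1 h2).1]) (abs_le.1 h2).2
  rw [abs_le]
  constructor <;> nlinarith [sq_nonneg (dist z x0 - dist y x0), sq_nonneg (dist z y)]

/-- cone property -/
theorem Good.cone (G : Good K x0 R C γ c1 ε) {y z : E2} (hy : y ∈ K) (hz : z ∈ K) (hy0 : y ≠ x0)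
    (hyR : dist y x0 < R) (hzy : dist z y ≤ c1 * dist y x0) :
    dist z y ≤ 2 * |dist z x0 - dist y x0| ∧
      |inner ℝ (z - y) (J (y - x0))| ≤ 4 * ε * |dist z x0 - dist y x0| * dist y x0 := by
  have hd0 : 0 < dist y x0 := dist_pos.2 hy0
  rcases eq_or_ne z y with rfl | hne
  · simp
  have hρ : 0 < dist z y := dist_pos.2 hne
  obtain ⟨v, hv, h1, h2⟩ := G.flat y hy hy0 hyR (dist z y) hρ hzy
  have hE := G.rpow_le hd0 hρ hzy
  have h3 : |inner ℝ (z - y) (J v)| ≤ ε * dist z y := (hv.2.1 z hz le_rfl).trans hE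
  have hε := G.εpos
  have hε1 := G.εle
  have hc1 := G.c1le
  set ρ := dist z y with hρdef
  set d := dist y x0 with hddef
  have hnw : ‖y - x0‖ = d := by rw [hddef, dist_eq_norm]
  have hnz : ‖z - y‖ = ρ := by rw [hρdef, dist_eq_norm]
  -- tangential component
  have h4 : |inner ℝ (z - y) (J (y - x0))| ≤ 2 * ε * ρ * d := by
    have e1 : inner ℝ (z - y) (J (y - x0)) = inner ℝ (z - y) v * inner ℝ v (J (y - x0))
        + inner ℝ (z - y) (J v) * inner ℝ v (y - x0) := by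
      conv_lhs => rw [frame_eq hv.1 (z - y)]
      rw [inner_add_left, real_inner_smul_left, real_inner_smul_left, inner_J_J]
    rw [e1]
    refine (abs_add_le _ _).trans ?_
    rw [abs_mul, abs_mul]
    have h5 : |inner ℝ (z - y) v| ≤ ρ := by
      have := abs_inner_le (z - y) v; rwa [hv.1, hnz, mul_one] at this
    have h6 : |inner ℝ v (y - x0)| ≤ d := by
      have := abs_inner_le v (y - x0); rwa [hv.1, hnw, one_mul] at this
    have h7 : |inner ℝ (z - y) v| * |inner ℝ v (J (y - x0))| ≤ ρ * (ε * d) :=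
      mul_le_mul h5 h1 (abs_nonneg _) hρ.le
    have h8 : |inner ℝ (z - y) (J v)| * |inner ℝ v (y - x0)| ≤ (ε * ρ) * d :=
      mul_le_mul h3 h6 (abs_nonneg _) (by positivity)
    nlinarith
  have h9 := radial_dist y z x0
  rw [← hρdef, ← hddef] at h9
  set h := dist z x0 - d with hh
  have h10 : |inner ℝ (z - y) (y - x0)| ≤ |h| * d + ρ ^ 2 := by
    have e2 : inner ℝ (z - y) (y - x0) = (inner ℝ (z - y) (y - x0) - h * d) + h * d := by ring
    rw [e2]
    refine (abs_add_le _ _).trans ?_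
    rw [abs_mul, abs_of_pos hd0]; linarith
  have h11 : ρ * d ≤ |inner ℝ (z - y) (y - x0)| + |inner ℝ (z - y) (J (y - x0))| := by
    have := norm_sq_mul (z - y) (y - x0)
    rw [hnz, hnw] at this
    have ha := abs_nonneg (inner ℝ (z - y) (y - x0))
    have hb := abs_nonneg (inner ℝ (z - y) (J (y - x0)))
    rw [← sq_abs (inner ℝ (z - y) (y - x0)), ← sq_abs (inner ℝ (z - y) (J (y - x0)))] at this
    nlinarith [mul_nonneg ha hb]
  have h12 : ρ ^ 2 ≤ ε * ρ * d := by
    have : ρ ≤ ε * d := hzy.trans (by gcongr)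
    calc ρ ^ 2 = ρ * ρ := by ring
      _ ≤ ρ * (ε * d) := by gcongr
      _ = ε * ρ * d := by ring
  have h13 : ρ ≤ |h| + 3 * ε * ρ := by
    have : ρ * d ≤ (|h| + 3 * ε * ρ) * d := by nlinarith
    exact le_of_mul_le_mul_right this hd0
  have h14 : ρ ≤ 2 * |h| := by nlinarith
  refine ⟨h14, h4.trans ?_⟩
  have : ρ * (2 * ε * d) ≤ 2 * |h| * (2 * ε * d) := by gcongr
  nlinarith

/-- at most one point on every circle -/
theorem Good.unique (G : Good K x0 R C γ c1 ε) {y z : E2} (hy : y ∈ K) (hz : z ∈ K)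
    (hy0 : y ≠ x0) (hyR : dist y x0 < R) (h : dist z x0 = dist y x0) : z = y := by
  have hd0 : 0 < dist y x0 := dist_pos.2 hy0
  have h1 := G.near y hy z hz hy0 hyR (by
    rw [h, sub_self, abs_zero]; have := G.c1pos; positivity)
  have h2 := (G.cone hy hz hy0 hyR h1).1
  rw [h, sub_self, abs_zero, mul_zero] at h2
  exact dist_le_zero.1 h2

/-- at least one point on every circle -/
theorem Good.exists_pt (G : Good K x0 R C γ c1 ε) {r : ℝ} (hr : 0 < r) (hrR : r < R) :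
    ∃ y ∈ K, dist y x0 = r := by
  obtain ⟨y0, hy0, h1, h2⟩ := G.pts r hr hrR
  set S := K ∩ closedBall x0 r with hS
  have hScl : IsClosed S := by
    have h3 : S = closure K ∩ closedBall x0 r := by
      apply subset_antisymm (inter_subset_inter_left _ subset_closure)
      intro z hz
      refine ⟨G.closed ⟨hz.1, ?_⟩, hz.2⟩
      have : dist z x0 ≤ r := hz.2
      show dist z x0 < 2 * R
      linarith
    rw [h3]; exact isClosed_closure.inter isClosed_closedBall
  have hScpt : IsCompact S := (isCompact_closedBall x0 r).of_isClosed_subset hScl inter_subset_right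
  obtain ⟨y, hyS, hmax⟩ := hScpt.exists_isMaxOn ⟨y0, hy0, by
    show dist y0 x0 ≤ r; linarith⟩ (f := fun z => dist z x0) (by fun_prop)
  have hyr : dist y x0 ≤ r := hyS.2
  rcases lt_or_eq_of_le hyr with hlt | heq
  swap
  · exact ⟨y, hyS.1, heq⟩
  exfalso
  have hd : r / 4 ≤ dist y x0 := by
    have : dist y0 x0 ≤ dist y x0 := hmax ⟨hy0, by show dist y0 x0 ≤ r; linarith⟩
    linarith
  have hd0 : 0 < dist y x0 := by linarith
  have hy0' : y ≠ x0 := dist_pos.1 hd0
  have hc1 := G.c1pos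
  have hε := G.εpos
  have hε1 := G.εle
  set ρ := min (c1 * dist y x0) (r - dist y x0) with hρ
  have hρ0 : 0 < ρ := lt_min (by positivity) (by linarith)
  have hρ1 : ρ ≤ c1 * dist y x0 := min_le_left _ _
  have hρ2 : ρ ≤ r - dist y x0 := min_le_right _ _
  obtain ⟨v, hv, h3, h4⟩ := G.flat y hyS.1 hy0' (by linarith) ρ hρ0 hρ1
  have hE := G.rpow_le hd0 hρ0 hρ1
  obtain ⟨z, hz, hzd⟩ := hv.2.2 (ρ / 2) (by rw [abs_of_pos (by linarith)]; linarith)
  have hzd' : dist z (y + (ρ / 2) • v) ≤ ε * ρ := hzd.trans hE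
  have h5 : dist (y + (ρ / 2) • v) y = ρ / 2 := by
    rw [dist_eq_norm, add_sub_cancel_left, norm_smul, hv.1, mul_one, Real.norm_eq_abs,
      abs_of_pos (by linarith)]
  have hnw : ‖y - x0‖ = dist y x0 := by rw [dist_eq_norm]
  have h6 := dist_triangle4 z (y + (ρ / 2) • v) y x0
  have hzr : dist z x0 ≤ r := by
    have : ε * ρ ≤ ρ / 2 := by nlinarith
    linarith
  have h7 : dist z x0 ≤ dist y x0 := hmax ⟨hz, hzr⟩
  -- radial growth
  have h8 := radial_lower hε hε1 hv.1 (by rw [hnw]; exact h3) h4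
  rw [hnw] at h8
  have h9 : inner ℝ (z - y) (y - x0) = (ρ / 2) * inner ℝ v (y - x0)
      + inner ℝ (z - (y + (ρ / 2) • v)) (y - x0) := by
    rw [← real_inner_smul_left, ← inner_add_left]
    congr 1; abel
  have h10 : |inner ℝ (z - (y + (ρ / 2) • v)) (y - x0)| ≤ ε * ρ * dist y x0 := by
    have := abs_inner_le (z - (y + (ρ / 2) • v)) (y - x0)
    rw [hnw, ← dist_eq_norm] at this
    exact this.trans (by gcongr)
  have h11 : 0 < inner ℝ (z - y) (y - x0) := by
    rw [h9]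
    have h12 := (abs_le.1 h10).1
    have h13 : (ρ / 2) * ((1 - ε) * dist y x0) ≤ (ρ / 2) * inner ℝ v (y - x0) := by gcongr
    have h14 : 0 < ρ * dist y x0 := by positivity
    nlinarith
  have h15 : dist z x0 ^ 2 = dist y x0 ^ 2 + 2 * inner ℝ (z - y) (y - x0) + dist z y ^ 2 := by
    rw [dist_eq_norm, dist_eq_norm, dist_eq_norm]
    have : z - x0 = (z - y) + (y - x0) := by abel
    rw [this, norm_add_sq_real]; ring
  nlinarith [sq_nonneg (dist z y), dist_nonneg (x := z) (y := x0)]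

/-- the point of the crack on the circle of radius `r` -/
noncomputable def Good.p (G : Good K x0 R C γ c1 ε) (r : ℝ) : E2 := by
  classical
  exact if h : 0 < r ∧ r < R then (G.exists_pt h.1 h.2).choose else x0

theorem Good.p_mem (G : Good K x0 R C γ c1 ε) {r : ℝ} (h : r ∈ Ioo 0 R) :
    G.p r ∈ K ∧ dist (G.p r) x0 = r := by
  have h' : 0 < r ∧ r < R := h
  rw [Good.p, dif_pos h']
  exact (G.exists_pt h'.1 h'.2).choose_spec

theorem Good.p_ne (G : Good K x0 R C γ c1 ε) {r : ℝ} (h : r ∈ Ioo 0 R) : G.p r ≠ x0 := by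
  rw [← dist_pos, (G.p_mem h).2]; exact h.1

theorem Good.eq_p (G : Good K x0 R C γ c1 ε) {z : E2} (hz : z ∈ K) (hz0 : z ≠ x0)
    (hzR : dist z x0 < R) : z = G.p (dist z x0) := by
  have h : dist z x0 ∈ Ioo 0 R := ⟨dist_pos.2 hz0, hzR⟩
  exact G.unique (G.p_mem h).1 hz (G.p_ne h) (by rw [(G.p_mem h).2]; exact hzR)
    (by rw [(G.p_mem h).2])

/-- increments of `p` -/
theorem Good.p_incr (G : Good K x0 R C γ c1 ε) {r s : ℝ} (hr : r ∈ Ioo 0 R) (hs : s ∈ Ioo 0 R)
    (h : |s - r| ≤ c1 / 2 * r) :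
    dist (G.p s) (G.p r) ≤ 2 * |s - r| ∧
      |inner ℝ (G.p s - G.p r) (J (G.p r - x0))| ≤ 4 * ε * |s - r| * r := by
  have h1 := G.p_mem hr
  have h2 := G.p_mem hs
  have h3 := G.near _ h1.1 _ h2.1 (G.p_ne hr) (by rw [h1.2]; exact hr.2)
    (by rw [h1.2, h2.2]; exact h)
  have h4 := G.cone h1.1 h2.1 (G.p_ne hr) (by rw [h1.2]; exact hr.2) h3
  rwa [h1.2, h2.2] at h4

/-- `p` is affine up to a power error at every point and every scale -/
theorem Good.p_affine (G : Good K x0 R C γ c1 ε) {r : ℝ} (hr : r ∈ Ioo 0 R) {ρ : ℝ} (hρ : 0 < ρ)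
    (hρc : ρ ≤ c1 / 2 * r) :
    ∃ m : E2, ∀ h : ℝ, |h| ≤ ρ → r + h ∈ Ioo 0 R →
      ‖G.p (r + h) - G.p r - h • m‖ ≤ (8 + 6 * 2 ^ γ * C) * ρ * (ρ / r) ^ γ := by
  have h1 := G.p_mem hr
  have hr0 : 0 < r := hr.1
  have hε := G.εpos
  have hε1 := G.εle
  have hγ := G.γpos
  have hC := G.Cpos
  obtain ⟨v, hv, h3, h4⟩ := G.flat _ h1.1 (G.p_ne hr) (by rw [h1.2]; exact hr.2) (2 * ρ)
    (by linarith) (by rw [h1.2]; linarith)
  rw [h1.2] at hv h3
  have hnw : ‖G.p r - x0‖ = r := by rw [← dist_eq_norm, h1.2]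
  have h5 := radial_lower hε hε1 hv.1 (by rw [hnw]; exact h3) h4
  rw [hnw] at h5
  set w := G.p r - x0 with hw
  set y := G.p r with hy
  have hvw : r / 2 ≤ inner ℝ v w := by nlinarith
  have hvw0 : 0 < inner ℝ v w := by linarith
  refine ⟨(r / inner ℝ v w) • v, fun h hh hrh => ?_⟩
  have h2 := G.p_mem hrh
  have hinc := G.p_incr hr hrh (by rw [add_sub_cancel_left]; linarith)
  rw [add_sub_cancel_left, ← hy, ← hw] at hinc
  set z := G.p (r + h) with hz
  have hzy : dist z y ≤ 2 * ρ := hinc.1.trans (by linarith)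
  have hs := hv.2.1 z h2.1 hzy
  have hrad := radial_dist y z x0
  rw [h1.2, h2.2, add_sub_cancel_left, ← hw] at hrad
  have hzy2 : dist z y ^ 2 ≤ 4 * ρ ^ 2 := by
    have := dist_nonneg (x := z) (y := y)
    nlinarith
  -- power comparison
  have hX : (2 * ρ / r) ^ γ = 2 ^ γ * (ρ / r) ^ γ := by
    rw [mul_div_assoc, Real.mul_rpow (by norm_num) (by positivity)]
  rw [hX] at hs
  set X := (ρ / r) ^ γ with hXdef
  have hX0 : 0 < X := by positivity
  have hρr : ρ / r ≤ X := by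
    have h6 : ρ / r ≤ 1 := by
      rw [div_le_one hr0]
      have := G.c1le
      nlinarith
    calc ρ / r = (ρ / r) ^ (1:ℝ) := (Real.rpow_one _).symm
      _ ≤ (ρ / r) ^ γ := Real.rpow_le_rpow_of_exponent_ge (by positivity) h6 G.γle
  have h2γ : 0 < (2:ℝ) ^ γ := by positivity
  set t := inner ℝ (z - y) v with ht
  set s := inner ℝ (z - y) (J v) with hsdef
  have hdec : z - y = t • v + s • J v := frame_eq hv.1 (z - y)
  have hrad2 : inner ℝ (z - y) w = t * inner ℝ v w + s * inner ℝ (J v) w := by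
    conv_lhs => rw [hdec]
    rw [inner_add_left, real_inner_smul_left, real_inner_smul_left]
  have hJw : |inner ℝ (J v) w| ≤ r := by
    have := abs_inner_le (J v) w
    rw [norm_J, hv.1, one_mul, hnw] at this
    exact this
  set E := C * (2 * ρ) * (2 ^ γ * X) with hE
  have hE0 : 0 ≤ E := by positivity
  have ht1 : |t * inner ℝ v w - h * r| ≤ 4 * ρ ^ 2 + E * r := by
    have e1 : t * inner ℝ v w - h * r = (inner ℝ (z - y) w - h * r) - s * inner ℝ (J v) w := by
      rw [hrad2]; ring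
    rw [e1]
    refine (abs_sub _ _).trans (add_le_add (hrad.trans hzy2) ?_)
    rw [abs_mul]
    exact mul_le_mul hs hJw (abs_nonneg _) hE0
  have ht2 : |t - h * (r / inner ℝ v w)| ≤ 8 * ρ * X + 2 * E := by
    have e1 : t - h * (r / inner ℝ v w) = (t * inner ℝ v w - h * r) / inner ℝ v w := by
      field_simp
    rw [e1, abs_div, abs_of_pos hvw0, div_le_iff₀ hvw0]
    have h6 : ρ ^ 2 ≤ ρ * X * r := by
      have : ρ ≤ X * r := by rwa [div_le_iff₀ hr0] at hρr
      nlinarith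
    have h7 : 0 ≤ 8 * ρ * X + 2 * E := by positivity
    calc |t * inner ℝ v w - h * r| ≤ 4 * ρ ^ 2 + E * r := ht1
      _ ≤ (8 * ρ * X + 2 * E) * (r / 2) := by nlinarith
      _ ≤ _ := by gcongr
  have e2 : z - y - h • (r / inner ℝ v w) • v = (t - h * (r / inner ℝ v w)) • v + s • J v := by
    rw [hdec, sub_smul, smul_smul]; abel
  rw [e2]
  refine (norm_add_le _ _).trans ?_
  rw [norm_smul, norm_smul, norm_J, hv.1, mul_one, mul_one, Real.norm_eq_abs, Real.norm_eq_abs]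
  calc |t - h * (r / inner ℝ v w)| + |s| ≤ (8 * ρ * X + 2 * E) + E := add_le_add ht2 hs
    _ = _ := by rw [hE]; ring

end Crest.Agent.R135.TipG
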