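import Crest.Agent.R135.TipGraph2

/-!
# R135: the crack near a tip is a polar graph, part 3: regularity and the lift of the angle (helper555)
-/

set_option autoImplicit false

open Set Filter Topology Metric
open scoped NNReal

namespace Crest.Agent.R135.TipG

open Crest.Agent.R135.Arc (J Flat FlatOff inner_eq norm_sq_eq inner_J_self norm_J J_neg frame_eq
  J_add J_smul J_J Camp camp_c1)
open Crest.Agent.R135 (dir tau cpt ray HClose)

variable {K : Set E2} {x0 : E2} {R C γ c1 ε : ℝ}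

theorem abs_coord_le (v : E2) (i : Fin 2) : |v i| ≤ ‖v‖ := by
  have h := norm_sq_eq v
  have h0 := norm_nonneg v
  apply abs_le_of_sq_le_sq _ h0
  fin_cases i
  · simp only [Fin.zero_eta]; nlinarith [sq_nonneg (v 1)]
  · simp only [Fin.mk_one]; nlinarith [sq_nonneg (v 0)]

/-- Campanato condition for the coordinates of `p` on compact intervals. -/
theorem Good.camp (G : Good K x0 R C γ c1 ε) {a b : ℝ} (ha : 0 < a) (_hab : a < b) (hb : b < R)
    (i : Fin 2) : ∃ C', 0 ≤ C' ∧ Camp (fun r => G.p r i) a b C' γ := by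
  have hγ := G.γpos
  have hC := G.Cpos
  have hc1 := G.c1pos
  have hR := G.Rpos
  set C₁ := (8 + 6 * 2 ^ γ * C) / a ^ γ with hC₁
  set C₂ := 2 * R / (c1 / 2 * a) ^ (1 + γ) with hC₂
  have hC₁0 : 0 ≤ C₁ := by positivity
  have hC₂0 : 0 ≤ C₂ := by positivity
  refine ⟨C₁ + C₂, by positivity, ?_⟩
  intro r hr ρ hρ _
  have hr0 : 0 < r := ha.trans_le hr.1
  have hrR : r ∈ Ioo 0 R := ⟨hr0, hr.2.trans_lt hb⟩
  have hρp : 0 < ρ ^ (1 + γ) := by positivity
  rcases le_or_gt ρ (c1 / 2 * r) with hcase | hcase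
  · obtain ⟨m, hm⟩ := G.p_affine hrR hρ hcase
    refine ⟨m i, fun h hh hrh => ?_⟩
    have h1 := hm h hh ⟨ha.trans_le hrh.1, hrh.2.trans_lt hb⟩
    have h2 : G.p (r + h) i - G.p r i - m i * h = (G.p (r + h) - G.p r - h • m) i := by
      simp; ring
    rw [h2]
    refine (abs_coord_le _ i).trans (h1.trans ?_)
    have h3 : (ρ / r) ^ γ ≤ ρ ^ γ / a ^ γ := by
      rw [← Real.div_rpow hρ.le ha.le]
      apply Real.rpow_le_rpow (by positivity) _ hγ.le
      exact div_le_div_of_nonneg_left hρ.le ha hr.1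
    calc (8 + 6 * 2 ^ γ * C) * ρ * (ρ / r) ^ γ ≤ (8 + 6 * 2 ^ γ * C) * ρ * (ρ ^ γ / a ^ γ) := by
          gcongr
      _ = C₁ * ρ ^ (1 + γ) := by
          rw [hC₁, Real.rpow_add hρ, Real.rpow_one]; ring
      _ ≤ (C₁ + C₂) * ρ ^ (1 + γ) := by nlinarith
  · refine ⟨0, fun h hh hrh => ?_⟩
    have h1 := (G.p_mem hrR).2
    have h2 := (G.p_mem (r := r + h) ⟨ha.trans_le hrh.1, hrh.2.trans_lt hb⟩).2
    have h3 : |G.p (r + h) i - G.p r i - 0 * h| ≤ 2 * R := by
      rw [zero_mul, sub_zero]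
      have h4 : G.p (r + h) i - G.p r i = (G.p (r + h) - G.p r) i := by simp
      rw [h4]
      refine (abs_coord_le _ i).trans ?_
      rw [← dist_eq_norm]
      have := dist_triangle_right (G.p (r + h)) (G.p r) x0
      rw [h1, h2] at this
      have h5 := hrh.2
      have h6 := hr.2
      linarith
    refine h3.trans ?_
    have h4 : (c1 / 2 * a) ^ (1 + γ) ≤ ρ ^ (1 + γ) := by
      apply Real.rpow_le_rpow (by positivity) _ (by linarith)
      have : c1 / 2 * a ≤ c1 / 2 * r := by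
        have := hr.1; gcongr
      linarith
    have h5 : 2 * R ≤ C₂ * ρ ^ (1 + γ) := by
      rw [hC₂, div_mul_eq_mul_div, le_div_iff₀ (by positivity)]
      gcongr
    nlinarith

/-- `p` is `C¹` on `(0,R)` -/
theorem Good.p_c1 (G : Good K x0 R C γ c1 ε) :
    ∃ q : ℝ → E2, (∀ r ∈ Ioo 0 R, HasDerivAt G.p (q r) r) ∧ ContinuousOn q (Ioo 0 R) := by
  have hγ := G.γpos
  -- coordinatewise
  have key : ∀ i : Fin 2, ∀ a b : ℝ, 0 < a → a < b → b < R →
      ∃ f' : ℝ → ℝ, (∀ x ∈ Ioo a b, HasDerivAt (fun r => G.p r i) (f' x) x) ∧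
        ContinuousOn f' (Ioo a b) := by
    intro i a b ha hab hb
    obtain ⟨C', hC', hcamp⟩ := G.camp ha hab hb i
    obtain ⟨f', C'', hC'', _, h2, h3⟩ := camp_c1 hab hC' hγ hcamp
    refine ⟨f', fun x hx => (h2 x (Ioo_subset_Icc_self hx)).hasDerivAt
      (Icc_mem_nhds hx.1 hx.2), ?_⟩
    intro x hx
    apply ContinuousAt.continuousWithinAt
    rw [Metric.continuousAt_iff]
    intro ε' hε'
    have hlim : Tendsto (fun s : ℝ => C'' * s ^ γ) (𝓝 0) (𝓝 0) := by
      have := ((Real.continuousAt_rpow_const 0 γ (Or.inr hγ.le)).tendsto).const_mul C''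
      simpa [Real.zero_rpow hγ.ne'] using this
    obtain ⟨δ, hδ, hδ'⟩ := Metric.tendsto_nhds_nhds.1 hlim ε' hε'
    obtain ⟨δ2, hδ2, hδ2'⟩ := Metric.isOpen_iff.1 isOpen_Ioo x hx
    refine ⟨min δ δ2, lt_min hδ hδ2, fun {y} hy => ?_⟩
    have hyI : y ∈ Ioo a b := hδ2' (hy.trans_le (min_le_right _ _))
    have h4 := h3 y (Ioo_subset_Icc_self hyI) x (Ioo_subset_Icc_self hx)
    have h5 := @hδ' |y - x| (by
      rw [dist_zero_right, Real.norm_eq_abs, abs_abs]
      exact hy.trans_le (min_le_left _ _))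
    rw [dist_zero_right, Real.norm_eq_abs] at h5
    rw [Real.dist_eq]
    exact h4.trans_lt ((le_abs_self _).trans_lt h5)
  have hder : ∀ i : Fin 2, ∀ r ∈ Ioo 0 R, HasDerivAt (fun r => G.p r i)
      (deriv (fun r => G.p r i) r) r := by
    intro i r hr
    obtain ⟨f', h1, _⟩ := key i (r / 2) ((r + R) / 2) (by linarith [hr.1])
      (by linarith [hr.1, hr.2]) (by linarith [hr.2])
    exact (h1 r ⟨by linarith [hr.1], by linarith [hr.2]⟩).differentiableAt.hasDerivAt
  have hcont : ∀ i : Fin 2, ContinuousOn (deriv (fun r => G.p r i)) (Ioo 0 R) := by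
    intro i r hr
    obtain ⟨f', h1, h2⟩ := key i (r / 2) ((r + R) / 2) (by linarith [hr.1])
      (by linarith [hr.1, hr.2]) (by linarith [hr.2])
    have hmem : Ioo (r / 2) ((r + R) / 2) ∈ 𝓝 r :=
      Ioo_mem_nhds (by linarith [hr.1]) (by linarith [hr.2])
    apply ContinuousAt.continuousWithinAt
    have h3 : ContinuousAt f' r := h2.continuousAt hmem
    refine h3.congr ?_
    filter_upwards [hmem] with s hs
    exact (h1 s hs).deriv.symm
  refine ⟨fun r => !₂[deriv (fun r => G.p r 0) r, deriv (fun r => G.p r 1) r], ?_, ?_⟩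
  · intro r hr
    have h : HasDerivAt (fun r => !₂[G.p r 0, G.p r 1])
        (!₂[deriv (fun r => G.p r 0) r, deriv (fun r => G.p r 1) r] : E2) r := by
      have h1 : HasDerivAt (fun r => ![G.p r 0, G.p r 1])
          ![deriv (fun r => G.p r 0) r, deriv (fun r => G.p r 1) r] r := by
        rw [hasDerivAt_pi]
        intro i
        fin_cases i
        · exact hder 0 r hr
        · exact hder 1 r hr
      exact (PiLp.continuousLinearEquiv 2 ℝ (fun _ : Fin 2 => ℝ)).symm.toContinuousLinearMap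
        |>.hasFDerivAt.comp_hasDerivAt r h1
    refine h.congr_of_eventuallyEq (Eventually.of_forall fun s => ?_)
    ext i; fin_cases i <;> rfl
  · have h0 := hcont 0
    have h1 := hcont 1
    have h2 : ContinuousOn (fun r => ![deriv (fun r => G.p r 0) r, deriv (fun r => G.p r 1) r])
        (Ioo 0 R) := by
      rw [continuousOn_pi]
      intro i; fin_cases i
      · exact h0
      · exact h1
    exact (PiLp.continuousLinearEquiv 2 ℝ (fun _ : Fin 2 => ℝ)).symm.continuous.comp_continuousOn h2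

end Crest.Agent.R135.TipG
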