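import Crest.Agent.R135.TipGraph3

/-!
# R135: the crack near a tip is a polar graph, part 4: final statement (helper555)

`TipHyp.polar`.
-/

set_option autoImplicit false

open Set Filter Topology Metric MeasureTheory
open scoped NNReal

namespace Crest.Agent.R135.TipG

open Crest.Agent.R135.Arc (J Flat FlatOff inner_eq norm_sq_eq inner_J_self norm_J J_neg frame_eq
  J_add J_smul J_J)
open Crest.Agent.R135 (dir tau cpt ray HClose)

variable {K : Set E2} {x0 : E2} {R C γ c1 ε : ℝ}

theorem tau_eq (θ : ℝ) : tau θ = J (dir θ) := by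
  apply Crest.Agent.R135.ext_E2 <;> simp [J]

theorem continuous_J : Continuous J := by
  unfold J; fun_prop

theorem inner_hasDerivAt {f g : ℝ → E2} {f' g' : E2} {r : ℝ} (hf : HasDerivAt f f' r)
    (hg : HasDerivAt g g' r) :
    HasDerivAt (fun s => inner ℝ (f s) (g s)) (inner ℝ (f r) g' + inner ℝ f' (g r)) r :=
  hf.inner ℝ hg

theorem Good.polar (G : Good K x0 R C γ c1 ε) :
    ∃ th th1 : ℝ → ℝ, (∀ r ∈ Ioo 0 R, HasDerivAt th (th1 r) r) ∧ ContinuousOn th1 (Ioo 0 R) ∧
      (∀ r ∈ Ioo 0 R, |r * th1 r| ≤ 4 * ε) ∧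
      K ∩ ball x0 R = insert x0 ((fun r => cpt x0 r (th r)) '' Ioo 0 R) := by
  obtain ⟨q, hq, hqc⟩ := G.p_c1
  have hR := G.Rpos
  have hε := G.εpos
  have hc1 := G.c1pos
  set P : ℝ → E2 := fun r => G.p r - x0 with hP
  have hPd : ∀ r ∈ Ioo 0 R, HasDerivAt P (q r) r := fun r hr => (hq r hr).sub_const x0
  have hPn : ∀ r ∈ Ioo 0 R, ‖P r‖ = r := fun r hr => by
    rw [hP]; simp only; rw [← dist_eq_norm]; exact (G.p_mem hr).2
  have hPc : ContinuousOn P (Ioo 0 R) := fun r hr => (hPd r hr).continuousAt.continuousWithinAt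
  -- radial derivative
  have hrad : ∀ r ∈ Ioo 0 R, inner ℝ (q r) (P r) = r := by
    intro r hr
    have h1 := inner_hasDerivAt (hPd r hr) (hPd r hr)
    have h2 : HasDerivAt (fun s : ℝ => s * s) (r + r) r := by
      have := (hasDerivAt_id' r).fun_mul (hasDerivAt_id' r)
      rwa [one_mul, mul_one] at this
    have h3 : HasDerivAt (fun s => inner ℝ (P s) (P s)) (r + r) r := by
      refine h2.congr_of_eventuallyEq ?_
      filter_upwards [Ioo_mem_nhds hr.1 hr.2] with s hs
      rw [real_inner_self_eq_norm_sq, hPn s hs]; ring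
    have h4 := h1.unique h3
    rw [real_inner_comm (q r) (P r)] at h4
    linarith
  set th1 : ℝ → ℝ := fun r => inner ℝ (q r) (J (P r)) / r ^ 2 with hth1
  have hth1c : ContinuousOn th1 (Ioo 0 R) := by
    apply ContinuousOn.div
    · exact hqc.inner (continuous_J.comp_continuousOn hPc)
    · fun_prop
    · intro r hr; have := hr.1; positivity
  have hslope : ∀ r ∈ Ioo 0 R, |r * th1 r| ≤ 4 * ε := by
    intro r hr
    have hr0 : 0 < r := hr.1
    have h1 : HasDerivAt (fun s => inner ℝ (G.p s) (J (P r))) (inner ℝ (q r) (J (P r))) r := by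
      have := inner_hasDerivAt (hq r hr) (hasDerivAt_const r (J (P r)))
      simpa using this
    have h2 : ‖inner ℝ (q r) (J (P r))‖ ≤ 4 * ε * r := by
      refine h1.le_of_lip' (by positivity) ?_
      have h3 : Ioo (r - c1 / 2 * r) (r + c1 / 2 * r) ∈ 𝓝 r :=
        Ioo_mem_nhds (by nlinarith [mul_pos hc1 hr0]) (by nlinarith [mul_pos hc1 hr0])
      filter_upwards [Ioo_mem_nhds hr.1 hr.2, h3] with s hs hs2
      have h4 := (G.p_incr hr hs (by rw [abs_le]; constructor <;> linarith [hs2.1, hs2.2])).2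
      rw [← inner_sub_left, Real.norm_eq_abs, Real.norm_eq_abs]
      calc |inner ℝ (G.p s - G.p r) (J (P r))| ≤ 4 * ε * |s - r| * r := h4
        _ = 4 * ε * r * |s - r| := by ring
    have h3 : r * th1 r = inner ℝ (q r) (J (P r)) / r := by
      rw [hth1]; simp only; field_simp
    rw [h3, abs_div, abs_of_pos hr0, div_le_iff₀ hr0]
    exact h2
  -- decomposition of the derivative
  have hdec : ∀ r ∈ Ioo 0 R, q r = (1 / r) • P r + th1 r • J (P r) := by
    intro r hr
    have hr0 : 0 < r := hr.1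
    have hu : ‖(1 / r) • P r‖ = 1 := by
      rw [norm_smul, hPn r hr, Real.norm_eq_abs, abs_of_pos (by positivity)]; field_simp
    have h1 := frame_eq hu (q r)
    rw [J_smul, real_inner_smul_right, real_inner_smul_right, hrad r hr, smul_smul, smul_smul] at h1
    rw [h1]
    congr 2
    · field_simp
    · rw [hth1]; simp only
      field_simp
  -- the angle
  have hm : R / 2 ∈ Ioo 0 R := ⟨by linarith, by linarith⟩
  obtain ⟨θ0, _, hθ0⟩ := Crest.Agent.R135.exists_cpt_eq (x := x0) (y := G.p (R / 2)) hm.1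
    (by rw [mem_sphere]; exact (G.p_mem hm).2) 0
  set th : ℝ → ℝ := fun r => θ0 + ∫ s in (R / 2)..r, th1 s with hth
  have hthd : ∀ r ∈ Ioo 0 R, HasDerivAt th (th1 r) r := by
    intro r hr
    have hsub : uIcc (R / 2) r ⊆ Ioo 0 R := by
      intro s hs
      rcases le_total (R / 2) r with h | h
      · rw [uIcc_of_le h] at hs
        exact ⟨hm.1.trans_le hs.1, hs.2.trans_lt hr.2⟩
      · rw [uIcc_of_ge h] at hs
        exact ⟨hr.1.trans_le hs.1, hs.2.trans_lt hm.2⟩
    have h1 := intervalIntegral.integral_hasDerivAt_right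
      (hth1c.mono hsub).intervalIntegrable
      (hth1c.stronglyMeasurableAtFilter isOpen_Ioo r hr)
      (hth1c.continuousAt (Ioo_mem_nhds hr.1 hr.2))
    exact h1.const_add θ0
  -- `⟪P, dir th⟫ / r` is constant
  have hconst : ∀ r ∈ Ioo 0 R, inner ℝ (P r) (dir (th r)) / r = 1 := by
    have hd : ∀ r ∈ Ioo 0 R, HasDerivAt (fun s => inner ℝ (P s) (dir (th s)) / s) 0 r := by
      intro r hr
      have hr0 : 0 < r := hr.1
      have h1 : HasDerivAt (fun s => dir (th s)) (th1 r • tau (th r)) r :=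
        (Crest.Agent.R135.hasDerivAt_dir (th r)).scomp r (hthd r hr)
      have h2 := (inner_hasDerivAt (hPd r hr) h1).fun_div (hasDerivAt_id' r) hr0.ne'
      have h3 : inner ℝ (q r) (dir (th r)) = (1 / r) * inner ℝ (P r) (dir (th r))
          + th1 r * inner ℝ (J (P r)) (dir (th r)) := by
        conv_lhs => rw [hdec r hr]
        rw [inner_add_left, real_inner_smul_left, real_inner_smul_left]
      have h4 : inner ℝ (P r) (th1 r • tau (th r)) = - (th1 r * inner ℝ (J (P r)) (dir (th r))) := by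
        rw [real_inner_smul_right, tau_eq, inner_J_comm, real_inner_comm]; ring
      have h5 : ((inner ℝ (P r) (th1 r • tau (th r)) + inner ℝ (q r) (dir (th r))) * r
          - inner ℝ (P r) (dir (th r)) * 1) / r ^ 2 = 0 := by
        rw [h3, h4]
        field_simp
        ring
      rwa [h5] at h2
    have h0 : inner ℝ (P (R / 2)) (dir (th (R / 2))) / (R / 2) = 1 := by
      have h1 : th (R / 2) = θ0 := by rw [hth]; simp
      have h2 : P (R / 2) = (R / 2) • dir θ0 := by
        rw [hP]; simp only; rw [← hθ0, cpt, add_sub_cancel_left]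
      rw [h1, h2, real_inner_smul_left, real_inner_self_eq_norm_sq, Crest.Agent.R135.norm_dir]
      field_simp
    intro r hr
    rw [← h0]
    refine isOpen_Ioo.is_const_of_deriv_eq_zero isPreconnected_Ioo
      (f := fun s => inner ℝ (P s) (dir (th s)) / s) ?_ ?_ hr hm
    · exact fun s hs => (hd s hs).differentiableAt.differentiableWithinAt
    · exact fun s hs => (hd s hs).deriv
  have hpt : ∀ r ∈ Ioo 0 R, cpt x0 r (th r) = G.p r := by
    intro r hr
    have hr0 : 0 < r := hr.1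
    have h1 := hconst r hr
    rw [div_eq_one_iff_eq hr0.ne'] at h1
    have h2 : ‖P r - r • dir (th r)‖ ^ 2 = 0 := by
      rw [norm_sub_sq_real, real_inner_smul_right, h1, hPn r hr, norm_smul,
        Crest.Agent.R135.norm_dir, Real.norm_eq_abs, abs_of_pos hr0]
      ring
    have h3 : P r - r • dir (th r) = 0 := by
      rw [← norm_eq_zero]; exact pow_eq_zero_iff (two_ne_zero) |>.1 h2
    have h4 : G.p r = x0 + r • dir (th r) := by
      have h5 : P r = r • dir (th r) := sub_eq_zero.1 h3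
      rw [← h5, hP]; simp
    rw [h4]; rfl
  refine ⟨th, th1, hthd, hth1c, hslope, ?_⟩
  ext z
  constructor
  · rintro ⟨hz, hzR⟩
    rcases eq_or_ne z x0 with h | h
    · exact Or.inl h
    · right
      have h1 : dist z x0 ∈ Ioo 0 R := ⟨dist_pos.2 h, hzR⟩
      exact ⟨dist z x0, h1, (hpt _ h1).trans (G.eq_p hz h hzR).symm⟩
  · rintro (rfl | ⟨r, hr, rfl⟩)
    · exact ⟨G.mem, mem_ball_self hR⟩
    · simp only
      rw [hpt r hr]
      refine ⟨(G.p_mem hr).1, ?_⟩
      rw [mem_ball, (G.p_mem hr).2]; exact hr.2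

/-- smaller exponent and constant -/
theorem flatOff_mono {x : E2} {r C γ γ' c : ℝ} (h : FlatOff K x r C γ c) (hC : 0 < C) (_hγ : 0 < γ)
    (hγ' : γ' ≤ γ) : FlatOff K x r C γ' (min c 1) := by
  intro y hy hyx hyr ρ hρ hρc
  have hd : 0 < dist y x := dist_pos.2 hyx
  obtain ⟨v, hv⟩ := h y hy hyx hyr ρ hρ (hρc.trans (by
    have := min_le_left c 1; gcongr))
  refine ⟨v, Crest.Agent.R135.Arc.Flat.mono hv le_rfl ?_⟩
  have h1 : ρ / dist y x ≤ 1 := by
    rw [div_le_one hd]
    refine hρc.trans ?_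
    have := min_le_right c 1
    nlinarith
  have h2 : (ρ / dist y x) ^ γ ≤ (ρ / dist y x) ^ γ' :=
    Real.rpow_le_rpow_of_exponent_ge (by positivity) h1 hγ'
  gcongr

/-- **The crack near a tip is a polar graph.** -/
theorem TipHyp.polar {r1 c : ℝ} (H : TipHyp K x0 r1 C γ c) {ε : ℝ} (hε : 0 < ε) :
    ∃ R, 0 < R ∧ R ≤ r1 ∧ ∃ th th1 : ℝ → ℝ, (∀ r ∈ Ioo 0 R, HasDerivAt th (th1 r) r) ∧
      ContinuousOn th1 (Ioo 0 R) ∧ (∀ r ∈ Ioo 0 R, |r * th1 r| ≤ ε) ∧
      K ∩ ball x0 R = insert x0 ((fun r => cpt x0 r (th r)) '' Ioo 0 R) := by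
  have H' : TipHyp K x0 r1 C (min γ 1) (min c 1) :=
    ⟨H.r1pos, H.Cpos, lt_min H.γpos one_pos, lt_min H.cpos one_pos, H.mem, H.closed, H.near,
      flatOff_mono H.flat H.Cpos H.γpos (min_le_left _ _)⟩
  obtain ⟨R, c1, hR, G⟩ := H'.good (min_le_right _ _) (ε := min (ε / 4) (1 / 100))
    (lt_min (by linarith) (by norm_num)) (min_le_right _ _)
  obtain ⟨th, th1, h1, h2, h3, h4⟩ := G.polar
  refine ⟨R, G.Rpos, hR, th, th1, h1, h2, fun r hr => (h3 r hr).trans ?_, h4⟩
  have := min_le_left (ε / 4) (1 / 100)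
  linarith

end Crest.Agent.R135.TipG
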